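import Crest.Agent.R189.Defs

/-! Row 189: even permutations with support in a finite set. -/

set_option autoImplicit false
set_option linter.unusedVariables false

namespace Crest.Agent.R189

open Equiv

variable {α : Type} [DecidableEq α] {F F' : Finset α} {a b : Perm α}

theorem c3_apply_fst {x y z : α} (hxy : x ≠ y) (hxz : x ≠ z) (hyz : y ≠ z) : c3 x y z x = z := by
  rw [c3, Perm.mul_apply, swap_apply_left, swap_apply_of_ne_of_ne hxz.symm hyz.symm]

theorem c3_apply_snd {x y z : α} (hxy : x ≠ y) (hxz : x ≠ z) (hyz : y ≠ z) : c3 x y z y = x := by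
  rw [c3, Perm.mul_apply, swap_apply_of_ne_of_ne hxy.symm hyz, swap_apply_right]

theorem c3_apply_thd {x y z : α} (hxy : x ≠ y) (hxz : x ≠ z) (hyz : y ≠ z) : c3 x y z z = y := by
  rw [c3, Perm.mul_apply, swap_apply_right, swap_apply_left]

theorem c3_apply_of_ne {x y z w : α} (hx : w ≠ x) (hy : w ≠ y) (hz : w ≠ z) : c3 x y z w = w := by
  rw [c3, Perm.mul_apply, swap_apply_of_ne_of_ne hx hz, swap_apply_of_ne_of_ne hx hy]

theorem c3_inv {x y z : α} : (c3 x y z)⁻¹ = c3 x z y := by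
  rw [c3, c3, mul_inv_rev, swap_inv, swap_inv]

theorem c3_rot {x y z : α} (hxy : x ≠ y) (hxz : x ≠ z) (hyz : y ≠ z) : c3 x y z = c3 y z x := by
  ext w
  by_cases h1 : w = x
  · subst h1
    rw [c3_apply_fst hxy hxz hyz, c3_apply_thd hyz hxy.symm hxz.symm]
  by_cases h2 : w = y
  · subst h2
    rw [c3_apply_snd hxy hxz hyz, c3_apply_fst hyz hxy.symm hxz.symm]
  by_cases h3 : w = z
  · subst h3
    rw [c3_apply_thd hxy hxz hyz, c3_apply_snd hyz hxy.symm hxz.symm]
  rw [c3_apply_of_ne h1 h2 h3, c3_apply_of_ne h2 h3 h1]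

theorem conj_c3 (g : Perm α) (x y z : α) : g * c3 x y z * g⁻¹ = c3 (g x) (g y) (g z) := by
  rw [c3, c3, swap_apply_apply, swap_apply_apply]
  group

theorem isThreeCycle_iff_c3 [Fintype α] : a.IsThreeCycle ↔
    ∃ x y z, x ≠ y ∧ x ≠ z ∧ y ≠ z ∧ a = c3 x y z := by
  constructor
  · intro h
    have hne : a.support.Nonempty := by
      rw [← Finset.card_pos, h.card_support]; norm_num
    obtain ⟨x, hx⟩ := hne
    have h1 := h.eq_swap_mul_swap_iff_mem_support.2 hx
    have h2 := h.nodup_iff_mem_support.2 hx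
    simp only [List.nodup_cons, List.mem_cons, List.not_mem_nil, or_false, not_or,
      not_false_eq_true, List.nodup_nil, and_true] at h2
    refine ⟨a x, x, a (a x), fun e => h2.1.1 e.symm, h2.2, h2.1.2, ?_⟩
    rw [c3, swap_comm (a x) x]
    exact h1
  · rintro ⟨x, y, z, hxy, hxz, hyz, rfl⟩
    exact Perm.isThreeCycle_swap_mul_swap_same hxy hxz hyz

theorem support_c3 [Fintype α] {x y z : α} (hxy : x ≠ y) (hxz : x ≠ z) (hyz : y ≠ z) :
    (c3 x y z).support = {x, y, z} := by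
  ext w
  simp only [Perm.mem_support, Finset.mem_insert, Finset.mem_singleton]
  constructor
  · intro h
    by_contra hc
    simp only [not_or] at hc
    exact h (c3_apply_of_ne hc.1 hc.2.1 hc.2.2)
  · rintro (rfl | rfl | rfl)
    · rw [c3_apply_fst hxy hxz hyz]; exact hxz.symm
    · rw [c3_apply_snd hxy hxz hyz]; exact hxy
    · rw [c3_apply_thd hxy hxz hyz]; exact hyz

namespace AltAux

theorem exists_ofSubtype (ha : ∀ x ∉ F, a x = x) :
    ∃ σ : Perm {x // x ∈ F}, Perm.ofSubtype σ = a := by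
  refine ⟨(Perm.subtypeEquivSubtypePerm (fun x => x ∈ F)).symm ⟨a, ha⟩, ?_⟩
  have := (Perm.subtypeEquivSubtypePerm (fun x => x ∈ F)).apply_symm_apply ⟨a, ha⟩
  exact congrArg Subtype.val this

theorem ofSubtype_mem_iff (σ : Perm {x // x ∈ F}) :
    Perm.ofSubtype σ ∈ AltOn F ↔ Perm.sign σ = 1 := by
  unfold AltOn
  rw [Subgroup.mem_map_iff_mem Perm.ofSubtype_injective, Perm.mem_alternatingGroup]

theorem mem_iff : a ∈ AltOn F ↔
    ∃ σ : Perm {x // x ∈ F}, Perm.sign σ = 1 ∧ Perm.ofSubtype σ = a := by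
  unfold AltOn
  simp only [Subgroup.mem_map, Perm.mem_alternatingGroup]

theorem ofSubtype_c3 (x y z : {x // x ∈ F}) :
    Perm.ofSubtype (c3 x y z) = c3 (x : α) y z := by
  rw [c3, c3, map_mul, Perm.ofSubtype_swap_eq, Perm.ofSubtype_swap_eq]

theorem swap_fix {x y : α} (hx : x ∈ F) (hy : y ∈ F) : ∀ w ∉ F, swap x y w = w :=
  fun w hw => swap_apply_of_ne_of_ne (fun e => hw (e ▸ hx)) (fun e => hw (e ▸ hy))

end AltAux

open AltAux

theorem AltOn.apply_of_not_mem (ha : a ∈ AltOn F) {x : α} (hx : x ∉ F) : a x = x := by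
  obtain ⟨σ, -, rfl⟩ := mem_iff.1 ha
  exact Perm.ofSubtype_apply_of_not_mem σ hx

theorem AltOn.apply_mem (ha : a ∈ AltOn F) {x : α} (hx : x ∈ F) : a x ∈ F := by
  obtain ⟨σ, -, rfl⟩ := mem_iff.1 ha
  exact (Perm.ofSubtype_apply_mem_iff_mem σ x).2 hx

theorem swap_mul_swap_mem_AltOn {x y z w : α} (hxy : x ≠ y) (hzw : z ≠ w) (hx : x ∈ F)
    (hy : y ∈ F) (hz : z ∈ F) (hw : w ∈ F) : swap x y * swap z w ∈ AltOn F := by
  refine mem_iff.2 ⟨swap ⟨x, hx⟩ ⟨y, hy⟩ * swap ⟨z, hz⟩ ⟨w, hw⟩, ?_, ?_⟩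
  · rw [map_mul, Perm.sign_swap (fun e => hxy (congrArg Subtype.val e)),
      Perm.sign_swap (fun e => hzw (congrArg Subtype.val e))]
    simp
  · rw [map_mul, Perm.ofSubtype_swap_eq, Perm.ofSubtype_swap_eq]

theorem c3_mem_AltOn {x y z : α} (hxy : x ≠ y) (hxz : x ≠ z) (hx : x ∈ F) (hy : y ∈ F)
    (hz : z ∈ F) : c3 x y z ∈ AltOn F :=
  swap_mul_swap_mem_AltOn hxy hxz hx hy hx hz

theorem swap_not_mem_AltOn {x y : α} (hxy : x ≠ y) : swap x y ∉ AltOn F := by
  intro h
  have hx : x ∈ F := by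
    by_contra hx
    have := AltOn.apply_of_not_mem h hx
    rw [swap_apply_left] at this
    exact hxy this.symm
  have hy : y ∈ F := by
    have := AltOn.apply_mem h hx
    rwa [swap_apply_left] at this
  have e : swap x y = Perm.ofSubtype (swap (⟨x, hx⟩ : {x // x ∈ F}) ⟨y, hy⟩) := by
    rw [Perm.ofSubtype_swap_eq]
  rw [e, ofSubtype_mem_iff, Perm.sign_swap (fun e => hxy (congrArg Subtype.val e))] at h
  exact absurd h (by decide)

/-- Index two: the product of two odd permutations supported in `F` is even. -/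
theorem AltOn.mul_mem_iff (ha : ∀ x ∉ F, a x = x) (hb : ∀ x ∉ F, b x = x) :
    a * b ∈ AltOn F ↔ (a ∈ AltOn F ↔ b ∈ AltOn F) := by
  obtain ⟨σ, rfl⟩ := exists_ofSubtype ha
  obtain ⟨τ, rfl⟩ := exists_ofSubtype hb
  rw [← map_mul, ofSubtype_mem_iff, ofSubtype_mem_iff, ofSubtype_mem_iff, map_mul]
  rcases Int.units_eq_one_or (Perm.sign σ) with h1 | h1 <;>
    rcases Int.units_eq_one_or (Perm.sign τ) with h2 | h2 <;> rw [h1, h2] <;> decide

theorem AltOn_eq_closure (F : Finset α) : AltOn F = Subgroup.closure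
    {g | ∃ x ∈ F, ∃ y ∈ F, ∃ z ∈ F, x ≠ y ∧ x ≠ z ∧ y ≠ z ∧ g = c3 x y z} := by
  apply le_antisymm
  · unfold AltOn
    rw [← Perm.closure_three_cycles_eq_alternating, MonoidHom.map_closure]
    apply Subgroup.closure_mono
    rintro _ ⟨σ, hσ, rfl⟩
    obtain ⟨x, y, z, hxy, hxz, hyz, rfl⟩ := isThreeCycle_iff_c3.1 hσ
    exact ⟨x, x.2, y, y.2, z, z.2, fun e => hxy (Subtype.ext e), fun e => hxz (Subtype.ext e),
      fun e => hyz (Subtype.ext e), ofSubtype_c3 x y z⟩
  · rw [Subgroup.closure_le]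
    rintro _ ⟨x, hx, y, hy, z, hz, hxy, hxz, -, rfl⟩
    exact c3_mem_AltOn hxy hxz hx hy hz

theorem AltOn.mono (h : F ⊆ F') : AltOn F ≤ AltOn F' := by
  rw [AltOn_eq_closure F, Subgroup.closure_le]
  rintro _ ⟨x, hx, y, hy, z, hz, hxy, hxz, -, rfl⟩
  exact c3_mem_AltOn hxy hxz (h hx) (h hy) (h hz)

/-- Evenness does not depend on the finite set. -/
theorem AltOn.of_supp (ha : a ∈ AltOn F') (h : ∀ x ∉ F, a x = x) : a ∈ AltOn F := by
  by_contra hc
  have h1 : a ≠ 1 := fun e => hc (e ▸ (AltOn F).one_mem)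
  obtain ⟨x, hx⟩ : ∃ x, a x ≠ x := by
    by_contra h2
    exact h1 (Equiv.ext fun x => not_not.1 fun h3 => h2 ⟨x, h3⟩)
  have hxF : x ∈ F := by
    by_contra h2
    exact hx (h x h2)
  have hyF : a x ∈ F := by
    by_contra h2
    exact hx (a.injective (h _ h2))
  have h2 : a * swap x (a x) ∈ AltOn F :=
    (AltOn.mul_mem_iff h (swap_fix hxF hyF)).2
      (iff_of_false hc (swap_not_mem_AltOn hx.symm))
  have h3 : a * swap x (a x) ∈ AltOn (F ∪ F') := AltOn.mono Finset.subset_union_left h2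
  have h4 : a ∈ AltOn (F ∪ F') := AltOn.mono Finset.subset_union_right ha
  exact swap_not_mem_AltOn hx.symm (((AltOn (F ∪ F')).mul_mem_cancel_left h4).1 h3)

theorem mem_AltOn_iff [Fintype α] : a ∈ AltOn F ↔ a ∈ alternatingGroup α ∧ a.support ⊆ F := by
  constructor
  · intro h
    refine ⟨?_, fun x hx => ?_⟩
    · obtain ⟨σ, hσ, rfl⟩ := mem_iff.1 h
      rw [Perm.mem_alternatingGroup, Perm.sign_ofSubtype, hσ]
    · by_contra h2
      exact Perm.mem_support.1 hx (AltOn.apply_of_not_mem h h2)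
  · rintro ⟨h1, h2⟩
    obtain ⟨σ, rfl⟩ := exists_ofSubtype (F := F) (a := a) fun x hx =>
      Perm.notMem_support.1 fun h3 => hx (h2 h3)
    rw [Perm.mem_alternatingGroup, Perm.sign_ofSubtype] at h1
    exact (ofSubtype_mem_iff σ).2 h1

/-- The three-cycles through two fixed points generate. -/
theorem AltOn_eq_closure_two {p q : α} (hp : p ∈ F) (hq : q ∈ F) (hpq : p ≠ q) :
    AltOn F = Subgroup.closure {g | ∃ x ∈ F, x ≠ p ∧ x ≠ q ∧ g = c3 x p q} := by
  apply le_antisymm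
  swap
  · rw [Subgroup.closure_le]
    rintro _ ⟨x, hx, hxp, hxq, rfl⟩
    exact c3_mem_AltOn hxp hxq hx hp hq
  set H := Subgroup.closure {g | ∃ x ∈ F, x ≠ p ∧ x ≠ q ∧ g = c3 x p q} with hH
  have base : ∀ x ∈ F, x ≠ p → x ≠ q → c3 x p q ∈ H := fun x hx h1 h2 =>
    Subgroup.subset_closure ⟨x, hx, h1, h2, rfl⟩
  have hP : ∀ x ∈ F, x ≠ p → swap x p * swap p q ∈ H := by
    intro x hx h1
    by_cases h2 : x = q
    · subst h2
      rw [swap_comm x p, swap_mul_self]
      exact H.one_mem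
    · have e : swap x p * swap p q = (c3 x p q)⁻¹ := by
        rw [c3_inv, c3_rot h2 h1 hpq.symm, c3_rot hpq.symm (Ne.symm h2) (Ne.symm h1), c3,
          swap_comm x p]
      rw [e]
      exact H.inv_mem (base x hx h1 h2)
  have hP' : ∀ x ∈ F, x ≠ p → swap p q * swap x p ∈ H := by
    intro x hx h1
    have := H.inv_mem (hP x hx h1)
    rwa [mul_inv_rev, swap_inv, swap_inv] at this
  have hA : ∀ x ∈ F, ∀ y ∈ F, x ≠ y → swap x y * swap p q ∈ H := by
    intro x hx y hy hxy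
    by_cases h1 : y = p
    · subst h1
      exact hP x hx hxy
    by_cases h2 : x = p
    · subst h2
      rw [swap_comm x y]
      exact hP y hy h1
    have e : swap x y * swap p q =
        (swap x p * swap p q) * (swap p q * swap y p) * (swap x p * swap p q) := by
      have e1 : swap x y = swap x p * swap y p * swap x p := by
        have := swap_apply_apply (swap x p) y p
        rw [swap_apply_of_ne_of_ne hxy.symm h1, swap_apply_right, swap_inv] at this
        rw [← this, swap_comm]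
      rw [e1]
      simp only [mul_assoc, swap_mul_self_mul]
    rw [e]
    exact H.mul_mem (H.mul_mem (hP x hx h2) (hP' y hy h1)) (hP x hx h2)
  rw [AltOn_eq_closure F, Subgroup.closure_le]
  rintro _ ⟨x, hx, y, hy, z, hz, hxy, hxz, -, rfl⟩
  have e : c3 x y z = (swap x y * swap p q) * (swap x z * swap p q)⁻¹ := by
    rw [mul_inv_rev, swap_inv, swap_inv, c3]
    simp only [mul_assoc, swap_mul_self_mul]
  rw [SetLike.mem_coe, e]
  exact H.mul_mem (hA x hx y hy hxy) (H.inv_mem (hA x hx z hz hxz))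

theorem AltOn.finite (F : Finset α) : Finite (AltOn F) :=
  Finite.of_equiv _ (Subgroup.equivMapOfInjective (alternatingGroup {a // a ∈ F})
    (Perm.ofSubtype (p := fun a => a ∈ F)) Perm.ofSubtype_injective).toEquiv

theorem AltOn.perfect (h : 5 ≤ F.card) : ⁅AltOn F, AltOn F⁆ = AltOn F := by
  unfold AltOn
  rw [← Subgroup.map_commutator, commutator_alternatingGroup_eq_self (by simpa using h)]

theorem AltOn.simple (h : 5 ≤ F.card) : IsSimpleGroup (AltOn F) := by
  have : IsSimpleGroup (alternatingGroup {a // a ∈ F}) :=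
    alternatingGroup.isSimpleGroup (by simpa using h)
  exact (Subgroup.equivMapOfInjective (alternatingGroup {a // a ∈ F})
    (Perm.ofSubtype (p := fun a => a ∈ F)) Perm.ofSubtype_injective).symm.isSimpleGroup

/-- Induction over commutators: a multiplicative property of commutators holds everywhere. -/
theorem AltOn.comm_induction (h : 5 ≤ F.card) (Q : Perm α → Prop) (h1 : Q 1)
    (hc : ∀ a ∈ AltOn F, ∀ b ∈ AltOn F, Q (a * b * a⁻¹ * b⁻¹))
    (hm : ∀ a ∈ AltOn F, ∀ b ∈ AltOn F, Q a → Q b → Q (a * b)) : ∀ a ∈ AltOn F, Q a := by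
  have e := AltOn.perfect h
  rw [Subgroup.commutator_def] at e
  intro a ha
  rw [← e] at ha
  induction ha using Subgroup.closure_induction'' with
  | mem x hx =>
    obtain ⟨u, hu, v, hv, rfl⟩ := hx
    exact hc u hu v hv
  | inv_mem x hx =>
    obtain ⟨u, hu, v, hv, rfl⟩ := hx
    rw [commutatorElement_inv]
    exact hc v hv u hu
  | one => exact h1
  | mul x y hx hy ihx ihy => exact hm x (e ▸ hx) y (e ▸ hy) ihx ihy

/-- Induction over three-cycles. -/
theorem AltOn.c3_induction (Q : Perm α → Prop) (h1 : Q 1)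
    (hc : ∀ x ∈ F, ∀ y ∈ F, ∀ z ∈ F, x ≠ y → x ≠ z → y ≠ z → Q (c3 x y z))
    (hm : ∀ a ∈ AltOn F, ∀ b ∈ AltOn F, Q a → Q b → Q (a * b)) : ∀ a ∈ AltOn F, Q a := by
  have e := AltOn_eq_closure F
  intro a ha
  rw [e] at ha
  induction ha using Subgroup.closure_induction'' with
  | mem g hg =>
    obtain ⟨x, hx, y, hy, z, hz, hxy, hxz, hyz, rfl⟩ := hg
    exact hc x hx y hy z hz hxy hxz hyz
  | inv_mem g hg =>
    obtain ⟨x, hx, y, hy, z, hz, hxy, hxz, hyz, rfl⟩ := hg
    rw [c3_inv]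
    exact hc x hx z hz y hy hxz hxy hyz.symm
  | one => exact h1
  | mul x y hx hy ihx ihy => exact hm x (e ▸ hx) y (e ▸ hy) ihx ihy

theorem AltOn.conj (g : Perm α) (ha : a ∈ AltOn F) : g * a * g⁻¹ ∈ AltOn (F.image g) := by
  refine AltOn.c3_induction (F := F) (fun a => g * a * g⁻¹ ∈ AltOn (F.image g)) ?_ ?_ ?_ a ha
  · simp
  · intro x hx y hy z hz hxy hxz _
    rw [conj_c3]
    exact c3_mem_AltOn (g.injective.ne hxy) (g.injective.ne hxz) (Finset.mem_image_of_mem _ hx)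
      (Finset.mem_image_of_mem _ hy) (Finset.mem_image_of_mem _ hz)
  · intro u _ v _ hu hv
    have e : g * (u * v) * g⁻¹ = (g * u * g⁻¹) * (g * v * g⁻¹) := by group
    rw [e]
    exact (AltOn _).mul_mem hu hv

theorem AltOn.conj_of_supp {g : Perm α} (hg : ∀ x ∉ F, g x = x) (ha : a ∈ AltOn F) :
    g * a * g⁻¹ ∈ AltOn F := by
  refine AltOn.of_supp (AltOn.conj g ha) fun x hx => ?_
  have h1 : g⁻¹ x = x := by
    rw [Perm.inv_eq_iff_eq]
    exact (hg x hx).symm
  rw [Perm.mul_apply, Perm.mul_apply, h1, AltOn.apply_of_not_mem ha hx, hg x hx]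

/-- High transitivity: an injection of `T ⊆ F` into `F` extends to an even permutation if two
points are left. -/
theorem AltOn.exists_extend {T : Finset α} (hT : T ⊆ F) (hc : T.card + 2 ≤ F.card) (f : α → α)
    (hf : Set.InjOn f T) (hfF : ∀ x ∈ T, f x ∈ F) : ∃ a ∈ AltOn F, ∀ x ∈ T, a x = f x := by
  obtain ⟨σ, hσ⟩ := Perm.exists_extending_pair
    (fun t : {x // x ∈ T} => (⟨t.1, hT t.2⟩ : {x // x ∈ F}))
    (fun t : {x // x ∈ T} => (⟨f t.1, hfF t.1 t.2⟩ : {x // x ∈ F}))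
    (fun s t e => Subtype.ext (congrArg (fun u : {x // x ∈ F} => u.1) e))
    (fun s t e => Subtype.ext (hf s.2 t.2 (congrArg (fun u : {x // x ∈ F} => u.1) e)))
  have key : ∀ x ∈ T, Perm.ofSubtype σ x = f x := by
    intro x hx
    rw [Perm.ofSubtype_apply_of_mem σ (hT hx)]
    exact congrArg Subtype.val (hσ ⟨x, hx⟩)
  by_cases h1 : Perm.ofSubtype σ ∈ AltOn F
  · exact ⟨_, h1, key⟩
  have h2 : 1 < (F \ T).card := by
    rw [Finset.card_sdiff_of_subset hT]
    omega
  obtain ⟨u, hu, v, hv, huv⟩ := Finset.one_lt_card.1 h2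
  rw [Finset.mem_sdiff] at hu hv
  refine ⟨Perm.ofSubtype σ * swap u v, ?_, fun x hx => ?_⟩
  · exact (AltOn.mul_mem_iff (fun x hx => Perm.ofSubtype_apply_of_not_mem σ hx)
      (swap_fix hu.1 hv.1)).2 (iff_of_false h1 (swap_not_mem_AltOn huv))
  · rw [Perm.mul_apply, swap_apply_of_ne_of_ne (fun e : x = u => hu.2 (e ▸ hx))
      (fun e : x = v => hv.2 (e ▸ hx)),
      key x hx]

/-- Transport along a map that is injective on `F`. -/
theorem AltOn.exists_hom {β : Type} [DecidableEq β] (f : α → β) (hf : Set.InjOn f F) :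
    ∃ φ : Perm α → Perm β, (∀ a ∈ AltOn F, φ a ∈ AltOn (F.image f)) ∧
      (∀ a ∈ AltOn F, ∀ b ∈ AltOn F, φ (a * b) = φ a * φ b) ∧
      (∀ a ∈ AltOn F, ∀ x ∈ F, φ a (f x) = f (a x)) ∧
      ∀ x ∈ F, ∀ y ∈ F, ∀ z ∈ F, φ (c3 x y z) = c3 (f x) (f y) (f z) := by
  obtain ⟨e, he⟩ : ∃ e : {x // x ∈ F} ≃ {y // y ∈ F.image f}, ∀ x, (e x).1 = f x.1 := by
    refine ⟨Equiv.ofBijective (fun x => ⟨f x.1, Finset.mem_image_of_mem f x.2⟩) ⟨?_, ?_⟩,
      fun x => rfl⟩
    · intro s t h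
      exact Subtype.ext (hf s.2 t.2 (congrArg (fun u : {y // y ∈ F.image f} => u.1) h))
    · rintro ⟨y, hy⟩
      obtain ⟨x, hx, rfl⟩ := Finset.mem_image.1 hy
      exact ⟨⟨x, hx⟩, rfl⟩
  obtain ⟨φ, hφ⟩ : ∃ φ : Perm α → Perm β, ∀ σ : Perm {x // x ∈ F},
      φ (Perm.ofSubtype σ) = Perm.ofSubtype (e.permCongr σ) := by
    refine ⟨fun a => Perm.ofSubtype (e.permCongr
      (Function.invFun (Perm.ofSubtype (p := fun x => x ∈ F)) a)), fun σ => ?_⟩
    simp only
    rw [Function.leftInverse_invFun Perm.ofSubtype_injective σ]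
  have hsw : ∀ x y : {x // x ∈ F}, e.permCongr (swap x y) = swap (e x) (e y) := by
    intro x y
    rw [permCongr_def]
    exact symm_trans_swap_trans x y e
  refine ⟨φ, ?_, ?_, ?_, ?_⟩
  · intro a ha
    obtain ⟨σ, hσ, rfl⟩ := mem_iff.1 ha
    rw [hφ, ofSubtype_mem_iff, Perm.sign_permCongr, hσ]
  · intro a ha b hb
    obtain ⟨σ, -, rfl⟩ := mem_iff.1 ha
    obtain ⟨τ, -, rfl⟩ := mem_iff.1 hb
    rw [← map_mul, hφ, hφ, hφ, permCongr_mul, map_mul]
  · intro a ha x hx
    obtain ⟨σ, -, rfl⟩ := mem_iff.1 ha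
    have e1 : f x = (e ⟨x, hx⟩).1 := (he ⟨x, hx⟩).symm
    rw [hφ, e1, Perm.ofSubtype_apply_coe, permCongr_apply, symm_apply_apply, he,
      Perm.ofSubtype_apply_of_mem σ hx]
  · intro x hx y hy z hz
    have e1 := ofSubtype_c3 (F := F) ⟨x, hx⟩ ⟨y, hy⟩ ⟨z, hz⟩
    simp only at e1
    rw [← e1, hφ, c3, permCongr_mul, hsw, hsw, map_mul, Perm.ofSubtype_swap_eq,
      Perm.ofSubtype_swap_eq, he, he, he, c3]

namespace AltAux

theorem finite_hom {G H : Type} [Group G] [Group H] [Finite H] (T : Set G) [Finite T] :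
    Finite (Subgroup.closure T →* H) := by
  refine Finite.of_injective (fun (φ : Subgroup.closure T →* H) (t : T) =>
      φ ⟨t.1, Subgroup.subset_closure t.2⟩) fun φ ψ e => ?_
  refine MonoidHom.eq_of_eqOn_dense (Subgroup.closure_closure_coe_preimage (k := T)) ?_
  intro g hg
  exact congrFun e ⟨g.1, hg⟩

theorem exists_hom_fin {G β : Type} [Group G] [MulAction G β] (N : ℕ) (x : β) (O : Finset β)
    (hO : O.card ≤ N) (hO' : ∀ g : G, g • x ∈ O) :
    ∃ φ : G →* Perm (Fin N), ∀ g : G, φ g = 1 → g • x = x := by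
  classical
  have hsub : ∀ y : MulAction.orbit G x, y.1 ∈ O := by
    rintro ⟨_, g, rfl⟩
    exact hO' g
  let ι : MulAction.orbit G x ↪ Fin N :=
    (⟨fun y => (⟨y.1, hsub y⟩ : {y // y ∈ O}), fun s t e =>
      Subtype.ext (congrArg (fun u : {y // y ∈ O} => u.1) e)⟩ :
        MulAction.orbit G x ↪ {y // y ∈ O}).trans
      (O.equivFin.toEmbedding.trans (Fin.castLEEmb hO))
  refine ⟨(Perm.viaEmbeddingHom ι).comp (MulAction.toPermHom G (MulAction.orbit G x)),
    fun g hg => ?_⟩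
  rw [MonoidHom.comp_apply, map_eq_one_iff _ (Perm.viaEmbeddingHom_injective ι)] at hg
  have := congrArg (fun u : Perm (MulAction.orbit G x) =>
    (u ⟨x, MulAction.mem_orbit_self x⟩).1) hg
  exact this

theorem finite_of_sep {G H : Type} [Group G] [Group H] [Finite H] [Finite (G →* H)]
    (h : ∀ g : G, (∀ φ : G →* H, φ g = 1) → g = 1) : Finite G := by
  refine Finite.of_injective (fun (g : G) (φ : G →* H) => φ g) fun g g' e => ?_
  refine inv_mul_eq_one.1 (h _ fun φ => ?_)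
  rw [map_mul, map_inv, inv_mul_eq_one]
  exact congrFun e φ

end AltAux

/-- A group that is generated by finitely many elements and acts faithfully with bounded orbits
is finite. -/
theorem finite_of_bounded_orbits {β : Type} (T : Finset (Perm β)) (N : ℕ)
    (h : ∀ x : β, ∃ O : Finset β, O.card ≤ N ∧
      ∀ g ∈ Subgroup.closure (T : Set (Perm β)), g x ∈ O) :
    Finite (Subgroup.closure (T : Set (Perm β))) := by
  have h1 := finite_hom (H := Perm (Fin N)) (T : Set (Perm β))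
  refine finite_of_sep (H := Perm (Fin N)) fun g hg => ?_
  refine Subtype.ext (Equiv.ext fun x => ?_)
  obtain ⟨O, hO, hO'⟩ := h x
  obtain ⟨φ, hφ⟩ := exists_hom_fin (G := Subgroup.closure (T : Set (Perm β))) N x O hO
    fun g => hO' g.1 g.2
  exact hφ g (hg φ)

end Crest.Agent.R189
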