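import Crest.Agent.R189.Defs

/-! Row 189: profiles of small energy in one and two dimensions. -/

set_option autoImplicit false

namespace Crest.Agent.R189

open Real

namespace ProfileAux

theorem clamp_lip (x y : ℝ) : |max 0 (min 1 x) - max 0 (min 1 y)| ≤ |x - y| := by
  refine (abs_max_sub_max_le_max _ _ _ _).trans (max_le (by simp) ?_)
  exact (abs_min_sub_min_le_max _ _ _ _).trans (max_le (by simp) le_rfl)

theorem clamp_one {x : ℝ} (h : 1 ≤ x) : max 0 (min 1 x) = 1 := by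
  rw [min_eq_left h, max_eq_right zero_le_one]

theorem clamp_zero {x : ℝ} (h : x ≤ 0) : max 0 (min 1 x) = 0 :=
  max_eq_left ((min_le_right _ _).trans h)

theorem clamp_le (x : ℝ) : max 0 (min 1 x) ≤ 1 := max_le zero_le_one (min_le_left _ _)

theorem sum_le_card {ι : Type*} (T B : Finset ι) (f : ι → ℝ) (M : ℝ) (hM : 0 ≤ M)
    (hf : ∀ w, f w ≤ M) (h0 : ∀ w, w ∉ B → f w = 0) : ∑ w ∈ T, f w ≤ B.card * M := by
  classical
  rw [← Finset.sum_subset (Finset.inter_subset_left (s₁ := T) (s₂ := B))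
    (fun w hw hw' => h0 w fun h => hw' (Finset.mem_inter.2 ⟨hw, h⟩))]
  refine (Finset.sum_le_card_nsmul _ _ M fun w _ => hf w).trans ?_
  rw [nsmul_eq_mul]
  exact mul_le_mul_of_nonneg_right
    (Nat.cast_le.2 (Finset.card_le_card Finset.inter_subset_right)) hM

theorem supN_lip (r : ℕ) (w v : V) (hv : v ∈ box r) :
    |(max |(w + v).1| |(w + v).2|) - (max |w.1| |w.2|)| ≤ (r : ℤ) := by
  refine (abs_max_sub_max_le_max _ _ _ _).trans (max_le ?_ ?_)
  · refine (abs_abs_sub_abs_le_abs_sub _ _).trans ?_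
    simpa using hv.1
  · refine (abs_abs_sub_abs_le_abs_sub _ _).trans ?_
    simpa using hv.2

/-- One linear cutoff on the shell `[R, 2R]` has energy at most `49 r²`. -/
theorem shell (r R : ℕ) (hR : 0 < R) (hr : r ≤ R) :
    ∃ θ : V → ℝ, (∀ w, 0 ≤ θ w ∧ θ w ≤ 1) ∧ (∀ w ∈ box R, θ w = 1) ∧
      (∀ w ∉ box (2 * R), θ w = 0) ∧
      ∀ (T : Finset V) (v : V → V), (∀ w, v w ∈ box r) →
        ∑ w ∈ T, (θ (w + v w) - θ w) ^ 2 ≤ 49 * r ^ 2 := by
  have hR' : (0 : ℝ) < R := by exact_mod_cast hR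
  have hzero : ∀ w : V, w ∉ box (2 * R) →
      max 0 (min 1 (2 - ((max |w.1| |w.2| : ℤ) : ℝ) / R)) = 0 := by
    intro w hw
    refine clamp_zero ?_
    have h1 : ((2 * R : ℕ) : ℤ) ≤ max |w.1| |w.2| := by
      by_contra h
      push Not at h
      exact hw ⟨((le_max_left _ _).trans h.le), ((le_max_right _ _).trans h.le)⟩
    have h2 : ((2 * R : ℕ) : ℝ) ≤ ((max |w.1| |w.2| : ℤ) : ℝ) := by exact_mod_cast h1
    rw [sub_nonpos, le_div_iff₀ hR']
    simpa using h2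
  refine ⟨fun w => max 0 (min 1 (2 - ((max |w.1| |w.2| : ℤ) : ℝ) / R)),
    fun w => ⟨le_max_left _ _, clamp_le _⟩, fun w hw => clamp_one ?_, hzero, fun T v hv => ?_⟩
  · have h1 : max |w.1| |w.2| ≤ (R : ℤ) := max_le hw.1 hw.2
    have h2 : ((max |w.1| |w.2| : ℤ) : ℝ) ≤ R := by exact_mod_cast h1
    have := (div_le_one hR').2 h2
    linarith
  · refine (sum_le_card T (Finset.Icc (-(3 * R : ℤ)) (3 * R) ×ˢ Finset.Icc (-(3 * R : ℤ)) (3 * R))
      _ ((r / R) ^ 2) (by positivity) (fun w => ?_) (fun w hw => ?_)).trans ?_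
    · rw [← sq_abs]
      refine pow_le_pow_left₀ (abs_nonneg _) ((clamp_lip _ _).trans ?_) 2
      rw [sub_sub_sub_cancel_left, ← sub_div, abs_div, abs_of_pos hR', abs_sub_comm]
      refine div_le_div_of_nonneg_right ?_ hR'.le
      exact_mod_cast supN_lip r w (v w) (hv w)
    · have hw' : (3 * R : ℤ) < max |w.1| |w.2| := by
        by_contra h
        push Not at h
        refine hw (Finset.mem_product.2 ⟨Finset.mem_Icc.2 ?_, Finset.mem_Icc.2 ?_⟩)
        · exact abs_le.1 ((le_max_left _ _).trans h)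
        · exact abs_le.1 ((le_max_right _ _).trans h)
      have h1 := (abs_le.1 (supN_lip r w (v w) (hv w))).1
      have hr' : (r : ℤ) ≤ R := by exact_mod_cast hr
      beta_reduce
      rw [hzero w (fun h => ?_), hzero (w + v w) (fun h => ?_)]
      · simp
      · have := max_le h.1 h.2
        push_cast at this
        omega
      · have := max_le h.1 h.2
        push_cast at this
        omega
    · rw [Finset.card_product, Int.card_Icc]
      have h1 : ((3 * R : ℤ) + 1 - -(3 * R)).toNat = 6 * R + 1 := by omega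
      rw [h1, div_pow, ← mul_div_assoc, div_le_iff₀ (by positivity)]
      have h2 : (1 : ℝ) ≤ R := by exact_mod_cast hR
      have h3 : (((6 * R + 1) * (6 * R + 1) : ℕ) : ℝ) ≤ 49 * R ^ 2 := by
        push_cast; nlinarith
      nlinarith [sq_nonneg (r : ℝ)]

/-- `J` well separated shells. -/
theorem shells (r K J : ℕ) : ∃ K' : ℕ, ∀ a : ℕ, 0 < a →
    ∃ θ : V → ℝ, (∀ w, 0 ≤ θ w ∧ θ w ≤ J) ∧ (∀ w ∈ box (K * a), θ w = J) ∧
      (∀ w ∉ box (K' * a), θ w = 0) ∧
      ∀ (T : Finset V) (v : V → V), (∀ w, v w ∈ box r) →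
        ∑ w ∈ T, (θ (w + v w) - θ w) ^ 2 ≤ 49 * r ^ 2 * J := by
  induction J with
  | zero => exact ⟨0, fun a _ => ⟨fun _ => 0, by simp, by simp, by simp, by simp⟩⟩
  | succ J ih =>
    obtain ⟨K', hK'⟩ := ih
    refine ⟨2 * (K' + K + 2 * r + 1), fun a ha => ?_⟩
    obtain ⟨φ, hφ1, hφ2, hφ3, hφ4⟩ := hK' a ha
    have hra : r ≤ r * a := Nat.le_mul_of_pos_right _ ha
    have hexp : (K' + K + 2 * r + 1) * a = K' * a + K * a + 2 * (r * a) + a := by ring
    obtain ⟨θ, hθ1, hθ2, hθ3, hθ4⟩ := shell r ((K' + K + 2 * r + 1) * a) (by omega) (by omega)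
    have hbox : ∀ {s t : ℕ}, s ≤ t → ∀ w ∈ box s, w ∈ box t := fun h w hw =>
      ⟨hw.1.trans (by exact_mod_cast h), hw.2.trans (by exact_mod_cast h)⟩
    refine ⟨fun w => φ w + θ w, fun w => ?_, fun w hw => ?_, fun w hw => ?_, fun T v hv => ?_⟩
    · push_cast
      constructor <;> linarith [hφ1 w, hθ1 w]
    · beta_reduce
      rw [hφ2 w hw, hθ2 w (hbox (by omega) w hw)]; push_cast; rfl
    · rw [mul_assoc] at hw
      beta_reduce
      rw [hθ3 w hw, hφ3 w (fun h => hw (hbox (by omega) w h)), add_zero]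
    · have key : ∀ w, (φ (w + v w) + θ (w + v w) - (φ w + θ w)) ^ 2 =
          (φ (w + v w) - φ w) ^ 2 + (θ (w + v w) - θ w) ^ 2 := by
        intro w
        have h1 := abs_le.1 (supN_lip r w (v w) (hv w))
        have hbox' : ∀ (s : ℕ) (u : V), u ∈ box s ↔ max |u.1| |u.2| ≤ (s : ℤ) :=
          fun s u => max_le_iff.symm
        by_cases hw : max |w.1| |w.2| ≤ ((K' * a + r : ℕ) : ℤ)
        · rw [hθ2 w ((hbox' _ _).2 (by omega)), hθ2 (w + v w) ((hbox' _ _).2 (by omega))]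
          ring
        · rw [hφ3 w (fun h => by have := (hbox' _ _).1 h; omega),
            hφ3 (w + v w) (fun h => by have := (hbox' _ _).1 h; omega)]
          ring
      simp only [key, Finset.sum_add_distrib]
      push_cast
      linarith [hφ4 T v hv, hθ4 T v hv]

end ProfileAux

open ProfileAux

/-- A linear profile of length `K a` has energy `O(1 / (K a))`. -/
theorem exists_profile_one (r : ℕ) (η : ℝ) (hη : 0 < η) : ∃ K : ℕ, ∀ a : ℕ, 0 < a →
    ∃ θ : ℤ → ℝ, (∀ h, 0 ≤ θ h ∧ θ h ≤ π / 2) ∧ (∀ h ≤ 0, θ h = π / 2) ∧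
      (∀ h : ℤ, K * a ≤ h → θ h = 0) ∧
      ∀ (T : Finset ℤ) (v : ℤ → ℤ), (∀ h, |v h| ≤ r) →
        a * ∑ h ∈ T, (θ (h + v h) - θ h) ^ 2 ≤ η := by
  obtain ⟨K₀, hK₀⟩ := exists_nat_ge (8 * (r : ℝ) ^ 2 / η)
  refine ⟨K₀ + 2 * r + 1, fun a ha => ?_⟩
  obtain ⟨K, hK⟩ : ∃ K : ℕ, K = K₀ + 2 * r + 1 := ⟨_, rfl⟩
  rw [← hK]
  have ha' : (1 : ℝ) ≤ a := by exact_mod_cast ha
  have hK1 : (2 * r + 1 : ℝ) ≤ K := by rw [hK]; push_cast; linarith [Nat.cast_nonneg (α := ℝ) K₀]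
  have hK2 : 8 * (r : ℝ) ^ 2 ≤ K * η := by
    rw [div_le_iff₀ hη] at hK₀
    refine hK₀.trans (mul_le_mul_of_nonneg_right ?_ hη.le)
    rw [hK]; push_cast; linarith [Nat.cast_nonneg (α := ℝ) r]
  have hr0 : (0 : ℝ) ≤ r := Nat.cast_nonneg r
  have hKpos : (0 : ℝ) < K := by linarith
  have hL : (0 : ℝ) < K * a := by positivity
  have hpi : 0 ≤ π / 2 := by positivity
  have hone : ∀ h : ℤ, h ≤ 0 → π / 2 * max 0 (min 1 (1 - (h : ℝ) / (K * a))) = π / 2 := by
    intro h hh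
    rw [clamp_one, mul_one]
    have : (h : ℝ) / (K * a) ≤ 0 := div_nonpos_of_nonpos_of_nonneg (by exact_mod_cast hh) hL.le
    linarith
  have hzero : ∀ h : ℤ, K * a ≤ h → π / 2 * max 0 (min 1 (1 - (h : ℝ) / (K * a))) = 0 := by
    intro h hh
    rw [clamp_zero, mul_zero]
    rw [sub_nonpos, one_le_div hL]
    exact_mod_cast hh
  refine ⟨fun h => π / 2 * max 0 (min 1 (1 - (h : ℝ) / (K * a))),
    fun h => ⟨mul_nonneg hpi (le_max_left _ _), mul_le_of_le_one_right hpi (clamp_le _)⟩,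
    hone, hzero, fun T v hv => ?_⟩
  have hsum := sum_le_card T (Finset.Icc (-(r : ℤ)) (K * a + r))
    (fun h => (π / 2 * max 0 (min 1 (1 - ((h + v h : ℤ) : ℝ) / (K * a))) -
      π / 2 * max 0 (min 1 (1 - (h : ℝ) / (K * a)))) ^ 2) ((2 * r / (K * a)) ^ 2) (by positivity)
    (fun h => by
      rw [← sq_abs]
      refine pow_le_pow_left₀ (abs_nonneg _) ?_ 2
      rw [← mul_sub, abs_mul, abs_of_nonneg hpi, mul_div_assoc]
      refine mul_le_mul (by linarith [Real.pi_le_four]) ((clamp_lip _ _).trans ?_) (abs_nonneg _)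
        (by norm_num)
      rw [sub_sub_sub_cancel_left, ← sub_div, abs_div, abs_of_pos hL, abs_sub_comm]
      refine div_le_div_of_nonneg_right ?_ hL.le
      have := hv h
      push_cast
      rw [add_sub_cancel_left]
      exact_mod_cast this)
    (fun h hh => by
      have h1 := abs_le.1 (hv h)
      rw [Finset.mem_Icc, not_and_or] at hh
      rcases hh with hh | hh
      · rw [hone h (by omega), hone (h + v h) (by omega)]; simp
      · rw [hzero h (by omega), hzero (h + v h) (by omega)]; simp)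
  rw [Int.card_Icc] at hsum
  have h1 : ((K : ℤ) * a + r + 1 - -(r : ℤ)).toNat = K * a + 2 * r + 1 := by
    have : ((K * a : ℕ) : ℤ) = K * a := by push_cast; rfl
    omega
  rw [h1] at hsum
  refine (mul_le_mul_of_nonneg_left hsum (by linarith)).trans ?_
  have h2 : ((K * a + 2 * r + 1 : ℕ) : ℝ) ≤ 2 * (K * a) := by
    push_cast; nlinarith
  calc (a : ℝ) * (((K * a + 2 * r + 1 : ℕ) : ℝ) * (2 * r / (K * a)) ^ 2)
      ≤ (a : ℝ) * (2 * (K * a) * (2 * r / (K * a)) ^ 2) := by gcongr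
    _ = 8 * (r : ℝ) ^ 2 / K := by field_simp; ring
    _ ≤ η := by rw [div_le_iff₀ hKpos]; linarith

/-- Recurrence of the plane: a logarithmic profile has small energy. -/
theorem exists_profile_two (r K : ℕ) (η : ℝ) (hη : 0 < η) : ∃ K' : ℕ, ∀ a : ℕ, 0 < a →
    ∃ θ : V → ℝ, (∀ w, 0 ≤ θ w ∧ θ w ≤ π / 2) ∧ (∀ w ∈ box (K * a), θ w = π / 2) ∧
      (∀ w ∉ box (K' * a), θ w = 0) ∧
      ∀ (T : Finset V) (v : V → V), (∀ w, v w ∈ box r) →
        ∑ w ∈ T, (θ (w + v w) - θ w) ^ 2 ≤ η := by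
  obtain ⟨J₀, hJ₀⟩ := exists_nat_ge (196 * (r : ℝ) ^ 2 / η)
  obtain ⟨J, hJ⟩ : ∃ J : ℕ, J = J₀ + 1 := ⟨_, rfl⟩
  have hJpos : (0 : ℝ) < J := by rw [hJ]; positivity
  have hJ2 : 196 * (r : ℝ) ^ 2 ≤ J * η := by
    rw [div_le_iff₀ hη] at hJ₀
    refine hJ₀.trans (mul_le_mul_of_nonneg_right ?_ hη.le)
    rw [hJ]; push_cast; linarith
  obtain ⟨K', hK'⟩ := shells r K J
  refine ⟨K', fun a ha => ?_⟩
  obtain ⟨φ, h1, h2, h3, h4⟩ := hK' a ha
  have hc : 0 ≤ π / 2 / J := by positivity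
  refine ⟨fun w => π / 2 / J * φ w, fun w => ⟨mul_nonneg hc (h1 w).1, ?_⟩, fun w hw => ?_,
    fun w hw => by beta_reduce; rw [h3 w hw, mul_zero], fun T v hv => ?_⟩
  · refine (mul_le_mul_of_nonneg_left (h1 w).2 hc).trans (le_of_eq ?_)
    field_simp
  · beta_reduce
    rw [h2 w hw]; field_simp
  · simp only [← mul_sub, mul_pow, ← Finset.mul_sum]
    have h5 : π / 2 / J ≤ 2 / J := by
      gcongr; linarith [Real.pi_le_four]
    calc (π / 2 / J) ^ 2 * ∑ w ∈ T, (φ (w + v w) - φ w) ^ 2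
        ≤ (2 / J) ^ 2 * (49 * r ^ 2 * J) :=
          mul_le_mul (pow_le_pow_left₀ hc h5 2) (h4 T v hv)
            (Finset.sum_nonneg fun _ _ => sq_nonneg _) (by positivity)
      _ = 196 * r ^ 2 / J := by field_simp; ring
      _ ≤ η := by rw [div_le_iff₀ hJpos]; linarith

end Crest.Agent.R189
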