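import Crest.Agent.R189.Defs

/-! Row 189: almost invariant measures and amenability. -/

set_option autoImplicit false

namespace Crest.Agent.R189

open Equiv Real

variable {G Ω Ω' : Type} [Group G] [MulAction G Ω] [MulAction G Ω']

theorem AI.prod {Ω₀ : Set Ω} {Ω₁ : Set Ω'} {F : Finset G} {ε ε' : ℝ} (h : AI Ω₀ F ε)
    (h' : AI Ω₁ F ε') : AI (Ω₀ ×ˢ Ω₁) F (ε + ε') := by
  obtain ⟨ι, _, w, φ, w0, w1, wΩ, wF⟩ := h
  obtain ⟨ι', _, w', φ', w0', w1', wΩ', wF'⟩ := h'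
  refine ⟨ι × ι', inferInstance, fun p => w p.1 * w' p.2, fun p => (φ p.1, φ' p.2),
    fun p => mul_nonneg (w0 _) (w0' _), ?_, fun p hp => ?_, fun g hg => ?_⟩
  · rw [Fintype.sum_prod_type, ← Finset.sum_mul_sum, w1, w1', mul_one]
  · exact ⟨wΩ _ (left_ne_zero_of_mul hp), wΩ' _ (right_ne_zero_of_mul hp)⟩
  · obtain ⟨σ, h1, h2⟩ := wF g hg
    obtain ⟨σ', h1', h2'⟩ := wF' g hg
    refine ⟨Equiv.prodCongr σ σ', fun p hp => ?_, ?_⟩
    · exact Prod.ext (h1 _ (left_ne_zero_of_mul hp)) (h1' _ (right_ne_zero_of_mul hp))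
    · have key : ∀ p : ι × ι', |w (σ p.1) * w' (σ' p.2) - w p.1 * w' p.2|
          ≤ |w (σ p.1) - w p.1| * w' (σ' p.2) + w p.1 * |w' (σ' p.2) - w' p.2| := by
        intro p
        have e : w (σ p.1) * w' (σ' p.2) - w p.1 * w' p.2
            = (w (σ p.1) - w p.1) * w' (σ' p.2) + w p.1 * (w' (σ' p.2) - w' p.2) := by ring
        rw [e]
        refine (abs_add_le _ _).trans ?_
        rw [abs_mul, abs_mul, abs_of_nonneg (w0' _), abs_of_nonneg (w0 _)]
      refine (Finset.sum_le_sum fun p _ => key p).trans ?_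
      rw [Finset.sum_add_distrib, Fintype.sum_prod_type, Fintype.sum_prod_type]
      dsimp only
      rw [← Finset.sum_mul_sum, ← Finset.sum_mul_sum, Equiv.sum_comp σ' w', w1, w1', mul_one,
        one_mul]
      exact add_le_add h2 h2'

theorem AI.subgroup [DecidableEq G] {H : Subgroup G} {Ω₀ : Set Ω} {F : Finset H} {ε : ℝ}
    (h : AI Ω₀ (F.image ((↑) : H → G)) ε) : AI Ω₀ F ε := by
  obtain ⟨ι, _, w, φ, w0, w1, wΩ, wF⟩ := h
  exact ⟨ι, inferInstance, w, φ, w0, w1, wΩ, fun g hg =>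
    wF (g : G) (Finset.mem_image_of_mem _ hg)⟩

namespace ReiterAux

theorem one_sub_sum_le_prod {J : Type} (s : Finset J) (c : J → ℝ) (h0 : ∀ j, 0 ≤ c j)
    (h1 : ∀ j, c j ≤ 1) : 1 - ∑ j ∈ s, (1 - c j) ≤ ∏ j ∈ s, c j := by
  classical
  induction s using Finset.induction_on with
  | empty => simp
  | insert a s ha ih =>
    rw [Finset.sum_insert ha, Finset.prod_insert ha]
    have hp : ∏ j ∈ s, c j ≤ 1 := Finset.prod_le_one (fun j _ => h0 j) fun j _ => h1 j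
    have := h1 a
    nlinarith

theorem hellinger {ι : Type} [Fintype ι] (u v : ι → ℝ) (hu : ∑ i, u i ^ 2 = 1)
    (hv : ∑ i, v i ^ 2 = 1) {ε : ℝ} (hε : 0 ≤ ε) (hc : 1 - ε ^ 2 / 8 ≤ ∑ i, u i * v i) :
    ∑ i, |u i ^ 2 - v i ^ 2| ≤ ε := by
  have h1 : ∑ i, |u i - v i| ^ 2 = 2 - 2 * ∑ i, u i * v i := by
    have : ∀ i, |u i - v i| ^ 2 = u i ^ 2 + v i ^ 2 - 2 * (u i * v i) := fun i => by
      rw [sq_abs]; ring
    simp only [this, Finset.sum_sub_distrib, Finset.sum_add_distrib, ← Finset.mul_sum, hu, hv]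
    ring
  have h2 : ∑ i, |u i + v i| ^ 2 = 2 + 2 * ∑ i, u i * v i := by
    have : ∀ i, |u i + v i| ^ 2 = u i ^ 2 + v i ^ 2 + 2 * (u i * v i) := fun i => by
      rw [sq_abs]; ring
    simp only [this, Finset.sum_add_distrib, ← Finset.mul_sum, hu, hv]
    ring
  have h3 := Finset.sum_mul_sq_le_sq_mul_sq Finset.univ (fun i => |u i - v i|)
    (fun i => |u i + v i|)
  have h4 : ∀ i, |u i ^ 2 - v i ^ 2| = |u i - v i| * |u i + v i| := fun i => by
    rw [← abs_mul]; congr 1; ring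
  simp only [h4]
  rw [h1, h2] at h3
  have h5 : 0 ≤ 2 - 2 * ∑ i, u i * v i := by
    rw [← h1]; exact Finset.sum_nonneg fun i _ => sq_nonneg _
  have h6 : 0 ≤ 2 + 2 * ∑ i, u i * v i := by
    rw [← h2]; exact Finset.sum_nonneg fun i _ => sq_nonneg _
  refine abs_le_of_sq_le_sq' (h3.trans ?_) hε |>.2
  nlinarith

/-- Finitely additive probabilities. -/
structure Mean {G : Type} (ν : Set G → ℝ) : Prop where
  nonneg : ∀ s, 0 ≤ ν s
  le_one : ∀ s, ν s ≤ 1
  univ : ν Set.univ = 1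
  add : ∀ s t, Disjoint s t → ν (s ∪ t) = ν s + ν t

open Pointwise in
theorem exists_mean_finite (K : Subgroup G) [Finite K] :
    ∃ μ : Set G → ℝ, Mean μ ∧ ∀ k ∈ K, ∀ s, μ (k • s) = μ s := by
  classical
  have := Fintype.ofFinite K
  have hc : (0 : ℝ) < Fintype.card K := Nat.cast_pos.2 Fintype.card_pos
  refine ⟨fun s => (∑ k : K, s.indicator (fun _ => (1 : ℝ)) k) / Fintype.card K,
    ⟨fun s => ?_, fun s => ?_, ?_, fun s t hst => ?_⟩, fun k hk s => ?_⟩
  · exact div_nonneg (Finset.sum_nonneg fun k _ => Set.indicator_nonneg (fun _ _ => zero_le_one) _)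
      hc.le
  · rw [div_le_one hc]
    calc ∑ k : K, s.indicator (fun _ => (1 : ℝ)) k ≤ ∑ _k : K, (1 : ℝ) :=
          Finset.sum_le_sum fun k _ => Set.indicator_le_self' (fun _ _ => zero_le_one) _
      _ = Fintype.card K := by simp
  · simp [hc.ne']
  · simp only [Set.indicator_union_of_disjoint hst, Finset.sum_add_distrib, add_div]
  · dsimp only
    congr 1
    rw [← Equiv.sum_comp (Equiv.mulLeft (⟨k, hk⟩ : K))]
    refine Finset.sum_congr rfl fun x _ => ?_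
    have : (k * (x : G) ∈ k • s) ↔ (x : G) ∈ s := Set.smul_mem_smul_set_iff
    change (k • s).indicator (fun _ => (1 : ℝ)) (k * (x : G)) = _
    by_cases hx : (x : G) ∈ s
    · rw [Set.indicator_of_mem hx, Set.indicator_of_mem (this.2 hx)]
    · rw [Set.indicator_of_notMem hx, Set.indicator_of_notMem (fun h => hx (this.1 h))]

open Pointwise in
theorem Mean.smul {μ : Set G → ℝ} (h : Mean μ) (x : G) : Mean fun s => μ (x • s) :=
  ⟨fun _ => h.nonneg _, fun _ => h.le_one _, by simp only [Set.smul_set_univ, h.univ],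
    fun s t hst => by
      simp only [Set.smul_set_union]
      exact h.add _ _ (Set.disjoint_smul_set.2 hst)⟩

omit [Group G] in
theorem mean_sum {ι : Type} [Fintype ι] {w : ι → ℝ} (w0 : ∀ i, 0 ≤ w i) (w1 : ∑ i, w i = 1)
    {m : ι → Set G → ℝ} (hm : ∀ i, Mean (m i)) : Mean fun s => ∑ i, w i * m i s :=
  ⟨fun s => Finset.sum_nonneg fun i _ => mul_nonneg (w0 i) ((hm i).nonneg s),
    fun s => by
      rw [← w1]
      exact Finset.sum_le_sum fun i _ => mul_le_of_le_one_right (w0 i) ((hm i).le_one s),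
    by simp only [fun i => (hm i).univ, mul_one, w1],
    fun s t hst => by
      simp only [fun i => (hm i).add s t hst, mul_add, Finset.sum_add_distrib]⟩

open Pointwise in
theorem exists_approx (Ω₀ : Set Ω) (hinv : ∀ g : G, ∀ ω ∈ Ω₀, g • ω ∈ Ω₀)
    (hstab : ∀ ω ∈ Ω₀, ∀ F : Finset G, (∀ g ∈ F, g • ω = ω) →
      Finite (Subgroup.closure (F : Set G)))
    {F : Finset G} {ε : ℝ} (h : AI Ω₀ F ε) :
    ∃ ν : Set G → ℝ, Mean ν ∧ ∀ g ∈ F, ∀ s, |ν (g • s) - ν s| ≤ ε := by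
  classical
  obtain ⟨ι, _, w, φ, w0, w1, wΩ, wF⟩ := h
  obtain ⟨rep, hrep, hσ⟩ : ∃ rep : Ω → Ω, (∀ (g : G) ω, rep (g • ω) = rep ω) ∧
      ∀ ω, ∃ x : G, x • ω = rep ω := by
    refine ⟨fun ω => Quotient.out (Quotient.mk (MulAction.orbitRel G Ω) ω), fun g ω => ?_,
      fun ω => ?_⟩
    · have : Quotient.mk (MulAction.orbitRel G Ω) (g • ω)
          = Quotient.mk (MulAction.orbitRel G Ω) ω :=
        Quotient.sound (MulAction.mem_orbit ω g)
      simp only [this]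
    · exact Quotient.mk_out (s := MulAction.orbitRel G Ω) ω
  choose τ hτ using hσ
  let c : G × ι → G := fun p => τ (p.1 • φ p.2) * p.1 * (τ (φ p.2))⁻¹
  let A : Ω → Finset G := fun r => ((F ×ˢ Finset.univ).filter fun p => rep (φ p.2) = r).image c
  have hA : ∀ r, ∀ g ∈ A r, g • r = r := by
    intro r g hg
    obtain ⟨p, hp, rfl⟩ := Finset.mem_image.1 hg
    have hr := (Finset.mem_filter.1 hp).2
    rw [← hr]
    simp only [c]
    conv_lhs => rw [← hτ (φ p.2)]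
    rw [mul_smul, mul_smul, inv_smul_smul, hτ, hrep]
  have hμ : ∀ r, ∃ μ : Set G → ℝ, Mean μ ∧ (r ∈ Ω₀ → ∀ k ∈ A r, ∀ s, μ (k • s) = μ s) := by
    intro r
    by_cases hr : r ∈ Ω₀
    · have := hstab r hr (A r) (hA r)
      obtain ⟨μ, h1, h2⟩ := exists_mean_finite (Subgroup.closure (A r : Set G))
      exact ⟨μ, h1, fun _ k hk s => h2 k (Subgroup.subset_closure hk) s⟩
    · obtain ⟨μ, h1, -⟩ := exists_mean_finite (⊥ : Subgroup G)
      exact ⟨μ, h1, fun h => (hr h).elim⟩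
  choose μ hμ1 hμ2 using hμ
  refine ⟨fun s => ∑ i, w i * μ (rep (φ i)) (τ (φ i) • s),
    mean_sum w0 w1 fun i => (hμ1 _).smul _, fun g hg s => ?_⟩
  obtain ⟨σ, h1, h2⟩ := wF g hg
  refine le_trans ?_ h2
  dsimp only
  rw [← Equiv.sum_comp σ fun i => w i * μ (rep (φ i)) (τ (φ i) • g • s),
    ← Finset.sum_sub_distrib]
  refine (Finset.abs_sum_le_sum_abs _ _).trans (Finset.sum_le_sum fun i _ => ?_)
  by_cases hi : w i = 0
  · rw [hi, zero_mul, sub_zero, sub_zero, abs_mul, abs_of_nonneg ((hμ1 _).nonneg _)]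
    exact mul_le_of_le_one_right (abs_nonneg _) ((hμ1 _).le_one _)
  · have hr : rep (φ i) ∈ Ω₀ := by
      rw [← hτ]; exact hinv _ _ (wΩ i hi)
    have hc : c (g, i) ∈ A (rep (φ i)) :=
      Finset.mem_image_of_mem _ (Finset.mem_filter.2
        ⟨Finset.mem_product.2 ⟨hg, Finset.mem_univ _⟩, rfl⟩)
    have e : τ (g • φ i) • g • s = c (g, i) • τ (φ i) • s := by
      simp only [c, mul_smul, inv_smul_smul]
    rw [h1 i hi, hrep, e, hμ2 _ hr _ hc, ← sub_mul, abs_mul, abs_of_nonneg ((hμ1 _).nonneg _)]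
    exact mul_le_of_le_one_right (abs_nonneg _) ((hμ1 _).le_one _)

open Pointwise Filter Topology in
theorem exists_limit (T : Set G)
    (h : ∀ F : Finset G, (F : Set G) ⊆ T → ∀ ε : ℝ, 0 < ε →
      ∃ ν : Set G → ℝ, Mean ν ∧ ∀ g ∈ F, ∀ s, |ν (g • s) - ν s| ≤ ε) :
    ∃ ν : Set G → ℝ, Mean ν ∧ ∀ g ∈ T, ∀ s, ν (g • s) = ν s := by
  classical
  have h' : ∀ p : Finset T × ℕ, ∃ ν : Set G → ℝ, Mean ν ∧
      ∀ g ∈ p.1, ∀ s, |ν ((g : G) • s) - ν s| ≤ 1 / ((p.2 : ℝ) + 1) := by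
    intro p
    obtain ⟨ν, h1, h2⟩ := h (p.1.image (↑)) (fun g hg => by
      obtain ⟨x, -, rfl⟩ := Finset.mem_image.1 hg
      exact x.2) (1 / ((p.2 : ℝ) + 1)) Nat.one_div_pos_of_nat
    exact ⟨ν, h1, fun g hg => h2 g (Finset.mem_image_of_mem _ hg)⟩
  choose ν h1 h2 using h'
  let 𝒰 : Ultrafilter (Finset T × ℕ) := Ultrafilter.of atTop
  have hU : (𝒰 : Filter (Finset T × ℕ)) ≤ atTop := Ultrafilter.of_le _
  have hK : IsCompact (Set.pi Set.univ fun _ : Set G => Set.Icc (0 : ℝ) 1) :=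
    isCompact_univ_pi fun _ => isCompact_Icc
  obtain ⟨m, hm, hlim⟩ := hK.ultrafilter_le_nhds (𝒰.map ν) (by
    rw [Ultrafilter.coe_map, le_principal_iff, mem_map]
    exact Eventually.of_forall fun p s _ => ⟨(h1 p).nonneg s, (h1 p).le_one s⟩)
  have hl : ∀ s, Tendsto (fun p => ν p s) 𝒰 (𝓝 (m s)) := tendsto_pi_nhds.1 hlim
  refine ⟨m, ⟨fun s => (hm s trivial).1, fun s => (hm s trivial).2, ?_, fun s t hst => ?_⟩,
    fun g hg s => ?_⟩
  · refine tendsto_nhds_unique (hl _) ?_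
    simp only [fun p => (h1 p).univ]
    exact tendsto_const_nhds
  · refine tendsto_nhds_unique (hl _) ?_
    simp only [fun p => (h1 p).add s t hst]
    exact (hl s).add (hl t)
  · have h3 : Tendsto (fun p => |ν p (g • s) - ν p s|) 𝒰 (𝓝 |m (g • s) - m s|) :=
      ((hl _).sub (hl _)).abs
    have h4 : Tendsto (fun p : Finset T × ℕ => 1 / ((p.2 : ℝ) + 1)) 𝒰 (𝓝 0) := by
      refine Tendsto.mono_left ?_ hU
      refine tendsto_one_div_add_atTop_nhds_zero_nat.comp ?_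
      rw [← prod_atTop_atTop_eq]
      exact tendsto_snd
    have h5 : ∀ᶠ p : Finset T × ℕ in 𝒰, |ν p (g • s) - ν p s| ≤ 1 / ((p.2 : ℝ) + 1) := by
      refine hU ?_
      filter_upwards [eventually_ge_atTop (({⟨g, hg⟩} : Finset T), 0)] with p hp
      exact h2 p ⟨g, hg⟩ (hp.1 (Finset.mem_singleton_self _)) s
    have := le_of_tendsto_of_tendsto h3 h4 h5
    exact sub_eq_zero.1 (abs_nonpos_iff.1 this)

open Pointwise in
theorem inv_closure {T : Set G} {ν : Set G → ℝ} (h : ∀ g ∈ T, ∀ s, ν (g • s) = ν s) {g : G}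
    (hg : g ∈ Subgroup.closure T) : ∀ s, ν (g • s) = ν s := by
  induction hg using Subgroup.closure_induction with
  | mem x hx => exact h x hx
  | one => intro s; rw [one_smul]
  | mul x y _ _ hx hy => intro s; rw [mul_smul, hx, hy]
  | inv x _ hx => intro s; rw [← hx (x⁻¹ • s), smul_inv_smul]

end ReiterAux

/-- Product measures with slowly varying parameters are almost invariant (Hellinger bound). -/
theorem ai_of_atoms {J : Type} [Fintype J] [DecidableEq J] (θ : J → ℝ)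
    (hθ : ∀ j, 0 ≤ θ j ∧ θ j ≤ π / 2) (φ : (J → Bool) → Ω) (Ω₀ : Set Ω) (F : Finset G) (ε : ℝ)
    (hε : 0 ≤ ε)
    (h0 : ∀ β : J → Bool, (∀ j, θ j = 0 → β j = false) → (∀ j, θ j = π / 2 → β j = true) →
      φ β ∈ Ω₀)
    (hF : ∀ g ∈ F, ∃ σ : Perm J, ∑ j, (θ (σ j) - θ j) ^ 2 ≤ ε ^ 2 / 4 ∧
      ∀ β : J → Bool, (∀ j, θ j = 0 → β j = false) → (∀ j, θ j = π / 2 → β j = true) →
        φ (fun j => β (σ⁻¹ j)) = g • φ β) :
    AI Ω₀ F ε := by
  let a : J → Bool → ℝ := fun j b => if b then sin (θ j) else cos (θ j)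
  let u : (J → Bool) → ℝ := fun β => ∏ j, a j (β j)
  have hu : ∑ β, u β ^ 2 = 1 := by
    simp only [u, ← Finset.prod_pow]
    rw [← Fintype.prod_sum fun j b => a j b ^ 2]
    refine Finset.prod_eq_one fun j _ => ?_
    simp [a]
  have hadm : ∀ β, u β ^ 2 ≠ 0 →
      (∀ j, θ j = 0 → β j = false) ∧ ∀ j, θ j = π / 2 → β j = true := by
    intro β hβ
    have h1 : ∀ j, a j (β j) ≠ 0 := fun j =>
      Finset.prod_ne_zero_iff.1 (ne_zero_pow two_ne_zero hβ) j (Finset.mem_univ j)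
    refine ⟨fun j hj => ?_, fun j hj => ?_⟩
    · have := h1 j
      cases hb : β j
      · rfl
      · simp [a, hb, hj] at this
    · have := h1 j
      cases hb : β j
      · simp [a, hb, hj] at this
      · rfl
  refine ⟨J → Bool, inferInstance, fun β => u β ^ 2, φ, fun β => sq_nonneg _, hu,
    fun β hβ => h0 β (hadm β hβ).1 (hadm β hβ).2, fun g hg => ?_⟩
  obtain ⟨σ, h1, h2⟩ := hF g hg
  let e : Perm (J → Bool) := Equiv.arrowCongr σ (Equiv.refl Bool)
  refine ⟨e, fun β hβ => h2 β (hadm β hβ).1 (hadm β hβ).2, ?_⟩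
  refine ReiterAux.hellinger (fun β => u (e β)) u ?_ hu hε ?_
  · rw [Equiv.sum_comp e fun β => u β ^ 2, hu]
  · have h3 : ∀ β, u (e β) * u β = ∏ j, a (σ j) (β j) * a j (β j) := by
      intro β
      rw [Finset.prod_mul_distrib]
      congr 1
      simp only [u]
      rw [← Equiv.prod_comp σ]
      refine Finset.prod_congr rfl fun j _ => ?_
      simp [e]
    simp only [h3]
    rw [← Fintype.prod_sum fun j b => a (σ j) b * a j b]
    have h4 : ∀ j, ∑ b, a (σ j) b * a j b = cos (θ (σ j) - θ j) := by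
      intro j
      simp [a, cos_sub, add_comm]
    simp only [h4]
    refine le_trans ?_ (ReiterAux.one_sub_sum_le_prod _ _ (fun j => ?_) fun j => cos_le_one _)
    · have : ∑ j, (1 - cos (θ (σ j) - θ j)) ≤ ∑ j, (θ (σ j) - θ j) ^ 2 / 2 :=
        Finset.sum_le_sum fun j _ => by linarith [one_sub_sq_div_two_le_cos (x := θ (σ j) - θ j)]
      rw [← Finset.sum_div] at this
      linarith
    · refine cos_nonneg_of_mem_Icc ⟨?_, ?_⟩
      · linarith [(hθ (σ j)).1, (hθ j).2]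
      · linarith [(hθ (σ j)).2, (hθ j).1]

/-- A group acting with locally finite stabilisers and almost invariant measures is amenable. -/
theorem amenable_of_reiter (T : Set G) (hT : Subgroup.closure T = ⊤) (Ω₀ : Set Ω)
    (hinv : ∀ g : G, ∀ ω ∈ Ω₀, g • ω ∈ Ω₀)
    (hstab : ∀ ω ∈ Ω₀, ∀ F : Finset G, (∀ g ∈ F, g • ω = ω) →
      Finite (Subgroup.closure (F : Set G)))
    (hAI : ∀ F : Finset G, (F : Set G) ⊆ T → ∀ ε : ℝ, 0 < ε → AI Ω₀ F ε) :
    Crest.GroupTheory.Amenable G := by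
  obtain ⟨ν, h1, h2⟩ := ReiterAux.exists_limit T fun F hF ε hε =>
    ReiterAux.exists_approx Ω₀ hinv hstab (hAI F hF ε hε)
  refine ⟨fun s => ENNReal.ofReal (ν s), by simp [h1.univ], fun s t hst => ?_, fun g s => ?_⟩
  · simp only [h1.add s t hst]
    exact ENNReal.ofReal_add (h1.nonneg s) (h1.nonneg t)
  · have hg : g ∈ Subgroup.closure T := hT ▸ Subgroup.mem_top g
    exact congrArg ENNReal.ofReal (ReiterAux.inv_closure h2 hg s)

end Crest.Agent.R189
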