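import Crest.Agent.R189.LGrp
import Crest.Agent.R189.Reiter
import Crest.Agent.R189.Profile

/-! Row 189: almost invariant random half spaces. -/

set_option autoImplicit false

namespace Crest.Agent.R189

open Equiv Pointwise

namespace AmenHAux

open Real

/-- `ai_of_atoms` for an infinite set of atoms. -/
theorem ai_of_sets {G Ω P : Type} [Group G] [MulAction G Ω] (θ : P → ℝ)
    (hθ : ∀ j, 0 ≤ θ j ∧ θ j ≤ π / 2)
    (φ : Set P → Ω) (Ω₀ : Set Ω) (F : Finset G) (ε : ℝ) (hε : 0 ≤ ε)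
    (h0 : ∀ β : Set P, (∀ j, θ j = 0 → j ∉ β) → (∀ j, θ j = π / 2 → j ∈ β) → φ β ∈ Ω₀)
    (hF : ∀ g ∈ F, ∃ σ : Perm P, {j | σ j ≠ j}.Finite ∧
      (∀ T : Finset P, ∑ j ∈ T, (θ (σ j) - θ j) ^ 2 ≤ ε ^ 2 / 4) ∧
      ∀ β β' : Set P, (∀ j, θ j = 0 → j ∉ β) → (∀ j, θ j = π / 2 → j ∈ β) →
        (∀ j, σ j ∈ β' ↔ j ∈ β) → φ β' = g • φ β) :
    AI Ω₀ F ε := by
  classical
  choose! σ h1 h2 h3 using hF
  obtain ⟨J, hJ2⟩ : ∃ J : Finset P, ∀ g ∈ F, ∀ j ∉ J, σ g j = j :=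
    ⟨(F.finite_toSet.biUnion h1).toFinset, fun g hg j hj => by_contra fun h =>
      hj ((Set.Finite.mem_toFinset _).2 (Set.mem_biUnion hg h))⟩
  have hpi : (0 : ℝ) ≠ π / 2 := by have := pi_pos; linarith
  obtain ⟨ex, ex1, ex2⟩ : ∃ ex : (J → Bool) → Set P, (∀ β (j : J), j.1 ∈ ex β ↔ β j = true) ∧
      ∀ β, ∀ j ∉ J, j ∈ ex β ↔ θ j = π / 2 :=
    ⟨fun β => {j | if h : j ∈ J then β ⟨j, h⟩ = true else θ j = π / 2},
      fun β j => by simp only [Set.mem_ofPred_eq, dif_pos j.2],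
      fun β j hj => by simp only [Set.mem_ofPred_eq, dif_neg hj]⟩
  have ad1 : ∀ β : J → Bool, (∀ j : J, θ j = 0 → β j = false) → ∀ j, θ j = 0 → j ∉ ex β := by
    intro β h j hj
    by_cases hJ : j ∈ J
    · rw [ex1 β ⟨j, hJ⟩, h ⟨j, hJ⟩ hj]
      exact Bool.false_ne_true
    · rw [ex2 β j hJ, hj]
      exact hpi
  have ad2 : ∀ β : J → Bool, (∀ j : J, θ j = π / 2 → β j = true) →
      ∀ j, θ j = π / 2 → j ∈ ex β := by
    intro β h j hj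
    by_cases hJ : j ∈ J
    · exact (ex1 β ⟨j, hJ⟩).2 (h ⟨j, hJ⟩ hj)
    · exact (ex2 β j hJ).2 hj
  refine ai_of_atoms (fun j : J => θ j) (fun j => hθ j) (fun β => φ (ex β)) Ω₀ F ε hε
    (fun β a1 a2 => h0 _ (ad1 β a1) (ad2 β a2)) fun g hg => ?_
  have hm : ∀ j, σ g j ∈ J ↔ j ∈ J := by
    intro j
    refine ⟨fun h => by_contra fun h' => h' (hJ2 g hg j h' ▸ h), fun h => by_contra fun h' => ?_⟩
    exact h' (((σ g).injective (hJ2 g hg _ h')).symm ▸ h)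
  obtain ⟨σ', hσ'⟩ : ∃ σ' : Perm J, ∀ j, (σ' j).1 = σ g j :=
    ⟨(σ g).subtypePerm hm, fun _ => rfl⟩
  refine ⟨σ', ?_, fun β a1 a2 => h3 g hg _ _ (ad1 β a1) (ad2 β a2) fun j => ?_⟩
  · simp only [hσ']
    exact (Finset.sum_coe_sort J fun j => (θ (σ g j) - θ j) ^ 2).trans_le (h2 g hg J)
  · by_cases hJ : j ∈ J
    · rw [ex1 β ⟨j, hJ⟩, ← hσ' ⟨j, hJ⟩, ex1, MsAux.inv_app]
    · rw [hJ2 g hg j hJ, ex2 _ j hJ, ex2 _ j hJ]

variable {n : ℕ}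

/-- `σ` permutes the sheets by `a` above the translates of `U`. -/
structure Cj {Q : Type} (D : Fin n → Q → Q) (U : Set Q) (a : Perm (Fin n))
    (σ : Perm (Q × Fin n)) : Prop where
  surj : ∀ i x, ∃ y, x = D i y
  pos : ∀ x ∈ U, ∀ i, σ (D i x, i) = (D (a i) x, a i)
  neg : ∀ x ∉ U, ∀ i, σ (D i x, i) = (D i x, i)

theorem exists_cj {Q : Type} (D : Fin n → Perm Q) (U : Set Q) (a : Perm (Fin n)) :
    ∃ σ, Cj (fun i => D i) U a σ := by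
  classical
  have key : ∀ (g : Q → Perm (Fin n)) x i, (prodCongrLeft D * prodCongrRight g *
      (prodCongrLeft D)⁻¹ : Perm (Q × Fin n)) (D i x, i) = (D (g x i) x, g x i) := by
    intro g x i
    change (prodCongrLeft D * prodCongrRight g * (prodCongrLeft D)⁻¹ : Perm (Q × Fin n))
      (prodCongrLeft D (x, i)) = _
    rw [Perm.mul_apply, MsAux.inv_app]
    rfl
  refine ⟨prodCongrLeft D * prodCongrRight (fun x => if x ∈ U then a else 1) *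
    (prodCongrLeft D)⁻¹, fun i x => ⟨(D i)⁻¹ x, (MsAux.app_inv _ _).symm⟩,
    fun x hx i => ?_, fun x hx i => ?_⟩
  · rw [key, if_pos hx]
  · rw [key, if_neg hx]
    rfl

theorem Cj.ex {Q : Type} {D : Fin n → Q → Q} {U : Set Q} {a : Perm (Fin n)}
    {σ : Perm (Q × Fin n)} (h : Cj D U a σ) (x : Q) (i : Fin n) :
    ∃ i', σ (D i x, i) = (D i' x, i') := by
  by_cases hx : x ∈ U
  · exact ⟨_, h.pos x hx i⟩
  · exact ⟨_, h.neg x hx i⟩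

theorem Cj.finite {Q : Type} {D : Fin n → Q → Q} {U : Set Q} {a : Perm (Fin n)}
    {σ : Perm (Q × Fin n)} (h : Cj D U a σ) (hU : U.Finite) : {j | σ j ≠ j}.Finite := by
  refine ((hU.prod Set.finite_univ).image fun p : Q × Fin n => (D p.2 p.1, p.2)).subset ?_
  rintro ⟨x, i⟩ hx
  obtain ⟨y, rfl⟩ := h.surj i x
  exact ⟨(y, i), ⟨by_contra fun hy => hx (h.neg y hy i), trivial⟩, rfl⟩

/-- Two such permutations act in the same way above related base points. -/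
theorem Cj.both {Q Q' : Type} {D : Fin n → Q → Q} {U : Set Q} {a : Perm (Fin n)}
    {σ : Perm (Q × Fin n)} (h : Cj D U a σ) {D' : Fin n → Q' → Q'} {U' : Set Q'}
    {σ' : Perm (Q' × Fin n)} (h' : Cj D' U' a σ') {x : Q} {x' : Q'} (hx : x ∈ U ↔ x' ∈ U')
    (i : Fin n) : ∃ i', σ (D i x, i) = (D i' x, i') ∧ σ' (D' i x', i) = (D' i' x', i') := by
  by_cases h1 : x ∈ U
  · exact ⟨_, h.pos x h1 i, h'.pos x' (hx.1 h1) i⟩
  · exact ⟨_, h.neg x h1 i, h'.neg x' (fun h2 => h1 (hx.2 h2)) i⟩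

theorem sum_le_card {I Z : Type} [Fintype I] (f : (I × Z) × Fin n → ℝ) (hf : ∀ p, 0 ≤ f p)
    (b : ℝ) (h : ∀ k i (T : Finset Z), ∑ z ∈ T, f ((k, z), i) ≤ b)
    (T : Finset ((I × Z) × Fin n)) : ∑ p ∈ T, f p ≤ Fintype.card I * (n * b) := by
  classical
  calc ∑ p ∈ T, f p
      ≤ ∑ p ∈ (Finset.univ ×ˢ T.image fun p => p.1.2) ×ˢ Finset.univ, f p :=
        Finset.sum_le_sum_of_subset_of_nonneg (fun p hp => by
          simp only [Finset.mem_product, Finset.mem_univ, true_and, and_true]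
          exact Finset.mem_image_of_mem _ hp) fun p _ _ => hf p
    _ = ∑ k, ∑ i, ∑ z ∈ T.image fun p => p.1.2, f ((k, z), i) := by
        rw [Finset.sum_product, Finset.sum_product]
        exact Finset.sum_congr rfl fun k _ => Finset.sum_comm
    _ ≤ ∑ _k : I, ∑ _i : Fin n, b :=
        Finset.sum_le_sum fun k _ => Finset.sum_le_sum fun i _ => h k i _
    _ = _ := by simp

theorem ax_add (d : Bool) (s h s' h' : ℤ) : ax d s h + ax d s' h' = ax d (s + s') (h + h') := by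
  cases d <;> rfl

theorem ax_zero (d : Bool) : ax d 0 0 = 0 := by cases d <;> rfl

theorem ax_mem_box {d : Bool} {s h : ℤ} {r : ℕ} : ax d s h ∈ box r ↔ |s| ≤ r ∧ |h| ≤ r := by
  cases d
  · exact Iff.rfl
  · exact and_comm

theorem exists_ax (d : Bool) (v : V) : ∃ w : V, v = ax d w.1 w.2 := by
  cases d
  · exact ⟨v, rfl⟩
  · exact ⟨v.swap, rfl⟩

variable {S : Type} {X : Sub S}

theorem ax_vadd (d : Bool) (s h s' h' : ℤ) (x : X.Pt) :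
    ax d s h +ᵥ ax d s' h' +ᵥ x = ax d (s + s') (h + h') +ᵥ x := by
  rw [← add_vadd, ax_add]

theorem ax_congr (d : Bool) {s h s' h' : ℤ} (x : X.Pt) (h1 : s = s') (h2 : h = h') :
    ax d s h +ᵥ x = ax d s' h' +ᵥ x := by rw [h1, h2]

/-- The random periodic half space. -/
def setB (d : Bool) (Y : Set X.Pt) (c : ℤ) {a : ℕ} (col : X.Pt → ZMod a)
    (β : Set ((ZMod a × ℤ) × Fin n)) : Set (Hat X n) :=
  {p | ∃ y ∈ Y, ∃ h : ℤ, p.1 = ax d 0 (c + h) +ᵥ y ∧ ((col y, h), p.2) ∈ β}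

/-- The random neighbourhood of the defects. -/
def setA (d : Bool) (Y : Set X.Pt) (c : ℤ) (ctr : Set X.Pt) {C : ℕ} (ty : X.Pt → Fin C)
    (β : Set ((Fin C × V) × Fin n)) : Set (Hat X n) :=
  {p | ∃ y ∈ Y, y ∈ ctr ∧ ∃ w : V, p.1 = ax d w.1 (c + w.2) +ᵥ y ∧ ((ty y, w), p.2) ∈ β}

/-- No centre is close. -/
def NC (d : Bool) (ctr : Set X.Pt) (m : ℤ) (y : X.Pt) : Prop :=
  ∀ s : ℤ, |s| ≤ m → ax d s 0 +ᵥ y ∉ ctr

theorem anchor : True := by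
  have := @setB.eq_1; have := @setA.eq_1; have := @NC.eq_1
  trivial

/-- The data of the construction. -/
structure Ctx (d : Bool) (Y : Set X.Pt) {a C : ℕ} (r M₁ M₂ M₃ : ℕ) (c N : ℤ)
    (col : X.Pt → ZMod a) (ctr : Set X.Pt) (ty : X.Pt → Fin C) : Prop where
  hY : ∀ y ∈ Y, ∀ s h : ℤ, ax d s h +ᵥ y ∈ Y ↔ h = 0
  z1 : ∀ y ∈ Y, ∀ s : ℤ, col (ax d s 0 +ᵥ y) = col y + s
  z3 : ∀ y ∈ Y, ∀ y' ∈ Y, col y = col y' → NC d ctr (2 * a) y → NC d ctr (2 * a) y' →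
    ∀ h : ℤ, 0 < h → h ≤ N → y.1 (ax d 0 h) = y'.1 (ax d 0 h)
  z4 : ∀ y ∈ Y, ∀ y' ∈ Y, y ∈ ctr → y' ∈ ctr → ty y = ty y' →
    ∀ s h : ℤ, |s| ≤ N → 0 < h → h ≤ N → y.1 (ax d s h) = y'.1 (ax d s h)
  i1 : M₃ + 2 * r < c
  i2 : c + M₃ + 2 * r ≤ N
  i3 : c + M₁ + 2 * r ≤ N
  i4 : 2 * a + 2 * r ≤ M₂
  i5 : M₁ + 2 * r ≤ M₂

variable {d : Bool} {Y : Set X.Pt} {a C r M₁ M₂ M₃ : ℕ} {c N : ℤ} {col : X.Pt → ZMod a}
  {ctr : Set X.Pt} {ty : X.Pt → Fin C}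

theorem Ctx.mem (H : Ctx d Y r M₁ M₂ M₃ c N col ctr ty) {y : X.Pt} (hy : y ∈ Y) (s : ℤ) :
    ax d s 0 +ᵥ y ∈ Y := (H.hY y hy s 0).2 rfl

theorem Ctx.uniq (H : Ctx d Y r M₁ M₂ M₃ c N col ctr ty) {y y' : X.Pt} (hy : y ∈ Y)
    (hy' : y' ∈ Y) {s h s' h' : ℤ} (e : ax d s h +ᵥ y = ax d s' h' +ᵥ y') :
    h = h' ∧ y' = ax d (s - s') 0 +ᵥ y := by
  have e' : y' = ax d (s - s') (h - h') +ᵥ y := by
    rw [sub_eq_neg_add, sub_eq_neg_add h, ← ax_vadd, e, ax_vadd, neg_add_cancel, neg_add_cancel,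
      ax_zero, zero_vadd]
  have h0 := (H.hY y hy _ _).1 (e' ▸ hy')
  exact ⟨by omega, h0 ▸ e'⟩

theorem Ctx.mem_setB (H : Ctx d Y r M₁ M₂ M₃ c N col ctr ty) {y : X.Pt} (hy : y ∈ Y)
    (β : Set ((ZMod a × ℤ) × Fin n)) (s h : ℤ) (i : Fin n) :
    (ax d s (c + h) +ᵥ y, i) ∈ setB d Y c col β ↔ ((col y + s, h), i) ∈ β := by
  constructor
  · rintro ⟨y', hy', h', e, hβ⟩
    obtain ⟨e1, rfl⟩ := H.uniq hy hy' e
    rwa [H.z1 y hy, sub_zero, ← add_left_cancel e1] at hβ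
  · intro hβ
    exact ⟨_, H.mem hy s, h, by rw [ax_vadd, zero_add, add_zero], by rwa [H.z1 y hy]⟩

theorem Ctx.agreeB (H : Ctx d Y r M₁ M₂ M₃ c N col ctr ty) {y y' : X.Pt} (hy : y ∈ Y)
    (hy' : y' ∈ Y) (e : col y = col y') (h1 : NC d ctr (2 * a + r) y)
    (h2 : NC d ctr (2 * a + r) y') {η : ℤ} (h3 : -r ≤ η) (h4 : η ≤ M₁ + r) :
    Agree (box r) (ax d 0 (c + η) +ᵥ y) (ax d 0 (c + η) +ᵥ y') := by
  intro v hv
  obtain ⟨⟨s, h⟩, rfl⟩ := exists_ax d v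
  obtain ⟨hs, hh⟩ := ax_mem_box.1 hv
  have hN : ∀ y : X.Pt, NC d ctr (2 * a + r) y → NC d ctr (2 * a) (ax d s 0 +ᵥ y) :=
    fun y hy s' hs' => by
      rw [ax_vadd, add_zero]
      exact hy _ ((abs_add_le _ _).trans (add_le_add hs' hs))
  have i1 := H.i1
  have i3 := H.i3
  rw [abs_le] at hh
  have := H.z3 _ (H.mem hy s) _ (H.mem hy' s) (by rw [H.z1 y hy, H.z1 y' hy', e]) (hN y h1)
    (hN y' h2) (h + (c + η)) (by omega) (by omega)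
  simpa only [vadd_val, ax_add, add_zero, zero_add] using this

theorem Ctx.agreeA (H : Ctx d Y r M₁ M₂ M₃ c N col ctr ty) {y y' : X.Pt} (hy : y ∈ Y)
    (hy' : y' ∈ Y) (h1 : y ∈ ctr) (h2 : y' ∈ ctr) (e : ty y = ty y') {w : V}
    (hw : w ∈ box (M₃ + r)) :
    Agree (box r) (ax d w.1 (c + w.2) +ᵥ y) (ax d w.1 (c + w.2) +ᵥ y') := by
  intro v hv
  obtain ⟨⟨s, h⟩, rfl⟩ := exists_ax d v
  obtain ⟨hs, hh⟩ := ax_mem_box.1 hv
  obtain ⟨hw1, hw2⟩ := mem_box.1 hw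
  have i1 := H.i1
  have i2 := H.i2
  rw [abs_le] at hs hh hw1 hw2
  have := H.z4 y hy y' hy' h1 h2 e (s + w.1) (h + (c + w.2)) (by rw [abs_le]; omega) (by omega)
    (by omega)
  simpa only [vadd_val, ax_add] using this

section step
variable {U : Set X.Pt} {γ : Fin n → V} {b : Perm (Fin n)} {g : Perm (Hat X n)}

theorem Ctx.stepA (H : Ctx d Y r M₁ M₂ M₃ c N col ctr ty)
    (hU : ∀ x y, Agree (box r) x y → x ∈ U → y ∈ U) (hγ : ∀ i, γ i ∈ box r)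
    (hg : Cj (fun i x => ax d (γ i).1 (γ i).2 +ᵥ x) U b g) {σ : Perm ((Fin C × V) × Fin n)}
    (hσ : Cj (fun i q => (q.1, q.2 + γ i)) {q : Fin C × V | q.2 ∈ box (M₃ + r) ∧
      ∃ y ∈ Y, y ∈ ctr ∧ ty y = q.1 ∧ ax d q.2.1 (c + q.2.2) +ᵥ y ∈ U} b σ)
    {β β' : Set ((Fin C × V) × Fin n)} (hβ : ∀ j ∈ β, j.1.2 ∈ box M₃)
    (hβ' : ∀ j, σ j ∈ β' ↔ j ∈ β) (p : Hat X n) :
    g p ∈ setA d Y c ctr ty β' ↔ p ∈ setA d Y c ctr ty β := by
  have h1 : ∀ j, (σ j).1.1 = j.1.1 := by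
    rintro ⟨q, i⟩
    obtain ⟨q, rfl⟩ := hσ.surj i q
    obtain ⟨i', e⟩ := hσ.ex q i
    rw [e]
  have h2 : ∀ y ∈ Y, y ∈ ctr → ∀ j ∈ β, j.1.1 = ty y →
      g (ax d j.1.2.1 (c + j.1.2.2) +ᵥ y, j.2) =
        (ax d (σ j).1.2.1 (c + (σ j).1.2.2) +ᵥ y, (σ j).2) := by
    rintro y hy hc ⟨q, i⟩ hj e
    obtain ⟨⟨τ, w⟩, rfl⟩ := hσ.surj i q
    obtain rfl : τ = ty y := e
    have hw : w ∈ box (M₃ + r) := by
      simpa using add_mem_box (hβ _ hj) (neg_mem_box (hγ i))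
    obtain ⟨i', e1, e2⟩ := hg.both hσ (x := ax d w.1 (c + w.2) +ᵥ y) (x' := (ty y, w))
      ⟨fun h => ⟨hw, y, hy, hc, rfl, h⟩, fun ⟨_, y', hy', hc', e', h⟩ =>
        hU _ _ (H.agreeA hy' hy hc' hc e' hw) h⟩ i
    have e3 : ∀ i, ax d (γ i).1 (γ i).2 +ᵥ ax d w.1 (c + w.2) +ᵥ y =
        ax d (w + γ i).1 (c + (w + γ i).2) +ᵥ y := fun i => by
      rw [ax_vadd]
      exact ax_congr d y (add_comm _ _) (by rw [Prod.snd_add]; ring)
    simp only [e3] at e1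
    rw [e2]
    exact e1
  constructor
  · rintro ⟨y, hy, hc, w, e, hj⟩
    obtain ⟨j, hj'⟩ := σ.surjective ((ty y, w), (g p).2)
    have h3 : j ∈ β := (hβ' j).1 (hj' ▸ hj)
    have h4 : j.1.1 = ty y := by rw [← h1, hj']
    have h5 := h2 y hy hc j h3 h4
    rw [hj', ← e] at h5
    obtain rfl := g.injective h5
    exact ⟨y, hy, hc, j.1.2, rfl, by rwa [← h4]⟩
  · rintro ⟨y, hy, hc, w, e, hj⟩
    have h5 := h2 y hy hc _ hj rfl
    rw [← e] at h5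
    refine ⟨y, hy, hc, _, congrArg Prod.fst h5, ?_⟩
    have h6 : (g p).2 = (σ ((ty y, w), p.2)).2 := congrArg Prod.snd h5
    have h7 : ty y = (σ ((ty y, w), p.2)).1.1 := (h1 ((ty y, w), p.2)).symm
    rw [h6]
    nth_rewrite 1 [h7]
    exact (hβ' _).2 hj

theorem Ctx.stepB (H : Ctx d Y r M₁ M₂ M₃ c N col ctr ty)
    (hU : ∀ x y, Agree (box r) x y → x ∈ U → y ∈ U) (hγ : ∀ i, γ i ∈ box r)
    (hg : Cj (fun i x => ax d (γ i).1 (γ i).2 +ᵥ x) U b g) {σ : Perm ((ZMod a × ℤ) × Fin n)}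
    (hσ : Cj (fun i q => (q.1 + ((γ i).1 : ZMod a), q.2 + (γ i).2))
      {q : ZMod a × ℤ | (-r ≤ q.2 ∧ q.2 ≤ M₁ + r) ∧ ∃ y ∈ Y, col y = q.1 ∧
        NC d ctr (2 * a + r) y ∧ ax d 0 (c + q.2) +ᵥ y ∈ U} b σ)
    {β β' : Set ((ZMod a × ℤ) × Fin n)} (hβ0 : ∀ j : (ZMod a × ℤ) × Fin n, j.1.2 ≤ 0 → j ∈ β)
    (hβ1 : ∀ j : (ZMod a × ℤ) × Fin n, M₁ ≤ j.1.2 → j ∉ β) (hβ' : ∀ j, σ j ∈ β' ↔ j ∈ β)
    {α : Set ((Fin C × V) × Fin n)} (hα : ∀ j : (Fin C × V) × Fin n, j.1.2 ∈ box M₂ → j ∈ α)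
    (p : Hat X n) (hp : p ∉ setA d Y c ctr ty α) :
    g p ∈ setB d Y c col β' ↔ p ∈ setB d Y c col β := by
  obtain ⟨x, i⟩ := p
  obtain ⟨x, rfl⟩ := hg.surj i x
  have hb := fun i => mem_box.1 (hγ i)
  simp only [abs_le] at hb
  by_cases hx : ∃ y ∈ Y, ∃ η, x = ax d 0 (c + η) +ᵥ y
  · obtain ⟨y, hy, η, rfl⟩ := hx
    have h1 : ∀ β'' i', (ax d (γ i').1 (γ i').2 +ᵥ ax d 0 (c + η) +ᵥ y, i') ∈ setB d Y c col β'' ↔
        ((col y + ((γ i').1 : ZMod a), η + (γ i').2), i') ∈ β'' := fun β'' i' => by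
      rw [ax_vadd, ax_congr d y (add_zero _) (h' := c + (η + (γ i').2)) (by ring), H.mem_setB hy]
    by_cases hη : -r ≤ η ∧ η ≤ M₁ + r
    · have hN : NC d ctr (2 * a + r) y := by
        intro s hs hc
        refine hp ⟨_, H.mem hy s, hc, ((γ i).1 - s, η + (γ i).2), ?_, hα _ ?_⟩
        · rw [ax_vadd, ax_vadd]
          exact ax_congr d y (by ring) (by ring)
        · have i4 := H.i4
          have i5 := H.i5
          have := hb i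
          rw [abs_le] at hs
          simp only [mem_box, abs_le]
          omega
      obtain ⟨i', e1, e2⟩ := hg.both hσ (x := ax d 0 (c + η) +ᵥ y) (x' := (col y, η))
        ⟨fun h => ⟨hη, y, hy, rfl, hN, h⟩, fun ⟨_, y', hy', e', hN', h⟩ =>
          hU _ _ (H.agreeB hy' hy e' hN' hN hη.1 hη.2) h⟩ i
      rw [e1, h1, h1, ← hβ', e2]
    · obtain ⟨i', e1⟩ := hg.ex (ax d 0 (c + η) +ᵥ y) i
      have e2 := hσ.neg (col y, η) (fun h => hη h.1) i'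
      rw [e1, h1, h1, ← e2, hβ']
      have := hb i
      have := hb i'
      rcases lt_or_ge η 0 with h | h
      · exact iff_of_true (hβ0 _ (by simp only; omega)) (hβ0 _ (by simp only; omega))
      · exact iff_of_false (hβ1 _ (by simp only; omega)) (hβ1 _ (by simp only; omega))
  · have h1 : ∀ β'' i', (ax d (γ i').1 (γ i').2 +ᵥ x, i') ∉ setB d Y c col β'' := by
      rintro β'' i' ⟨y, hy, h, e, -⟩
      refine hx ⟨_, H.mem hy (-(γ i').1), h - (γ i').2, ?_⟩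
      have e' := congrArg (ax d (-(γ i').1) (-(γ i').2) +ᵥ ·) e
      simp only [ax_vadd, neg_add_cancel, ax_zero, zero_vadd] at e'
      rw [e', ax_vadd]
      exact ax_congr d y (by ring) (by ring)
    obtain ⟨i', e1⟩ := hg.ex x i
    rw [e1]
    exact iff_of_false (h1 _ _) (h1 _ _)

end step

theorem Ctx.inS (H : Ctx d Y r M₁ M₂ M₃ c N col ctr ty) (hcol : LocF col) (hctr : Loc ctr)
    (hty : LocF ty) {β : Set ((ZMod a × ℤ) × Fin n)}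
    (hβ0 : ∀ j : (ZMod a × ℤ) × Fin n, j.1.2 ≤ 0 → j ∈ β)
    (hβ1 : ∀ j : (ZMod a × ℤ) × Fin n, M₁ ≤ j.1.2 → j ∉ β) {α : Set ((Fin C × V) × Fin n)}
    (hα : ∀ j ∈ α, j.1.2 ∈ box M₃) : InS d Y (setB d Y c col β \ setA d Y c ctr ty α) := by
  obtain ⟨R, hR⟩ := (hcol.comp₂ hctr.locF Prod.mk).comp₂ hty Prod.mk
  simp only [Prod.mk.injEq] at hR
  have i1 := H.i1
  have h1 : ∀ y ∈ Y, ∀ h i, pt y (ax d 0 h, i) ∈ setB d Y c col β ↔ ((col y, h - c), i) ∈ β := by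
    intro y hy h i
    have := H.mem_setB hy β 0 (h - c) i
    rwa [add_sub_cancel, Int.cast_zero, add_zero] at this
  refine ⟨R + M₃ + (c.toNat + M₁), fun y hy h i => ⟨fun hh => ⟨(h1 y hy h i).2 (hβ0 _ ?_), ?_⟩,
    fun hh h2 => hβ1 _ ?_ ((h1 y hy h i).1 h2.1)⟩, fun y hy y' hy' hA h i h2 => ⟨?_, ?_⟩⟩
  · simp only
    omega
  · rintro ⟨y₀, hy₀, -, w, e, hj⟩
    have h2 := (H.uniq hy hy₀ e).1
    have h3 := abs_le.1 (hα _ hj).2
    simp only at h3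
    omega
  · simp only
    omega
  · rw [h1 y' hy', ← (hR y y' (hA.mono (box_mono (by omega)))).1.1, ← h1 y hy]
    exact h2.1
  · rintro ⟨y₀, hy₀, hc, w, e, hj⟩
    obtain ⟨e1, rfl⟩ := H.uniq hy' hy₀ e
    have h3 := hR _ _ ((hA.mono (box_mono (Nat.le_add_right _ _))).vadd
      (v := ax d (0 - w.1) 0) (ax_mem_box.2 ⟨by simpa using (hα _ hj).1, by simp⟩))
    refine h2.2 ⟨_, H.mem hy (0 - w.1), h3.1.2 ▸ hc, w, ?_, h3.2 ▸ hj⟩
    rw [ax_vadd]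
    exact ax_congr d y (by ring) (by rw [add_zero, e1])

end AmenHAux

open AmenHAux Real

theorem ai_InS {S : Type} [Finite S] {X : Sub S} {n : ℕ} (hF : Free X) {d : Bool} {Y : Set X.Pt}
    (hY : ∀ y ∈ Y, ∀ s h : ℤ, ax d s h +ᵥ y ∈ Y ↔ h = 0) (hZ : Zone X d Y)
    (F : Finset (Perm (Hat X n))) (hFg : (F : Set (Perm (Hat X n))) ⊆ gens X n) {ε : ℝ}
    (hε : 0 < ε) : AI {T : Set (Hat X n) | InS d Y T} F ε := by
  have _ := hF
  obtain ⟨r, hr⟩ := SubAux.exists_bound F.finite_toSet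
    (P := fun g r => ∃ (U : Set X.Pt) (γ : Fin n → V) (b : Perm (Fin n)),
      (∀ x y, Agree (box r) x y → x ∈ U → y ∈ U) ∧ (∀ i, γ i ∈ box r) ∧
      Cj (fun i x => ax d (γ i).1 (γ i).2 +ᵥ x) U b g)
    (fun g r s hrs ⟨U, γ, b, h1, h2, h3⟩ => ⟨U, γ, b,
      fun x y hxy => h1 x y (hxy.mono (box_mono hrs)), fun i => box_mono hrs (h2 i), h3⟩)
    fun g hg => by
      obtain ⟨U, δ, b, ⟨r, hr⟩, -, rfl⟩ := hFg hg
      choose γ hγ using fun i => exists_ax d (δ i)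
      obtain ⟨s, hs⟩ := exists_box_of_finite (Set.finite_range γ)
      refine ⟨r + s, U, γ, b, fun x y hxy => hr x y (hxy.mono (box_mono (Nat.le_add_right _ _))),
        fun i => box_mono (Nat.le_add_left _ _) (hs ⟨i, rfl⟩), ?_⟩
      simp only [← hγ]
      refine ⟨fun i x => ⟨-δ i +ᵥ x, (vadd_neg_vadd _ _).symm⟩, fun x hx i => ?_,
        fun x hx i => MsAux.conj_neg U b δ (by rwa [neg_vadd_vadd])⟩
      rw [MsAux.conj_pos U b δ (by rwa [neg_vadd_vadd]), neg_vadd_vadd]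
  obtain ⟨C, hC⟩ := hZ
  obtain ⟨η, hη, hη'⟩ : ∃ η : ℝ, 0 < η ∧ n * η + C * (n * η) ≤ ε ^ 2 / 4 := by
    refine ⟨ε ^ 2 / 4 / ((n + 1) * (C + 1)), by positivity, ?_⟩
    have h1 : (0 : ℝ) < (n + 1) * (C + 1) := by positivity
    calc _ = ε ^ 2 / 4 * (n * (C + 1) / ((n + 1) * (C + 1))) := by ring
      _ ≤ ε ^ 2 / 4 * 1 := by
          refine mul_le_mul_of_nonneg_left ((div_le_one h1).2 ?_) (by positivity)
          nlinarith [Nat.cast_nonneg (α := ℝ) C]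
      _ = _ := mul_one _
  obtain ⟨K, hK⟩ := exists_profile_one (r + r) η hη
  obtain ⟨K', hK'⟩ := exists_profile_two (r + r) (K + 2 * r + 2) η hη
  obtain ⟨a, ha, col, ctr, ty, hcol, hctr, hty, z1, -, z3, z4⟩ := hC (2 * K' + K + 4 * r + 1)
  obtain ⟨θ₁, t0, t1, t2, t3⟩ := hK a ha
  obtain ⟨θ₂, u0, u1, u2, u3⟩ := hK' a ha
  have : NeZero a := ⟨ha.ne'⟩
  have hra : (r : ℤ) ≤ r * a := le_mul_of_one_le_right (by positivity) (by exact_mod_cast ha)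
  have ha' : (1 : ℤ) ≤ a := by exact_mod_cast ha
  have hKa : (0 : ℤ) ≤ K * a := by positivity
  have hKa' : (0 : ℤ) ≤ K' * a := by positivity
  have H : Ctx d Y r (K * a) ((K + 2 * r + 2) * a) (K' * a) (K' * a + 2 * r + 1)
      ((2 * K' + K + 4 * r + 1 : ℕ) * a) col ctr ty :=
    ⟨hY, z1, z3, z4, by push_cast; linarith, by push_cast; linarith, by push_cast; linarith,
      by zify; linarith, by zify; linarith⟩
  generalize (K' : ℤ) * a + 2 * r + 1 = c at H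
  have b0 : ∀ {β : Set (((ZMod a × ℤ) × Fin n) ⊕ ((Fin C × V) × Fin n))},
      (∀ j, Sum.elim (fun j => θ₁ j.1.2) (fun j => θ₂ j.1.2) j = 0 → j ∉ β) →
      (∀ j : (ZMod a × ℤ) × Fin n, (K * a : ℕ) ≤ j.1.2 → j ∉ Sum.inl ⁻¹' β) ∧
        ∀ j ∈ Sum.inr ⁻¹' β, j.1.2 ∈ box (K' * a) := fun h =>
    ⟨fun j hj => h (.inl j) (t2 _ (by exact_mod_cast hj)),
      fun j hj => by_contra fun h' => h (.inr j) (u2 _ h') hj⟩
  have b1 : ∀ {β : Set (((ZMod a × ℤ) × Fin n) ⊕ ((Fin C × V) × Fin n))},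
      (∀ j, Sum.elim (fun j => θ₁ j.1.2) (fun j => θ₂ j.1.2) j = π / 2 → j ∈ β) →
      (∀ j : (ZMod a × ℤ) × Fin n, j.1.2 ≤ 0 → j ∈ Sum.inl ⁻¹' β) ∧
        ∀ j : (Fin C × V) × Fin n, j.1.2 ∈ box ((K + 2 * r + 2) * a) → j ∈ Sum.inr ⁻¹' β :=
    fun h => ⟨fun j hj => h (.inl j) (t1 _ hj), fun j hj => h (.inr j) (u1 _ hj)⟩
  refine ai_of_sets (P := ((ZMod a × ℤ) × Fin n) ⊕ ((Fin C × V) × Fin n))
    (Sum.elim (fun j => θ₁ j.1.2) fun j => θ₂ j.1.2) ?_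
    (fun β => setB d Y c col (Sum.inl ⁻¹' β) \ setA d Y c ctr ty (Sum.inr ⁻¹' β)) _ F ε hε.le
    (fun β a0 a1 => H.inS hcol hctr hty (b1 a1).1 (b0 a0).1 (b0 a0).2) fun g hg => ?_
  · rintro (j | j)
    · exact t0 _
    · exact u0 _
  obtain ⟨U, γ, b, hU, hγ, hg⟩ := hr g hg
  obtain ⟨σ₁, h1⟩ : ∃ σ, Cj (fun i q => (q.1 + ((γ i).1 : ZMod a), q.2 + (γ i).2))
      {q : ZMod a × ℤ | (-r ≤ q.2 ∧ q.2 ≤ (K * a : ℕ) + r) ∧ ∃ y ∈ Y, col y = q.1 ∧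
        NC d ctr (2 * a + r) y ∧ ax d 0 (c + q.2) +ᵥ y ∈ U} b σ :=
    exists_cj (fun i => Equiv.addRight (((γ i).1 : ZMod a), (γ i).2)) _ b
  obtain ⟨σ₂, h2⟩ : ∃ σ, Cj (fun i q => (q.1, q.2 + γ i))
      {q : Fin C × V | q.2 ∈ box (K' * a + r) ∧
        ∃ y ∈ Y, y ∈ ctr ∧ ty y = q.1 ∧ ax d q.2.1 (c + q.2.2) +ᵥ y ∈ U} b σ :=
    exists_cj (fun i => Equiv.prodCongr (Equiv.refl _) (Equiv.addRight (γ i))) _ b
  have hd : ∀ i i', γ i' - γ i ∈ box (r + r) := fun i i' => by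
    rw [sub_eq_add_neg]
    exact add_mem_box (hγ i') (neg_mem_box (hγ i))
  refine ⟨Equiv.sumCongr σ₁ σ₂, Set.finite_preimage_inl_and_inr.1 ⟨?_, ?_⟩, fun T => ?_,
    fun β β' a0 a1 hβ => ?_⟩
  · refine (h1.finite ((Set.finite_univ.prod (Set.finite_Icc _ _)).subset
      fun q hq => ⟨trivial, hq.1⟩)).subset fun j hj e => hj (congrArg Sum.inl e)
  · refine (h2.finite ((Set.finite_univ.prod (box_finite _)).subset
      fun q hq => ⟨trivial, hq.1⟩)).subset fun j hj e => hj (congrArg Sum.inr e)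
  · rw [Finset.sum_sum_eq_sum_toLeft_add_sum_toRight]
    refine (add_le_add (sum_le_card (fun j => (θ₁ (σ₁ j).1.2 - θ₁ j.1.2) ^ 2)
      (fun _ => sq_nonneg _) (η / a) (fun k i T => ?_) _)
      (sum_le_card (fun j => (θ₂ (σ₂ j).1.2 - θ₂ j.1.2) ^ 2)
      (fun _ => sq_nonneg _) η (fun k i T => ?_) _)).trans (le_of_eq_of_le ?_ hη')
    · have := t3 T (fun h => (σ₁ ((k, h), i)).1.2 - h) fun h => by
        obtain ⟨q, e⟩ := h1.surj i (k, h)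
        obtain ⟨i', e'⟩ := h1.ex q i
        rw [e, e', (Prod.mk.inj e).2, add_sub_add_left_eq_sub]
        exact (hd i i').2
      rw [le_div_iff₀' (by exact_mod_cast ha)]
      simpa only [add_sub_cancel] using this
    · have := u3 T (fun w => (σ₂ ((k, w), i)).1.2 - w) fun w => by
        obtain ⟨q, e⟩ := h2.surj i (k, w)
        obtain ⟨i', e'⟩ := h2.ex q i
        rw [e, e', (Prod.mk.inj e).2, add_sub_add_left_eq_sub]
        exact hd i i'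
      simpa only [add_sub_cancel] using this
    · have : (a : ℝ) ≠ 0 := by exact_mod_cast ha.ne'
      rw [ZMod.card, Fintype.card_fin]
      field_simp
  · ext p
    obtain ⟨p, rfl⟩ := g.surjective p
    have e1 := H.stepA hU hγ hg h2 (b0 a0).2 (β' := Sum.inr ⁻¹' β') (fun j => hβ (.inr j)) p
    refine Iff.trans ?_ (Set.smul_mem_smul_set_iff (a := g)).symm
    rw [Set.mem_sdiff, Set.mem_sdiff, e1]
    exact and_congr_left fun hp => H.stepB hU hγ hg h1 (b1 a1).1 (b0 a0).1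
      (β' := Sum.inl ⁻¹' β') (fun j => hβ (.inl j)) (b1 a1).2 p hp

end Crest.Agent.R189
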