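import Mathlib
import Crest.Prelude.Def_Amenable

/-!
Row 189 (an infinite finitely presented simple amenable group): definitions.

The group is the alternating full group `Alt X n` of a minimal free subshift of finite type
`X` over `ℤ × ℤ`, acting on `n` sheets `X × Fin n`.
-/

set_option autoImplicit false

namespace Crest.Agent.R189

open Equiv Pointwise

/-- The lattice. -/
abbrev V : Type := ℤ × ℤ

/-- The square of radius `r`. -/
def box (r : ℕ) : Set V := {w | |w.1| ≤ r ∧ |w.2| ≤ r}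

/-- A rectangle. -/
def rect (p q r s : ℤ) : Set V := {w | p ≤ w.1 ∧ w.1 ≤ q ∧ r ≤ w.2 ∧ w.2 ≤ s}

/-- Coordinates `(along, height)`; for `d = true` the axes are swapped. -/
def ax (d : Bool) (s h : ℤ) : V := if d then (h, s) else (s, h)

/-! ### Even permutations with support in a finite set -/

/-- The even permutations supported in `F`. -/
def AltOn {α : Type} [DecidableEq α] (F : Finset α) : Subgroup (Perm α) :=
  (alternatingGroup {a // a ∈ F}).map (Perm.ofSubtype (p := fun a => a ∈ F))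

/-- The three-cycle `a ↦ c ↦ b ↦ a` (for distinct points). -/
def c3 {α : Type} [DecidableEq α] (a b c : α) : Perm α := swap a b * swap a c

/-! ### Subshifts -/

/-- A subshift. -/
structure Sub (S : Type) where
  /-- the configurations -/
  car : Set (V → S)
  shift_mem : ∀ x ∈ car, ∀ v : V, (fun w => x (w + v)) ∈ car
  closed : ∀ x : V → S, (∀ r : ℕ, ∃ y ∈ car, ∀ w ∈ box r, x w = y w) → x ∈ car

variable {S : Type}

/-- The points of a subshift. -/
def Sub.Pt (X : Sub S) : Type := {x : V → S // x ∈ X.car}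

instance (X : Sub S) : AddAction V X.Pt where
  vadd v x := ⟨fun w => x.1 (w + v), X.shift_mem x.1 x.2 v⟩
  zero_vadd x := Subtype.ext (funext fun w => congrArg x.1 (add_zero w))
  add_vadd u v x := Subtype.ext (funext fun w => congrArg x.1 (add_assoc w u v).symm)

@[simp] theorem vadd_val {X : Sub S} (v : V) (x : X.Pt) (w : V) : (v +ᵥ x).1 w = x.1 (w + v) := rfl

section sub
variable {X : Sub S}

/-- Two points agree on a region. -/
def Agree (R : Set V) (x y : X.Pt) : Prop := ∀ w ∈ R, x.1 w = y.1 w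

/-- Clopen sets. -/
def Loc (U : Set X.Pt) : Prop := ∃ r : ℕ, ∀ x y, Agree (box r) x y → x ∈ U → y ∈ U

/-- Locally constant functions. -/
def LocF {β : Type} (f : X.Pt → β) : Prop := ∃ r : ℕ, ∀ x y, Agree (box r) x y → f x = f y

/-- The cylinder of radius `r` around `x`. -/
def cyl (r : ℕ) (x : X.Pt) : Set X.Pt := {y | Agree (box r) x y}

end sub

/-- The action is free. -/
def Free (X : Sub S) : Prop := ∀ (x : X.Pt) (v : V), v +ᵥ x = x → v = 0

/-- Every orbit is dense. -/
def Minimal (X : Sub S) : Prop := ∀ (x y : X.Pt) (r : ℕ), ∃ v : V, Agree (box r) (v +ᵥ y) x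

/-- The subshift is of finite type with window `Ω`. -/
def SFT (X : Sub S) (Ω : Finset V) : Prop :=
  ∀ y : V → S, (∀ z : V, ∃ x ∈ X.car, ∀ ω ∈ Ω, y (z + ω) = x ω) → y ∈ X.car

/-! ### Regular orthomodular posets -/

/-- Regular orthomodular posets; `p ≤ q` is `orth p (compl q)`. -/
class ROMP (P : Type) where
  /-- orthogonality -/
  orth : P → P → Prop
  /-- complement -/
  compl : P → P
  /-- sum of orthogonal elements -/
  add : P → P → P
  /-- the least element -/
  zero : P
  orth_symm : ∀ {p q}, orth p q → orth q p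
  orth_compl : ∀ p, orth p (compl p)
  compl_compl : ∀ p, compl (compl p) = p
  zero_orth : ∀ p, orth zero p
  eq_zero : ∀ {p}, orth p p → p = zero
  trans : ∀ {p q r}, orth p (compl q) → orth q r → orth p r
  add_orth : ∀ {p q r}, orth p q → (orth (add p q) r ↔ orth p r ∧ orth q r)
  antisymm : ∀ {p q}, orth p (compl q) → orth q (compl p) → p = q
  omod : ∀ {p q}, orth p (compl q) → q = add p (compl (add p (compl q)))
  reg : ∀ {x r p q}, orth r p → orth r q → orth p q →
    (∃ a b, orth a (compl x) ∧ orth b x ∧ add r p = add a b) →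
    (∃ a b, orth a (compl x) ∧ orth b x ∧ add r q = add a b) →
    ∃ a b, orth a (compl x) ∧ orth b x ∧ r = add a b

namespace ROMP
variable {P : Type} [ROMP P]

/-- The order. -/
def le (p q : P) : Prop := orth p (compl q)

/-- The greatest element. -/
def one : P := compl zero

/-- Compatibility (commutation). -/
def Com (x p : P) : Prop := ∃ a b, orth a (compl x) ∧ orth b x ∧ p = add a b

open Classical in
/-- The meet of two compatible elements. -/
noncomputable def meet (x p : P) : P := if h : Com x p then h.choose else zero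

end ROMP

/-- An observable with values in `α`, inside the corner `e`. -/
structure Obs (P : Type) [ROMP P] (α : Type) (e : P) where
  /-- the event attached to a set of values -/
  f : Set α → P
  univ : f Set.univ = e
  orth : ∀ {A B : Set α}, Disjoint A B → ROMP.orth (f A) (f B)
  add : ∀ {A B : Set α}, Disjoint A B → f (A ∪ B) = ROMP.add (f A) (f B)

/-- Quantum rigidity: site observables that are jointly measurable on the translates of the
window `Ω` and avoid the patterns that do not occur in `X` all commute. -/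
def Rigid (X : Sub S) (Ω : Finset V) : Prop :=
  ∀ (P : Type) [ROMP P] (O : V → Obs P S ROMP.one) (W : V → Obs P (Ω → S) ROMP.one),
    (∀ (z : V) (ω : Ω) (E : Set S), (W z).f {π | π ω ∈ E} = (O (z + ω)).f E) →
    (∀ z : V, (W z).f {π | ¬ ∃ x ∈ X.car, ∀ ω : Ω, π ω = x ω} = ROMP.zero) →
    ∀ (z z' : V) (E E' : Set S), ROMP.Com ((O z).f E) ((O z').f E')

/-! ### Structural properties of the subshift -/

section props
variable {X : Sub S}

/-- `B` is the base of a tower with periods `a`, `b`. -/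
def Tower (a b : ℕ) (B : Set X.Pt) : Prop :=
  Loc B ∧ (∀ x : X.Pt, ∃ w : V, w +ᵥ x ∈ B) ∧
    ∀ x ∈ B, ∀ w : V, w +ᵥ x ∈ B ↔ (a : ℤ) ∣ w.1 ∧ (b : ℤ) ∣ w.2

/-- The points of `B` show at most `C` patterns on `R`. -/
def Pat (C : ℕ) (B : Set X.Pt) (R : Set V) : Prop :=
  ∃ f : X.Pt → Fin C, ∀ x ∈ B, ∀ y ∈ B, f x = f y → Agree R x y

end props

/-- At every scale the space is partitioned into translates of boundedly many clopen sets. -/
def Rank (X : Sub S) : Prop :=
  ∃ C : ℕ, ∀ r : ℕ, ∃ G : Fin C → Set X.Pt, (∀ c, Loc (G c)) ∧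
    ∃ T : Finset (Fin C × V), (∀ x : X.Pt, ∃! t, t ∈ T ∧ x ∈ t.2 +ᵥ G t.1) ∧
      ∀ t ∈ T, ∀ x ∈ t.2 +ᵥ G t.1, ∀ y ∈ t.2 +ᵥ G t.1, Agree (box r) x y

/-- Boundedly many patterns along quiet cuts. -/
def HB (X : Sub S) : Prop :=
  ∃ C : ℕ, ∀ ρ : ℕ, ∃ (a b b' : ℕ) (B B' : Set X.Pt), ρ ≤ a ∧ ρ ≤ b ∧ ρ * b ≤ b' ∧
    Tower a b B ∧ Tower a b' B' ∧ B' ⊆ B ∧ Pat C B (rect (-ρ) ρ (-ρ) (b + ρ)) ∧
    Pat C B' (rect (-ρ) (a + ρ) (-(ρ * b)) (ρ * b))

/-- `Y` is the set of points with a line of infinite level through the origin, approximated by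
lines of high finite level. -/
def Fault (X : Sub S) (d : Bool) (Y : Set X.Pt) : Prop :=
  (∀ y ∈ Y, ∀ s h : ℤ, ax d s h +ᵥ y ∈ Y ↔ h = 0) ∧
  ∀ ρ : ℕ, ∃ b : ℕ, ρ ≤ b ∧ ∃ R : Set X.Pt, (∀ x : X.Pt, ∃ h : ℤ, ax d 0 h +ᵥ x ∈ R) ∧
    (∀ x ∈ R, ∀ s h : ℤ, ax d s h +ᵥ x ∈ R ↔ (b : ℤ) ∣ h) ∧
    ∀ x ∈ R, ∃ y ∈ Y, Agree (box ρ) x y

/-- Above the fault the picture is periodic up to sparse defects of boundedly many types. -/
def Zone (X : Sub S) (d : Bool) (Y : Set X.Pt) : Prop :=
  ∃ C : ℕ, ∀ t : ℕ, ∃ a : ℕ, 0 < a ∧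
    ∃ (col : X.Pt → ZMod a) (ctr : Set X.Pt) (ty : X.Pt → Fin C), LocF col ∧ Loc ctr ∧ LocF ty ∧
      (∀ y ∈ Y, ∀ s : ℤ, col (ax d s 0 +ᵥ y) = col y + s) ∧
      (∀ y ∈ Y, y ∈ ctr → ∀ s : ℤ, ax d s 0 +ᵥ y ∈ ctr → s = 0 ∨ 2 * t * a ≤ |s|) ∧
      (∀ y ∈ Y, ∀ y' ∈ Y, col y = col y' → (∀ s : ℤ, |s| ≤ 2 * a → ax d s 0 +ᵥ y ∉ ctr) →
        (∀ s : ℤ, |s| ≤ 2 * a → ax d s 0 +ᵥ y' ∉ ctr) →
        ∀ h : ℤ, 0 < h → h ≤ t * a → y.1 (ax d 0 h) = y'.1 (ax d 0 h)) ∧
      ∀ y ∈ Y, ∀ y' ∈ Y, y ∈ ctr → y' ∈ ctr → ty y = ty y' →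
        ∀ s h : ℤ, |s| ≤ t * a → 0 < h → h ≤ t * a → y.1 (ax d s h) = y'.1 (ax d s h)

/-- All that is used of the subshift. -/
structure Good (X : Sub S) : Prop where
  nonempty : Nonempty X.Pt
  free : Free X
  minimal : Minimal X
  sft : ∃ Ω : Finset V, 0 ∈ Ω ∧ SFT X Ω ∧ Rigid X Ω
  rank : Rank X
  hb : HB X
  cut : ∀ d : Bool, ∃ Y : Set X.Pt, Fault X d Y ∧ Zone X d Y

/-! ### The alternating full group -/

/-- Sites of an orbit. -/
abbrev Site (n : ℕ) : Type := V × Fin n

/-- The space with `n` sheets. -/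
abbrev Hat (X : Sub S) (n : ℕ) : Type := X.Pt × Fin n

section full
variable {X : Sub S} {n : ℕ}

/-- The point at the site `z` of the orbit of `x`. -/
def pt (x : X.Pt) (z : Site n) : Hat X n := (z.1 +ᵥ x, z.2)

/-- Translation of each sheet. -/
def tr (δ : Fin n → V) : Perm (Hat X n) := Equiv.prodCongrLeft fun i => AddAction.toPerm (δ i)

/-- Permutation of the sheets. -/
def apf (g : X.Pt → Perm (Fin n)) : Perm (Hat X n) := Equiv.prodCongrRight g

open Classical in
/-- Permutation of the sheets above `U`. -/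
noncomputable def ap (U : Set X.Pt) (a : Perm (Fin n)) : Perm (Hat X n) :=
  apf fun x => if x ∈ U then a else 1

/-- The generators. -/
def gens (X : Sub S) (n : ℕ) : Set (Perm (Hat X n)) :=
  {γ | ∃ (U : Set X.Pt) (δ : Fin n → V) (a : Perm (Fin n)), Loc U ∧ a.IsThreeCycle ∧
    γ = tr δ * ap U a * (tr δ)⁻¹}

/-- The alternating full group. -/
def Alt (X : Sub S) (n : ℕ) : Subgroup (Perm (Hat X n)) := Subgroup.closure (gens X n)

/-- `(U, F)` is a multisection. -/
def MS (U : Set X.Pt) (F : Finset (Site n)) : Prop :=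
  ∀ x ∈ U, ∀ y ∈ U, ∀ z ∈ F, ∀ z' ∈ F, pt x z = pt y z' → x = y ∧ z = z'

/-- `γ` acts as `g x` on the moved sites of the orbit of `x ∈ U` and trivially elsewhere. -/
def IsMs (U : Set X.Pt) (g : X.Pt → Perm (Site n)) (γ : Perm (Hat X n)) : Prop :=
  (∀ x ∈ U, ∀ z, g x z ≠ z → γ (pt x z) = pt x (g x z)) ∧
    ∀ p, (∀ x ∈ U, ∀ z, g x z ≠ z → p ≠ pt x z) → γ p = p

open Classical in
/-- The element defined by a multisection and a function to permutations of the sites. -/
noncomputable def msf (U : Set X.Pt) (g : X.Pt → Perm (Site n)) : Perm (Hat X n) :=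
  if h : ∃ γ, IsMs U g γ then h.choose else 1

/-- The element defined by a multisection and a permutation of the sites. -/
noncomputable def ms (U : Set X.Pt) (a : Perm (Site n)) : Perm (Hat X n) := msf U fun _ => a

/-- The group of a multisection. -/
def L (U : Set X.Pt) (F : Finset (Site n)) : Subgroup (Perm (Hat X n)) :=
  Subgroup.closure {γ | ∃ U' ⊆ U, ∃ a ∈ AltOn F, Loc U' ∧ γ = ms U' a}

/-- The cocycle of `γ` has radius `r`. -/
def HasRad (γ : Perm (Hat X n)) (r : ℕ) : Prop :=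
  ∃ c : X.Pt → Fin n → Site n, (∀ x i, γ (x, i) = pt x (c x i)) ∧ (∀ x i, (c x i).1 ∈ box r) ∧
    ∀ x y, Agree (box r) x y → c x = c y

/-- `γ` preserves the orbits. -/
def Full (γ : Perm (Hat X n)) : Prop := ∀ (x : X.Pt) (i : Fin n), ∃ z, γ (x, i) = pt x z

open Classical in
/-- The action of `γ` on the sites of the orbit of `x`. -/
noncomputable def loc (γ : Perm (Hat X n)) (x : X.Pt) : Perm (Site n) :=
  if h : ∃ a : Perm (Site n), ∀ z, γ (pt x z) = pt x (a z) then h.choose else 1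

/-- Translation of sites. -/
def sht (v : V) : Perm (Site n) := Equiv.prodCongr (Equiv.addRight v) (Equiv.refl _)

/-- All sites above a finite region. -/
def sites (n : ℕ) (R : Finset V) : Finset (Site n) := R ×ˢ Finset.univ

/-- The sites above a rectangle. -/
noncomputable def rsites (n : ℕ) (p q r s : ℤ) : Finset (Site n) :=
  sites n (Finset.Icc p q ×ˢ Finset.Icc r s)

/-- Sets that are locally determined modifications of the lower half space of a fault. -/
def InS (d : Bool) (Y : Set X.Pt) (T : Set (Hat X n)) : Prop :=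
  ∃ ρ : ℕ, (∀ y ∈ Y, ∀ (h : ℤ) (i : Fin n), (h ≤ -ρ → pt y (ax d 0 h, i) ∈ T) ∧
      ((ρ : ℤ) ≤ h → pt y (ax d 0 h, i) ∉ T)) ∧
    ∀ y ∈ Y, ∀ y' ∈ Y, Agree (box ρ) y y' → ∀ (h : ℤ) (i : Fin n),
      pt y (ax d 0 h, i) ∈ T → pt y' (ax d 0 h, i) ∈ T

end full

/-! ### Almost invariant measures -/

/-- A finitely supported probability on `Ω₀`, almost invariant under `F`. -/
def AI {G Ω : Type} [Group G] [MulAction G Ω] (Ω₀ : Set Ω) (F : Finset G) (ε : ℝ) : Prop :=
  ∃ (ι : Type) (_ : Fintype ι) (w : ι → ℝ) (φ : ι → Ω), (∀ i, 0 ≤ w i) ∧ ∑ i, w i = 1 ∧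
    (∀ i, w i ≠ 0 → φ i ∈ Ω₀) ∧
    ∀ g ∈ F, ∃ π : Perm ι, (∀ i, w i ≠ 0 → φ (π i) = g • φ i) ∧ ∑ i, |w (π i) - w i| ≤ ε

/-! ### Models of the presentation -/

/-- Offsets with sum zero. -/
def D (n : ℕ) : AddSubgroup (Fin n → V) where
  carrier := {δ | ∑ i, δ i = 0}
  zero_mem' := by simp
  add_mem' := by
    intro a b ha hb
    simp only [Set.mem_ofPred_eq, Pi.add_apply, Finset.sum_add_distrib] at *
    rw [ha, hb, add_zero]
  neg_mem' := by
    intro a ha
    simp only [Set.mem_ofPred_eq, Pi.neg_apply, Finset.sum_neg_distrib] at *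
    rw [ha, neg_zero]

open Classical in
/-- The function equal to `a` on `E` and to `1` elsewhere. -/
noncomputable def ind {α G : Type} [One G] (E : Set α) (a : G) : α → G :=
  fun π => if π ∈ E then a else 1

/-- Even permutations with small support. -/
def Sm {n : ℕ} (a : Perm (Fin n)) : Prop := a ∈ alternatingGroup (Fin n) ∧ a.support.card ≤ 16

/-- A group with the generators and relations of the presentation. -/
structure Model (X : Sub S) (Ω : Finset V) (h0 : 0 ∈ Ω) (n : ℕ) (Γ : Type) [Group Γ] where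
  /-- translations -/
  τ : D n → Γ
  /-- permutations of the sheets depending on the window -/
  Λ : ((Ω → S) → alternatingGroup (Fin n)) →* Γ
  /-- the action -/
  θ : Γ →* Perm (Hat X n)
  τ_add : ∀ δ δ', τ (δ + δ') = τ δ * τ δ'
  θ_τ : ∀ δ, θ (τ δ) = tr δ.1
  θ_Λ : ∀ f, θ (Λ f) = apf fun x => (f fun ω => x.1 ω : Perm (Fin n))
  act : ∀ (c : alternatingGroup (Fin n)) (δ δ' : D n), (∀ i, δ'.1 (c.1 i) = δ.1 i) →
    Λ (fun _ => c) * τ δ * (Λ fun _ => c)⁻¹ = τ δ'
  comm : ∀ (E : Set (Ω → S)) (a : alternatingGroup (Fin n)) (δ : D n),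
    (∀ i, a.1 i ≠ i → δ.1 i = 0) → Commute (Λ (ind E a)) (τ δ)
  shift : ∀ (ω : Ω) (E : Set S) (a : alternatingGroup (Fin n)) (δ : D n),
    (∀ i, a.1 i ≠ i → δ.1 i = -ω.1) →
    τ δ * Λ (ind {π | π ⟨0, h0⟩ ∈ E} a) * (τ δ)⁻¹ = Λ (ind {π | π ω ∈ E} a)
  forb : ∀ a : alternatingGroup (Fin n), Λ (ind {π | ¬ ∃ x ∈ X.car, ∀ ω : Ω, π ω = x ω} a) = 1
  gen : Subgroup.closure (Set.range τ ∪ Set.range Λ) = ⊤

/-- A group with lifts of the permutations of sheets above clopen sets. -/
structure Loc3 (X : Sub S) (n : ℕ) (Γ : Type) [Group Γ] where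
  /-- translations -/
  τ : D n → Γ
  /-- permutations of sheets -/
  A : Set X.Pt → Perm (Fin n) → Γ
  /-- the action -/
  θ : Γ →* Perm (Hat X n)
  τ_add : ∀ δ δ', τ (δ + δ') = τ δ * τ δ'
  θ_τ : ∀ δ, θ (τ δ) = tr δ.1
  θ_A : ∀ U a, Loc U → Sm a → θ (A U a) = ap U a
  mul : ∀ U a b, Loc U → a ∈ alternatingGroup (Fin n) → b ∈ alternatingGroup (Fin n) →
    (a.support ∪ b.support).card ≤ 16 → A U (a * b) = A U a * A U b
  add : ∀ U U' a, Loc U → Loc U' → Disjoint U U' → Sm a → A (U ∪ U') a = A U a * A U' a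
  orth : ∀ U U' a b, Loc U → Loc U' → Disjoint U U' → Sm a → Sm b → Commute (A U a) (A U' b)
  disj : ∀ U U' a b, Loc U → Loc U' → Sm a → Sm b → Disjoint a.support b.support →
    Commute (A U a) (A U' b)
  shift : ∀ U a (δ : D n) (v : V), Loc U → Sm a → (∀ i, a i ≠ i → δ.1 i = v) →
    τ δ * A U a * (τ δ)⁻¹ = A (v +ᵥ U) a
  gen : Subgroup.closure {γ | ∃ U a δ, Loc U ∧ a.IsThreeCycle ∧ γ = τ δ * A U a * (τ δ)⁻¹} = ⊤

/-! ### Central extensions -/

/-- The derived subgroup of the preimage. -/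
def til {Γ G : Type} [Group Γ] [Group G] (θ : Γ →* G) (H : Subgroup G) : Subgroup Γ :=
  ⁅H.comap θ, H.comap θ⁆

/-- A perfect central extension of the alternating full group. -/
structure CExt (X : Sub S) (n : ℕ) (Γ : Type) [Group Γ] where
  /-- the projection -/
  θ : Γ →* Perm (Hat X n)
  range : θ.range = Alt X n
  central : θ.ker ≤ Subgroup.center Γ
  perfect : commutator Γ = ⊤

/-- The extension splits over the groups of multisections. -/
def CExt.Split {X : Sub S} {n : ℕ} {Γ : Type} [Group Γ] (E : CExt X n Γ) : Prop :=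
  ∀ (U : Set X.Pt) (F : Finset (Site n)), Loc U → MS U F → 5 ≤ F.card →
    til E.θ (L U F) ⊓ E.θ.ker = ⊥

/-- Lifts of the double transpositions on four points of a multisection commute. -/
def CExt.ZT {X : Sub S} {n : ℕ} {Γ : Type} [Group Γ] (E : CExt X n Γ) (Z0 : Subgroup Γ) : Prop :=
  ∀ (U : Set X.Pt) (a b c d : Site n), Loc U → MS U {a, b, c, d} →
    a ≠ b → a ≠ c → a ≠ d → b ≠ c → b ≠ d → c ≠ d → ∀ u v : Γ,
      E.θ u = ms U (swap a b * swap c d) → E.θ v = ms U (swap a c * swap b d) →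
        u * v * u⁻¹ * v⁻¹ ∈ Z0

/-! ### Projections -/

section proj
variable {X : Sub S} {Ω : Finset V} {h0 : 0 ∈ Ω} {n : ℕ} {Γ : Type} [Group Γ]

open Classical in
/-- The constant permutations of the sheets. -/
noncomputable def Model.κ (M : Model X Ω h0 n Γ) (a : Perm (Fin n)) : Γ :=
  if h : a ∈ alternatingGroup (Fin n) then M.Λ fun _ => ⟨a, h⟩ else 1

/-- The part of the group living on the sheets `I`. -/
def Model.GI (M : Model X Ω h0 n Γ) (I : Finset (Fin n)) : Subgroup Γ :=
  Subgroup.closure {γ | ∃ (δ : D n) (E : Set (Ω → S)) (a : alternatingGroup (Fin n)),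
    a.1.support ⊆ I ∧ γ = M.τ δ * M.Λ (ind E a) * (M.τ δ)⁻¹}

/-- Projections of a model. -/
@[ext] structure Pr (M : Model X Ω h0 n Γ) where
  /-- the value at a permutation with small support -/
  f : Perm (Fin n) → Γ
  junk : ∀ a, ¬ Sm a → f a = 1
  mul : ∀ a b, a ∈ alternatingGroup (Fin n) → b ∈ alternatingGroup (Fin n) →
    (a.support ∪ b.support).card ≤ 16 → f (a * b) = f a * f b
  conj : ∀ c a, c ∈ alternatingGroup (Fin n) → M.κ c * f a * (M.κ c)⁻¹ = f (c * a * c⁻¹)
  mem : ∀ a (I : Finset (Fin n)), 5 ≤ I.card → a.support ⊆ I → f a ∈ M.GI I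

/-- The description of the poset of projections. -/
structure PrSpec (M : Model X Ω h0 n Γ) [ROMP (Pr M)] : Prop where
  orth : ∀ p q : Pr M, ROMP.orth p q ↔ ∀ a b, Commute (p.f a) (q.f b)
  add : ∀ p q : Pr M, ROMP.orth p q → ∀ a, (ROMP.add p q).f a = p.f a * q.f a
  zero : ∀ a, (ROMP.zero : Pr M).f a = 1
  compl : ∀ (p : Pr M) a, Sm a → (ROMP.compl p).f a = M.κ a * (p.f a)⁻¹

/-- Conjugates of the lifts by translations. -/
def Loc3.T (M : Loc3 X n Γ) (U : Set X.Pt) (a : Perm (Fin n)) (δ : D n) : Γ :=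
  M.τ δ * M.A U a * (M.τ δ)⁻¹

end proj

/-! ### Words in the groups of multisections -/

/-- A letter. -/
structure Lt (X : Sub S) (n : ℕ) where
  /-- base -/
  U : Set X.Pt
  /-- sites -/
  F : Finset (Site n)
  /-- the permutation of the sites -/
  g : X.Pt → Perm (Site n)

section words
variable {X : Sub S} {n : ℕ} {Γ : Type} [Group Γ]

/-- Weakly admissible letters (no local constancy). -/
def Lt.Pre (l : Lt X n) : Prop := MS l.U l.F ∧ ∀ x, ∀ z ∉ l.F, l.g x z = z

/-- Admissible letters. -/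
def Lt.OK (l : Lt X n) : Prop :=
  Loc l.U ∧ LocF l.g ∧ MS l.U l.F ∧ 5 ≤ l.F.card ∧ ∀ x, l.g x ∈ AltOn l.F

/-- The letter has radius `ρ`. -/
def Lt.Rad (l : Lt X n) (ρ : ℕ) : Prop :=
  (∀ z ∈ l.F, z.1 ∈ box ρ) ∧ ∀ x y, Agree (box ρ) x y → x ∈ l.U → y ∈ l.U ∧ l.g x = l.g y

/-- The permutation defined by a letter. -/
noncomputable def Lt.perm (l : Lt X n) : Perm (Hat X n) := msf l.U l.g

/-- Restriction of a letter. -/
def Lt.res (W : Set X.Pt) (l : Lt X n) : Lt X n := ⟨l.U ∩ W, l.F, l.g⟩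

/-- Inverse of a letter. -/
def Lt.inv (l : Lt X n) : Lt X n := ⟨l.U, l.F, fun x => (l.g x)⁻¹⟩

/-- The letter lives in the vertical strips `[p, q] + a ℤ` over `B`, has vertical radius `r`, and
up to height `H` it depends only on the pattern on `R`. -/
def Lt.InStrip (l : Lt X n) (a : ℕ) (B : Set X.Pt) (p q : ℤ) (R : Set V) (r H : ℕ) : Prop :=
  (∀ z ∈ l.F, |z.1.2| ≤ r) ∧
  (∀ x ∈ B, ∀ v : V, v +ᵥ x ∈ l.U →
    ∃ k : ℤ, ∀ z ∈ l.F, p + k * a ≤ z.1.1 + v.1 ∧ z.1.1 + v.1 ≤ q + k * a) ∧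
  ∀ x ∈ B, ∀ y ∈ B, Agree R x y → ∀ v : V, |v.2| ≤ H →
    (∀ z ∈ l.F, p ≤ z.1.1 + v.1 ∧ z.1.1 + v.1 ≤ q) → v +ᵥ x ∈ l.U →
      v +ᵥ y ∈ l.U ∧ l.g (v +ᵥ x) = l.g (v +ᵥ y)

/-- The permutation defined by a word. -/
noncomputable def wperm (w : List (Lt X n)) : Perm (Hat X n) := (w.map Lt.perm).prod

/-- Restriction of a word. -/
def wres (W : Set X.Pt) (w : List (Lt X n)) : List (Lt X n) := w.map (Lt.res W)

/-- Inverse of a word. -/
def winv (w : List (Lt X n)) : List (Lt X n) := (w.map Lt.inv).reverse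

open Classical in
/-- The canonical lift of a letter. -/
noncomputable def CExt.lf (E : CExt X n Γ) (l : Lt X n) : Γ :=
  if h : ∃ γ ∈ til E.θ (L l.U l.F), E.θ γ = l.perm then h.choose else 1

/-- The value of a word. -/
noncomputable def CExt.wv (E : CExt X n Γ) (w : List (Lt X n)) : Γ := (w.map E.lf).prod

/-- A part of the orbit of `x`. -/
def orb (x : X.Pt) (P : Set V) : Set X.Pt := {y | ∃ v ∈ P, y = v +ᵥ x}

/-- The net number of sites of `Q` moved upwards across the height `h`. -/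
noncomputable def fl (a : Perm (Site n)) (Q : Set (Site n)) (h : ℤ) : ℤ :=
  ({z ∈ Q | z.1.2 < h ∧ h ≤ (a z).1.2}.ncard : ℤ) - ({z ∈ Q | h ≤ z.1.2 ∧ (a z).1.2 < h}.ncard : ℤ)

/-- The flux of a word: truncate to the left half plane of the orbit of `x`. -/
noncomputable def flux (w : List (Lt X n)) (x : X.Pt) : ℤ :=
  fl (loc (wperm (wres (orb x {v | v.1 ≤ 0}) w)) x) Set.univ 0

end words

/-- Equation lemmas are realised here once and for all. -/
theorem anchor_Defs : True := by
  have := @box.eq_1; have := @box.eq_def; have := @box.congr_simp; have := @box.eq_unfold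
  have := @rect.eq_1; have := @rect.eq_def; have := @rect.congr_simp; have := @rect.eq_unfold
  have := @ax.eq_1; have := @ax.eq_def; have := @ax.congr_simp; have := @ax.eq_unfold
  have := @AltOn.eq_1; have := @AltOn.eq_def; have := @AltOn.congr_simp; have := @AltOn.eq_unfold
  have := @c3.eq_1; have := @c3.eq_def; have := @c3.congr_simp; have := @c3.eq_unfold
  have := @Sub.Pt.eq_1; have := @Sub.Pt.eq_def; have := @Sub.Pt.congr_simp; have := @Sub.Pt.eq_unfold
  have := @Agree.eq_1; have := @Agree.eq_def; have := @Agree.congr_simp; have := @Agree.eq_unfold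
  have := @Loc.eq_1; have := @Loc.eq_def; have := @Loc.congr_simp; have := @Loc.eq_unfold
  have := @LocF.eq_1; have := @LocF.eq_def; have := @LocF.congr_simp; have := @LocF.eq_unfold
  have := @cyl.eq_1; have := @cyl.eq_def; have := @cyl.congr_simp; have := @cyl.eq_unfold
  have := @Free.eq_1; have := @Free.eq_def; have := @Free.congr_simp; have := @Free.eq_unfold
  have := @Minimal.eq_1; have := @Minimal.eq_def; have := @Minimal.congr_simp; have := @Minimal.eq_unfold
  have := @SFT.eq_1; have := @SFT.eq_def; have := @SFT.congr_simp; have := @SFT.eq_unfold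
  have := @ROMP.le.eq_1; have := @ROMP.le.eq_def; have := @ROMP.le.congr_simp; have := @ROMP.le.eq_unfold
  have := @ROMP.one.eq_1; have := @ROMP.one.eq_def; have := @ROMP.one.congr_simp; have := @ROMP.one.eq_unfold
  have := @ROMP.Com.eq_1; have := @ROMP.Com.eq_def; have := @ROMP.Com.congr_simp; have := @ROMP.Com.eq_unfold
  have := @ROMP.meet.eq_1; have := @ROMP.meet.eq_def; have := @ROMP.meet.congr_simp; have := @ROMP.meet.eq_unfold
  have := @Rigid.eq_1; have := @Rigid.eq_def; have := @Rigid.congr_simp; have := @Rigid.eq_unfold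
  have := @Tower.eq_1; have := @Tower.eq_def; have := @Tower.congr_simp; have := @Tower.eq_unfold
  have := @Pat.eq_1; have := @Pat.eq_def; have := @Pat.congr_simp; have := @Pat.eq_unfold
  have := @Rank.eq_1; have := @Rank.eq_def; have := @Rank.congr_simp; have := @Rank.eq_unfold
  have := @HB.eq_1; have := @HB.eq_def; have := @HB.congr_simp; have := @HB.eq_unfold
  have := @Fault.eq_1; have := @Fault.eq_def; have := @Fault.congr_simp; have := @Fault.eq_unfold
  have := @Zone.eq_1; have := @Zone.eq_def; have := @Zone.congr_simp; have := @Zone.eq_unfold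
  have := @pt.eq_1; have := @pt.eq_def; have := @pt.congr_simp; have := @pt.eq_unfold
  have := @tr.eq_1; have := @tr.eq_def; have := @tr.congr_simp; have := @tr.eq_unfold
  have := @apf.eq_1; have := @apf.eq_def; have := @apf.congr_simp; have := @apf.eq_unfold
  have := @ap.eq_1; have := @ap.eq_def; have := @ap.congr_simp; have := @ap.eq_unfold
  have := @gens.eq_1; have := @gens.eq_def; have := @gens.congr_simp; have := @gens.eq_unfold
  have := @Alt.eq_1; have := @Alt.eq_def; have := @Alt.congr_simp; have := @Alt.eq_unfold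
  have := @MS.eq_1; have := @MS.eq_def; have := @MS.congr_simp; have := @MS.eq_unfold
  have := @IsMs.eq_1; have := @IsMs.eq_def; have := @IsMs.congr_simp; have := @IsMs.eq_unfold
  have := @msf.eq_1; have := @msf.eq_def; have := @msf.congr_simp; have := @msf.eq_unfold
  have := @ms.eq_1; have := @ms.eq_def; have := @ms.congr_simp; have := @ms.eq_unfold
  have := @L.eq_1; have := @L.eq_def; have := @L.congr_simp; have := @L.eq_unfold
  have := @HasRad.eq_1; have := @HasRad.eq_def; have := @HasRad.congr_simp; have := @HasRad.eq_unfold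
  have := @Full.eq_1; have := @Full.eq_def; have := @Full.congr_simp; have := @Full.eq_unfold
  have := @loc.eq_1; have := @loc.eq_def; have := @loc.congr_simp; have := @loc.eq_unfold
  have := @sht.eq_1; have := @sht.eq_def; have := @sht.congr_simp; have := @sht.eq_unfold
  have := @sites.eq_1; have := @sites.eq_def; have := @sites.congr_simp; have := @sites.eq_unfold
  have := @rsites.eq_1; have := @rsites.eq_def; have := @rsites.congr_simp; have := @rsites.eq_unfold
  have := @InS.eq_1; have := @InS.eq_def; have := @InS.congr_simp; have := @InS.eq_unfold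
  have := @AI.eq_1; have := @AI.eq_def; have := @AI.congr_simp; have := @AI.eq_unfold
  have := @D.eq_1; have := @D.eq_def; have := @D.congr_simp; have := @D.eq_unfold
  have := @ind.eq_1; have := @ind.eq_def; have := @ind.congr_simp; have := @ind.eq_unfold
  have := @Sm.eq_1; have := @Sm.eq_def; have := @Sm.congr_simp; have := @Sm.eq_unfold
  have := @til.eq_1; have := @til.eq_def; have := @til.congr_simp; have := @til.eq_unfold
  have := @CExt.Split.eq_1; have := @CExt.Split.eq_def; have := @CExt.Split.congr_simp; have := @CExt.Split.eq_unfold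
  have := @CExt.ZT.eq_1; have := @CExt.ZT.eq_def; have := @CExt.ZT.congr_simp; have := @CExt.ZT.eq_unfold
  have := @Model.κ.eq_1; have := @Model.κ.eq_def; have := @Model.κ.congr_simp; have := @Model.κ.eq_unfold
  have := @Model.GI.eq_1; have := @Model.GI.eq_def; have := @Model.GI.congr_simp; have := @Model.GI.eq_unfold
  have := @Loc3.T.eq_1; have := @Loc3.T.eq_def; have := @Loc3.T.congr_simp; have := @Loc3.T.eq_unfold
  have := @Lt.Pre.eq_1; have := @Lt.Pre.eq_def; have := @Lt.Pre.congr_simp; have := @Lt.Pre.eq_unfold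
  have := @Lt.OK.eq_1; have := @Lt.OK.eq_def; have := @Lt.OK.congr_simp; have := @Lt.OK.eq_unfold
  have := @Lt.Rad.eq_1; have := @Lt.Rad.eq_def; have := @Lt.Rad.congr_simp; have := @Lt.Rad.eq_unfold
  have := @Lt.perm.eq_1; have := @Lt.perm.eq_def; have := @Lt.perm.congr_simp; have := @Lt.perm.eq_unfold
  have := @Lt.res.eq_1; have := @Lt.res.eq_def; have := @Lt.res.congr_simp; have := @Lt.res.eq_unfold
  have := @Lt.inv.eq_1; have := @Lt.inv.eq_def; have := @Lt.inv.congr_simp; have := @Lt.inv.eq_unfold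
  have := @Lt.InStrip.eq_1; have := @Lt.InStrip.eq_def; have := @Lt.InStrip.congr_simp; have := @Lt.InStrip.eq_unfold
  have := @wperm.eq_1; have := @wperm.eq_def; have := @wperm.congr_simp; have := @wperm.eq_unfold
  have := @wres.eq_1; have := @wres.eq_def; have := @wres.congr_simp; have := @wres.eq_unfold
  have := @winv.eq_1; have := @winv.eq_def; have := @winv.congr_simp; have := @winv.eq_unfold
  have := @CExt.lf.eq_1; have := @CExt.lf.eq_def; have := @CExt.lf.congr_simp; have := @CExt.lf.eq_unfold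
  have := @CExt.wv.eq_1; have := @CExt.wv.eq_def; have := @CExt.wv.congr_simp; have := @CExt.wv.eq_unfold
  have := @orb.eq_1; have := @orb.eq_def; have := @orb.congr_simp; have := @orb.eq_unfold
  have := @fl.eq_1; have := @fl.eq_def; have := @fl.congr_simp; have := @fl.eq_unfold
  have := @flux.eq_1; have := @flux.eq_def; have := @flux.congr_simp; have := @flux.eq_unfold
  trivial

end Crest.Agent.R189
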