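import Crest.Agent.R189.ModelB

/-! Row 189: lifts of alternating groups of small multisections. -/

set_option autoImplicit false

namespace Crest.Agent.R189

open Equiv Pointwise

variable {S : Type} {X : Sub S} {n : ℕ} {Γ : Type} [Group Γ]

namespace FP0aAux

theorem c3_ne {α : Type} [DecidableEq α] {x y z w : α} (h : c3 x y z w ≠ w) :
    w = x ∨ w = y ∨ w = z := by
  by_contra hn
  push Not at hn
  exact h (c3_apply_of_ne hn.1 hn.2.1 hn.2.2)

theorem c3_card (x y z : Fin n) : (c3 x y z).support.card ≤ 3 := by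
  refine le_trans (Finset.card_le_card (t := {x, y, z}) fun w hw => ?_) Finset.card_le_three
  simpa using c3_ne (Perm.mem_support.1 hw)

theorem c3_alt {x y z : Fin n} (hxy : x ≠ y) (hxz : x ≠ z) :
    c3 x y z ∈ alternatingGroup (Fin n) := by
  simp [c3, Perm.mem_alternatingGroup, Perm.sign_swap hxy, Perm.sign_swap hxz]

theorem c3_sm {x y z : Fin n} (hxy : x ≠ y) (hxz : x ≠ z) : Sm (c3 x y z) :=
  ⟨c3_alt hxy hxz, (c3_card x y z).trans (by norm_num)⟩

theorem exists_fresh (I : Finset (Fin n)) (h : I.card + 2 ≤ n) :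
    ∃ j j', j ≠ j' ∧ j ∉ I ∧ j' ∉ I := by
  have : 1 < Iᶜ.card := by
    rw [Finset.card_compl, Fintype.card_fin]
    omega
  obtain ⟨j, hj, j', hj', hne⟩ := Finset.one_lt_card.1 this
  exact ⟨j, j', hne, Finset.mem_compl.1 hj, Finset.mem_compl.1 hj'⟩

/-- an offset that agrees with `δ` on the support of `a` and with `δ'` on the rest of `I` -/
theorem exists_D2 (a : Perm (Fin n)) (I : Finset (Fin n)) (h : a.support.card + I.card < n)
    (δ δ' : Fin n → V) : ∃ η : D n, (∀ i, a i ≠ i → η.1 i = δ i) ∧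
      ∀ i ∈ I, a i = i → η.1 i = δ' i := by
  obtain ⟨η, hη⟩ := exists_D (a.support ∪ I) ((Finset.card_union_le _ _).trans_lt h)
    fun i => if a i = i then δ' i else δ i
  refine ⟨η, fun i hi => ?_, fun i hi h' => ?_⟩
  · rw [hη i (Finset.mem_union_left _ (Perm.mem_support.2 hi)), if_neg hi]
  · rw [hη i (Finset.mem_union_right _ hi), if_pos h']

end FP0aAux

open FP0aAux

namespace Loc3
variable (M : Loc3 X n Γ) {U U' : Set X.Pt} {a b : Perm (Fin n)} {δ δ' : D n}

theorem τ_zero : M.τ 0 = 1 := by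
  have := M.τ_add 0 0
  rw [add_zero] at this
  exact mul_eq_left.1 this.symm

theorem τ_neg (δ : D n) : M.τ (-δ) = (M.τ δ)⁻¹ := by
  rw [eq_inv_iff_mul_eq_one, ← M.τ_add, neg_add_cancel, τ_zero]

theorem T_zero (U : Set X.Pt) (a : Perm (Fin n)) : M.T U a 0 = M.A U a := by
  rw [Loc3.T, τ_zero, one_mul, inv_one, mul_one]

theorem T_one (hU : Loc U) (δ : D n) : M.T U 1 δ = 1 := by
  have := M.mul U 1 1 hU (one_mem _) (one_mem _) (by simp)
  rw [mul_one] at this
  rw [Loc3.T, mul_eq_left.1 this.symm, mul_one, mul_inv_cancel]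

theorem T_empty (ha : Sm a) (δ : D n) : M.T ∅ a δ = 1 := by
  have := M.add ∅ ∅ a Loc.empty Loc.empty (Set.disjoint_empty _) ha
  rw [Set.union_self] at this
  rw [Loc3.T, mul_eq_left.1 this.symm, mul_one, mul_inv_cancel]

theorem θ_T (hU : Loc U) (ha : Sm a) (δ : D n) :
    M.θ (M.T U a δ) = tr δ.1 * ap U a * (tr δ.1)⁻¹ := by
  rw [Loc3.T, map_mul, map_mul, map_inv, M.θ_τ, M.θ_A U a hU ha]

theorem T_mul (hU : Loc U) (ha : a ∈ alternatingGroup (Fin n))
    (hb : b ∈ alternatingGroup (Fin n)) (hc : (a.support ∪ b.support).card ≤ 16) (δ : D n) :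
    M.T U (a * b) δ = M.T U a δ * M.T U b δ := by
  simp only [Loc3.T]
  rw [M.mul U a b hU ha hb hc]
  group

theorem T_inv (hU : Loc U) (ha : Sm a) (δ : D n) : M.T U a⁻¹ δ = (M.T U a δ)⁻¹ := by
  rw [eq_inv_iff_mul_eq_one, ← M.T_mul hU (inv_mem ha.1) ha.1 (by simpa using ha.2),
    inv_mul_cancel, M.T_one hU]

theorem T_union (hU : Loc U) (hU' : Loc U') (hd : Disjoint U U') (ha : Sm a) (δ : D n) :
    M.T (U ∪ U') a δ = M.T U a δ * M.T U' a δ := by
  simp only [Loc3.T]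
  rw [M.add U U' a hU hU' hd ha]
  group

theorem T_shift (hU : Loc U) (ha : Sm a) {v : V} (h : ∀ i, a i ≠ i → δ'.1 i = δ.1 i + v) :
    M.T (v +ᵥ U) a δ = M.T U a δ' := by
  have h1 := M.shift U a (δ' - δ) v hU ha fun i hi => by
    change δ'.1 i - δ.1 i = v
    rw [h i hi, add_sub_cancel_left]
  have h2 : M.τ δ' = M.τ δ * M.τ (δ' - δ) := by rw [← M.τ_add, add_sub_cancel]
  simp only [Loc3.T]
  rw [← h1, h2]
  group

theorem T_congr (hU : Loc U) (ha : Sm a) (h : ∀ i, a i ≠ i → δ.1 i = δ'.1 i) :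
    M.T U a δ = M.T U a δ' := by
  have := M.T_shift (δ := δ) (δ' := δ') (v := 0) hU ha fun i hi => by rw [add_zero, h i hi]
  rwa [zero_vadd] at this

end Loc3

namespace FP0aAux
variable (M : Loc3 X n Γ) {U U' : Set X.Pt} {a b : Perm (Fin n)} {δ δ' η : D n}

theorem conj_commute {g x y : Γ} (h : Commute x y) : Commute (g * x * g⁻¹) (g * y * g⁻¹) := by
  have := h.map (MulAut.conj g)
  simpa using this

theorem T_conj (hU : Loc U) {c : Perm (Fin n)} (hc : c ∈ alternatingGroup (Fin n))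
    (hb : b ∈ alternatingGroup (Fin n)) (h : (c.support ∪ b.support).card ≤ 16) (δ : D n) :
    M.T U c δ * M.T U b δ * (M.T U c δ)⁻¹ = M.T U (c * b * c⁻¹) δ := by
  have hc' : Sm c := ⟨hc, (Finset.card_le_card Finset.subset_union_left).trans h⟩
  rw [M.T_mul hU (mul_mem hc hb) (inv_mem hc), M.T_mul hU hc hb h, M.T_inv hU hc']
  refine (Finset.card_le_card ?_).trans h
  rw [Perm.support_inv]
  exact Finset.union_subset (Perm.support_mul_le c b) Finset.subset_union_left

/-- conjugation by a three-cycle that moves the sheet `i` to the fresh sheet `j` -/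
theorem move (hn : 50 ≤ n) (hU : Loc U) (hb : b ∈ alternatingGroup (Fin n))
    (hb3 : b.support.card ≤ 3) {i j j' : Fin n} (hij : i ≠ j) (hij' : i ≠ j') (hj : b j = j)
    (hj' : b j' = j') {w : V} (h1 : η.1 i = w) (h2 : η.1 j = w) (h3 : η.1 j' = w)
    (hi : b i ≠ i → δ.1 i = w) :
    ∃ δ'' : D n, (∀ k, b k ≠ k → δ''.1 k = δ.1 k) ∧ δ''.1 j = w ∧
      M.T U (c3 i j' j) η * M.T U b δ * (M.T U (c3 i j' j) η)⁻¹ =
        M.T U (c3 i j' j * b * (c3 i j' j)⁻¹) δ'' := by
  obtain ⟨δ'', e1, e2⟩ := exists_D2 b {i, j', j}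
    (by have := Finset.card_le_three (a := i) (b := j') (c := j); omega) δ.1 fun _ => w
  have hb' : Sm b := ⟨hb, hb3.trans (by norm_num)⟩
  refine ⟨δ'', e1, e2 j (by simp) hj, ?_⟩
  rw [M.T_congr (δ := η) (δ' := δ'') hU (c3_sm hij' hij), M.T_congr (δ := δ) (δ' := δ'') hU hb'
    fun k hk => (e1 k hk).symm, T_conj M hU (c3_alt hij' hij) hb]
  · have := c3_card i j' j
    have := Finset.card_union_le (c3 i j' j).support b.support
    omega
  · intro k hk
    rcases c3_ne hk with rfl | rfl | rfl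
    · by_cases hbk : b k = k
      · rw [h1, e2 k (by simp) hbk]
      · rw [h1, e1 k hbk, hi hbk]
    · rw [h3, e2 k (by simp) hj']
    · rw [h2, e2 k (by simp) hj]

theorem comm1 (hn : 50 ≤ n) (hU : Loc U) (hU' : Loc U') (ha : Sm a) {i j j' : Fin n}
    (hij : i ≠ j) (hij' : i ≠ j') (hj : a j = j) (hj' : a j' = j') {w : V} (h1 : η.1 i = w)
    (h2 : η.1 j = w) (h3 : η.1 j' = w) (hd : Disjoint (δ.1 i +ᵥ U) (w +ᵥ U')) :
    Commute (M.T U a δ) (M.T U' (c3 i j' j) η) := by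
  obtain ⟨δ'', e1, e2⟩ := exists_D2 a {i, j', j}
    (by have := Finset.card_le_three (a := i) (b := j') (c := j); have := ha.2; omega) δ.1
    fun _ => δ.1 i
  rw [M.T_congr (δ := δ) (δ' := δ'') hU ha fun k hk => (e1 k hk).symm,
    ← M.T_shift (δ := δ'') (δ' := η) (v := w - δ.1 i) hU' (c3_sm hij' hij)]
  · refine conj_commute (M.orth _ _ _ _ hU (hU'.vadd _) ?_ ha (c3_sm hij' hij))
    rwa [← Set.disjoint_vadd_set (a := δ.1 i), vadd_vadd, add_sub_cancel]
  · intro k hk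
    have : δ''.1 k = δ.1 i := by
      rcases c3_ne hk with rfl | rfl | rfl
      · by_cases hak : a k = k
        · exact e2 k (by simp) hak
        · exact e1 k hak
      · exact e2 k (by simp) hj'
      · exact e2 k (by simp) hj
    rw [this, add_sub_cancel]
    rcases c3_ne hk with rfl | rfl | rfl <;> assumption

theorem comm3 (hn : 50 ≤ n) (hU : Loc U) (hU' : Loc U') (ha : Sm a) (k : ℕ) :
    ∀ (b : Perm (Fin n)) (δ' : D n), b ∈ alternatingGroup (Fin n) → b.support.card ≤ 3 →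
      (a.support ∩ b.support).card = k →
      (∀ i, a i ≠ i → b i ≠ i → Disjoint (δ.1 i +ᵥ U) (δ'.1 i +ᵥ U')) →
      Commute (M.T U a δ) (M.T U' b δ') := by
  induction k with
  | zero =>
    intro b δ' hb hb3 hk _
    have hd : Disjoint a.support b.support :=
      Finset.disjoint_iff_inter_eq_empty.2 (Finset.card_eq_zero.1 hk)
    have hb' : Sm b := ⟨hb, hb3.trans (by norm_num)⟩
    obtain ⟨η, e1, e2⟩ := exists_D2 a b.support (by have := ha.2; omega) δ.1 δ'.1
    rw [M.T_congr (δ := δ) (δ' := η) hU ha fun k hk => (e1 k hk).symm,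
      M.T_congr (δ := δ') (δ' := η) hU' hb' fun k hk => (e2 k (Perm.mem_support.2 hk)
        (Perm.notMem_support.1 (Finset.disjoint_right.1 hd (Perm.mem_support.2 hk)))).symm]
    exact conj_commute (M.disj _ _ _ _ hU hU' ha hb' hd)
  | succ k ih =>
    intro b δ' hb hb3 hk h
    obtain ⟨i, hi⟩ := Finset.card_pos.1 (hk.symm ▸ Nat.succ_pos k : 0 < (a.support ∩ b.support).card)
    obtain ⟨hia, hib⟩ := Finset.mem_inter.1 hi
    obtain ⟨j, j', hjj', hj, hj'⟩ := exists_fresh (a.support ∪ b.support)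
      (by have := Finset.card_union_le a.support b.support; have := ha.2; omega)
    simp only [Finset.mem_union, not_or] at hj hj'
    have hij : i ≠ j := fun e => hj.1 (e ▸ hia)
    have hij' : i ≠ j' := fun e => hj'.1 (e ▸ hia)
    obtain ⟨η, hη⟩ := exists_D {i, j', j}
      (by have := Finset.card_le_three (a := i) (b := j') (c := j); omega) fun _ => δ'.1 i
    obtain ⟨δ'', e1, -, e3⟩ := move M (δ := δ') hn hU' hb hb3 hij hij'
      (Perm.notMem_support.1 hj.2) (Perm.notMem_support.1 hj'.2) (hη i (by simp))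
      (hη j (by simp)) (hη j' (by simp)) fun _ => rfl
    have c1 := comm1 M hn hU hU' ha hij hij' (Perm.notMem_support.1 hj.1)
      (Perm.notMem_support.1 hj'.1) (hη i (by simp)) (hη j (by simp)) (hη j' (by simp))
      (h i (Perm.mem_support.1 hia) (Perm.mem_support.1 hib))
    have hs : a.support ∩ (c3 i j' j * b * (c3 i j' j)⁻¹).support =
        (a.support ∩ b.support).erase i := by
      ext l
      rw [Perm.support_conj, Finset.mem_erase, Finset.mem_inter, Finset.mem_inter, Finset.mem_map]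
      constructor
      · rintro ⟨hl, l', hl', rfl⟩
        change c3 i j' j l' ∈ _ at hl
        change c3 i j' j l' ≠ i ∧ c3 i j' j l' ∈ _ ∧ c3 i j' j l' ∈ _
        by_cases h1 : l' = i
        · rw [h1, c3_apply_fst hij' hij hjj'.symm] at hl
          exact absurd hl hj.1
        · rw [c3_apply_of_ne (y := j') (z := j) h1 (fun e => hj'.2 (e ▸ hl'))
            (fun e => hj.2 (e ▸ hl'))] at hl ⊢
          exact ⟨h1, hl, hl'⟩
      · rintro ⟨h1, hl, hl'⟩
        exact ⟨hl, l, hl', c3_apply_of_ne h1 (fun e => hj'.2 (e ▸ hl')) fun e => hj.2 (e ▸ hl')⟩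
    have c2 := ih (c3 i j' j * b * (c3 i j' j)⁻¹) δ''
      (mul_mem (mul_mem (c3_alt hij' hij) hb) (inv_mem (c3_alt hij' hij)))
      (by rwa [Perm.card_support_conj]) (by rw [hs, Finset.card_erase_of_mem hi, hk]; rfl)
      fun l hl hl' => by
        have : l ∈ (a.support ∩ b.support).erase i :=
          hs ▸ Finset.mem_inter.2 ⟨Perm.mem_support.2 hl, Perm.mem_support.2 hl'⟩
        have hlb := Perm.mem_support.1 (Finset.mem_inter.1 (Finset.mem_of_mem_erase this)).2
        rw [e1 l hlb]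
        exact h l hl hlb
    rw [← e3] at c2
    have := (c1.inv_right.mul_right c2).mul_right c1
    simpa [mul_assoc] using this

end FP0aAux

namespace Loc3
variable (M : Loc3 X n Γ) {U U' : Set X.Pt} {a b : Perm (Fin n)} {δ δ' : D n}

/-- Disjoint supports commute. -/
theorem T_commute (hn : 50 ≤ n) (hU : Loc U) (hU' : Loc U') (ha : Sm a) (hb : Sm b)
    (h : ∀ i, a i ≠ i → b i ≠ i → Disjoint (δ.1 i +ᵥ U) (δ'.1 i +ᵥ U')) :
    Commute (M.T U a δ) (M.T U' b δ') := by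
  refine AltOn.c3_induction (F := b.support) (fun c => Commute (M.T U a δ) (M.T U' c δ')) ?_ ?_ ?_
    b (mem_AltOn_iff.2 ⟨hb.1, subset_rfl⟩)
  · rw [M.T_one hU']
    exact Commute.one_right _
  · intro x hx y hy z hz hxy hxz _
    refine comm3 M hn hU hU' ha _ _ _ (c3_alt hxy hxz) (c3_card x y z) rfl fun i hi hi' => ?_
    refine h i hi (Perm.mem_support.1 ?_)
    rcases c3_ne hi' with rfl | rfl | rfl <;> assumption
  · intro c hc d hd h1 h2
    obtain ⟨c1, c2⟩ := mem_AltOn_iff.1 hc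
    obtain ⟨d1, d2⟩ := mem_AltOn_iff.1 hd
    rw [M.T_mul hU' c1 d1 ((Finset.card_le_card (Finset.union_subset c2 d2)).trans hb.2)]
    exact h1.mul_right h2

end Loc3

namespace FP0aAux
variable (M : Loc3 X n Γ) {U : Set X.Pt}

theorem exists_jj (hn : 50 ≤ n) {F : Finset (Site n)} (hc : F.card ≤ 15) :
    ∃ j j' : Site n → Fin n, (∀ v ∈ F, ∀ w ∈ F, j v = j w → v = w) ∧
      (∀ v ∈ F, ∀ w ∈ F, j v ≠ j' w) ∧ (∀ v ∈ F, ∀ w ∈ F, w.2 ≠ j v) ∧
      ∀ v ∈ F, ∀ w ∈ F, w.2 ≠ j' v := by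
  obtain ⟨e, he⟩ := Function.Embedding.exists_of_card_le_finset (α := F × Bool)
    (s := (F.image Prod.snd)ᶜ) (by
      have := Finset.card_image_le (s := F) (f := Prod.snd)
      rw [Finset.card_compl, Fintype.card_fin, Fintype.card_prod, Fintype.card_coe,
        Fintype.card_bool]
      omega)
  have he' : ∀ t, ∀ w ∈ F, w.2 ≠ e t := fun t w hw h =>
    Finset.mem_compl.1 (Finset.mem_coe.1 (he ⟨t, rfl⟩)) (h ▸ Finset.mem_image_of_mem _ hw)
  refine ⟨fun v => if h : v ∈ F then e (⟨v, h⟩, true) else v.2,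
    fun v => if h : v ∈ F then e (⟨v, h⟩, false) else v.2, fun v hv w hw h => ?_,
    fun v hv w hw h => ?_, fun v hv w hw => ?_, fun v hv w hw => ?_⟩
  · simpa [hv, hw] using h
  · simp [hv, hw] at h
  · simpa [hv] using he' _ w hw
  · simpa [hv] using he' _ w hw

theorem exists_mu (hn : 50 ≤ n) (hU : Loc U) {F : Finset (Site n)} (hF : MS U F)
    {j j' : Site n → Fin n} (hj : ∀ v ∈ F, ∀ w ∈ F, j v = j w → v = w)
    (hjj : ∀ v ∈ F, ∀ w ∈ F, j v ≠ j' w) (hs : ∀ v ∈ F, ∀ w ∈ F, w.2 ≠ j v)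
    (hs' : ∀ v ∈ F, ∀ w ∈ F, w.2 ≠ j' v) (F0 : Finset (Site n)) (h0 : F0 ⊆ F) :
    ∃ μ : Γ, ∀ s : Site n → Fin n, (∀ v, s v = if v ∈ F0 then j v else v.2) →
      ∀ x ∈ F, ∀ y ∈ F, ∀ z ∈ F, x.2 ≠ y.2 → x.2 ≠ z.2 → y.2 ≠ z.2 → ∀ δ : D n,
        δ.1 x.2 = x.1 → δ.1 y.2 = y.1 → δ.1 z.2 = z.1 → ∃ δ' : D n,
          (∀ v, v = x ∨ v = y ∨ v = z → δ'.1 (s v) = v.1) ∧
          μ * M.T U (c3 x.2 y.2 z.2) δ * μ⁻¹ = M.T U (c3 (s x) (s y) (s z)) δ' := by
  induction F0 using Finset.induction_on with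
  | empty =>
    refine ⟨1, fun s hs x _ y _ z _ _ _ _ δ h1 h2 h3 => ⟨δ, ?_, ?_⟩⟩
    · rintro v (rfl | rfl | rfl) <;> simpa [hs]
    · simp [hs]
  | insert w F0 hw ih =>
    have hwF : w ∈ F := h0 (Finset.mem_insert_self _ _)
    obtain ⟨μ, hμ⟩ := ih ((Finset.subset_insert _ _).trans h0)
    obtain ⟨η, hη⟩ := exists_D {w.2, j' w, j w}
      (by have := Finset.card_le_three (a := w.2) (b := j' w) (c := j w); omega) fun _ => w.1
    refine ⟨M.T U (c3 w.2 (j' w) (j w)) η * μ,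
      fun s' hs'' x hx y hy z hz hxy hxz hyz δ h1 h2 h3 => ?_⟩
    obtain ⟨s, hs0⟩ : ∃ s : Site n → Fin n, ∀ v, s v = if v ∈ F0 then j v else v.2 :=
      ⟨_, fun _ => rfl⟩
    obtain ⟨δ', e1, e2⟩ := hμ s hs0 x hx y hy z hz hxy hxz hyz δ h1 h2 h3
    have hPF : ∀ v, v = x ∨ v = y ∨ v = z → v ∈ F := by
      rintro v (rfl | rfl | rfl) <;> assumption
    have hne : ∀ v ∈ F, ∀ v' ∈ F, v.2 ≠ v'.2 → s v ≠ s v' := fun v hv v' hv' h => by
      rw [hs0, hs0]
      split_ifs
      · exact fun e => h (congrArg Prod.snd (hj v hv v' hv' e))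
      · exact (hs v hv v' hv').symm
      · exact hs v' hv' v hv
      · exact h
    have n1 := hne x hx y hy hxy
    have n2 := hne x hx z hz hxz
    have n3 := hne y hy z hz hyz
    have hsw : s w = w.2 := by rw [hs0, if_neg hw]
    have hsw' : s' w = j w := by rw [hs'', if_pos (Finset.mem_insert_self _ _)]
    have hss : ∀ v, v ≠ w → s' v = s v := fun v hv => by simp [hs'', hs0, hv]
    have hsj : ∀ v ∈ F, j w ≠ s v := fun v hv => by
      rw [hs0]
      split_ifs with h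
      · exact fun e => hw (hj w hwF v hv e ▸ h)
      · exact (hs w hwF v hv).symm
    have hsj' : ∀ v ∈ F, j' w ≠ s v := fun v hv => by
      rw [hs0]
      split_ifs with h
      · exact (hjj v hv w hwF).symm
      · exact (hs' w hwF v hv).symm
    have e3 : M.T U (c3 w.2 (j' w) (j w)) η * μ * M.T U (c3 x.2 y.2 z.2) δ *
        (M.T U (c3 w.2 (j' w) (j w)) η * μ)⁻¹ = M.T U (c3 w.2 (j' w) (j w)) η *
          M.T U (c3 (s x) (s y) (s z)) δ' * (M.T U (c3 w.2 (j' w) (j w)) η)⁻¹ := by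
      rw [← e2]
      group
    rw [e3]
    by_cases hP : w = x ∨ w = y ∨ w = z
    · obtain ⟨δ'', f1, f2, f3⟩ := move M (δ := δ') hn hU (c3_alt n1 n2) (c3_card _ _ _)
        (hs w hwF w hwF) (hs' w hwF w hwF) (c3_apply_of_ne (hsj x hx) (hsj y hy) (hsj z hz))
        (c3_apply_of_ne (hsj' x hx) (hsj' y hy) (hsj' z hz)) (hη _ (by simp)) (hη _ (by simp))
        (hη _ (by simp)) fun _ => hsw ▸ e1 w hP
      have hc : ∀ v, v = x ∨ v = y ∨ v = z → c3 w.2 (j' w) (j w) (s v) = s' v := fun v hv => by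
        by_cases hvw : v = w
        · rw [hvw, hsw, hsw', c3_apply_fst (hs' w hwF w hwF) (hs w hwF w hwF)
            (hjj w hwF w hwF).symm]
        · rw [hss v hvw, c3_apply_of_ne _ (hsj' v (hPF v hv)).symm (hsj v (hPF v hv)).symm]
          rw [← hsw]
          refine hne v (hPF v hv) w hwF ?_
          rcases hv with rfl | rfl | rfl <;> rcases hP with rfl | rfl | rfl <;>
            first | exact absurd rfl hvw | assumption | exact Ne.symm (by assumption)
      refine ⟨δ'', fun v hv => ?_, ?_⟩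
      · by_cases hvw : v = w
        · rw [hvw, hsw', f2]
        · rw [hss v hvw, f1, e1 v hv]
          rw [← Perm.mem_support, support_c3 n1 n2 n3]
          rcases hv with rfl | rfl | rfl <;> simp
      · rw [f3, conj_c3, hc x (by simp), hc y (by simp), hc z (by simp)]
    · have hvw : ∀ v, v = x ∨ v = y ∨ v = z → v ≠ w := fun v hv e => hP (e ▸ hv)
      refine ⟨δ', fun v hv => by rw [hss v (hvw v hv), e1 v hv], ?_⟩
      rw [hss x (hvw x (by simp)), hss y (hvw y (by simp)), hss z (hvw z (by simp)),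
        (M.T_commute hn hU hU (c3_sm (hs' w hwF w hwF) (hs w hwF w hwF)) (c3_sm n1 n2) ?_).eq,
        mul_inv_cancel_right]
      intro i hi hi'
      obtain ⟨v, hv, rfl⟩ : ∃ v, (v = x ∨ v = y ∨ v = z) ∧ i = s v := by
        rcases c3_ne hi' with rfl | rfl | rfl
        · exact ⟨x, by simp, rfl⟩
        · exact ⟨y, by simp, rfl⟩
        · exact ⟨z, by simp, rfl⟩
      rw [e1 v hv, hη _ (by simpa using c3_ne hi)]
      refine MS.iff.1 hF w hwF v (hPF v hv) ?_ (hvw v hv).symm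
      rcases c3_ne hi with h | h | h
      · rw [hs0] at h
        split_ifs at h
        · exact absurd h.symm (hs v (hPF v hv) w hwF)
        · exact h.symm
      · exact absurd h.symm (hsj' v (hPF v hv))
      · exact absurd h.symm (hsj v (hPF v hv))

end FP0aAux

namespace Loc3
variable (M : Loc3 X n Γ) {U : Set X.Pt}

/-- The alternating group of a small multisection lifts. -/
theorem exists_lam (hn : 50 ≤ n) (hU : Loc U) {F : Finset (Site n)} (hF : MS U F)
    (hc : F.card ≤ 15) : ∃ lam : Perm (Site n) → Γ,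
      (∀ g ∈ AltOn F, ∀ g' ∈ AltOn F, lam (g * g') = lam g * lam g') ∧
      ∀ x ∈ F, ∀ y ∈ F, ∀ z ∈ F, x.2 ≠ y.2 → x.2 ≠ z.2 → y.2 ≠ z.2 → ∀ δ : D n,
        δ.1 x.2 = x.1 → δ.1 y.2 = y.1 → δ.1 z.2 = z.1 →
          lam (c3 x y z) = M.T U (c3 x.2 y.2 z.2) δ := by
  classical
  obtain ⟨j, j', hj, hjj, hs, hs'⟩ := exists_jj hn hc
  obtain ⟨μ, hμ⟩ := exists_mu M hn hU hF hj hjj hs hs' F subset_rfl
  have hinj : Set.InjOn j F := fun v hv w hw h => hj v hv w hw h
  obtain ⟨φ, p1, p2, -, p4⟩ := AltOn.exists_hom j hinj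
  have hcard : (F.image j).card ≤ 15 := Finset.card_image_le.trans hc
  obtain ⟨η, hη⟩ := exists_D (F.image j) (by omega)
    fun i => if h : ∃ v ∈ F, j v = i then h.choose.1 else 0
  have hη' : ∀ v ∈ F, η.1 (j v) = v.1 := fun v hv => by
    have h : ∃ v' ∈ F, j v' = j v := ⟨v, hv, rfl⟩
    rw [hη _ (Finset.mem_image_of_mem _ hv), dif_pos h,
      hj _ h.choose_spec.1 v hv h.choose_spec.2]
  refine ⟨fun g => μ⁻¹ * M.T U (φ g) η * μ, fun g hg g' hg' => ?_,
    fun x hx y hy z hz hxy hxz hyz δ h1 h2 h3 => ?_⟩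
  · obtain ⟨c1, c2⟩ := mem_AltOn_iff.1 (p1 g hg)
    obtain ⟨d1, d2⟩ := mem_AltOn_iff.1 (p1 g' hg')
    simp only
    rw [p2 g hg g' hg', M.T_mul hU c1 d1
      ((Finset.card_le_card (Finset.union_subset c2 d2)).trans (by omega))]
    group
  · obtain ⟨δ', e1, e2⟩ := hμ _ (fun _ => rfl) x hx y hy z hz hxy hxz hyz δ h1 h2 h3
    have f1 := e1 x (by simp)
    have f2 := e1 y (by simp)
    have f3 := e1 z (by simp)
    simp only [if_pos hx, if_pos hy, if_pos hz] at e2 f1 f2 f3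
    simp only
    rw [p4 x hx y hy z hz, M.T_congr (δ := η) (δ' := δ') hU
      (c3_sm (fun e => hxy (congrArg Prod.snd (hj x hx y hy e)))
        fun e => hxz (congrArg Prod.snd (hj x hx z hz e))), ← e2]
    · group
    · intro i hi
      rcases c3_ne hi with rfl | rfl | rfl
      · rw [hη' x hx, f1]
      · rw [hη' y hy, f2]
      · rw [hη' z hz, f3]

end Loc3

end Crest.Agent.R189
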