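import Crest.Agent.R189.FP0a

/-! Row 189: a group with local lifts is a central extension of its image. -/

set_option autoImplicit false

namespace Crest.Agent.R189

open Equiv Pointwise

namespace FP0bAux

variable {S : Type} {X : Sub S} {n : ℕ} {Γ : Type} [Group Γ]

/-- the two properties of `Loc3.exists_lam` -/
private def Gd (M : Loc3 X n Γ) (U : Set X.Pt) (F : Finset (Site n))
    (lam : Perm (Site n) → Γ) : Prop :=
  (∀ g ∈ AltOn F, ∀ g' ∈ AltOn F, lam (g * g') = lam g * lam g') ∧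
    ∀ x ∈ F, ∀ y ∈ F, ∀ z ∈ F, x.2 ≠ y.2 → x.2 ≠ z.2 → y.2 ≠ z.2 → ∀ δ : D n,
      δ.1 x.2 = x.1 → δ.1 y.2 = y.1 → δ.1 z.2 = z.1 →
        lam (c3 x y z) = M.T U (c3 x.2 y.2 z.2) δ

/-- `γ` is the canonical lift of the three-cycle on the sites `x`, `y`, `z` over `U` -/
private def IsT (M : Loc3 X n Γ) (U : Set X.Pt) (x y z : Site n) (γ : Γ) : Prop :=
  ∃ p q : Fin n, p ≠ q ∧ (∀ w ∈ ({x, y, z} : Finset (Site n)), w.2 ≠ p ∧ w.2 ≠ q) ∧
    ∃ lam, Gd M U ({x, y, z} ∪ {(0, p), (0, q)}) lam ∧ γ = lam (c3 x y z)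

/-- the action on sites of a generator restricted to the shifts `Vs` -/
private def mv (a : Perm (Fin n)) (δ : Fin n → V) (Vs : Finset V) (w : Site n) : Site n :=
  if w.1 - δ w.2 ∈ Vs then (δ (a w.2) + (w.1 - δ w.2), a w.2) else w

variable {M : Loc3 X n Γ} {U : Set X.Pt} {F F' : Finset (Site n)} {lam lam' : Perm (Site n) → Γ}

private theorem Gd.mono (h : Gd M U F lam) (hF : F' ⊆ F) : Gd M U F' lam :=
  ⟨fun g hg g' hg' => h.1 g (AltOn.mono hF hg) g' (AltOn.mono hF hg'),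
    fun x hx y hy z hz => h.2 x (hF hx) y (hF hy) z (hF hz)⟩

private theorem Gd.one (h : Gd M U F lam) : lam 1 = 1 := by
  have := h.1 1 (one_mem _) 1 (one_mem _)
  rw [mul_one] at this
  exact left_eq_mul.1 this

private theorem Gd.inv (h : Gd M U F lam) {g : Perm (Site n)} (hg : g ∈ AltOn F) :
    lam g⁻¹ = (lam g)⁻¹ := by
  have := h.1 g hg g⁻¹ (inv_mem hg)
  rw [mul_inv_cancel, h.one] at this
  exact (eq_inv_of_mul_eq_one_right this.symm)

theorem exists_D3 (hn : 50 ≤ n) {x y z : Site n} (hxy : x.2 ≠ y.2) (hxz : x.2 ≠ z.2)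
    (hyz : y.2 ≠ z.2) : ∃ δ : D n, δ.1 x.2 = x.1 ∧ δ.1 y.2 = y.1 ∧ δ.1 z.2 = z.1 := by
  obtain ⟨δ, hδ⟩ := exists_D ({x.2, y.2, z.2} : Finset (Fin n))
    (lt_of_le_of_lt Finset.card_le_three (by omega))
    (fun i => if i = x.2 then x.1 else if i = y.2 then y.1 else z.1)
  refine ⟨δ, ?_, ?_, ?_⟩
  · rw [hδ _ (by simp)]; simp
  · rw [hδ _ (by simp)]; simp [hxy.symm]
  · rw [hδ _ (by simp)]; simp [hxz.symm, hyz.symm]

theorem exists_fresh (I : Finset (Fin n)) (h : I.card + 2 ≤ n) :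
    ∃ p q : Fin n, p ≠ q ∧ p ∉ I ∧ q ∉ I := by
  have : 1 < Iᶜ.card := by
    rw [Finset.card_compl, Fintype.card_fin]; omega
  obtain ⟨p, hp, q, hq, hpq⟩ := Finset.one_lt_card.1 this
  exact ⟨p, q, hpq, Finset.mem_compl.1 hp, Finset.mem_compl.1 hq⟩

theorem sm_c3 {i j k : Fin n} (hij : i ≠ j) (hik : i ≠ k) (hjk : j ≠ k) : Sm (c3 i j k) := by
  refine ⟨(isThreeCycle_iff_c3.2 ⟨i, j, k, hij, hik, hjk, rfl⟩).mem_alternatingGroup, ?_⟩
  rw [support_c3 hij hik hjk]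
  exact Finset.card_le_three.trans (by norm_num)

theorem c3_moved {α : Type} [DecidableEq α] {i j k m : α} (h : c3 i j k m ≠ m) :
    m = i ∨ m = j ∨ m = k := by
  by_contra h'
  push Not at h'
  exact h (c3_apply_of_ne h'.1 h'.2.1 h'.2.2)

/-- induction over the three-cycles through two sites on fresh sheets -/
private theorem Gd.ind (hn : 50 ≤ n) (h : Gd M U F lam) {G : Finset (Site n)} {p q : Fin n}
    (hpq : p ≠ q) (hG : ∀ w ∈ G, w.2 ≠ p ∧ w.2 ≠ q) (hF : G ∪ {(0, p), (0, q)} ⊆ F)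
    (Q : Perm (Site n) → Γ → Prop) (h1 : Q 1 1)
    (hmul : ∀ g ∈ AltOn (G ∪ {(0, p), (0, q)}), ∀ g' ∈ AltOn (G ∪ {(0, p), (0, q)}), ∀ γ γ',
      Q g γ → Q g' γ' → Q (g * g') (γ * γ'))
    (hinv : ∀ g ∈ AltOn (G ∪ {(0, p), (0, q)}), ∀ γ, Q g γ → Q g⁻¹ γ⁻¹)
    (hgen : ∀ w ∈ G, ∀ δ : D n, δ.1 w.2 = w.1 → δ.1 p = 0 → δ.1 q = 0 →
      Q (c3 w (0, p) (0, q)) (M.T U (c3 w.2 p q) δ)) :
    ∀ g ∈ AltOn (G ∪ {(0, p), (0, q)}), Q g (lam g) := by
  have h' := h.mono hF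
  have hp : ((0, p) : Site n) ∈ G ∪ {(0, p), (0, q)} := by simp
  have hq : ((0, q) : Site n) ∈ G ∪ {(0, p), (0, q)} := by simp
  have hpq' : ((0, p) : Site n) ≠ (0, q) := fun e => hpq (congrArg Prod.snd e)
  have hcl := AltOn_eq_closure_two hp hq hpq'
  intro g hg
  have hg' := hg
  rw [hcl] at hg'
  induction hg' using Subgroup.closure_induction with
  | mem g hg' =>
    obtain ⟨w, hw, hwp, hwq, rfl⟩ := hg'
    have hwG : w ∈ G := by
      rcases Finset.mem_union.1 hw with h | h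
      · exact h
      · simp [hwp, hwq] at h
    obtain ⟨δ, h1, h2, h3⟩ := exists_D3 hn (x := w) (y := (0, p)) (z := (0, q)) (hG w hwG).1
      (hG w hwG).2 hpq
    rw [h'.2 w hw _ hp _ hq (hG w hwG).1 (hG w hwG).2 hpq δ h1 h2 h3]
    exact hgen w hwG δ h1 h2 h3
  | one => rw [h.one]; exact h1
  | mul g g' hg₁ hg₂ ih ih' =>
    rw [← hcl] at hg₁ hg₂
    rw [h'.1 g hg₁ g' hg₂]
    exact hmul g hg₁ g' hg₂ _ _ (ih hg₁) (ih' hg₂)
  | inv g hg₁ ih =>
    rw [← hcl] at hg₁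
    rw [h'.inv hg₁]
    exact hinv g hg₁ _ (ih hg₁)

private theorem IsT.eq (hn : 50 ≤ n) {x y z : Site n} (hxy : x ≠ y) (hxz : x ≠ z)
    {p q : Fin n} (hpq : p ≠ q) (hG : ∀ w ∈ ({x, y, z} : Finset (Site n)), w.2 ≠ p ∧ w.2 ≠ q)
    (h : Gd M U ({x, y, z} ∪ {(0, p), (0, q)}) lam)
    (h' : Gd M U ({x, y, z} ∪ {(0, p), (0, q)}) lam') : lam (c3 x y z) = lam' (c3 x y z) := by
  refine h.ind hn hpq hG (subset_refl _) (fun g γ => γ = lam' g) h'.one.symm ?_ ?_ ?_ _
    (c3_mem_AltOn hxy hxz (by simp) (by simp) (by simp))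
  · rintro g hg g' hg' _ _ rfl rfl
    exact (h'.1 g hg g' hg').symm
  · rintro g hg _ rfl
    exact (h'.inv hg).symm
  · intro w hw δ h1 h2 h3
    exact (h'.2 w (Finset.mem_union_left _ hw) (0, p) (by simp) (0, q) (by simp) (hG w hw).1
      (hG w hw).2 hpq δ h1 h2 h3).symm

private theorem IsT.unique (hn : 50 ≤ n) (hU : Loc U) {x y z : Site n} (hxy : x ≠ y)
    (hxz : x ≠ z) (hMS : MS U {x, y, z}) {γ γ' : Γ} (h : IsT M U x y z γ)
    (h' : IsT M U x y z γ') : γ = γ' := by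
  obtain ⟨p, q, hpq, hG, lam, hl, rfl⟩ := h
  obtain ⟨p', q', hpq', hG', lam', hl', rfl⟩ := h'
  have hMS' : MS U ({x, y, z} ∪ ({(0, p), (0, q)} ∪ {(0, p'), (0, q')})) := by
    refine hMS.union_fresh (MS.of_sheets ?_) ?_
    · intro w hw w' hw' e
      have h0 : ∀ w ∈ (({(0, p), (0, q)} ∪ {(0, p'), (0, q')}) : Finset (Site n)), w.1 = 0 := by
        intro w hw
        simp only [Finset.mem_union, Finset.mem_insert, Finset.mem_singleton] at hw
        rcases hw with (rfl | rfl) | (rfl | rfl) <;> rfl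
      exact Prod.ext ((h0 w hw).trans (h0 w' hw').symm) e
    · intro w hw w' hw'
      simp only [Finset.mem_union, Finset.mem_insert, Finset.mem_singleton] at hw'
      rcases hw' with (rfl | rfl) | (rfl | rfl)
      exacts [(hG w hw).1, (hG w hw).2, (hG' w hw).1, (hG' w hw).2]
  have hcard : (({x, y, z} ∪ ({(0, p), (0, q)} ∪ {(0, p'), (0, q')})) :
      Finset (Site n)).card ≤ 15 := by
    refine (Finset.card_union_le _ _).trans ?_
    have h1 : ({x, y, z} : Finset (Site n)).card ≤ 3 := Finset.card_le_three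
    have h2 := Finset.card_union_le ({(0, p), (0, q)} : Finset (Site n)) {(0, p'), (0, q')}
    have h3 : ({(0, p), (0, q)} : Finset (Site n)).card ≤ 2 := Finset.card_le_two
    have h4 : ({(0, p'), (0, q')} : Finset (Site n)).card ≤ 2 := Finset.card_le_two
    omega
  obtain ⟨l, hl₀⟩ := M.exists_lam hn hU hMS' hcard
  have hl₁ : Gd M U _ l := hl₀
  rw [IsT.eq hn hxy hxz hpq hG hl (hl₁.mono (Finset.union_subset_union_right
      Finset.subset_union_left)),
    IsT.eq hn hxy hxz hpq' hG' hl' (hl₁.mono (Finset.union_subset_union_right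
      Finset.subset_union_right))]

private theorem isT_T (hn : 50 ≤ n) (hU : Loc U) {i j k : Fin n} (hij : i ≠ j) (hik : i ≠ k)
    (hjk : j ≠ k) (δ : D n) :
    IsT M U (δ.1 i, i) (δ.1 j, j) (δ.1 k, k) (M.T U (c3 i j k) δ) := by
  obtain ⟨p, q, hpq, hp, hq⟩ := exists_fresh ({i, j, k} : Finset (Fin n))
    (by have : ({i, j, k} : Finset (Fin n)).card ≤ 3 := Finset.card_le_three; omega)
  have hG : ∀ w ∈ ({(δ.1 i, i), (δ.1 j, j), (δ.1 k, k)} : Finset (Site n)),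
      w.2 ≠ p ∧ w.2 ≠ q := by
    intro w hw
    have : w.2 ∈ ({i, j, k} : Finset (Fin n)) := by
      simp only [Finset.mem_insert, Finset.mem_singleton] at hw ⊢
      rcases hw with rfl | rfl | rfl <;> simp
    exact ⟨fun e => hp (e ▸ this), fun e => hq (e ▸ this)⟩
  have hMS : MS U ({(δ.1 i, i), (δ.1 j, j), (δ.1 k, k)} ∪ {(0, p), (0, q)}) := by
    refine MS.union_fresh (MS.of_sheets ?_) (MS.of_sheets ?_) ?_
    · intro w hw w' hw' e
      have h0 : ∀ w ∈ ({(δ.1 i, i), (δ.1 j, j), (δ.1 k, k)} : Finset (Site n)),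
          w.1 = δ.1 w.2 := by
        intro w hw
        simp only [Finset.mem_insert, Finset.mem_singleton] at hw
        rcases hw with rfl | rfl | rfl <;> rfl
      exact Prod.ext (by rw [h0 w hw, h0 w' hw', e]) e
    · intro w hw w' hw' e
      have h0 : ∀ w ∈ ({(0, p), (0, q)} : Finset (Site n)), w.1 = 0 := by
        intro w hw
        simp only [Finset.mem_insert, Finset.mem_singleton] at hw
        rcases hw with rfl | rfl <;> rfl
      exact Prod.ext ((h0 w hw).trans (h0 w' hw').symm) e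
    · intro w hw w' hw'
      simp only [Finset.mem_insert, Finset.mem_singleton] at hw'
      rcases hw' with rfl | rfl
      exacts [(hG w hw).1, (hG w hw).2]
  have hcard : (({(δ.1 i, i), (δ.1 j, j), (δ.1 k, k)} ∪ {(0, p), (0, q)}) :
      Finset (Site n)).card ≤ 15 := by
    refine (Finset.card_union_le _ _).trans ?_
    have h1 : ({(δ.1 i, i), (δ.1 j, j), (δ.1 k, k)} : Finset (Site n)).card ≤ 3 :=
      Finset.card_le_three
    have h3 : ({(0, p), (0, q)} : Finset (Site n)).card ≤ 2 := Finset.card_le_two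
    omega
  obtain ⟨l, hl⟩ := M.exists_lam hn hU hMS hcard
  exact ⟨p, q, hpq, hG, l, hl, (hl.2 (δ.1 i, i) (by simp) (δ.1 j, j) (by simp) (δ.1 k, k)
    (by simp) hij hik hjk δ rfl rfl rfl).symm⟩

private theorem c3_eq_mv {i j k : Fin n} (hij : i ≠ j) (hik : i ≠ k) (hjk : j ≠ k)
    (δ : Fin n → V) (v : V) (w : Site n) :
    c3 ((δ i + v, i) : Site n) (δ j + v, j) (δ k + v, k) w = mv (c3 i j k) δ {v} w := by
  have h1 : ((δ i + v, i) : Site n) ≠ (δ j + v, j) := fun e => hij (congrArg Prod.snd e)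
  have h2 : ((δ i + v, i) : Site n) ≠ (δ k + v, k) := fun e => hik (congrArg Prod.snd e)
  have h3 : ((δ j + v, j) : Site n) ≠ (δ k + v, k) := fun e => hjk (congrArg Prod.snd e)
  obtain ⟨u, m⟩ := w
  unfold mv
  simp only [Finset.mem_singleton]
  split_ifs with h
  · obtain rfl : u = δ m + v := by rw [← h]; abel
    rw [h]
    by_cases hi : m = i
    · subst hi
      rw [c3_apply_fst h1 h2 h3, c3_apply_fst hij hik hjk]
    by_cases hj : m = j
    · subst hj
      rw [c3_apply_snd h1 h2 h3, c3_apply_snd hij hik hjk]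
    by_cases hk : m = k
    · subst hk
      rw [c3_apply_thd h1 h2 h3, c3_apply_thd hij hik hjk]
    rw [c3_apply_of_ne hi hj hk]
    exact c3_apply_of_ne (fun e => hi (congrArg Prod.snd e)) (fun e => hj (congrArg Prod.snd e))
      (fun e => hk (congrArg Prod.snd e))
  · have key : ∀ l : Fin n, ((u, m) : Site n) ≠ (δ l + v, l) := by
      intro l e
      obtain ⟨rfl, rfl⟩ := Prod.mk.inj e
      exact h (by abel)
    exact c3_apply_of_ne (key i) (key j) (key k)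

private theorem mv_insert (a : Perm (Fin n)) (δ : Fin n → V) {Vs : Finset V} {v : V}
    (hv : v ∉ Vs) (w : Site n) : mv a δ {v} (mv a δ Vs w) = mv a δ (insert v Vs) w := by
  by_cases h : w.1 - δ w.2 ∈ Vs
  · have h1 : mv a δ Vs w = (δ (a w.2) + (w.1 - δ w.2), a w.2) := if_pos h
    have h2 : mv a δ (insert v Vs) w = (δ (a w.2) + (w.1 - δ w.2), a w.2) :=
      if_pos (Finset.mem_insert_of_mem h)
    rw [h1, h2]
    refine if_neg ?_
    simp only [add_sub_cancel_left, Finset.mem_singleton]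
    rintro rfl
    exact hv h
  · have h1 : mv a δ Vs w = w := if_neg h
    rw [h1]
    unfold mv
    simp only [Finset.mem_singleton, Finset.mem_insert, h, or_false]

private theorem T_biUnion (hn : 50 ≤ n) (hU : Loc U) (hMS : MS U F) (h : Gd M U F lam)
    {i j k : Fin n} (hij : i ≠ j) (hik : i ≠ k) (hjk : j ≠ k) (δ : D n) (Vs : Finset V)
    (hmem : ∀ v ∈ Vs, ∀ m ∈ ({i, j, k} : Finset (Fin n)), (δ.1 m + v, m) ∈ F) :
    ∃ g ∈ AltOn F, (∀ w, g w = mv (c3 i j k) δ.1 Vs w) ∧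
      M.T (⋃ v ∈ Vs, v +ᵥ U) (c3 i j k) δ = lam g := by
  have hsm := sm_c3 hij hik hjk
  induction Vs using Finset.induction_on with
  | empty =>
    refine ⟨1, one_mem _, fun w => (if_neg (Finset.notMem_empty _)).symm, ?_⟩
    rw [h.one]
    simpa using M.T_empty hsm δ
  | insert v Vs hv ih =>
    obtain ⟨g, hg, hgw, hT⟩ := ih fun v' hv' => hmem v' (Finset.mem_insert_of_mem hv')
    have hi := hmem v (Finset.mem_insert_self _ _) i (by simp)
    have hj := hmem v (Finset.mem_insert_self _ _) j (by simp)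
    have hk := hmem v (Finset.mem_insert_self _ _) k (by simp)
    have hc : c3 ((δ.1 i + v, i) : Site n) (δ.1 j + v, j) (δ.1 k + v, k) ∈ AltOn F :=
      c3_mem_AltOn (fun e => hij (congrArg Prod.snd e)) (fun e => hik (congrArg Prod.snd e))
        hi hj hk
    refine ⟨_, mul_mem hc hg, fun w => ?_, ?_⟩
    · rw [Perm.mul_apply, hgw, c3_eq_mv hij hik hjk, mv_insert _ _ hv]
    · have hd : Disjoint (v +ᵥ U) (⋃ v ∈ Vs, v +ᵥ U) := by
        rw [Set.disjoint_left]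
        rintro _ ⟨u, hu, rfl⟩ hu'
        obtain ⟨v', hv', u', hu', e⟩ := Set.mem_iUnion₂.1 hu'
        have e' : v' +ᵥ u' = v +ᵥ u := e
        have := (hMS u hu u' hu' _ hi _ (hmem v' (Finset.mem_insert_of_mem hv') i (by simp))
          (by simp only [pt, add_vadd, e'])).2
        have hvv : v = v' := add_left_cancel (congrArg Prod.fst this)
        exact hv (hvv ▸ hv')
      obtain ⟨δ', h1, h2, h3⟩ := exists_D3 hn (x := (δ.1 i + v, i)) (y := (δ.1 j + v, j))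
        (z := (δ.1 k + v, k)) hij hik hjk
      have hL : Loc (⋃ v ∈ Vs, v +ᵥ U) := Loc.biUnion Vs.finite_toSet fun v _ => hU.vadd v
      rw [Finset.set_biUnion_insert, M.T_union (hU.vadd v) hL hd hsm, hT, h.1 _ hc _ hg,
        h.2 _ hi _ hj _ hk hij hik hjk δ' h1 h2 h3, M.T_shift (δ' := δ') hU hsm]
      intro m hm
      rcases c3_moved hm with rfl | rfl | rfl
      exacts [h1, h2, h3]

/-- conjugation by `k` permutes the canonical lifts, locally -/
private def Pk (M : Loc3 X n Γ) (k : Γ) : Prop :=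
  ∀ (u₀ : X.Pt) (x y z : Site n), x ≠ y → x ≠ z → ∃ (r : ℕ) (x' y' z' : Site n),
    M.θ k (pt u₀ x) = pt u₀ x' ∧ M.θ k (pt u₀ y) = pt u₀ y' ∧ M.θ k (pt u₀ z) = pt u₀ z' ∧
      ∀ U, Loc U → U ⊆ cyl r u₀ → ∀ γ, IsT M U x y z γ → IsT M U x' y' z' (k * γ * k⁻¹)

private theorem Pk.one : Pk M 1 := by
  intro u₀ x y z _ _
  exact ⟨0, x, y, z, by simp, by simp, by simp, fun U _ _ γ h => by simpa using h⟩

private theorem Pk.mul (hF : Free X) {k k' : Γ} (h : Pk M k) (h' : Pk M k') : Pk M (k * k') := by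
  intro u₀ x y z hxy hxz
  obtain ⟨r', x', y', z', h1, h2, h3, h4⟩ := h' u₀ x y z hxy hxz
  have hxy' : x' ≠ y' := by
    rintro rfl
    exact hxy (pt_inj hF ((M.θ k').injective (h1.trans h2.symm)))
  have hxz' : x' ≠ z' := by
    rintro rfl
    exact hxz (pt_inj hF ((M.θ k').injective (h1.trans h3.symm)))
  obtain ⟨r, x'', y'', z'', h5, h6, h7, h8⟩ := h u₀ x' y' z' hxy' hxz'
  refine ⟨max r r', x'', y'', z'', ?_, ?_, ?_, fun U hU hr γ hγ => ?_⟩
  · rw [map_mul, Perm.mul_apply, h1, h5]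
  · rw [map_mul, Perm.mul_apply, h2, h6]
  · rw [map_mul, Perm.mul_apply, h3, h7]
  · have := h8 U hU (hr.trans (cyl_mono (le_max_left _ _) _)) _
      (h4 U hU (hr.trans (cyl_mono (le_max_right _ _) _)) γ hγ)
    simpa only [mul_inv_rev, mul_assoc] using this

private theorem Pk.gen [Finite S] (hn : 50 ≤ n) (hF : Free X) {U' : Set X.Pt} (hU' : Loc U')
    {i j k : Fin n} (hij : i ≠ j) (hik : i ≠ k) (hjk : j ≠ k) (δ : D n) :
    Pk M (M.T U' (c3 i j k) δ) := by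
  classical
  intro u₀ x y z hxy hxz
  have hsm := sm_c3 hij hik hjk
  set G : Finset (Site n) := {x, y, z} with hGdef
  set I : Finset (Fin n) := {i, j, k} with hIdef
  have hGc : G.card ≤ 3 := Finset.card_le_three
  have hIc : I.card ≤ 3 := Finset.card_le_three
  obtain ⟨p, q, hpq, hp, hq⟩ := exists_fresh (G.image Prod.snd ∪ I) (by
    have h1 := Finset.card_union_le (G.image Prod.snd) I
    have h2 : (G.image Prod.snd).card ≤ G.card := Finset.card_image_le
    omega)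
  set V₀ : Finset V := G.image fun w => w.1 - δ.1 w.2 with hV₀
  set Vs : Finset V := V₀.filter fun v => v +ᵥ u₀ ∈ U' with hVs
  set H : Finset (Site n) := G ∪ (V₀ ×ˢ I).image fun e => (δ.1 e.2 + e.1, e.2) with hH
  have hHpq : ∀ w ∈ H, w.2 ≠ p ∧ w.2 ≠ q := by
    intro w hw
    have : w.2 ∈ G.image Prod.snd ∪ I := by
      rcases Finset.mem_union.1 hw with h | h
      · exact Finset.mem_union_left _ (Finset.mem_image_of_mem _ h)
      · obtain ⟨e, he, rfl⟩ := Finset.mem_image.1 h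
        exact Finset.mem_union_right _ (Finset.mem_product.1 he).2
    exact ⟨fun e => hp (e ▸ this), fun e => hq (e ▸ this)⟩
  have hGH : G ⊆ H := Finset.subset_union_left
  have hcard : (H ∪ {(0, p), (0, q)}).card ≤ 15 := by
    have h1 := Finset.card_union_le H {(0, p), (0, q)}
    have h2 : ({(0, p), (0, q)} : Finset (Site n)).card ≤ 2 := Finset.card_le_two
    have h3 : H.card ≤ G.card + (V₀ ×ˢ I).card :=
      (Finset.card_union_le _ _).trans (Nat.add_le_add_left Finset.card_image_le _)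
    have h4 : V₀.card ≤ 3 := Finset.card_image_le.trans hGc
    have h5 : (V₀ ×ˢ I).card ≤ 3 * 3 := by
      rw [Finset.card_product]; exact Nat.mul_le_mul h4 hIc
    omega
  obtain ⟨r₁, hr₁⟩ := exists_MS_cyl hF (H ∪ {(0, p), (0, q)})
  obtain ⟨r₂, hr₂⟩ := SubAux.exists_bound (T := (V₀ : Set V)) V₀.finite_toSet
    (P := fun v r => ∀ u ∈ cyl r u₀, (v +ᵥ u ∈ U' ↔ v +ᵥ u₀ ∈ U'))
    (fun v r s hrs h u hu => h u (cyl_mono hrs _ hu)) (fun v _ => by
      obtain ⟨r, hr⟩ := hU'.preimage_vadd v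
      exact ⟨r, fun u hu => ⟨hr u u₀ (Agree.symm hu), hr u₀ u hu⟩⟩)
  have hθ : ∀ w ∈ G, M.θ (M.T U' (c3 i j k) δ) (pt u₀ w) = pt u₀ (mv (c3 i j k) δ.1 Vs w) := by
    intro w hw
    have hw₀ : w.1 - δ.1 w.2 ∈ V₀ := Finset.mem_image_of_mem _ hw
    have e : -δ.1 w.2 +ᵥ w.1 +ᵥ u₀ = (w.1 - δ.1 w.2) +ᵥ u₀ := by
      rw [← add_vadd, neg_add_eq_sub]
    rw [M.θ_T hU' hsm]
    by_cases h : (w.1 - δ.1 w.2) +ᵥ u₀ ∈ U'
    · have h1 : mv (c3 i j k) δ.1 Vs w = (δ.1 (c3 i j k w.2) + (w.1 - δ.1 w.2), c3 i j k w.2) :=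
        if_pos (Finset.mem_filter.2 ⟨hw₀, h⟩)
      rw [h1, pt, MsAux.conj_pos _ _ _ (by rw [e]; exact h), e, pt, add_vadd]
    · have h1 : mv (c3 i j k) δ.1 Vs w = w :=
        if_neg fun h' : w.1 - δ.1 w.2 ∈ Vs => h (Finset.mem_filter.1 h').2
      rw [h1, pt, MsAux.conj_neg _ _ _ (by rw [e]; exact h)]
  refine ⟨max r₁ r₂, _, _, _, hθ x (by simp [hGdef]), hθ y (by simp [hGdef]),
    hθ z (by simp [hGdef]), fun U hU hr γ hγ => ?_⟩
  have hMS : MS U (H ∪ {(0, p), (0, q)}) :=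
    (hr₁ u₀).mono (hr.trans (cyl_mono (le_max_left _ _) _)) (subset_refl _)
  have hloc : ∀ v ∈ V₀, ∀ u ∈ U, (v +ᵥ u ∈ U' ↔ v +ᵥ u₀ ∈ U') := fun v hv u hu =>
    hr₂ v hv u (cyl_mono (le_max_right _ _) _ (hr hu))
  obtain ⟨lam, hl₀⟩ := M.exists_lam hn hU hMS hcard
  have hl : Gd M U _ lam := hl₀
  have hsub : G ∪ {(0, p), (0, q)} ⊆ H ∪ {(0, p), (0, q)} := Finset.union_subset_union_left hGH
  have hγ' : γ = lam (c3 x y z) := IsT.unique hn hU hxy hxz
    (hMS.mono (subset_refl _) (hGH.trans Finset.subset_union_left)) hγ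
    ⟨p, q, hpq, fun w hw => hHpq w (hGH hw), lam, hl.mono hsub, rfl⟩
  have hmemH : ∀ v ∈ Vs, ∀ m ∈ I, ((δ.1 m + v, m) : Site n) ∈ H := fun v hv m hm =>
    Finset.mem_union_right _ (Finset.mem_image.2 ⟨(v, m),
      Finset.mem_product.2 ⟨(Finset.mem_filter.1 hv).1, hm⟩, rfl⟩)
  obtain ⟨g, hg, hgw, hT⟩ := T_biUnion hn hU (hMS.mono (subset_refl _) Finset.subset_union_left)
    (hl.mono Finset.subset_union_left) hij hik hjk δ Vs hmemH
  set U₁ : Set X.Pt := ⋃ v ∈ Vs, v +ᵥ U with hU₁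
  have hL₁ : Loc U₁ := Loc.biUnion Vs.finite_toSet fun v _ => hU.vadd v
  have hsub₁ : U₁ ⊆ U' := by
    intro u hu
    obtain ⟨v, hv, u', hu', rfl⟩ := Set.mem_iUnion₂.1 hu
    exact (hloc v (Finset.mem_filter.1 hv).1 u' hu').2 (Finset.mem_filter.1 hv).2
  have hsplit : M.T U' (c3 i j k) δ = lam g * M.T (U' \ U₁) (c3 i j k) δ := by
    rw [← hT, ← M.T_union hL₁ (hU'.diff hL₁) Set.disjoint_sdiff_right hsm,
      Set.union_sdiff_cancel hsub₁]
  have hc3 : c3 x y z ∈ AltOn (G ∪ {(0, p), (0, q)}) :=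
    c3_mem_AltOn hxy hxz (by simp [hGdef]) (by simp [hGdef]) (by simp [hGdef])
  have hcomm : Commute (M.T (U' \ U₁) (c3 i j k) δ) (lam (c3 x y z)) := by
    refine hl.ind hn hpq (fun w hw => hHpq w (hGH hw)) hsub
      (fun _ γ => Commute (M.T (U' \ U₁) (c3 i j k) δ) γ) (Commute.one_right _)
      (fun _ _ _ _ _ _ h h' => h.mul_right h') (fun _ _ _ h => h.inv_right) ?_ _ hc3
    intro w hw δ' h1 _ _
    have hwpq := hHpq w (hGH hw)
    refine M.T_commute hn (hU'.diff hL₁) hU hsm (sm_c3 hwpq.1 hwpq.2 hpq) fun m hm hm' => ?_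
    have hmI : m ∈ I := by simpa [hIdef] using c3_moved hm
    have hmw : m = w.2 := by
      rcases c3_moved hm' with h | rfl | rfl
      · exact h
      · exact absurd (Finset.mem_union_right _ hmI) hp
      · exact absurd (Finset.mem_union_right _ hmI) hq
    subst hmw
    rw [h1, Set.disjoint_left]
    rintro _ ⟨u₂, hu₂, rfl⟩ ⟨u, hu, e⟩
    have e' : w.1 +ᵥ u = δ.1 w.2 +ᵥ u₂ := e
    have e₂ : u₂ = (w.1 - δ.1 w.2) +ᵥ u := by
      rw [← neg_add_eq_sub, add_vadd, e', neg_vadd_vadd]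
    have hw₀ : w.1 - δ.1 w.2 ∈ V₀ := Finset.mem_image_of_mem _ hw
    refine hu₂.2 (Set.mem_iUnion₂.2 ⟨w.1 - δ.1 w.2, Finset.mem_filter.2 ⟨hw₀, ?_⟩, u, hu, e₂.symm⟩)
    exact (hloc _ hw₀ u hu).1 (e₂ ▸ hu₂.1)
  have hg' : g ∈ AltOn (H ∪ {(0, p), (0, q)}) := AltOn.mono Finset.subset_union_left hg
  have hc3' := AltOn.mono hsub hc3
  have hval : M.T U' (c3 i j k) δ * γ * (M.T U' (c3 i j k) δ)⁻¹ =
      lam (c3 (g x) (g y) (g z)) := by
    rw [← conj_c3, hl.1 _ (mul_mem hg' hc3') _ (inv_mem hg'), hl.1 _ hg' _ hc3', hl.inv hg',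
      hsplit, hγ', mul_inv_rev, mul_assoc (lam g), hcomm.eq]
    group
  rw [hval, ← hgw, ← hgw, ← hgw]
  have hsubH : ({g x, g y, g z} : Finset (Site n)) ⊆ H := by
    intro w hw
    simp only [Finset.mem_insert, Finset.mem_singleton] at hw
    rcases hw with rfl | rfl | rfl <;> exact AltOn.apply_mem hg (hGH (by simp [hGdef]))
  exact ⟨p, q, hpq, fun w hw => hHpq w (hsubH hw), lam,
    hl.mono (Finset.union_subset_union_left hsubH), rfl⟩

private theorem Pk.all [Finite S] (hn : 50 ≤ n) (hF : Free X) (k : Γ) : Pk M k := by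
  have hk : k ∈ Subgroup.closure {γ | ∃ U a δ, Loc U ∧ a.IsThreeCycle ∧
      γ = M.τ δ * M.A U a * (M.τ δ)⁻¹} := by
    rw [M.gen]; exact Subgroup.mem_top k
  induction hk using Subgroup.closure_induction'' with
  | one => exact Pk.one
  | mem k hk =>
    obtain ⟨U, a, δ, hU, ha, rfl⟩ := hk
    obtain ⟨i, j, l, hij, hil, hjl, rfl⟩ := isThreeCycle_iff_c3.1 ha
    exact Pk.gen hn hF hU hij hil hjl δ
  | inv_mem k hk =>
    obtain ⟨U, a, δ, hU, ha, rfl⟩ := hk
    obtain ⟨i, j, l, hij, hil, hjl, rfl⟩ := isThreeCycle_iff_c3.1 ha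
    have := M.T_inv hU (sm_c3 hij hil hjl) δ
    rw [c3_inv] at this
    change Pk M (M.T U (c3 i j l) δ)⁻¹
    rw [← this]
    exact Pk.gen hn hF hU hil hij hjl.symm δ
  | mul k k' _ _ h h' => exact h.mul hF h'

theorem commute_T [Finite S] (hn : 50 ≤ n) (hF : Free X) {k : Γ} (hk : M.θ k = 1) (hU : Loc U)
    {i j l : Fin n} (hij : i ≠ j) (hil : i ≠ l) (hjl : j ≠ l) (δ : D n) :
    Commute k (M.T U (c3 i j l) δ) := by
  have hsm := sm_c3 hij hil hjl
  refine Loc.cover (fun U => Commute k (M.T U (c3 i j l) δ)) ?_ ?_ hU ?_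
  · rw [M.T_empty hsm]; exact Commute.one_right _
  · intro U U' hU hU' hd h h'
    rw [M.T_union hU hU' hd hsm]
    exact h.mul_right h'
  · intro u₀ _
    have hxy : ((δ.1 i, i) : Site n) ≠ (δ.1 j, j) := fun e => hij (congrArg Prod.snd e)
    have hxz : ((δ.1 i, i) : Site n) ≠ (δ.1 l, l) := fun e => hil (congrArg Prod.snd e)
    obtain ⟨r, x', y', z', h1, h2, h3, h4⟩ := Pk.all (M := M) hn hF k u₀ (δ.1 i, i) (δ.1 j, j)
      (δ.1 l, l) hxy hxz
    rw [hk, Perm.one_apply] at h1 h2 h3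
    obtain rfl := pt_inj hF h1
    obtain rfl := pt_inj hF h2
    obtain rfl := pt_inj hF h3
    refine ⟨r, fun U' hU' hr => ?_⟩
    have h5 := isT_T (M := M) hn hU' hij hil hjl δ
    have hMS : MS U' {(δ.1 i, i), (δ.1 j, j), (δ.1 l, l)} := by
      refine MS.of_sheets fun w hw w' hw' e => ?_
      have h0 : ∀ w ∈ ({(δ.1 i, i), (δ.1 j, j), (δ.1 l, l)} : Finset (Site n)),
          w.1 = δ.1 w.2 := by
        intro w hw
        simp only [Finset.mem_insert, Finset.mem_singleton] at hw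
        rcases hw with rfl | rfl | rfl <;> rfl
      exact Prod.ext (by rw [h0 w hw, h0 w' hw', e]) e
    have h6 := IsT.unique hn hU' hxy hxz hMS
      (h4 U' hU' (hr.trans Set.inter_subset_right) _ h5) h5
    exact mul_inv_eq_iff_eq_mul.1 h6

end FP0bAux

theorem Loc3.ker_le_center {S : Type} [Finite S] {X : Sub S} {n : ℕ} {Γ : Type} [Group Γ]
    (M : Loc3 X n Γ) (hn : 50 ≤ n) (hF : Free X) : M.θ.ker ≤ Subgroup.center Γ := by
  intro k hk
  rw [Subgroup.mem_center_iff]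
  intro g
  have hg : g ∈ Subgroup.closure {γ | ∃ U a δ, Loc U ∧ a.IsThreeCycle ∧
      γ = M.τ δ * M.A U a * (M.τ δ)⁻¹} := by
    rw [M.gen]; exact Subgroup.mem_top g
  have : Commute k g := by
    induction hg using Subgroup.closure_induction with
    | mem g hg =>
      obtain ⟨U, a, δ, hU, ha, rfl⟩ := hg
      obtain ⟨i, j, l, hij, hil, hjl, rfl⟩ := isThreeCycle_iff_c3.1 ha
      exact FP0bAux.commute_T hn hF hk hU hij hil hjl δ
    | one => exact Commute.one_right _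
    | mul _ _ _ _ h h' => exact h.mul_right h'
    | inv _ _ h => exact h.inv_right
  exact this.eq.symm

end Crest.Agent.R189
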