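import Crest.Agent.R189.H1Base

/-! Row 189: the flux of a trivial word. -/

set_option autoImplicit false

namespace Crest.Agent.R189

open Equiv Pointwise

variable {S : Type} {X : Sub S} {n : ℕ} {w w' : List (Lt X n)}

namespace FluxAux

/-! ### The index of a permutation -/

section general
variable {α : Type}

theorem supp_comp {g : α → ℤ} (hg : g.HasFiniteSupport) (b : Perm α) :
    (fun z => g (b z)).HasFiniteSupport :=
  Set.Finite.preimage (f := b) b.injective.injOn hg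

theorem idx_mul (f : α → ℤ) {a b : Perm α} (ha : (fun z => f z - f (a z)).HasFiniteSupport)
    (hb : (fun z => f z - f (b z)).HasFiniteSupport) :
    ∑ᶠ z, (f z - f ((a * b) z)) = ∑ᶠ z, (f z - f (a z)) + ∑ᶠ z, (f z - f (b z)) := by
  rw [← finsum_comp_equiv b (f := fun z => f z - f (a z)), ← finsum_add_distrib (supp_comp ha b) hb]
  exact finsum_congr fun z => by rw [Perm.mul_apply]; ring

theorem idx_congr (f f' : α → ℤ) {a : Perm α} (ha : (fun z => f z - f (a z)).HasFiniteSupport)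
    (h : {z | a z ≠ z ∧ f z ≠ f' z}.Finite) :
    ∑ᶠ z, (f' z - f' (a z)) = ∑ᶠ z, (f z - f (a z)) := by
  classical
  have hg : (fun z => if a z = z then 0 else f' z - f z).HasFiniteSupport := by
    refine h.subset fun z hz => ?_
    by_cases e : a z = z
    · exact (hz (if_pos e)).elim
    · exact ⟨e, fun e' => hz (by simp only [e', sub_self, ite_self])⟩
  have h0 : ∑ᶠ z, ((if a z = z then 0 else f' z - f z) -
      (if a (a z) = a z then 0 else f' (a z) - f (a z))) = 0 := by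
    rw [finsum_sub_distrib hg (supp_comp hg a),
      finsum_comp_equiv a (f := fun z => if a z = z then 0 else f' z - f z), sub_self]
  have hg' : (fun z => (if a z = z then 0 else f' z - f z) -
      (if a (a z) = a z then 0 else f' (a z) - f (a z))).HasFiniteSupport :=
    hg.sub (supp_comp hg a)
  rw [← add_zero (∑ᶠ z, (f z - f (a z))), ← h0, ← finsum_add_distrib ha hg']
  refine finsum_congr fun z => ?_
  by_cases e : a z = z
  · simp [e]
  · rw [if_neg e, if_neg fun e' => e (a.injective e')]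
    ring

theorem finsum_ind {A : Set α} (hA : A.Finite) :
    ∑ᶠ z, A.indicator (fun _ => (1 : ℤ)) z = A.ncard := by
  rw [← finsum_mem_def, finsum_mem_eq_finite_toFinset_sum _ hA, Set.ncard_eq_toFinset_card A hA]
  simp

end general

/-! ### Permutations of the sites -/

section sites
variable {a b : Perm (Site n)} {h : ℤ}

/-- Finitely many sites cross the height `h`. -/
structure Cr (a : Perm (Site n)) (h : ℤ) : Prop where
  fin : {z : Site n | ¬ (z.1.2 < h ↔ (a z).1.2 < h)}.Finite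

/-- Permutations supported in a vertical strip, with bounded displacement. -/
structure St (a : Perm (Site n)) : Prop where
  ex : ∃ p q D : ℤ, (∀ z, a z ≠ z → p ≤ z.1.1 ∧ z.1.1 ≤ q) ∧ ∀ z, |(a z).1.2 - z.1.2| ≤ D

theorem St.cr (ha : St a) (h : ℤ) : Cr a h := by
  obtain ⟨p, q, D, h1, h2⟩ := ha.ex
  refine ⟨(rsites n p q (h - D) (h + D)).finite_toSet.subset fun z hz => ?_⟩
  have e : a z ≠ z := fun e => hz (by rw [e])
  have := abs_le.1 (h2 z)
  have hz' : ¬ (z.1.2 < h ↔ (a z).1.2 < h) := hz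
  exact mem_rsites.2 ⟨(h1 z e).1, (h1 z e).2, by omega, by omega⟩

theorem Cr.up (ha : Cr a h) (Q : Set (Site n)) :
    {z ∈ Q | z.1.2 < h ∧ h ≤ (a z).1.2}.Finite :=
  ha.fin.subset fun _ hz e => (e.1 hz.2.1).not_ge hz.2.2

theorem Cr.down (ha : Cr a h) (Q : Set (Site n)) :
    {z ∈ Q | h ≤ z.1.2 ∧ (a z).1.2 < h}.Finite :=
  ha.fin.subset fun _ hz e => (e.2 hz.2.2).not_ge hz.2.1

theorem Cr.supp (ha : Cr a h) : (fun z : Site n =>
    (if z.1.2 < h then (1 : ℤ) else 0) - if (a z).1.2 < h then 1 else 0).HasFiniteSupport :=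
  ha.fin.subset fun z hz e => hz (by simp only [e, sub_self])

theorem Cr.fl_eq (ha : Cr a h) : fl a Set.univ h =
    ∑ᶠ z : Site n, ((if z.1.2 < h then (1 : ℤ) else 0) - if (a z).1.2 < h then 1 else 0) := by
  have fin : ∀ {A : Set (Site n)}, A.Finite → (A.indicator fun _ => (1 : ℤ)).HasFiniteSupport :=
    fun hA => hA.subset Set.support_indicator_subset
  rw [fl, ← finsum_ind (ha.up _), ← finsum_ind (ha.down _),
    ← finsum_sub_distrib (fin (ha.up _)) (fin (ha.down _))]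
  refine finsum_congr fun z => ?_
  simp only [Set.indicator, Set.mem_ofPred_eq, Set.mem_univ, true_and]
  split_ifs <;> omega

theorem Cr.mul (ha : Cr a h) (hb : Cr b h) : Cr (a * b) h := by
  refine ⟨(hb.fin.union (ha.fin.preimage (f := b) b.injective.injOn)).subset fun z hz => ?_⟩
  by_contra hc
  simp only [Set.mem_union, Set.mem_preimage, Set.mem_ofPred_eq, not_or, not_not] at hc
  exact hz (hc.1.trans hc.2)

theorem fl_mul (ha : Cr a h) (hb : Cr b h) :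
    fl (a * b) Set.univ h = fl a Set.univ h + fl b Set.univ h := by
  rw [(ha.mul hb).fl_eq, ha.fl_eq, hb.fl_eq]
  exact idx_mul (fun z : Site n => if z.1.2 < h then (1 : ℤ) else 0) ha.supp hb.supp

theorem cr_one : Cr (1 : Perm (Site n)) h := ⟨by simp⟩

theorem fl_one : fl (1 : Perm (Site n)) Set.univ h = 0 := by
  have := fl_mul (n := n) (h := h) cr_one cr_one
  rw [mul_one] at this
  omega

theorem fl_pow (ha : Cr a h) (k : ℕ) :
    Cr (a ^ k) h ∧ fl (a ^ k) Set.univ h = k * fl a Set.univ h := by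
  induction k with
  | zero => rw [pow_zero]; exact ⟨cr_one, by rw [fl_one]; simp⟩
  | succ k ih =>
    rw [pow_succ]
    refine ⟨ih.1.mul ha, ?_⟩
    rw [fl_mul ih.1 ha, ih.2]
    push_cast
    ring

theorem St.fl_height (ha : St a) (h h' : ℤ) : fl a Set.univ h = fl a Set.univ h' := by
  rw [(ha.cr h).fl_eq, (ha.cr h').fl_eq]
  obtain ⟨p, q, D, h1, -⟩ := ha.ex
  refine idx_congr (fun z : Site n => if z.1.2 < h' then (1 : ℤ) else 0)
    (fun z : Site n => if z.1.2 < h then (1 : ℤ) else 0) (ha.cr h').supp ?_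
  refine (rsites n p q (min h h') (max h h')).finite_toSet.subset fun z hz => ?_
  have h2 := hz.2
  refine mem_rsites.2 ⟨(h1 z hz.1).1, (h1 z hz.1).2, ?_, ?_⟩ <;> split_ifs at h2 <;> omega

theorem fl_congr {Q Q' : Set (Site n)}
    (h1 : ∀ z ∈ Q, ¬ (z.1.2 < h ↔ (a z).1.2 < h) → z ∈ Q' ∧ a z = b z)
    (h2 : ∀ z ∈ Q', ¬ (z.1.2 < h ↔ (b z).1.2 < h) → z ∈ Q ∧ a z = b z) :
    fl a Q h = fl b Q' h := by
  unfold fl
  congr 3
  · ext z
    refine ⟨fun hz => ?_, fun hz => ?_⟩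
    · obtain ⟨e1, e2⟩ := h1 z hz.1 fun e => (e.1 hz.2.1).not_ge hz.2.2
      exact ⟨e1, e2 ▸ hz.2⟩
    · obtain ⟨e1, e2⟩ := h2 z hz.1 fun e => (e.1 hz.2.1).not_ge hz.2.2
      exact ⟨e1, e2 ▸ hz.2⟩
  · ext z
    refine ⟨fun hz => ?_, fun hz => ?_⟩
    · obtain ⟨e1, e2⟩ := h1 z hz.1 fun e => (e.2 hz.2.2).not_ge hz.2.1
      exact ⟨e1, e2 ▸ hz.2⟩
    · obtain ⟨e1, e2⟩ := h2 z hz.1 fun e => (e.2 hz.2.2).not_ge hz.2.1
      exact ⟨e1, e2 ▸ hz.2⟩

theorem fl_union (ha : Cr a h) {Q Q' : Set (Site n)} (hd : Disjoint Q Q') :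
    fl a (Q ∪ Q') h = fl a Q h + fl a Q' h := by
  have e : ∀ p : Site n → Prop, {z ∈ Q ∪ Q' | p z} = {z ∈ Q | p z} ∪ {z ∈ Q' | p z} :=
    fun p => Set.sep_union
  unfold fl
  rw [e, e,
    Set.ncard_union_eq (hd.mono (Set.sep_subset _ _) (Set.sep_subset _ _)) (ha.up _) (ha.up _),
    Set.ncard_union_eq (hd.mono (Set.sep_subset _ _) (Set.sep_subset _ _)) (ha.down _)
      (ha.down _)]
  push_cast
  ring

theorem fl_sht (v : V) (b : Perm (Site n)) :
    fl (sht v * b * (sht v)⁻¹) Set.univ v.2 = fl b Set.univ 0 := by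
  unfold fl
  rw [← Set.ncard_image_of_injective {z ∈ Set.univ | z.1.2 < 0 ∧ 0 ≤ (b z).1.2} (sht v).injective,
    ← Set.ncard_image_of_injective {z ∈ Set.univ | 0 ≤ z.1.2 ∧ (b z).1.2 < 0} (sht v).injective]
  congr 3
  · ext z
    obtain ⟨z, rfl⟩ := (sht v).surjective z
    rw [(sht v).injective.mem_set_image]
    simp only [Set.mem_ofPred_eq, Perm.mul_apply, MsAux.inv_app]
    simp
  · ext z
    obtain ⟨z, rfl⟩ := (sht v).surjective z
    rw [(sht v).injective.mem_set_image]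
    simp only [Set.mem_ofPred_eq, Perm.mul_apply, MsAux.inv_app]
    simp

end sites

/-! ### Truncated words -/

section words
variable {ρ m : ℕ} {x : X.Pt} {P P' : Set V} {z : Site n}

theorem mem_orb (hF : Free X) {v : V} : v +ᵥ x ∈ orb x P ↔ v ∈ P :=
  ⟨fun ⟨_, hu, e⟩ => hF.vadd_inj e ▸ hu, fun h => ⟨v, h, rfl⟩⟩

theorem fix_out (hF : Free X) (hw : ∀ l ∈ w, l.Pre ∧ l.Rad ρ)
    (h : ∀ v : V, |v.1 - z.1.1| ≤ ρ → v ∉ P) : loc (wperm (wres (orb x P) w)) x z = z := by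
  refine cone_fix hF (fun l hl => (hw l hl).1) x z fun l hl v z₁ hz₁ he hv => ?_
  refine h v ?_ ((mem_orb hF).1 hv.2)
  have h1 := ((hw l hl).2.1 z₁ hz₁).1
  rw [← he, sht_apply, Prod.fst_add, add_comm, ← sub_sub, sub_self, zero_sub, abs_neg]
  exact h1

theorem agree (hF : Free X) (hw : ∀ l ∈ w, l.Pre ∧ l.Rad ρ) (hm : w.length ≤ m)
    (h : ∀ v : V, |v.1 - z.1.1| ≤ (2 * ρ * m + ρ : ℕ) → (v ∈ P ↔ v ∈ P')) :
    loc (wperm (wres (orb x P) w)) x z = loc (wperm (wres (orb x P') w)) x z :=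
  cone_rad hF hw hm (Agree.refl _ _) fun v hv => by
    rw [mem_orb hF, mem_orb hF]
    exact h v hv.1

theorem fix_in (hF : Free X) (hw : ∀ l ∈ w, l.Pre ∧ l.Rad ρ) (hm : w.length ≤ m)
    (h1 : wperm w = 1) (h : ∀ v : V, |v.1 - z.1.1| ≤ (2 * ρ * m + ρ : ℕ) → v ∈ P) :
    loc (wperm (wres (orb x P) w)) x z = z := by
  rw [cone_rad (W' := Set.univ) (y := x) hF hw hm (Agree.refl _ _) fun v hv =>
    iff_of_true ((mem_orb hF).2 (h v hv.1)) trivial, wres_univ, h1, loc_one hF]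
  rfl

theorem disp (hF : Free X) (hw : ∀ l ∈ w, l.Pre ∧ l.Rad ρ) (hm : w.length ≤ m) (W : Set X.Pt)
    (x : X.Pt) (z : Site n) :
    |(loc (wperm (wres W w)) x z).1.1 - z.1.1| ≤ (2 * ρ * m : ℕ) ∧
      |(loc (wperm (wres W w)) x z).1.2 - z.1.2| ≤ (2 * ρ * m : ℕ) :=
  cone_disp hF (fun l hl => ⟨(hw l hl).1, (hw l hl).2.1⟩) hm x z

theorem half_fix (hF : Free X) (hw : ∀ l ∈ w, l.Pre ∧ l.Rad ρ) (hm : w.length ≤ m)
    (h1 : wperm w = 1) {c : ℤ} (hz : ((2 * ρ * m + ρ : ℕ) : ℤ) < |z.1.1 - c|) :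
    loc (wperm (wres (orb x {v | v.1 ≤ c}) w)) x z = z := by
  rcases lt_abs.1 hz with h | h
  · refine fix_out hF hw fun v hv (hc : v.1 ≤ c) => ?_
    have := abs_le.1 hv
    push_cast at h
    have : (0 : ℤ) ≤ 2 * ρ * m := by positivity
    omega
  · refine fix_in hF hw hm h1 fun v hv => show v.1 ≤ c from ?_
    have := abs_le.1 hv
    omega

theorem st_half (hF : Free X) (hw : ∀ l ∈ w, l.Pre ∧ l.Rad ρ) (h1 : wperm w = 1) (x : X.Pt)
    (c : ℤ) : St (loc (wperm (wres (orb x {v | v.1 ≤ c}) w)) x) := by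
  refine ⟨c - (2 * ρ * w.length + ρ : ℕ), c + (2 * ρ * w.length + ρ : ℕ), _, fun z hz => ?_,
    fun z => (disp hF hw le_rfl _ x z).2⟩
  have := abs_le.1 (not_lt.1 fun h => hz (half_fix hF hw le_rfl h1 h))
  omega

theorem st_strip (hF : Free X) (hw : ∀ l ∈ w, l.Pre ∧ l.Rad ρ) (x : X.Pt) (p q : ℤ) :
    St (loc (wperm (wres (orb x {v | p ≤ v.1 ∧ v.1 ≤ q}) w)) x) := by
  refine ⟨p - ρ, q + ρ, _, fun z hz => ?_, fun z => (disp hF hw le_rfl _ x z).2⟩
  by_contra hc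
  refine hz (fix_out hF hw fun v hv (hc' : p ≤ v.1 ∧ v.1 ≤ q) => hc ?_)
  have := abs_le.1 hv
  omega

theorem letter_pow (hF : Free X) {l : Lt X n} (hl : l.OK) (W : Set X.Pt) (x : X.Pt) :
    ∃ N : ℕ, 0 < N ∧ loc (l.res W).perm x ^ N = 1 := by
  have hp := hl.pre.res W
  have h1 : ∀ k : ℕ, msf (l.U ∩ W) (fun y => l.g y ^ k) = (l.res W).perm ^ k ∧
      Full ((l.res W).perm ^ k) ∧ loc ((l.res W).perm ^ k) x = loc (l.res W).perm x ^ k := by
    intro k
    induction k with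
    | zero => exact ⟨msf_one fun _ _ => pow_zero _, Full.one, loc_one hF x⟩
    | succ k ih =>
      simp only [pow_succ]
      refine ⟨?_, ih.2.1.mul (full_msf _ _), ?_⟩
      · rw [← ih.1]
        exact msf_mul hp.1
          (fun y _ z hz => Perm.pow_apply_eq_self_of_apply_eq_self (hp.2 y z hz) k)
          fun y _ => hp.2 y
      · rw [← ih.2.2]
        exact loc_mul hF ih.2.1 (full_msf _ _) x
  refine ⟨Nat.card (Perm {a // a ∈ l.F}), Nat.card_pos, ?_⟩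
  rw [← (h1 _).2.2, ← (h1 _).1, msf_one, loc_one hF]
  intro y _
  obtain ⟨b, -, hb⟩ := hl.2.2.2.2 y
  rw [← hb, ← map_pow, pow_card_eq_one', map_one]

theorem fl_strip (hF : Free X) (hw : ∀ l ∈ w, l.OK ∧ l.Rad ρ) (x : X.Pt) (p q h : ℤ) :
    fl (loc (wperm (wres (orb x {v | p ≤ v.1 ∧ v.1 ≤ q}) w)) x) Set.univ h = 0 := by
  induction w with
  | nil =>
    show fl (loc (1 : Perm (Hat X n)) x) Set.univ h = 0
    rw [loc_one hF, fl_one]
  | cons l w ih =>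
    have hl := hw l List.mem_cons_self
    have hw' : ∀ l ∈ w, l.OK ∧ l.Rad ρ := fun l' hl' => hw l' (List.mem_cons_of_mem _ hl')
    have h1 := (st_strip (w := [l]) hF (fun l' hl' => by
      rw [List.mem_singleton.1 hl']; exact ⟨hl.1.pre, hl.2⟩) x p q).cr h
    have h2 := (st_strip hF (fun l hl => ⟨(hw' l hl).1.pre, (hw' l hl).2⟩) x p q).cr h
    rw [show l :: w = [l] ++ w from rfl, wres_append, wperm_append,
      loc_mul hF (full_wperm _) (full_wperm _), fl_mul h1 h2, ih hw', add_zero]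
    obtain ⟨N, hN, hpow⟩ := letter_pow hF hl.1 (orb x {v | p ≤ v.1 ∧ v.1 ≤ q}) x
    have e : wperm (wres (orb x {v | p ≤ v.1 ∧ v.1 ≤ q}) [l])
        = (l.res (orb x {v | p ≤ v.1 ∧ v.1 ≤ q})).perm := mul_one _
    have h3 := (fl_pow h1 N).2
    rw [e] at h3 ⊢
    rw [hpow, fl_one] at h3
    exact (mul_eq_zero.1 h3.symm).resolve_left (by exact_mod_cast hN.ne')

theorem strip_fix (hF : Free X) (hw : ∀ l ∈ w, l.Pre ∧ l.Rad ρ) (hm : w.length ≤ m)
    (h1 : wperm w = 1) {p q : ℤ} {K : ℕ} (hK : 2 * ρ * (m + 1) ≤ K) (hp : K < |z.1.1 - p|)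
    (hq : K < |z.1.1 - q|) : loc (wperm (wres (orb x {v | p ≤ v.1 ∧ v.1 ≤ q}) w)) x z = z := by
  have hK' : 2 * ρ * m + ρ + ρ ≤ K := by
    rw [mul_add, mul_one] at hK
    omega
  rw [lt_abs] at hp hq
  by_cases h : p ≤ z.1.1 ∧ z.1.1 ≤ q
  · refine fix_in hF hw hm h1 fun v hv => show p ≤ v.1 ∧ v.1 ≤ q from ?_
    have := abs_le.1 hv
    omega
  · refine fix_out hF hw fun v hv (hc : p ≤ v.1 ∧ v.1 ≤ q) => ?_
    have := abs_le.1 hv
    omega

theorem fl_right (hF : Free X) (hw : ∀ l ∈ w, l.Pre ∧ l.Rad ρ) (hm : w.length ≤ m)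
    (h1 : wperm w = 1) {p q : ℤ} {K : ℕ} (hK : 2 * ρ * (m + 1) ≤ K) (hpq : p + 4 * K < q)
    (h : ℤ) : fl (loc (wperm (wres (orb x {v | p ≤ v.1 ∧ v.1 ≤ q}) w)) x)
      {z | |z.1.1 - q| ≤ K} h = fl (loc (wperm (wres (orb x {v | v.1 ≤ q}) w)) x) Set.univ h := by
  have hK' : 2 * ρ * m + ρ + ρ ≤ K := by
    rw [mul_add, mul_one] at hK
    omega
  have key : ∀ z : Site n, |z.1.1 - q| ≤ K →
      loc (wperm (wres (orb x {v | p ≤ v.1 ∧ v.1 ≤ q}) w)) x z =
        loc (wperm (wres (orb x {v | v.1 ≤ q}) w)) x z := by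
    intro z hz
    refine agree hF hw hm fun v hv => show (p ≤ v.1 ∧ v.1 ≤ q ↔ v.1 ≤ q) from ?_
    have := abs_le.1 hv
    have := abs_le.1 hz
    omega
  refine fl_congr (fun z hz _ => ⟨trivial, key z hz⟩) fun z _ hz => ?_
  have : |z.1.1 - q| ≤ K := by
    by_contra hc
    rw [half_fix hF hw hm h1 (by omega)] at hz
    exact hz Iff.rfl
  exact ⟨this, key z this⟩

theorem fl_left (hF : Free X) (hw : ∀ l ∈ w, l.OK ∧ l.Rad ρ) (hm : w.length ≤ m)
    (h1 : wperm w = 1) {p q : ℤ} {K : ℕ} (hK : 2 * ρ * (m + 1) ≤ K) (hpq : p + 4 * K < q)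
    (h : ℤ) : fl (loc (wperm (wres (orb x {v | p ≤ v.1 ∧ v.1 ≤ q}) w)) x)
      {z | |z.1.1 - p| ≤ K} h =
        - fl (loc (wperm (wres (orb x {v | v.1 ≤ q}) w)) x) Set.univ h := by
  have hw' : ∀ l ∈ w, l.Pre ∧ l.Rad ρ := fun l hl => ⟨(hw l hl).1.pre, (hw l hl).2⟩
  rw [← fl_right hF hw' hm h1 hK hpq h, eq_neg_iff_add_eq_zero,
    ← fl_union ((st_strip hF hw' x p q).cr h), ← fl_strip hF hw x p q h]
  · refine fl_congr (fun z _ _ => ⟨trivial, rfl⟩) fun z _ hz => ⟨?_, rfl⟩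
    by_contra hc
    simp only [Set.mem_union, Set.mem_ofPred_eq, not_or, not_le] at hc
    rw [strip_fix hF hw' hm h1 hK hc.1 hc.2] at hz
    exact hz Iff.rfl
  · refine Set.disjoint_left.2 fun z (h2 : |z.1.1 - p| ≤ K) (h3 : |z.1.1 - q| ≤ K) => ?_
    have := abs_le.1 h2
    have := abs_le.1 h3
    omega

theorem fl_half_indep (hF : Free X) (hw : ∀ l ∈ w, l.OK ∧ l.Rad ρ) (h1 : wperm w = 1)
    (x : X.Pt) (q q' h : ℤ) :
    fl (loc (wperm (wres (orb x {v | v.1 ≤ q}) w)) x) Set.univ h =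
      fl (loc (wperm (wres (orb x {v | v.1 ≤ q'}) w)) x) Set.univ h := by
  have hw' : ∀ l ∈ w, l.Pre ∧ l.Rad ρ := fun l hl => ⟨(hw l hl).1.pre, (hw l hl).2⟩
  obtain ⟨K, hK⟩ : ∃ K : ℕ, K = 2 * ρ * (w.length + 1) := ⟨_, rfl⟩
  obtain ⟨p, hp, hp'⟩ : ∃ p : ℤ, p + 4 * K < q ∧ p + 4 * K < q' :=
    ⟨min q q' - 4 * K - 1, by omega, by omega⟩
  have hK' : 2 * ρ * w.length + ρ + ρ ≤ K := by
    rw [mul_add, mul_one] at hK
    omega
  have key : ∀ z : Site n, |z.1.1 - p| ≤ K →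
      loc (wperm (wres (orb x {v | p ≤ v.1 ∧ v.1 ≤ q}) w)) x z =
        loc (wperm (wres (orb x {v | p ≤ v.1 ∧ v.1 ≤ q'}) w)) x z := by
    intro z hz
    refine agree hF hw' le_rfl fun v hv =>
      show (p ≤ v.1 ∧ v.1 ≤ q ↔ p ≤ v.1 ∧ v.1 ≤ q') from ?_
    have := abs_le.1 hv
    have := abs_le.1 hz
    omega
  rw [← neg_inj, ← fl_left hF hw le_rfl h1 hK.ge hp, ← fl_left hF hw le_rfl h1 hK.ge hp']
  exact fl_congr (fun z hz _ => ⟨hz, key z hz⟩) fun z hz _ => ⟨hz, key z hz⟩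

theorem flux_vadd (hF : Free X) (w : List (Lt X n)) (v : V) (x : X.Pt) :
    flux w (v +ᵥ x) = fl (loc (wperm (wres (orb x {u | u.1 ≤ v.1}) w)) x) Set.univ v.2 := by
  have e : orb (v +ᵥ x) {u | u.1 ≤ 0} = orb x {u | u.1 ≤ v.1} := by
    ext y
    constructor
    · rintro ⟨u, hu, rfl⟩
      exact ⟨u + v, show u.1 + v.1 ≤ v.1 from add_le_of_nonpos_left hu, (add_vadd u v x).symm⟩
    · rintro ⟨u, hu, rfl⟩
      exact ⟨u - v, show u.1 - v.1 ≤ 0 from sub_nonpos.2 hu, by rw [← add_vadd, sub_add_cancel]⟩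
  rw [loc_vadd hF (full_wperm _) v x, fl_sht, flux, e]

theorem locF_flux (hF : Free X) (hw : ∀ l ∈ w, l.Pre ∧ l.Rad ρ) (h1 : wperm w = 1) :
    LocF (flux w) := by
  refine ⟨2 * ρ * (w.length + 1) + (2 * ρ * w.length + ρ), fun x y hxy => ?_⟩
  have key : ∀ (y : X.Pt) (z : Site n),
      ¬ (z.1.2 < 0 ↔ (loc (wperm (wres (orb y {v | v.1 ≤ 0}) w)) y z).1.2 < 0) →
      z.1 ∈ box (2 * ρ * w.length + ρ) := by
    intro y z hz
    constructor
    · by_contra hc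
      rw [half_fix hF hw le_rfl h1 (by rwa [sub_zero, ← not_le])] at hz
      exact hz Iff.rfl
    · have := abs_le.1 (disp hF hw le_rfl (orb y {v | v.1 ≤ 0}) y z).2
      rw [abs_le]
      omega
  have key' : ∀ z : Site n, z.1 ∈ box (2 * ρ * w.length + ρ) →
      loc (wperm (wres (orb x {v | v.1 ≤ 0}) w)) x z =
        loc (wperm (wres (orb y {v | v.1 ≤ 0}) w)) y z := fun z hz =>
    cone_rad hF hw le_rfl (hxy.vadd hz) fun v _ => by rw [mem_orb hF, mem_orb hF]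
  exact fl_congr (fun z _ hz => ⟨trivial, key' z (key x z hz)⟩)
    fun z _ hz => ⟨trivial, key' z (key y z hz)⟩

end words

end FluxAux

theorem flux_indep (hF : Free X) (hM : Minimal X) (hw : ∀ l ∈ w, l.OK) (h1 : wperm w = 1)
    (x y : X.Pt) : flux w x = flux w y := by
  obtain ⟨ρ, hρ⟩ := exists_rad_word hw
  have hw' : ∀ l ∈ w, l.Pre ∧ l.Rad ρ := fun l hl => ⟨(hw l hl).pre, hρ l hl⟩
  refine hM.const (FluxAux.locF_flux hF hw' h1) (fun v x => ?_) x y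
  rw [FluxAux.flux_vadd hF, (FluxAux.st_half hF hw' h1 x v.1).fl_height v.2 0]
  exact FluxAux.fl_half_indep hF (fun l hl => ⟨hw l hl, hρ l hl⟩) h1 x v.1 0 0

theorem flux_append (hF : Free X) (hw : ∀ l ∈ w, l.OK) (hw' : ∀ l ∈ w', l.OK)
    (h1 : wperm w = 1) (h1' : wperm w' = 1) (x : X.Pt) :
    flux (w ++ w') x = flux w x + flux w' x := by
  obtain ⟨ρ, hρ⟩ := exists_rad_word hw
  obtain ⟨ρ', hρ'⟩ := exists_rad_word hw'
  rw [flux, wres_append, wperm_append, loc_mul hF (full_wperm _) (full_wperm _)]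
  exact FluxAux.fl_mul
    ((FluxAux.st_half hF (fun l hl => ⟨(hw l hl).pre, hρ l hl⟩) h1 x 0).cr 0)
    ((FluxAux.st_half hF (fun l hl => ⟨(hw' l hl).pre, hρ' l hl⟩) h1' x 0).cr 0)

theorem flux_winv (hF : Free X) (hw : ∀ l ∈ w, l.OK) (h1 : wperm w = 1) (x : X.Pt) :
    flux (winv w) x = - flux w x := by
  have hw' : ∀ l ∈ winv w, l.OK := fun l hl => by
    obtain ⟨l', hl', rfl⟩ := mem_winv.1 hl
    exact (hw l' hl').inv
  rw [eq_neg_iff_add_eq_zero, ← flux_append hF hw' hw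
    (by rw [wperm_winv fun l hl => (hw l hl).pre, h1, inv_one]) h1, flux, wres_append,
    wperm_append, wres_winv, wperm_winv, inv_mul_cancel, loc_one hF, FluxAux.fl_one]
  intro l hl
  obtain ⟨l', hl', rfl⟩ := mem_wres.1 hl
  exact (hw l' hl').pre.res _

/-- A trivial word without flux, truncated to a wide vertical strip, moves points only near the
two sides of the strip, without flux on either side. -/
theorem flux_strip (hF : Free X) {ρ m : ℕ} (hw : ∀ l ∈ w, l.OK ∧ l.Rad ρ) (hm : w.length ≤ m)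
    (h1 : wperm w = 1) (h0 : ∀ x, flux w x = 0) (x : X.Pt) {p q : ℤ} {K : ℕ}
    (hK : 2 * ρ * (m + 1) ≤ K) (hpq : p + 4 * K < q) {a : Perm (Site n)}
    (ha : a = loc (wperm (wres (orb x {v | p ≤ v.1 ∧ v.1 ≤ q}) w)) x) :
    (∀ z, K < |z.1.1 - p| → K < |z.1.1 - q| → a z = z) ∧
    (∀ z, |z.1.1 - p| ≤ K → |(a z).1.1 - p| ≤ K) ∧ (∀ z, |z.1.1 - q| ≤ K → |(a z).1.1 - q| ≤ K) ∧
    ∀ h : ℤ, fl a {z | |z.1.1 - p| ≤ K} h = 0 ∧ fl a {z | |z.1.1 - q| ≤ K} h = 0 := by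
  have hw' : ∀ l ∈ w, l.Pre ∧ l.Rad ρ := fun l hl => ⟨(hw l hl).1.pre, (hw l hl).2⟩
  have f1 : ∀ z, K < |z.1.1 - p| → K < |z.1.1 - q| → a z = z := fun z hp hq => by
    rw [ha]
    exact FluxAux.strip_fix hF hw' hm h1 hK hp hq
  have f2 : ∀ z, a z = z ∨ (|(a z).1.1 - z.1.1| ≤ K ∧
      (|(a z).1.1 - p| ≤ K ∨ |(a z).1.1 - q| ≤ K)) := by
    intro z
    by_cases e : a z = z
    · exact Or.inl e
    · refine Or.inr ⟨?_, ?_⟩
      · rw [ha]
        refine (FluxAux.disp hF hw' hm _ x z).1.trans ?_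
        exact_mod_cast le_trans (Nat.mul_le_mul_left _ (Nat.le_succ m)) hK
      · by_contra hc
        rw [not_or, not_le, not_le] at hc
        exact e (a.injective (f1 _ hc.1 hc.2))
  have f3 : ∀ h : ℤ, fl (loc (wperm (wres (orb x {v | v.1 ≤ q}) w)) x) Set.univ h = 0 :=
    fun h => (FluxAux.flux_vadd hF w (q, h) x).symm.trans (h0 _)
  refine ⟨f1, fun z hz => ?_, fun z hz => ?_, fun h => ⟨?_, ?_⟩⟩
  · rcases f2 z with e | ⟨e1, e2⟩
    · rwa [e]
    · refine e2.resolve_right fun e3 => ?_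
      rw [abs_le] at hz e1 e3
      omega
  · rcases f2 z with e | ⟨e1, e2⟩
    · rwa [e]
    · refine e2.resolve_left fun e3 => ?_
      rw [abs_le] at hz e1 e3
      omega
  · rw [ha, FluxAux.fl_left hF hw hm h1 hK hpq, f3, neg_zero]
  · rw [ha, FluxAux.fl_right hF hw' hm h1 hK hpq, f3]

end Crest.Agent.R189
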