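import Crest.Agent.R189.Alt

/-! Row 189: central extensions, lifting of alternating groups. -/

set_option autoImplicit false

namespace Crest.Agent.R189

open Equiv

namespace LiftAux
variable {Γ G : Type} [Group Γ] [Group G] {θ : Γ →* G}

theorem exists_central (hc : θ.ker ≤ Subgroup.center Γ) {u u' : Γ} (h : θ u = θ u') :
    ∃ z ∈ Subgroup.center Γ, u = z * u' :=
  ⟨u * u'⁻¹, hc (by rw [MonoidHom.mem_ker, map_mul, map_inv, h, mul_inv_cancel]), by group⟩

theorem conj_central {z : Γ} (hz : z ∈ Subgroup.center Γ) (a : Γ) : a * z * a⁻¹ = z := by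
  rw [Subgroup.mem_center_iff.1 hz a, mul_inv_cancel_right]

end LiftAux

section til
variable {Γ G : Type} [Group Γ] [Group G] {θ : Γ →* G} {H H' : Subgroup G}

theorem til_mono (h : H ≤ H') : til θ H ≤ til θ H' :=
  Subgroup.commutator_mono (Subgroup.comap_mono h) (Subgroup.comap_mono h)

theorem til_le_comap : til θ H ≤ H.comap θ :=
  Subgroup.commutator_le_self _

theorem map_til (hr : H ≤ θ.range) (hp : ⁅H, H⁆ = H) : (til θ H).map θ = H := by
  rw [til, Subgroup.map_commutator, Subgroup.map_comap_eq_self hr, hp]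

theorem comm_eq_of_map_eq (hc : θ.ker ≤ Subgroup.center Γ) {u u' v v' : Γ} (hu : θ u = θ u')
    (hv : θ v = θ v') : u * v * u⁻¹ * v⁻¹ = u' * v' * u'⁻¹ * v'⁻¹ := by
  obtain ⟨z, hz, rfl⟩ := LiftAux.exists_central hc hu
  obtain ⟨w, hw, rfl⟩ := LiftAux.exists_central hc hv
  have h1 := LiftAux.conj_central hw u'
  have h2 := LiftAux.conj_central ((Subgroup.center Γ).inv_mem hz) (w * (u' * v' * u'⁻¹))
  have h3 := LiftAux.conj_central hw (u' * v' * u'⁻¹ * v'⁻¹)⁻¹
  calc z * u' * (w * v') * (z * u')⁻¹ * (w * v')⁻¹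
      = z * ((u' * w * u'⁻¹) * (u' * v' * u'⁻¹)) * z⁻¹ * (w * v')⁻¹ := by group
    _ = z * (w * (u' * v' * u'⁻¹) * z⁻¹ * (w * (u' * v' * u'⁻¹))⁻¹) * (w * (u' * v' * u'⁻¹)) *
          (w * v')⁻¹ := by rw [h1]; group
    _ = (u' * v' * u'⁻¹ * v'⁻¹) * ((u' * v' * u'⁻¹ * v'⁻¹)⁻¹ * w * (u' * v' * u'⁻¹ * v'⁻¹)⁻¹⁻¹) *
          w⁻¹ := by rw [h2]; group
    _ = u' * v' * u'⁻¹ * v'⁻¹ := by rw [h3]; group

theorem til_le_of_map (hc : θ.ker ≤ Subgroup.center Γ) {K : Subgroup Γ} (h : H ≤ K.map θ) :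
    til θ H ≤ K := by
  refine Subgroup.commutator_le.2 fun u hu v hv => ?_
  obtain ⟨u', hu', eu⟩ := h hu
  obtain ⟨v', hv', ev⟩ := h hv
  rw [commutatorElement_def, comm_eq_of_map_eq hc eu.symm ev.symm]
  exact K.mul_mem (K.mul_mem (K.mul_mem hu' hv') (K.inv_mem hu')) (K.inv_mem hv')

theorem til_commute (hc : θ.ker ≤ Subgroup.center Γ) {u v : Γ} (hu : u ∈ til θ H)
    (hv : ∀ a ∈ H, Commute a (θ v)) : Commute u v := by
  have key : ∀ a ∈ H.comap θ, ∃ z ∈ Subgroup.center Γ, a * v = z * (v * a) := fun a ha =>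
    LiftAux.exists_central hc (by rw [map_mul, map_mul]; exact hv _ ha)
  have hle : til θ H ≤ Subgroup.centralizer {v} := by
    refine Subgroup.commutator_le.2 fun a ha b hb => ?_
    obtain ⟨z, hz, ea⟩ := key a ha
    obtain ⟨w, hw, eb⟩ := key b hb
    rw [Subgroup.mem_centralizer_singleton_iff, commutatorElement_def]
    have e1 : a * b * v = (z * w) * v * (a * b) := by
      calc a * b * v = a * (b * v) := by group
        _ = (a * w * a⁻¹) * (a * v) * b := by rw [eb]; group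
        _ = (w * z * w⁻¹) * w * v * (a * b) := by rw [LiftAux.conj_central hw, ea]; group
        _ = _ := by rw [LiftAux.conj_central hz]
    have e2 : b * a * v = (z * w) * v * (b * a) := by
      calc b * a * v = b * (a * v) := by group
        _ = (b * z * b⁻¹) * (b * v) * a := by rw [ea]; group
        _ = _ := by rw [LiftAux.conj_central hz, eb]; group
    have hzw := (Subgroup.center Γ).mul_mem hz hw
    have e3 : (b * a)⁻¹ * v = (z * w)⁻¹ * v * (b * a)⁻¹ := by
      have h := Subgroup.mem_center_iff.1 hzw (b * a)⁻¹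
      calc (b * a)⁻¹ * v = (z * w)⁻¹ * ((z * w) * (b * a)⁻¹ * v) := by group
        _ = (z * w)⁻¹ * ((b * a)⁻¹ * ((z * w) * v * (b * a)) * (b * a)⁻¹) := by
          rw [← h]; group
        _ = _ := by rw [← e2]; group
    calc a * b * a⁻¹ * b⁻¹ * v = a * b * ((b * a)⁻¹ * v) := by group
      _ = (a * b * (z * w)⁻¹ * (a * b)⁻¹) * (a * b * v) * (b * a)⁻¹ := by rw [e3]; group
      _ = _ := by rw [LiftAux.conj_central ((Subgroup.center Γ).inv_mem hzw), e1]; group
  exact Subgroup.mem_centralizer_singleton_iff.1 (hle hu)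

theorem til_conj {u c : Γ} (hu : u ∈ til θ H) (h : ∀ a ∈ H, θ c * a * (θ c)⁻¹ ∈ H') :
    c * u * c⁻¹ ∈ til θ H' := by
  have hle : til θ H ≤ (til θ H').comap (MulAut.conj c).toMonoidHom := by
    refine Subgroup.commutator_le.2 fun a ha b hb => ?_
    rw [Subgroup.mem_comap, map_commutatorElement]
    have key : ∀ x ∈ H.comap θ, (MulAut.conj c).toMonoidHom x ∈ H'.comap θ := fun x hx => by
      change θ (c * x * c⁻¹) ∈ H'
      rw [map_mul, map_mul, map_inv]
      exact h _ hx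
    exact Subgroup.commutator_mem_commutator (key a ha) (key b hb)
  exact hle hu

theorem til_quot (N : Subgroup Γ) [N.Normal] (hN : N ≤ θ.ker) (H : Subgroup G) :
    til (QuotientGroup.lift N θ hN) H = (til θ H).map (QuotientGroup.mk' N) := by
  have e : (H.comap θ).map (QuotientGroup.mk' N) = H.comap (QuotientGroup.lift N θ hN) := by
    have : H.comap θ = (H.comap (QuotientGroup.lift N θ hN)).comap (QuotientGroup.mk' N) := rfl
    rw [this, Subgroup.map_comap_eq_self_of_surjective (QuotientGroup.mk'_surjective N)]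
  rw [til, til, Subgroup.map_commutator, e]

/-- Grün's lemma. -/
theorem center_quot_center (h : commutator Γ = ⊤) :
    Subgroup.center (Γ ⧸ Subgroup.center Γ) = ⊥ :=
  haveI : Group.IsPerfect Γ := ⟨h⟩
  Group.IsPerfect.center_quotient_center_eq_bot Γ

end til

variable {α : Type} [DecidableEq α]

namespace LiftAux

theorem apply_mem {F : Finset α} {g : Perm α} (hg : ∀ x ∉ F, g x = x) {x : α} (hx : x ∈ F) :
    g x ∈ F := by
  by_contra h
  exact h (by rw [g.injective (hg _ h)]; exact hx)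

theorem supp_swap_mul {F : Finset α} {g : Perm α} (hg : ∀ x ∉ F, g x = x) {a b : α} (ha : a ∈ F)
    (hb : b ∈ F) : ∀ x ∉ F, (swap a b * g) x = x := fun x hx => by
  rw [Perm.mul_apply, hg x hx]
  exact swap_apply_of_ne_of_ne (fun h => hx (h ▸ ha)) fun h => hx (h ▸ hb)

theorem supp_reduce {F : Finset α} {k : α} {g : Perm α} (hg : ∀ x ∉ insert k F, g x = x) :
    ∀ x ∉ F, (swap (g k) k * g) x = x := fun x hx => by
  rcases eq_or_ne x k with rfl | hk
  · rw [Perm.mul_apply, swap_apply_left]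
  · exact supp_swap_mul hg (apply_mem hg (Finset.mem_insert_self k F)) (Finset.mem_insert_self k F)
      x fun h => (Finset.mem_insert.1 h).elim hk hx

/-- Induction over transpositions inside a finite set. -/
theorem swap_induction (F : Finset α) (Q : Perm α → Prop) (h1 : Q 1)
    (hs : ∀ a ∈ F, ∀ b ∈ F, a ≠ b → ∀ g : Perm α, (∀ x ∉ F, g x = x) → Q g → Q (swap a b * g)) :
    ∀ g : Perm α, (∀ x ∉ F, g x = x) → Q g := by
  suffices H : ∀ F0 : Finset α, F0 ⊆ F → ∀ g : Perm α, (∀ x ∉ F0, g x = x) → Q g from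
    H F Finset.Subset.rfl
  intro F0
  induction F0 using Finset.induction_on with
  | empty =>
    intro _ g hg
    rw [show g = 1 from Equiv.ext fun x => hg x (Finset.notMem_empty x)]
    exact h1
  | insert k F0 _ ih =>
    intro hF g hg
    have h0 := supp_reduce hg
    have hQ := ih ((Finset.subset_insert k F0).trans hF) _ h0
    rcases eq_or_ne (g k) k with e | e
    · rwa [e, swap_self, ← Perm.one_def, one_mul] at hQ
    · have := hs _ (hF (apply_mem hg (Finset.mem_insert_self k F0))) _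
        (hF (Finset.mem_insert_self k F0)) e _
        (fun x hx => h0 x fun h => hx (hF (Finset.mem_insert_of_mem h))) hQ
      rwa [swap_mul_self_mul] at this

theorem exists_normal_form {Γ : Type} [Group Γ] (t : α → α → Γ) (F : Finset α)
    (hs : ∀ a ∈ F, ∀ b ∈ F, t a b = t b a)
    (h2 : ∀ a ∈ F, ∀ b ∈ F, a ≠ b → t a b * t a b = 1)
    (hc : ∀ a ∈ F, ∀ b ∈ F, ∀ c ∈ F, ∀ d ∈ F, a ≠ b → c ≠ d →
      t a b * t c d * t a b = t (swap a b c) (swap a b d)) :
    ∃ s : Perm α → Γ, s 1 = 1 ∧ ∀ a ∈ F, ∀ b ∈ F, a ≠ b → ∀ g : Perm α, (∀ x ∉ F, g x = x) →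
      s (swap a b * g) = t a b * s g := by
  induction F using Finset.induction_on with
  | empty => exact ⟨fun _ => 1, rfl, fun a ha => absurd ha (Finset.notMem_empty a)⟩
  | insert k F hk ih =>
    have hi : ∀ {x}, x ∈ F → x ∈ insert k F := Finset.mem_insert_of_mem
    have hkm := Finset.mem_insert_self k F
    obtain ⟨s, hs1, hss⟩ := ih (fun a ha b hb => hs a (hi ha) b (hi hb))
      (fun a ha b hb => h2 a (hi ha) b (hi hb))
      (fun a ha b hb c hc' d hd => hc a (hi ha) b (hi hb) c (hi hc') d (hi hd))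
    have hne : ∀ {x}, x ∈ F → x ≠ k := fun hx h => hk (h ▸ hx)
    refine ⟨fun g => (if g k = k then 1 else t (g k) k) * s (swap (g k) k * g), ?_, ?_⟩
    · simp [hs1, ← Perm.one_def]
    have main : ∀ b ∈ F, ∀ c ∈ insert k F, b ≠ c → ∀ g : Perm α, (∀ x ∉ insert k F, g x = x) →
        (if (swap b c * g) k = k then 1 else t ((swap b c * g) k) k) *
            s (swap ((swap b c * g) k) k * (swap b c * g)) =
          t b c * ((if g k = k then 1 else t (g k) k) * s (swap (g k) k * g)) := by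
      intro b hb c hc' hbc g hg
      have h0 := supp_reduce hg
      have ha := apply_mem hg hkm
      rw [Perm.mul_apply]
      generalize g k = a at h0 ha ⊢
      rcases Finset.mem_insert.1 hc' with rfl | hcF
      · rcases eq_or_ne a b with rfl | hab
        · rw [swap_apply_left, if_pos rfl, if_neg hbc, swap_self, ← Perm.one_def, one_mul, one_mul,
            ← mul_assoc, h2 a ha c hkm hbc, one_mul]
        rcases eq_or_ne a c with rfl | hac
        · rw [swap_apply_right, if_neg hbc, if_pos rfl, swap_self, ← Perm.one_def, one_mul, one_mul,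
            swap_mul_self_mul]
        have haF : a ∈ F := (Finset.mem_insert.1 ha).resolve_left hac
        rw [swap_apply_of_ne_of_ne hab hac, if_neg hac, ← mul_assoc (swap a c),
          mul_swap_eq_swap_mul, swap_apply_of_ne_of_ne hab.symm hbc, swap_apply_right, mul_assoc,
          hss b hb a haF hab.symm _ h0, ← mul_assoc, ← mul_assoc]
        have := hc a ha c hkm b (hi hb) c hkm hac hbc
        rw [swap_apply_of_ne_of_ne hab.symm hbc, swap_apply_right] at this
        rw [← this, ← mul_assoc, ← mul_assoc, h2 a ha c hkm hac, one_mul]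
      · have hk' : swap b c k = k := swap_apply_of_ne_of_ne (hne hb).symm (hne hcF).symm
        have e : swap (swap b c a) k * (swap b c * g) = swap b c * (swap a k * g) := by
          rw [← mul_assoc, ← mul_assoc, mul_swap_eq_swap_mul (swap b c), hk']
        rw [e, hss b hb c hcF hbc _ h0, ← mul_assoc, ← mul_assoc]
        congr 1
        rcases eq_or_ne a k with rfl | hak
        · rw [hk', if_pos rfl, one_mul, mul_one]
        · have hak' : swap b c a ≠ k := fun h => hak ((swap b c).injective (h.trans hk'.symm))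
          have := hc b (hi hb) c hc' a ha k hkm hbc hak
          rw [hk'] at this
          rw [if_neg hak, if_neg hak', ← this, mul_assoc, h2 b (hi hb) c hc' hbc, mul_one]
    intro a ha b hb hab g hg
    rcases Finset.mem_insert.1 ha with rfl | haF
    · rw [swap_comm, hs a ha b hb]
      exact main b ((Finset.mem_insert.1 hb).resolve_left hab.symm) a ha hab.symm g hg
    · exact main a haF b hb hab g hg

end LiftAux

/-- The presentation of the symmetric group by transposition symbols. -/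
theorem exists_hom_of_swaps {Γ : Type} [Group Γ] (F : Finset α) (t : α → α → Γ)
    (hs : ∀ a ∈ F, ∀ b ∈ F, t a b = t b a)
    (h2 : ∀ a ∈ F, ∀ b ∈ F, a ≠ b → t a b * t a b = 1)
    (hc : ∀ a ∈ F, ∀ b ∈ F, ∀ c ∈ F, ∀ d ∈ F, a ≠ b → c ≠ d →
      t a b * t c d * t a b = t (swap a b c) (swap a b d)) :
    ∃ s : Perm α → Γ, s 1 = 1 ∧ (∀ a ∈ F, ∀ b ∈ F, a ≠ b → s (swap a b) = t a b) ∧
      ∀ g g' : Perm α, (∀ x ∉ F, g x = x) → (∀ x ∉ F, g' x = x) → s (g * g') = s g * s g' := by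
  obtain ⟨s, h1, hm⟩ := LiftAux.exists_normal_form t F hs h2 hc
  refine ⟨s, h1, fun a ha b hb hab => ?_, fun g g' hg hg' => ?_⟩
  · have := hm a ha b hb hab 1 fun _ _ => rfl
    rwa [mul_one, h1, mul_one] at this
  · refine LiftAux.swap_induction F (fun g => s (g * g') = s g * s g') ?_ ?_ g hg
    · rw [one_mul, h1, one_mul]
    · intro a ha b hb hab g hg ih
      rw [mul_assoc, hm a ha b hb hab _ fun x hx => by rw [Perm.mul_apply, hg' x hx, hg x hx], ih,
        hm a ha b hb hab g hg, mul_assoc]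

namespace LiftAux

theorem klein {a b c d : α} (hab : a ≠ b) (hac : a ≠ c) (had : a ≠ d) (hbc : b ≠ c) (hbd : b ≠ d)
    (hcd : c ≠ d) : swap a c * swap d b * (swap a d * swap b c)⁻¹ = swap a b * swap c d := by
  rw [mul_inv_eq_iff_eq_mul]
  ext x
  simp only [Perm.mul_apply]
  by_cases h1 : x = a
  · subst h1
    simp [swap_apply_of_ne_of_ne, *, Ne.symm]
  by_cases h2 : x = b
  · subst h2
    simp [swap_apply_of_ne_of_ne, *, Ne.symm]
  by_cases h3 : x = c
  · subst h3
    simp [swap_apply_of_ne_of_ne, *, Ne.symm]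
  by_cases h4 : x = d
  · subst h4
    simp [swap_apply_of_ne_of_ne, *, Ne.symm]
  simp [swap_apply_of_ne_of_ne, *]

theorem conj_dt (g : Perm α) (a b c d : α) :
    g * (swap a b * swap c d) * g⁻¹ = swap (g a) (g b) * swap (g c) (g d) := by
  rw [swap_apply_apply, swap_apply_apply]; group

theorem swap_comm' {a b c d : α} (hac : a ≠ c) (had : a ≠ d) (hbc : b ≠ c) (hbd : b ≠ d) :
    swap a b * swap c d = swap c d * swap a b := by
  rw [mul_swap_eq_swap_mul, swap_apply_of_ne_of_ne hac.symm hbc.symm,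
    swap_apply_of_ne_of_ne had.symm hbd.symm]

/-- The canonical lifts of the double transpositions. -/
theorem exists_can {Γ G : Type} [Group Γ] [Group G] (θ : Γ →* G)
    (hc : θ.ker ≤ Subgroup.center Γ) (F : Finset α) (ι : Perm α → G)
    (hmul : ∀ a ∈ AltOn F, ∀ b ∈ AltOn F, ι (a * b) = ι a * ι b)
    (hr : ∀ a ∈ AltOn F, ι a ∈ θ.range)
    (hcomm : ∀ a ∈ F, ∀ b ∈ F, ∀ c ∈ F, ∀ d ∈ F, a ≠ b → a ≠ c → a ≠ d → b ≠ c → b ≠ d →
      c ≠ d → ∀ u v : Γ, θ u = ι (swap a b * swap c d) → θ v = ι (swap a c * swap b d) →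
        Commute u v) :
    ∃ Λ : α → α → α → α → Γ, ∀ a ∈ F, ∀ b ∈ F, ∀ c ∈ F, ∀ d ∈ F,
      a ≠ b → a ≠ c → a ≠ d → b ≠ c → b ≠ d → c ≠ d →
      θ (Λ a b c d) = ι (swap a b * swap c d) ∧ Λ a b c d * Λ a b c d = 1 ∧
        Λ a b d c = Λ a b c d ∧ Λ b a c d = Λ a b c d ∧
        ∀ g ∈ AltOn F, ∀ γ : Γ, θ γ = ι g → γ * Λ a b c d * γ⁻¹ = Λ (g a) (g b) (g c) (g d) := by
  classical
  have h1 : ι 1 = 1 := by
    have := hmul 1 (one_mem _) 1 (one_mem _)
    rw [mul_one] at this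
    exact mul_eq_left.1 this.symm
  have hinv : ∀ a ∈ AltOn F, ι a⁻¹ = (ι a)⁻¹ := fun a ha =>
    eq_inv_of_mul_eq_one_left (by rw [← hmul _ (inv_mem ha) _ ha, inv_mul_cancel, h1])
  have hconj : ∀ g ∈ AltOn F, ∀ a ∈ AltOn F, ∀ γ u : Γ, θ γ = ι g → θ u = ι a →
      θ (γ * u * γ⁻¹) = ι (g * a * g⁻¹) := fun g hg a ha γ u hγ hu => by
    rw [map_mul, map_mul, map_inv, hγ, hu, hmul _ (mul_mem hg ha) _ (inv_mem hg), hmul _ hg _ ha,
      hinv g hg]
  have hr' : ∀ a : Perm α, ∃ u : Γ, a ∈ AltOn F → θ u = ι a := fun a => by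
    by_cases ha : a ∈ AltOn F
    · obtain ⟨u, hu⟩ := hr a ha
      exact ⟨u, fun _ => hu⟩
    · exact ⟨1, fun h => absurd h ha⟩
  choose r hr using hr'
  obtain ⟨Λ, hΛ⟩ : ∃ Λ : α → α → α → α → Γ, ∀ a b c d, Λ a b c d =
      r (c3 b c d) * r (swap a d * swap b c) * (r (c3 b c d))⁻¹ * (r (swap a d * swap b c))⁻¹ :=
    ⟨_, fun _ _ _ _ => rfl⟩
  have A : ∀ a ∈ F, ∀ b ∈ F, ∀ c ∈ F, ∀ d ∈ F, a ≠ b → a ≠ c → a ≠ d → b ≠ c → b ≠ d → c ≠ d →
      θ (Λ a b c d) = ι (swap a b * swap c d) ∧ Λ a b c d * Λ a b c d = 1 ∧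
        Λ a b d c = Λ a b c d ∧
        ∀ g ∈ AltOn F, ∀ γ : Γ, θ γ = ι g → γ * Λ a b c d * γ⁻¹ = Λ (g a) (g b) (g c) (g d) := by
    intro a ha b hb c hc' d hd hab hac had hbc hbd hcd
    have hσ : c3 b c d ∈ AltOn F := c3_mem_AltOn hbc hbd hb hc' hd
    have hw : swap a d * swap b c ∈ AltOn F := swap_mul_swap_mem_AltOn had hbc ha hd hb hc'
    have hw' : swap a c * swap d b ∈ AltOn F := swap_mul_swap_mem_AltOn hac hbd.symm ha hc' hd hb
    have e1 : c3 b c d * (swap a d * swap b c) * (c3 b c d)⁻¹ = swap a c * swap d b := by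
      rw [conj_dt, c3_apply_of_ne hab hac had, c3_apply_fst hbc hbd hcd, c3_apply_snd hbc hbd hcd,
        c3_apply_thd hbc hbd hcd]
    set s := r (c3 b c d) with hs
    set w := r (swap a d * swap b c) with hwd
    have hsθ : θ s = ι (c3 b c d) := hr _ hσ
    have hwθ : θ w = ι (swap a d * swap b c) := hr _ hw
    have hw'θ : θ (s * w * s⁻¹) = ι (swap a c * swap d b) := by
      rw [← e1]; exact hconj _ hσ _ hw s w hsθ hwθ
    have hcm : Commute (s * w * s⁻¹) w :=
      hcomm a ha c hc' d hd b hb hac had hab hcd hbc.symm hbd.symm _ _ hw'θ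
        (by rw [swap_comm c b]; exact hwθ)
    have hww : w * w ∈ Subgroup.center Γ := hc (by
      rw [MonoidHom.mem_ker, map_mul, hwθ, ← hmul _ hw _ hw, ← h1]
      congr 1
      nth_rewrite 2 [swap_comm' hab hac hbd.symm hcd.symm]
      rw [mul_assoc, swap_mul_self_mul, swap_mul_self])
    have hsq : Λ a b c d * Λ a b c d = 1 := by
      rw [hΛ, ← hs, ← hwd]
      calc s * w * s⁻¹ * w⁻¹ * (s * w * s⁻¹ * w⁻¹)
          = s * w * s⁻¹ * (w⁻¹ * (s * w * s⁻¹)) * w⁻¹ := by group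
        _ = s * (w * w) * s⁻¹ * (w * w)⁻¹ := by rw [← hcm.inv_right.eq]; group
        _ = 1 := by rw [conj_central hww, mul_inv_cancel]
    refine ⟨?_, hsq, ?_, fun g hg γ hγ => ?_⟩
    · rw [hΛ, ← hs, ← hwd, map_mul, hw'θ, map_inv, hwθ, ← hinv _ hw, ← hmul _ hw' _ (inv_mem hw),
        klein hab hac had hbc hbd hcd]
    · have e2 : θ (r (c3 b d c)) = θ s⁻¹ := by
        rw [← c3_inv, hr _ (inv_mem hσ), map_inv, hsθ, hinv _ hσ]
      have e3 : θ (r (swap a c * swap b d)) = θ (s * w * s⁻¹) := by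
        rw [hw'θ, swap_comm b d, hr _ hw']
      rw [eq_inv_of_mul_eq_one_left hsq, hΛ a b d c, comm_eq_of_map_eq hc e2 e3, hΛ, ← hs, ← hwd]
      group
    · have e2 : θ (r (c3 (g b) (g c) (g d))) = θ (γ * s * γ⁻¹) := by
        rw [hconj _ hg _ hσ γ s hγ hsθ, ← conj_c3, hr _ (mul_mem (mul_mem hg hσ) (inv_mem hg))]
      have e3 : θ (r (swap (g a) (g d) * swap (g b) (g c))) = θ (γ * w * γ⁻¹) := by
        rw [hconj _ hg _ hw γ w hγ hwθ, ← conj_dt, hr _ (mul_mem (mul_mem hg hw) (inv_mem hg))]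
      rw [hΛ (g a), comm_eq_of_map_eq hc e2 e3, hΛ, ← hs, ← hwd]
      group
  refine ⟨Λ, fun a ha b hb c hc' d hd hab hac had hbc hbd hcd => ?_⟩
  obtain ⟨a1, a2, a3, a4⟩ := A a ha b hb c hc' d hd hab hac had hbc hbd hcd
  refine ⟨a1, a2, a3, ?_, a4⟩
  have h := a4 _ (swap_mul_swap_mem_AltOn hab hcd ha hb hc' hd) _ a1
  simp only [Perm.mul_apply, swap_apply_left, swap_apply_right,
    swap_apply_of_ne_of_ne hac had, swap_apply_of_ne_of_ne hbc hbd,
    swap_apply_of_ne_of_ne hac.symm hbc.symm, swap_apply_of_ne_of_ne had.symm hbd.symm,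
    mul_inv_cancel_right] at h
  rw [h, (A b hb a ha c hc' d hd hab.symm hbc hbd hac had hcd).2.2.1]

end LiftAux

/-- If the lifts of the double transpositions on four points commute, a central extension splits
over the alternating group of all but two points. -/
theorem lift_alt {Γ G : Type} [Group Γ] [Group G] (θ : Γ →* G)
    (hc : θ.ker ≤ Subgroup.center Γ) (F F' : Finset α) (p q : α) (hp : p ∉ F) (hq : q ∉ F)
    (hpq : p ≠ q) (hF' : F' = insert p (insert q F)) (ι : Perm α → G)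
    (hmul : ∀ a ∈ AltOn F', ∀ b ∈ AltOn F', ι (a * b) = ι a * ι b)
    (hr : ∀ a ∈ AltOn F', ι a ∈ θ.range)
    (hcomm : ∀ a ∈ F', ∀ b ∈ F', ∀ c ∈ F', ∀ d ∈ F', a ≠ b → a ≠ c → a ≠ d → b ≠ c → b ≠ d →
      c ≠ d → ∀ u v : Γ, θ u = ι (swap a b * swap c d) → θ v = ι (swap a c * swap b d) →
        Commute u v) :
    ∃ s : Perm α → Γ, (∀ a ∈ AltOn F, ∀ b ∈ AltOn F, s (a * b) = s a * s b) ∧
      ∀ a ∈ AltOn F, θ (s a) = ι a := by
  obtain ⟨Λ, hΛ⟩ := LiftAux.exists_can θ hc F' ι hmul hr hcomm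
  have hFF : F ⊆ F' := fun x hx => by simp [hF', hx]
  have hp' : p ∈ F' := by simp [hF']
  have hq' : q ∈ F' := by simp [hF']
  have np : ∀ {x}, x ∈ F → x ≠ p := fun hx h => hp (h ▸ hx)
  have nq : ∀ {x}, x ∈ F → x ≠ q := fun hx h => hq (h ▸ hx)
  have H := fun a (ha : a ∈ F) b (hb : b ∈ F) (hab : a ≠ b) =>
    hΛ a (hFF ha) b (hFF hb) p hp' q hq' hab (np ha) (nq ha) (np hb) (nq hb) hpq
  have hmem : ∀ a ∈ F, ∀ b ∈ F, a ≠ b → swap a b * swap p q ∈ AltOn F' := fun a ha b hb hab =>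
    swap_mul_swap_mem_AltOn hab hpq (hFF ha) (hFF hb) hp' hq'
  obtain ⟨s, hs1, hss, hsm⟩ := exists_hom_of_swaps F (fun a b => Λ a b p q)
    (fun a ha b hb => by
      rcases eq_or_ne a b with rfl | hab
      · rfl
      · exact (H a ha b hb hab).2.2.2.1.symm)
    (fun a ha b hb hab => (H a ha b hb hab).2.1)
    (fun a ha b hb c hc' d hd hab hcd => by
      have h := (H c hc' d hd hcd).2.2.2.2 _ (hmem a ha b hb hab) _ (H a ha b hb hab).1
      rw [← eq_inv_of_mul_eq_one_left (H a ha b hb hab).2.1] at h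
      simp only [Perm.mul_apply, swap_apply_left, swap_apply_right,
        swap_apply_of_ne_of_ne (np hc') (nq hc'), swap_apply_of_ne_of_ne (np hd) (nq hd),
        swap_apply_of_ne_of_ne (np ha).symm (np hb).symm,
        swap_apply_of_ne_of_ne (nq ha).symm (nq hb).symm] at h
      have hsw : ∀ x ∉ F, swap a b x = x := fun x hx =>
        swap_apply_of_ne_of_ne (fun e => hx (e ▸ ha)) fun e => hx (e ▸ hb)
      exact h.trans (H _ (LiftAux.apply_mem hsw hc') _ (LiftAux.apply_mem hsw hd)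
        ((swap a b).injective.ne hcd)).2.2.1)
  have hsm' : ∀ a ∈ AltOn F, ∀ b ∈ AltOn F, s (a * b) = s a * s b := fun a ha b hb =>
    hsm a b (fun _ => AltOn.apply_of_not_mem ha) fun _ => AltOn.apply_of_not_mem hb
  refine ⟨s, hsm', AltOn.c3_induction (fun a => θ (s a) = ι a) ?_ ?_ ?_⟩
  · have := hmul 1 (one_mem _) 1 (one_mem _)
    rw [mul_one] at this
    rw [hs1, map_one, mul_eq_left.1 this.symm]
  · intro x hx y hy z hz hxy hxz _
    have hsw : ∀ a ∈ F, ∀ b ∈ F, ∀ x ∉ F, swap a b x = x := fun a ha b hb x hx =>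
      swap_apply_of_ne_of_ne (fun e => hx (e ▸ ha)) fun e => hx (e ▸ hb)
    rw [c3, hsm _ _ (hsw x hx y hy) (hsw x hx z hz), hss x hx y hy hxy, hss x hx z hz hxz, map_mul,
      (H x hx y hy hxy).1, (H x hx z hz hxz).1, ← hmul _ (hmem x hx y hy hxy) _ (hmem x hx z hz hxz),
      LiftAux.swap_comm' (np hx) (nq hx) (np hz) (nq hz), mul_assoc, swap_mul_self_mul]
  · intro a ha b hb iha ihb
    rw [hsm' a ha b hb, map_mul, iha, ihb, hmul a (AltOn.mono hFF ha) b (AltOn.mono hFF hb)]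

end Crest.Agent.R189
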