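import Crest.Agent.R189.LGrp
import Crest.Agent.R189.Lift

/-! Row 189: the commutators of lifts of double transpositions generate a finite group. -/

set_option autoImplicit false

namespace Crest.Agent.R189

open Equiv Pointwise LGrpAux

namespace H0aAux

open scoped IsMulCommutative in
/-- A group generated by finitely many central involutions is small. -/
theorem exists_fin {Γ ι : Type} [Group Γ] [Fintype ι] (g : ι → Γ)
    (hc : ∀ i, g i ∈ Subgroup.center Γ) (h2 : ∀ i, g i * g i = 1) :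
    ∃ A : Finset Γ, A.card ≤ 2 ^ Fintype.card ι ∧ ∀ x ∈ Subgroup.closure (Set.range g), x ∈ A := by
  classical
  let g' : ι → Subgroup.center Γ := fun i => ⟨g i, hc i⟩
  let A : Finset Γ := Finset.univ.image fun s : Finset ι => ((∏ i ∈ s, g' i : Subgroup.center Γ) : Γ)
  have hA : ∀ i, ∀ y ∈ A, g i * y ∈ A := by
    intro i y hy
    obtain ⟨s, -, rfl⟩ := Finset.mem_image.1 hy
    by_cases hi : i ∈ s
    · refine Finset.mem_image.2 ⟨s.erase i, Finset.mem_univ _, ?_⟩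
      rw [← Finset.mul_prod_erase s g' hi, Subgroup.coe_mul, ← mul_assoc, h2, one_mul]
    · refine Finset.mem_image.2 ⟨insert i s, Finset.mem_univ _, ?_⟩
      rw [Finset.prod_insert hi, Subgroup.coe_mul]
  refine ⟨A, Finset.card_image_le.trans (by simp), fun x hx => ?_⟩
  induction hx using Subgroup.closure_induction_left with
  | one => exact Finset.mem_image.2 ⟨∅, Finset.mem_univ _, by simp⟩
  | mul_left a ha y _ hy =>
    obtain ⟨i, rfl⟩ := ha
    exact hA i y hy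
  | inv_mul_cancel a ha y _ hy =>
    obtain ⟨i, rfl⟩ := ha
    rw [inv_eq_of_mul_eq_one_right (h2 i)]
    exact hA i y hy

theorem exists_cm {Γ G : Type} [Group Γ] [Group G] (θ : Γ →* G) (hc : θ.ker ≤ Subgroup.center Γ) :
    ∃ cm : G → G → Γ, ∀ u v, cm (θ u) (θ v) = u * v * u⁻¹ * v⁻¹ :=
  ⟨fun a b => Function.invFun θ a * Function.invFun θ b * (Function.invFun θ a)⁻¹ *
      (Function.invFun θ b)⁻¹,
    fun u v => comm_eq_of_map_eq hc (Function.invFun_eq ⟨u, rfl⟩) (Function.invFun_eq ⟨v, rfl⟩)⟩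

theorem comm_mul {Γ : Type} [Group Γ] {u v u' v' : Γ} (h1 : Commute u u') (h2 : Commute u v')
    (h3 : Commute v u') (h4 : Commute v v') :
    u * u' * (v * v') * (u * u')⁻¹ * (v * v')⁻¹ =
      u * v * u⁻¹ * v⁻¹ * (u' * v' * u'⁻¹ * v'⁻¹) := by
  rw [h1.mul_inv, h4.mul_inv, h3.symm.mul_mul_mul_comm,
    (h1.symm.mul_left h2.symm).inv_right.mul_mul_mul_comm,
    ((h3.symm.mul_left h4.symm).mul_left h3.symm.inv_left).inv_right.mul_mul_mul_comm]

theorem dt_commute {α : Type} [DecidableEq α] {a b c d : α} (hab : a ≠ b) (hac : a ≠ c)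
    (had : a ≠ d) (hbc : b ≠ c) (hbd : b ≠ d) (hcd : c ≠ d) :
    Commute (swap a b * swap c d) (swap a c * swap b d) := by
  ext x
  simp only [Perm.mul_apply, swap_apply_def]
  grind

theorem dt_sq {α : Type} [DecidableEq α] {a b c d : α} (hac : a ≠ c)
    (had : a ≠ d) (hbc : b ≠ c) (hbd : b ≠ d) :
    swap a b * swap c d * (swap a b * swap c d) = 1 := by
  ext x
  simp only [Perm.mul_apply, swap_apply_def, Perm.one_apply]
  grind

variable {S : Type} {X : Sub S} {n : ℕ} {Γ : Type} [Group Γ] (E : CExt X n Γ)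
  {cm : Perm (Hat X n) → Perm (Hat X n) → Γ}
  (hcm : ∀ u v, cm (E.θ u) (E.θ v) = u * v * u⁻¹ * v⁻¹)
  {U U' : Set X.Pt} {F : Finset (Site n)} {p q : Perm (Site n)}

theorem exists_lift {γ : Perm (Hat X n)} (h : γ ∈ Alt X n) : ∃ u, E.θ u = γ := by
  rwa [← E.range] at h

theorem exists_til (hn : 5 ≤ n) (hU : Loc U) (h : MS U F) (hc : 5 ≤ F.card) (hp : p ∈ AltOn F) :
    ∃ u ∈ til E.θ (L U F), E.θ u = ms U p := by
  have h1 := ms_mem_L (subset_refl U) hU hp
  rwa [← map_til (θ := E.θ) (E.range ▸ L_le_Alt hn h) (L_perfect h hc)] at h1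

theorem exists_five (hn : 5 ≤ n) (a b c d : Site n) (hab : a ≠ b) (hac : a ≠ c)
    (had : a ≠ d) (hbc : b ≠ c) (hbd : b ≠ d) (hcd : c ≠ d) :
    ∃ F : Finset (Site n), {a, b, c, d} ⊆ F ∧ 5 ≤ F.card ∧
      ∀ U : Set X.Pt, MS U {a, b, c, d} → MS U F := by
  obtain ⟨i, hi⟩ : ∃ i : Fin n, i ∉ ({a.2, b.2, c.2, d.2} : Finset (Fin n)) := by
    by_contra h
    push Not at h
    have h1 : (Finset.univ : Finset (Fin n)).card ≤ ({a.2, b.2, c.2, d.2} : Finset (Fin n)).card :=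
      Finset.card_le_card fun i _ => h i
    have h2 : ({a.2, b.2, c.2, d.2} : Finset (Fin n)).card ≤ 4 := Finset.card_le_four
    rw [Finset.card_univ, Fintype.card_fin] at h1
    omega
  have hd : ∀ z ∈ ({a, b, c, d} : Finset (Site n)), ∀ z' ∈ ({(0, i)} : Finset (Site n)),
      z.2 ≠ z'.2 := by
    simp only [Finset.mem_insert, Finset.mem_singleton, not_or] at hi ⊢
    rintro z (rfl | rfl | rfl | rfl) _ rfl
    · exact Ne.symm hi.1
    · exact Ne.symm hi.2.1
    · exact Ne.symm hi.2.2.1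
    · exact Ne.symm hi.2.2.2
  refine ⟨{a, b, c, d} ∪ {(0, i)}, Finset.subset_union_left, ?_, fun U hU =>
    hU.union_fresh (MS.of_sheets (by simp)) hd⟩
  rw [Finset.card_union_of_disjoint (Finset.disjoint_left.2 fun z hz hz' => hd z hz z hz' rfl),
    Finset.card_eq_four.2 ⟨a, b, c, d, hab, hac, had, hbc, hbd, hcd, rfl⟩, Finset.card_singleton]

include hcm

theorem cm_one : cm 1 1 = 1 := by
  have := hcm 1 1
  simpa using this

theorem cm_empty : cm (ms (∅ : Set X.Pt) p) (ms (∅ : Set X.Pt) q) = 1 := by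
  rw [ms, ms, msf_empty, msf_empty, cm_one E hcm]

theorem cm_ker (hn : 5 ≤ n) (hU : Loc U) (h : MS U F) (hp : p ∈ AltOn F) (hq : q ∈ AltOn F)
    (hpq : Commute p q) : cm (ms U p) (ms U q) ∈ E.θ.ker := by
  obtain ⟨u, hu⟩ := exists_lift E (ms_mem_Alt hn hU h hp)
  obtain ⟨v, hv⟩ := exists_lift E (ms_mem_Alt hn hU h hq)
  rw [← hu, ← hv, hcm, MonoidHom.mem_ker]
  simp only [map_mul, map_inv, hu, hv]
  rw [← ms_mul h hp hq, hpq.eq, ms_mul h hq hp]
  group

theorem cm_sq (hn : 5 ≤ n) (hU : Loc U) (h : MS U F) (hp : p ∈ AltOn F) (hq : q ∈ AltOn F)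
    (hpq : Commute p q) (h2 : p * p = 1) :
    cm (ms U p) (ms U q) * cm (ms U p) (ms U q) = 1 := by
  have hz := E.central (cm_ker E hcm hn hU h hp hq hpq)
  obtain ⟨u, hu⟩ := exists_lift E (ms_mem_Alt hn hU h hp)
  obtain ⟨v, hv⟩ := exists_lift E (ms_mem_Alt hn hU h hq)
  have hu2 : u * u ∈ Subgroup.center Γ := E.central (by
    rw [MonoidHom.mem_ker, map_mul, hu, ← ms_mul h hp hp, h2, ms_one])
  rw [← hu, ← hv, hcm] at hz ⊢
  have e1 := Subgroup.mem_center_iff.1 hz u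
  have e2 := Subgroup.mem_center_iff.1 hu2 v
  calc u * v * u⁻¹ * v⁻¹ * (u * v * u⁻¹ * v⁻¹)
      = u * (u * v * u⁻¹ * v⁻¹) * u⁻¹ * (u * v * u⁻¹ * v⁻¹) := by rw [e1]; group
    _ = u * u * v * (u * u)⁻¹ * v⁻¹ := by group
    _ = 1 := by rw [← e2]; group

theorem cm_union (hn : 5 ≤ n) (hU : Loc U) (hU' : Loc U') (hd : Disjoint U U')
    (h : MS (U ∪ U') F) (hc : 5 ≤ F.card) (hp : p ∈ AltOn F) (hq : q ∈ AltOn F) :
    cm (ms (U ∪ U') p) (ms (U ∪ U') q) = cm (ms U p) (ms U q) * cm (ms U' p) (ms U' q) := by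
  have h1 : MS U F := h.mono Set.subset_union_left (subset_refl _)
  have h2 : MS U' F := h.mono Set.subset_union_right (subset_refl _)
  have hL := L_commute h1 h2 fun x hx y hy z hz z' hz' e =>
    Set.disjoint_left.1 hd hx ((h x (Or.inl hx) y (Or.inr hy) z hz z' hz' e).1 ▸ hy)
  obtain ⟨u, hu, eu⟩ := exists_til E hn hU h1 hc hp
  obtain ⟨v, hv, ev⟩ := exists_til E hn hU h1 hc hq
  obtain ⟨u', hu', eu'⟩ := exists_til E hn hU' h2 hc hp
  obtain ⟨v', hv', ev'⟩ := exists_til E hn hU' h2 hc hq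
  have hc : ∀ a ∈ til E.θ (L U F), ∀ b ∈ til E.θ (L U' F), Commute a b := fun a ha b hb =>
    til_commute E.central ha fun γ hγ => hL γ hγ _ (til_le_comap hb)
  have e : ∀ a ∈ AltOn F, ms (U ∪ U') a = ms U a * ms U' a := fun a ha =>
    msf_union h (fun _ _ _ hz => AltOn.apply_of_not_mem ha hz) hd
  rw [e p hp, e q hq, ← eu, ← ev, ← eu', ← ev', ← map_mul, ← map_mul, hcm, hcm, hcm]
  exact comm_mul (hc u hu u' hu') (hc u hu v' hv') (hc v hv u' hu') (hc v hv v' hv')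

theorem cm_conj (hn : 5 ≤ n) (hU : Loc U) (h : MS U F) (hp : p ∈ AltOn F) (hq : q ∈ AltOn F)
    (hpq : Commute p q) {σ : Perm (Site n)} (hσ : σ ∈ AltOn F) :
    cm (ms U (σ * p * σ⁻¹)) (ms U (σ * q * σ⁻¹)) = cm (ms U p) (ms U q) := by
  have hz := E.central (cm_ker E hcm hn hU h hp hq hpq)
  obtain ⟨u, hu⟩ := exists_lift E (ms_mem_Alt hn hU h hp)
  obtain ⟨v, hv⟩ := exists_lift E (ms_mem_Alt hn hU h hq)
  obtain ⟨w, hw⟩ := exists_lift E (ms_mem_Alt hn hU h hσ)
  rw [ms_mul h (mul_mem hσ hp) (inv_mem hσ), ms_mul h (mul_mem hσ hq) (inv_mem hσ), ms_mul h hσ hp,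
    ms_mul h hσ hq, ms_inv h hσ, ← hw, ← hu, ← hv]
  simp only [← map_mul, ← map_inv]
  rw [← hu, ← hv, hcm] at hz
  rw [hcm, hcm, ← LiftAux.conj_central hz w]
  group

/-- The commutator does not depend on the quadruple of sites. -/
theorem cm_indep [Finite S] (hn : 6 ≤ n) (hF : Free X) (hU : Loc U) {a b c d a' b' c' d' : Site n}
    (h : MS U {a, b, c, d}) (hab : a ≠ b) (hac : a ≠ c) (had : a ≠ d) (hbc : b ≠ c) (hbd : b ≠ d)
    (hcd : c ≠ d) (h' : MS U {a', b', c', d'}) (hab' : a' ≠ b') (hac' : a' ≠ c') (had' : a' ≠ d')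
    (hbc' : b' ≠ c') (hbd' : b' ≠ d') (hcd' : c' ≠ d') :
    cm (ms U (swap a b * swap c d)) (ms U (swap a c * swap b d)) =
      cm (ms U (swap a' b' * swap c' d')) (ms U (swap a' c' * swap b' d')) := by
  have hn5 : 5 ≤ n := by omega
  obtain ⟨F, hF1, hF2, hF3⟩ := exists_five (X := X) hn5 a b c d hab hac had hbc hbd hcd
  obtain ⟨F', hF1', hF2', hF3'⟩ := exists_five (X := X) hn5 a' b' c' d' hab' hac' had' hbc' hbd' hcd'
  refine Loc.cover' (fun U => cm (ms U (swap a b * swap c d)) (ms U (swap a c * swap b d)) =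
    cm (ms U (swap a' b' * swap c' d')) (ms U (swap a' c' * swap b' d'))) ?_ hU ?_ ?_
  · rw [cm_empty E hcm, cm_empty E hcm]
  · intro U₁ U₂ h1 h2 s1 s2 hd e1 e2
    have hs : U₁ ∪ U₂ ⊆ U := Set.union_subset s1 s2
    rw [cm_union E hcm hn5 h1 h2 hd ((hF3 U h).mono hs (subset_refl _)) hF2
        (swap_mul_swap_mem_AltOn hab hcd (hF1 (by simp)) (hF1 (by simp)) (hF1 (by simp))
          (hF1 (by simp)))
        (swap_mul_swap_mem_AltOn hac hbd (hF1 (by simp)) (hF1 (by simp)) (hF1 (by simp))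
          (hF1 (by simp))),
      cm_union E hcm hn5 h1 h2 hd ((hF3' U h').mono hs (subset_refl _)) hF2'
        (swap_mul_swap_mem_AltOn hab' hcd' (hF1' (by simp)) (hF1' (by simp)) (hF1' (by simp))
          (hF1' (by simp)))
        (swap_mul_swap_mem_AltOn hac' hbd' (hF1' (by simp)) (hF1' (by simp)) (hF1' (by simp))
          (hF1' (by simp))), e1, e2]
  · intro x _
    obtain ⟨K, hK1, hK2, hK3⟩ : ∃ K : Finset (Site n), {a, b, c, d} ⊆ K ∧ {a', b', c', d'} ⊆ K ∧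
        6 ≤ K.card := by
      refine ⟨{a, b, c, d} ∪ {a', b', c', d'} ∪ sites n {0}, fun z hz => ?_, fun z hz => ?_, ?_⟩
      · exact Finset.mem_union_left _ (Finset.mem_union_left _ hz)
      · exact Finset.mem_union_left _ (Finset.mem_union_right _ hz)
      · refine le_trans ?_ (Finset.card_le_card Finset.subset_union_right)
        simpa [sites] using hn
    obtain ⟨r, hr⟩ := exists_MS_cyl hF K
    refine ⟨r, fun U' hU' hs => ?_⟩
    have hM : MS U' K := (hr x).mono (hs.trans Set.inter_subset_right) (subset_refl _)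
    obtain ⟨σ, hσ, hσ'⟩ := AltOn.exists_extend hK2
      (le_trans (Nat.add_le_add_right Finset.card_le_four 2) hK3)
      (fun z => if z = a' then a else if z = b' then b else if z = c' then c else d)
      (by
        intro y hy z hz
        simp only [Finset.coe_insert, Finset.coe_singleton, Set.mem_insert_iff,
          Set.mem_singleton_iff] at hy hz
        grind)
      (fun z _ => hK1 (by split_ifs <;> simp))
    have ea : σ a' = a := by rw [hσ' _ (by simp)]; simp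
    have eb : σ b' = b := by rw [hσ' _ (by simp)]; simp [hab'.symm]
    have ec : σ c' = c := by rw [hσ' _ (by simp)]; simp [hac'.symm, hbc'.symm]
    have ed : σ d' = d := by rw [hσ' _ (by simp)]; simp [had'.symm, hbd'.symm, hcd'.symm]
    have := cm_conj E hcm hn5 hU' hM
      (swap_mul_swap_mem_AltOn hab' hcd' (hK2 (by simp)) (hK2 (by simp)) (hK2 (by simp))
        (hK2 (by simp)))
      (swap_mul_swap_mem_AltOn hac' hbd' (hK2 (by simp)) (hK2 (by simp)) (hK2 (by simp))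
        (hK2 (by simp))) (dt_commute hab' hac' had' hbc' hbd' hcd') hσ
    rwa [LiftAux.conj_dt, LiftAux.conj_dt, ea, eb, ec, ed] at this

omit hcm in
/-- An additive, shift invariant function to central involutions has finite range. -/
theorem finite_range (hR : Rank X) (z : Set X.Pt → Γ) (h0 : z ∅ = 1)
    (hc : ∀ U, Loc U → z U ∈ Subgroup.center Γ) (h2 : ∀ U, Loc U → z U * z U = 1)
    (hadd : ∀ U U', Loc U → Loc U' → Disjoint U U' → z (U ∪ U') = z U * z U')
    (hsh : ∀ (v : V) U, Loc U → z (v +ᵥ U) = z U) : (z '' {U | Loc U}).Finite := by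
  classical
  obtain ⟨C, hC⟩ := hR
  have key : ∀ r : ℕ, ∃ A : Finset Γ, A.card ≤ 2 ^ C ∧
      ∀ U : Set X.Pt, (∀ x y, Agree (box r) x y → x ∈ U → y ∈ U) → z U ∈ A := by
    intro r
    obtain ⟨G, hG, T, hT, hA⟩ := hC r
    obtain ⟨A, hA1, hA2⟩ := exists_fin (fun c => z (G c)) (fun c => hc _ (hG c))
      fun c => h2 _ (hG c)
    refine ⟨A, by simpa using hA1, fun U hU => hA2 _ ?_⟩
    have hUL : Loc U := ⟨r, hU⟩
    have hL : ∀ T' : Finset (Fin C × V), Loc (⋃ t ∈ T', t.2 +ᵥ G t.1) := fun T' =>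
      Loc.biUnion T'.finite_toSet fun t _ => (hG t.1).vadd t.2
    have ind : ∀ T' ⊆ T, z (U ∩ ⋃ t ∈ T', t.2 +ᵥ G t.1) ∈
        Subgroup.closure (Set.range fun c => z (G c)) := by
      intro T'
      induction T' using Finset.induction_on with
      | empty => intro _; simp [h0]
      | insert t T' ht ih =>
        intro hs
        have htT : t ∈ T := hs (Finset.mem_insert_self _ _)
        have hs' : T' ⊆ T := (Finset.subset_insert _ _).trans hs
        rw [Finset.set_biUnion_insert, Set.inter_union_distrib_left,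
          hadd _ _ (hUL.inter ((hG t.1).vadd t.2)) (hUL.inter (hL T'))]
        · refine mul_mem ?_ (ih hs')
          rcases (U ∩ (t.2 +ᵥ G t.1)).eq_empty_or_nonempty with h | ⟨x, hx, hx'⟩
          · rw [h, h0]
            exact one_mem _
          · rw [Set.inter_eq_right.2 fun y hy => hU x y (hA t htT x hx' y hy) hx, hsh _ _ (hG t.1)]
            exact Subgroup.subset_closure ⟨t.1, rfl⟩
        · refine Set.disjoint_left.2 fun x hx hx' => ?_
          obtain ⟨t', ht', hx''⟩ := Set.mem_iUnion₂.1 hx'.2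
          exact ht ((hT x).unique ⟨htT, hx.2⟩ ⟨hs' ht', hx''⟩ ▸ ht')
    have := ind T (subset_refl _)
    rwa [Set.inter_eq_left.2 fun x _ => ?_] at this
    obtain ⟨t, ht, -⟩ := hT x
    exact Set.mem_iUnion₂.2 ⟨t, ht.1, ht.2⟩
  by_contra hinf
  obtain ⟨t, ht, hcard⟩ := Set.Infinite.exists_subset_card_eq hinf (2 ^ C + 1)
  obtain ⟨r, hr⟩ := SubAux.exists_bound t.finite_toSet
    (P := fun γ r => ∃ U : Set X.Pt, (∀ x y, Agree (box r) x y → x ∈ U → y ∈ U) ∧ z U = γ)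
    (fun γ r s hrs ⟨U, h1, h2⟩ => ⟨U, fun x y h => h1 x y (h.mono (box_mono hrs)), h2⟩)
    fun γ hγ => by
      obtain ⟨U, ⟨r, hr⟩, rfl⟩ := ht hγ
      exact ⟨r, U, hr, rfl⟩
  obtain ⟨A, hA1, hA2⟩ := key r
  have : t.card ≤ A.card := Finset.card_le_card fun γ hγ => by
    obtain ⟨U, h1, rfl⟩ := hr γ hγ
    exact hA2 U h1
  omega

end H0aAux

open H0aAux in
theorem CExt.exists_ZT {S : Type} [Finite S] {X : Sub S} {n : ℕ} {Γ : Type} [Group Γ]
    (E : CExt X n Γ) (hn : 50 ≤ n) (hF : Free X) (hR : Rank X) :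
    ∃ Z0 : Subgroup Γ, Finite Z0 ∧ Z0 ≤ E.θ.ker ∧ E.ZT Z0 := by
  obtain ⟨cm, hcm⟩ := exists_cm E.θ E.central
  have hn5 : 5 ≤ n := by omega
  have hn6 : 6 ≤ n := by omega
  obtain ⟨i, j, k, l, hij, hik, hil, hjk, hjl, hkl⟩ : ∃ i j k l : Fin n,
      i ≠ j ∧ i ≠ k ∧ i ≠ l ∧ j ≠ k ∧ j ≠ l ∧ k ≠ l :=
    ⟨⟨0, by omega⟩, ⟨1, by omega⟩, ⟨2, by omega⟩, ⟨3, by omega⟩, by simp⟩
  have hne : ∀ (v : V) {i j : Fin n}, i ≠ j → ((v, i) : Site n) ≠ (v, j) :=
    fun v i j h e => h (congrArg Prod.snd e)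
  have hMS : ∀ (v : V) (U : Set X.Pt), MS U (sites n {v}) := fun v U =>
    MS.of_sheets fun z hz z' hz' e =>
      Prod.ext ((Finset.mem_singleton.1 (mem_sites.1 hz)).trans
        (Finset.mem_singleton.1 (mem_sites.1 hz')).symm) e
  have hmem : ∀ (v : V) (i : Fin n), ((v, i) : Site n) ∈ sites n {v} := fun v i =>
    mem_sites.2 (Finset.mem_singleton_self v)
  have hMS4 : ∀ (v : V) (U : Set X.Pt), MS U {(v, i), (v, j), (v, k), (v, l)} := fun v U =>
    (hMS v U).mono (subset_refl _) (by simp [Finset.subset_iff, hmem])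
  have hcard : 5 ≤ (sites n {(0 : V)}).card := by simpa [sites] using hn5
  have hp : swap ((0 : V), i) (0, j) * swap (0, k) (0, l) ∈ AltOn (sites n {0}) :=
    swap_mul_swap_mem_AltOn (hne 0 hij) (hne 0 hkl) (hmem _ _) (hmem _ _) (hmem _ _) (hmem _ _)
  have hq : swap ((0 : V), i) (0, k) * swap (0, j) (0, l) ∈ AltOn (sites n {0}) :=
    swap_mul_swap_mem_AltOn (hne 0 hik) (hne 0 hjl) (hmem _ _) (hmem _ _) (hmem _ _) (hmem _ _)
  have hpq := dt_commute (hne 0 hij) (hne 0 hik) (hne 0 hil) (hne 0 hjk) (hne 0 hjl) (hne 0 hkl)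
  obtain ⟨z, hz⟩ : ∃ z : Set X.Pt → Γ, ∀ U, z U =
      cm (ms U (swap ((0 : V), i) (0, j) * swap (0, k) (0, l)))
        (ms U (swap ((0 : V), i) (0, k) * swap (0, j) (0, l))) := ⟨_, fun _ => rfl⟩
  have hker : ∀ U, Loc U → z U ∈ E.θ.ker := fun U hU =>
    hz U ▸ cm_ker E hcm hn5 hU (hMS 0 U) hp hq hpq
  have h2 : ∀ U, Loc U → z U * z U = 1 := fun U hU =>
    hz U ▸ cm_sq E hcm hn5 hU (hMS 0 U) hp hq hpq
      (dt_sq (hne 0 hik) (hne 0 hil) (hne 0 hjk) (hne 0 hjl))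
  have hind : ∀ (U : Set X.Pt) (a b c d : Site n), Loc U → MS U {a, b, c, d} →
      a ≠ b → a ≠ c → a ≠ d → b ≠ c → b ≠ d → c ≠ d →
      cm (ms U (swap a b * swap c d)) (ms U (swap a c * swap b d)) = z U :=
    fun U a b c d hU h hab hac had hbc hbd hcd => hz U ▸
      cm_indep E hcm hn6 hF hU h hab hac had hbc hbd hcd (hMS4 0 U) (hne 0 hij) (hne 0 hik)
        (hne 0 hil) (hne 0 hjk) (hne 0 hjl) (hne 0 hkl)
  have hfin : (z '' {U | Loc U}).Finite := by
    refine finite_range hR z (by rw [hz, cm_empty E hcm]) (fun U hU => E.central (hker U hU)) h2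
      (fun U U' hU hU' hd => ?_) fun v U hU => ?_
    · rw [hz, hz, hz, cm_union E hcm hn5 hU hU' hd (hMS 0 _) hcard hp hq]
    · have e : ∀ i : Fin n, sht v (((0 : V), i) : Site n) = (v, i) := fun i => by simp [sht]
      rw [hz, ms_vadd, ms_vadd, LiftAux.conj_dt, LiftAux.conj_dt, e, e, e, e]
      exact hind U _ _ _ _ hU (hMS4 v U) (hne v hij) (hne v hik) (hne v hil) (hne v hjk)
        (hne v hjl) (hne v hkl)
  have := hfin.fintype
  obtain ⟨A, -, hA⟩ := exists_fin (Subtype.val : z '' {U | Loc U} → Γ)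
    (by rintro ⟨_, U, hU, rfl⟩; exact E.central (hker U hU))
    (by rintro ⟨_, U, hU, rfl⟩; exact h2 U hU)
  rw [Subtype.range_coe] at hA
  refine ⟨Subgroup.closure (z '' {U | Loc U}), A.finite_toSet.subset hA, ?_, ?_⟩
  · rw [Subgroup.closure_le]
    rintro _ ⟨U, hU, rfl⟩
    exact hker U hU
  · intro U a b c d hU h hab hac had hbc hbd hcd u v hu hv
    rw [← hcm, hu, hv, hind U a b c d hU h hab hac had hbc hbd hcd]
    exact Subgroup.subset_closure ⟨U, hU, rfl⟩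

end Crest.Agent.R189
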