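import Crest.Agent.R189.LGrp
import Crest.Agent.R189.Lift

/-! Row 189: splitting over the groups of multisections. -/

set_option autoImplicit false

namespace Crest.Agent.R189

open Equiv

namespace H0bAux

/-- The derived subgroup of the preimage of a directed union. -/
theorem til_directed {Γ G : Type} [Group Γ] [Group G] (θ : Γ →* G) {H₀ : Subgroup G}
    (H : ℕ → Subgroup G) (mono : Monotone H) (h : ∀ γ ∈ H₀, ∃ r, γ ∈ H r) {k : Γ}
    (hk : k ∈ til θ H₀) : ∃ r, k ∈ til θ (H r) := by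
  have hm : Monotone fun r => til θ (H r) := fun _ _ hrs => til_mono (mono hrs)
  have hle : til θ H₀ ≤ ⨆ r, til θ (H r) := by
    refine Subgroup.commutator_le.2 fun a ha b hb => ?_
    obtain ⟨r, hr⟩ := h _ ha
    obtain ⟨r', hr'⟩ := h _ hb
    refine Subgroup.mem_iSup_of_mem (max r r') (Subgroup.commutator_mem_commutator ?_ ?_)
    · exact mono (le_max_left _ _) hr
    · exact mono (le_max_right _ _) hr'
  exact (Subgroup.mem_iSup_of_directed hm.directed_le).1 (hle hk)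

variable {S : Type} {X : Sub S} {n : ℕ} {Γ : Type} [Group Γ]

/-- A splitting over the constant permutations of a small multisection. -/
theorem exists_split_const (E : CExt X n Γ) (hn : 5 ≤ n) (h : E.ZT ⊥) {W : Set X.Pt}
    {F : Finset (Site n)} {p q : Site n} (hp : p ∉ F) (hq : q ∉ F) (hpq : p ≠ q) (hW : Loc W)
    (hne : W.Nonempty) (hM : MS W (insert p (insert q F))) (hc : 5 ≤ F.card) :
    ∃ K : Subgroup Γ, K ≤ til E.θ (L W F) ∧ (∀ k ∈ K, E.θ k = 1 → k = 1) ∧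
      ∀ a ∈ AltOn F, ms W a ∈ K.map E.θ := by
  have hFF : F ⊆ insert p (insert q F) :=
    (Finset.subset_insert _ _).trans (Finset.subset_insert _ _)
  have hMF : MS W F := hM.mono subset_rfl hFF
  obtain ⟨s, hs, hθ⟩ := lift_alt E.θ E.central F _ p q hp hq hpq rfl (ms W)
    (fun a ha b hb => LGrpAux.ms_mul hM ha hb)
    (fun a ha => by rw [E.range]; exact ms_mem_Alt hn hW hM ha)
    (fun a ha b hb c hc' d hd hab hac had hbc hbd hcd u v hu hv => by
      have h1 := h W a b c d hW (hM.mono subset_rfl (by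
        intro x hx
        simp only [Finset.mem_insert, Finset.mem_singleton] at hx
        rcases hx with rfl | rfl | rfl | rfl <;> assumption)) hab hac had hbc hbd hcd u v hu hv
      rw [Subgroup.mem_bot, ← commutatorElement_def] at h1
      exact commutatorElement_eq_one_iff_commute.1 h1)
  let φ : AltOn F →* Γ := MonoidHom.mk' (fun a => s a) fun a b => hs a a.2 b b.2
  have hφ : ∀ a (ha : a ∈ AltOn F), s a = φ ⟨a, ha⟩ := fun _ _ => rfl
  have h1 : s 1 = 1 := (hφ 1 (one_mem _)).trans (map_one φ)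
  have hinv : ∀ a ∈ AltOn F, s a⁻¹ = (s a)⁻¹ := fun a ha =>
    (hφ _ (inv_mem ha)).trans (map_inv φ ⟨a, ha⟩)
  refine ⟨φ.range, ?_, ?_, fun a ha => ⟨s a, ⟨⟨a, ha⟩, rfl⟩, hθ a ha⟩⟩
  · rintro _ ⟨⟨a, ha⟩, rfl⟩
    refine AltOn.comm_induction hc (fun a => s a ∈ til E.θ (L W F)) ?_ ?_ ?_ a ha
    · rw [h1]; exact one_mem _
    · intro a ha b hb
      have ha' := inv_mem ha
      have hb' := inv_mem hb
      have hab := mul_mem ha hb
      rw [hs _ (mul_mem hab ha') _ hb', hs _ hab _ ha', hs _ ha _ hb, hinv a ha, hinv b hb,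
        ← commutatorElement_def]
      refine Subgroup.commutator_mem_commutator ?_ ?_
      · rw [Subgroup.mem_comap, hθ a ha]; exact ms_mem_L subset_rfl hW ha
      · rw [Subgroup.mem_comap, hθ b hb]; exact ms_mem_L subset_rfl hW hb
    · intro a ha b hb qa qb
      rw [hs a ha b hb]
      exact mul_mem qa qb
  · rintro _ ⟨⟨a, ha⟩, rfl⟩ e
    obtain ⟨x, hx⟩ := hne
    have e' : ms W a = ms W 1 := by
      rw [LGrpAux.ms_one, ← hθ a ha]; exact e
    have : a = 1 := msf_injective (g := fun _ => a) (g' := fun _ => 1) hMF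
      (fun _ _ _ hz => AltOn.apply_of_not_mem ha hz) (fun _ _ _ _ => rfl) e' x hx
    subst this
    exact h1

/-- Elements of the groups of two disjoint parts of a multisection are independent. -/
theorem eq_one_of_mul [Finite S] {U₁ U₂ : Set X.Pt} {F : Finset (Site n)} (h₁ : Loc U₁)
    (h₂ : Loc U₂) (hM : MS (U₁ ∪ U₂) F) (hd : Disjoint U₁ U₂) {γ₁ γ₂ : Perm (Hat X n)}
    (hγ₁ : γ₁ ∈ L U₁ F) (hγ₂ : γ₂ ∈ L U₂ F) (e : γ₁ * γ₂ = 1) : γ₁ = 1 := by
  have m₁ : MS U₁ F := hM.mono Set.subset_union_left subset_rfl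
  have m₂ : MS U₂ F := hM.mono Set.subset_union_right subset_rfl
  obtain ⟨g₁, -, hg₁, rfl⟩ := (mem_L_iff h₁ m₁).1 hγ₁
  obtain ⟨g₂, -, hg₂, rfl⟩ := (mem_L_iff h₂ m₂).1 hγ₂
  refine Equiv.ext fun y => ?_
  by_cases hy : ∃ x ∈ U₁, ∃ z ∈ F, y = pt x z
  · obtain ⟨x, hx, z, hz, rfl⟩ := hy
    have h3 : msf U₂ g₂ (pt x z) = pt x z :=
      msf_fix m₂ (fun x _ _ hz => AltOn.apply_of_not_mem (hg₂ x) hz) fun x' hx' z' hz' e' =>
        Set.disjoint_left.1 hd hx ((hM x (Or.inl hx) x' (Or.inr hx') z hz z' hz' e').1 ▸ hx')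
    have h4 := Equiv.congr_fun e (pt x z)
    rwa [Perm.mul_apply, h3] at h4
  · exact msf_fix m₁ (fun x _ _ hz => AltOn.apply_of_not_mem (hg₁ x) hz)
      fun x hx z hz e' => hy ⟨x, hx, z, hz, e'⟩

/-- A splitting over the functions of bounded radius. -/
theorem exists_split [Finite S] (E : CExt X n Γ) (hn : 5 ≤ n) (hF : Free X) (h : E.ZT ⊥)
    {U : Set X.Pt} {F : Finset (Site n)} (hU : Loc U) (hM : MS U F) (hc : 5 ≤ F.card) (r : ℕ) :
    ∃ K : Subgroup Γ, K ≤ til E.θ (L U F) ∧ (∀ k ∈ K, E.θ k = 1 → k = 1) ∧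
      ∀ g : X.Pt → Perm (Site n), (∀ x y, Agree (box r) x y → g x = g y) →
        (∀ x, g x ∈ AltOn F) → msf U g ∈ K.map E.θ := by
  have : Nonempty (Fin n) := ⟨⟨0, by omega⟩⟩
  obtain ⟨q, hq⟩ := Infinite.exists_notMem_finset F
  obtain ⟨p, hp⟩ := Infinite.exists_notMem_finset (insert q F)
  obtain ⟨r₀, hr₀⟩ := exists_MS_cyl hF (insert p (insert q F))
  have hempty : ∃ K : Subgroup Γ, K ≤ til E.θ (L (∅ : Set X.Pt) F) ∧
      (∀ k ∈ K, E.θ k = 1 → k = 1) ∧
      ∀ g : X.Pt → Perm (Site n), (∀ x y, Agree (box r) x y → g x = g y) →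
        (∀ x, g x ∈ AltOn F) → msf ∅ g ∈ K.map E.θ :=
    ⟨⊥, bot_le, fun k hk _ => Subgroup.mem_bot.1 hk, fun g _ _ => by
      rw [msf_empty]; exact one_mem _⟩
  refine Loc.cover' (fun W => ∃ K : Subgroup Γ, K ≤ til E.θ (L W F) ∧
    (∀ k ∈ K, E.θ k = 1 → k = 1) ∧
      ∀ g : X.Pt → Perm (Site n), (∀ x y, Agree (box r) x y → g x = g y) →
        (∀ x, g x ∈ AltOn F) → msf W g ∈ K.map E.θ) hempty hU ?_ ?_
  · rintro U₁ U₂ l₁ l₂ s₁ s₂ hd ⟨K₁, a₁, b₁, c₁⟩ ⟨K₂, a₂, b₂, c₂⟩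
    have hM' : MS (U₁ ∪ U₂) F := hM.mono (Set.union_subset s₁ s₂) subset_rfl
    have hcomm : ∀ (k₁ : K₁) (k₂ : K₂), Commute (K₁.subtype k₁) (K₂.subtype k₂) := by
      intro k₁ k₂
      refine til_commute E.central (a₁ k₁.2) fun a ha => ?_
      refine L_commute (hM.mono s₁ subset_rfl) (hM.mono s₂ subset_rfl) ?_ a ha _
        (til_le_comap (a₂ k₂.2))
      intro x hx y hy z hz z' hz' e
      exact Set.disjoint_left.1 hd hx ((hM x (s₁ hx) y (s₂ hy) z hz z' hz' e).1 ▸ hy)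
    refine ⟨(K₁.subtype.noncommCoprod K₂.subtype hcomm).range, ?_, ?_, fun g hg hg' => ?_⟩
    · rintro _ ⟨⟨k₁, k₂⟩, rfl⟩
      exact mul_mem (til_mono (L_mono Set.subset_union_left subset_rfl) (a₁ k₁.2))
        (til_mono (L_mono Set.subset_union_right subset_rfl) (a₂ k₂.2))
    · rintro _ ⟨⟨k₁, k₂⟩, rfl⟩ e
      change E.θ (k₁.1 * k₂.1) = 1 at e
      change k₁.1 * k₂.1 = 1
      rw [map_mul] at e
      have e₁ : E.θ k₁.1 = 1 :=
        eq_one_of_mul l₁ l₂ hM' hd (til_le_comap (a₁ k₁.2)) (til_le_comap (a₂ k₂.2)) e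
      rw [e₁, one_mul] at e
      rw [b₁ _ k₁.2 e₁, b₂ _ k₂.2 e, one_mul]
    · obtain ⟨k₁, hk₁, e₁⟩ := c₁ g hg hg'
      obtain ⟨k₂, hk₂, e₂⟩ := c₂ g hg hg'
      refine ⟨k₁ * k₂, ⟨(⟨k₁, hk₁⟩, ⟨k₂, hk₂⟩), rfl⟩, ?_⟩
      rw [map_mul, e₁, e₂,
        msf_union hM' (fun x _ _ hz => AltOn.apply_of_not_mem (hg' x) hz) hd]
  · intro x _
    refine ⟨max r r₀, fun W hW hs => ?_⟩
    rcases W.eq_empty_or_nonempty with rfl | hne
    · exact hempty
    obtain ⟨K, a, b, c⟩ := exists_split_const E hn h (fun h' => hp (Finset.mem_insert_of_mem h'))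
      hq (fun h' => hp (h' ▸ Finset.mem_insert_self _ _)) hW hne
      ((hr₀ x).mono (fun y hy => cyl_mono (le_max_right r r₀) x (hs hy).2) subset_rfl) hc
    refine ⟨K, a, b, fun g hg hg' => ?_⟩
    have e : msf W g = ms W (g x) :=
      msf_congr fun y hy => (hg x y (cyl_mono (le_max_left r r₀) x (hs hy).2)).symm
    rw [e]
    exact c _ (hg' x)

end H0bAux

theorem CExt.split_of_ZT {S : Type} [Finite S] {X : Sub S} {n : ℕ} {Γ : Type} [Group Γ]
    (E : CExt X n Γ) (hn : 50 ≤ n) (hF : Free X) (h : E.ZT ⊥) : E.Split := by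
  intro U F hU hM hc
  refine eq_bot_iff.2 fun k hk => ?_
  obtain ⟨r, hr⟩ := H0bAux.til_directed E.θ (fun r => Subgroup.closure
    {γ | ∃ g : X.Pt → Perm (Site n), (∀ x y, Agree (box r) x y → g x = g y) ∧
      (∀ x, g x ∈ AltOn F) ∧ γ = msf U g})
    (fun r r' hrr => Subgroup.closure_mono fun _ ⟨g, h1, h2⟩ =>
      ⟨g, fun x y hxy => h1 x y (hxy.mono (box_mono hrr)), h2⟩)
    (fun γ hγ => by
      obtain ⟨g, ⟨r, h1⟩, h2⟩ := (mem_L_iff hU hM).1 hγ
      exact ⟨r, Subgroup.subset_closure ⟨g, h1, h2⟩⟩) hk.1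
  obtain ⟨K, -, b, c⟩ := H0bAux.exists_split E (by omega) hF h hU hM hc r
  refine Subgroup.mem_bot.2 (b k (til_le_of_map E.central ?_ hr) hk.2)
  rw [Subgroup.closure_le]
  rintro _ ⟨g, h1, h2, rfl⟩
  exact c g h1 h2

/-- The quotient by a subgroup of the kernel. -/
theorem CExt.exists_quot {S : Type} {X : Sub S} {n : ℕ} {Γ : Type} [Group Γ]
    (E : CExt X n Γ) (N : Subgroup Γ) [N.Normal] (hN : N ≤ E.θ.ker) (h : E.ZT N) :
    ∃ E' : CExt X n (Γ ⧸ N), E'.θ = QuotientGroup.lift N E.θ hN ∧ E'.ZT ⊥ := by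
  refine ⟨⟨QuotientGroup.lift N E.θ hN, ?_, ?_, ?_⟩, rfl, ?_⟩
  · rw [← E.range]
    ext γ
    constructor
    · rintro ⟨u, rfl⟩
      induction u using QuotientGroup.induction_on with
      | H u => exact ⟨u, rfl⟩
    · rintro ⟨u, rfl⟩
      exact ⟨u, rfl⟩
  · intro u hu
    induction u using QuotientGroup.induction_on with
    | H u =>
      refine Subgroup.mem_center_iff.2 fun v => ?_
      induction v using QuotientGroup.induction_on with
      | H v =>
        rw [← QuotientGroup.mk_mul, ← QuotientGroup.mk_mul,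
          Subgroup.mem_center_iff.1 (E.central (show u ∈ E.θ.ker from hu)) v]
  · have h1 := congrArg (Subgroup.map (QuotientGroup.mk' N)) E.perfect
    rwa [commutator_def, Subgroup.map_commutator,
      Subgroup.map_top_of_surjective _ (QuotientGroup.mk'_surjective N)] at h1
  · intro U a b c d hU hM hab hac had hbc hbd hcd u v hu hv
    induction u using QuotientGroup.induction_on with
    | H u =>
      induction v using QuotientGroup.induction_on with
      | H v =>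
        exact Subgroup.mem_bot.2 ((QuotientGroup.eq_one_iff _).2
          (h U a b c d hU hM hab hac had hbc hbd hcd u v hu hv))

end Crest.Agent.R189
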