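import Crest.Agent.R189.LGrp
import Crest.Agent.R189.Lift

/-! Row 189: words, restriction, dependence cones and the splitting lemma. -/

set_option autoImplicit false

namespace Crest.Agent.R189

open Equiv Pointwise

variable {S : Type} {X : Sub S} {n : ℕ} {Γ : Type} [Group Γ]
variable {l : Lt X n} {w w' : List (Lt X n)} {W W' : Set X.Pt}

theorem Lt.OK.pre (h : l.OK) : l.Pre := by
  exact ⟨h.2.2.1, fun x z hz => AltOn.apply_of_not_mem (h.2.2.2.2 x) hz⟩

theorem Lt.Pre.res (h : l.Pre) (W : Set X.Pt) : (l.res W).Pre := by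
  exact ⟨h.1.mono Set.inter_subset_left (Finset.Subset.refl _), h.2⟩

theorem Lt.Pre.inv (h : l.Pre) : l.inv.Pre := by
  refine ⟨h.1, fun x z hz => ?_⟩
  show (l.g x)⁻¹ z = z
  rw [Perm.inv_eq_iff_eq]
  exact (h.2 x z hz).symm

theorem Lt.OK.res (h : l.OK) (hW : Loc W) : (l.res W).OK := by
  exact ⟨h.1.inter hW, h.2.1, h.2.2.1.mono Set.inter_subset_left (Finset.Subset.refl _),
    h.2.2.2.1, h.2.2.2.2⟩

theorem Lt.OK.inv (h : l.OK) : l.inv.OK := by
  exact ⟨h.1, h.2.1.comp (·⁻¹), h.2.2.1, h.2.2.2.1, fun x => inv_mem (h.2.2.2.2 x)⟩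

theorem Lt.OK.exists_rad (h : l.OK) : ∃ ρ, l.Rad ρ := by
  obtain ⟨r₁, h₁⟩ := h.1
  obtain ⟨r₂, h₂⟩ := h.2.1
  obtain ⟨r₃, h₃⟩ := exists_box_of_finite (l.F.finite_toSet.image Prod.fst)
  refine ⟨r₁ + r₂ + r₃, fun z hz => box_mono (by omega) (h₃ ⟨z, hz, rfl⟩), fun x y hxy hx =>
    ⟨h₁ x y (hxy.mono (box_mono (by omega))) hx, h₂ x y (hxy.mono (box_mono (by omega)))⟩⟩

theorem Lt.Rad.mono {ρ ρ' : ℕ} (h : l.Rad ρ) (hρ : ρ ≤ ρ') : l.Rad ρ' := by
  exact ⟨fun z hz => box_mono hρ (h.1 z hz), fun x y hxy hx => h.2 x y (hxy.mono (box_mono hρ)) hx⟩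

theorem Lt.Rad.inv {ρ : ℕ} (h : l.Rad ρ) : l.inv.Rad ρ := by
  refine ⟨h.1, fun x y hxy hx => ⟨(h.2 x y hxy hx).1, ?_⟩⟩
  show (l.g x)⁻¹ = (l.g y)⁻¹
  rw [(h.2 x y hxy hx).2]

theorem exists_rad_word (h : ∀ l ∈ w, l.OK) : ∃ ρ, ∀ l ∈ w, l.Rad ρ := by
  induction w with
  | nil => exact ⟨0, by simp⟩
  | cons l w ih =>
    obtain ⟨ρ, hρ⟩ := ih fun l' hl' => h l' (List.mem_cons_of_mem _ hl')
    obtain ⟨ρ', hρ'⟩ := (h l List.mem_cons_self).exists_rad
    refine ⟨max ρ ρ', fun l' hl' => ?_⟩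
    rcases List.mem_cons.1 hl' with rfl | hl'
    · exact hρ'.mono (le_max_right _ _)
    · exact (hρ l' hl').mono (le_max_left _ _)

theorem Lt.InStrip.inv {a : ℕ} {B : Set X.Pt} {p q : ℤ} {R : Set V} {r H : ℕ}
    (h : l.InStrip a B p q R r H) : l.inv.InStrip a B p q R r H := by
  refine ⟨h.1, h.2.1, fun x hx y hy hxy v hv hz hU => ⟨(h.2.2 x hx y hy hxy v hv hz hU).1, ?_⟩⟩
  show (l.g (v +ᵥ x))⁻¹ = (l.g (v +ᵥ y))⁻¹
  rw [(h.2.2 x hx y hy hxy v hv hz hU).2]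

theorem Lt.res_res (l : Lt X n) (W W' : Set X.Pt) : (l.res W).res W' = l.res (W ∩ W') := by
  show (⟨l.U ∩ W ∩ W', l.F, l.g⟩ : Lt X n) = ⟨l.U ∩ (W ∩ W'), l.F, l.g⟩
  rw [Set.inter_assoc]

theorem Lt.Pre.perm_inv (h : l.Pre) : l.inv.perm = l.perm⁻¹ := by
  exact msf_inv h.1 fun x _ => h.2 x

theorem wperm_nil : wperm ([] : List (Lt X n)) = 1 := by
  rfl

theorem wperm_cons (l : Lt X n) (w : List (Lt X n)) : wperm (l :: w) = l.perm * wperm w := by
  exact List.prod_cons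

theorem wperm_append (w w' : List (Lt X n)) : wperm (w ++ w') = wperm w * wperm w' := by
  show ((w ++ w').map Lt.perm).prod = (w.map Lt.perm).prod * (w'.map Lt.perm).prod
  rw [List.map_append, List.prod_append]

theorem H1BaseAux.winv_cons (l : Lt X n) (w : List (Lt X n)) :
    winv (l :: w) = winv w ++ [l.inv] := List.reverse_cons

theorem wperm_winv (h : ∀ l ∈ w, l.Pre) : wperm (winv w) = (wperm w)⁻¹ := by
  induction w with
  | nil => exact inv_one.symm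
  | cons l w ih =>
    rw [H1BaseAux.winv_cons, wperm_append, ih fun l' hl' => h l' (List.mem_cons_of_mem _ hl'),
      wperm_cons, wperm_cons, wperm_nil, mul_one, (h l List.mem_cons_self).perm_inv, mul_inv_rev]

theorem full_wperm (w : List (Lt X n)) : Full (wperm w) := by
  induction w with
  | nil => exact Full.one
  | cons l w ih => rw [wperm_cons]; exact (full_msf _ _).mul ih

theorem wres_append (W : Set X.Pt) (w w' : List (Lt X n)) :
    wres W (w ++ w') = wres W w ++ wres W w' := by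
  exact List.map_append

theorem wres_winv (W : Set X.Pt) (w : List (Lt X n)) : wres W (winv w) = winv (wres W w) := by
  show ((w.map Lt.inv).reverse).map (Lt.res W) = ((w.map (Lt.res W)).map Lt.inv).reverse
  rw [List.map_reverse, List.map_map, List.map_map]
  rfl

theorem wres_univ (w : List (Lt X n)) : wres Set.univ w = w := by
  show w.map (Lt.res Set.univ) = w
  have : (Lt.res Set.univ : Lt X n → Lt X n) = id := by
    funext l
    show (⟨l.U ∩ Set.univ, l.F, l.g⟩ : Lt X n) = l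
    rw [Set.inter_univ]
  rw [this, List.map_id]

theorem wres_wres (W W' : Set X.Pt) (w : List (Lt X n)) :
    wres W' (wres W w) = wres (W ∩ W') w := by
  show (w.map (Lt.res W)).map (Lt.res W') = w.map (Lt.res (W ∩ W'))
  rw [List.map_map]
  exact List.map_congr_left fun l _ => l.res_res W W'

theorem length_wres (W : Set X.Pt) (w : List (Lt X n)) : (wres W w).length = w.length := by
  exact List.length_map _

theorem length_winv (w : List (Lt X n)) : (winv w).length = w.length := by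
  show ((w.map Lt.inv).reverse).length = w.length
  rw [List.length_reverse, List.length_map]

theorem mem_wres {l' : Lt X n} : l' ∈ wres W w ↔ ∃ l ∈ w, l' = l.res W := by
  show l' ∈ w.map (Lt.res W) ↔ _
  rw [List.mem_map]
  exact exists_congr fun l => and_congr_right fun _ => eq_comm

theorem mem_winv {l' : Lt X n} : l' ∈ winv w ↔ ∃ l ∈ w, l' = l.inv := by
  show l' ∈ (w.map Lt.inv).reverse ↔ _
  rw [List.mem_reverse, List.mem_map]
  exact exists_congr fun l => and_congr_right fun _ => eq_comm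

namespace H1BaseAux

theorem loc_cons (hF : Free X) (l : Lt X n) (w : List (Lt X n)) (W : Set X.Pt) (x : X.Pt)
    (z : Site n) : loc (wperm (wres W (l :: w))) x z =
      loc (l.res W).perm x (loc (wperm (wres W w)) x z) := by
  have e : wres W (l :: w) = l.res W :: wres W w := rfl
  rw [e, wperm_cons, loc_mul hF (γ := (l.res W).perm) (full_msf _ _) (full_wperm _)]
  rfl

theorem loc_pos (hF : Free X) (h : l.Pre) {x : X.Pt} {v : V} (hv : v +ᵥ x ∈ l.U) {z : Site n}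
    (hz : z ∈ l.F) : loc l.perm x (sht v z) = sht v (l.g (v +ᵥ x) z) := by
  refine loc_eq hF (full_msf _ _) ?_
  rw [← pt_vadd, ← pt_vadd]
  exact msf_apply h.1 (fun x _ => h.2 x) hv hz

theorem loc_neg (hF : Free X) (h : l.Pre) {x : X.Pt} {z : Site n}
    (hz : ∀ v : V, ∀ z₁ ∈ l.F, sht v z₁ = z → v +ᵥ x ∉ l.U) : loc l.perm x z = z := by
  refine loc_eq hF (full_msf _ _) (msf_fix h.1 (fun x _ => h.2 x) fun y hy z₁ hz₁ he => ?_)
  obtain ⟨rfl, h₂⟩ := pt_eq_iff.1 he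
  refine hz _ z₁ hz₁ ?_ hy
  rw [sht_apply, add_sub_cancel, ← h₂]

theorem gauge {ρ : ℕ} (z : Site n) (v : V) {z₁ z₂ : Site n} (h₁ : z₁.1 ∈ box ρ)
    (h₂ : z₂.1 ∈ box ρ) :
    max ((sht v z₁).1.1 - z.1.1).natAbs ((sht v z₁).1.2 - z.1.2).natAbs ≤
      max ((sht v z₂).1.1 - z.1.1).natAbs ((sht v z₂).1.2 - z.1.2).natAbs + 2 * ρ := by
  rw [mem_box, abs_le, abs_le] at h₁ h₂
  simp only [sht_apply, Prod.fst_add, Prod.snd_add]
  omega

end H1BaseAux

/-- The dependence cone, for an arbitrary gauge `δ` on the sites. -/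
theorem cone (hF : Free X) (hw : ∀ l ∈ w, l.Pre) (x y : X.Pt) (W W' : Set X.Pt)
    (δ : Site n → ℕ) (r k : ℕ)
    (hr : ∀ l ∈ w, ∀ v : V, v +ᵥ x ∈ l.U ∩ W → ∀ z₁ ∈ l.F, ∀ z₂ ∈ l.F,
      δ (sht v z₁) ≤ δ (sht v z₂) + r)
    (hag : ∀ l ∈ w, ∀ v : V, ∀ z₁ ∈ l.F, δ (sht v z₁) ≤ k + r * w.length →
      (v +ᵥ x ∈ l.U ∩ W ↔ v +ᵥ y ∈ l.U ∩ W') ∧
        (v +ᵥ x ∈ l.U ∩ W → l.g (v +ᵥ x) = l.g (v +ᵥ y)))
    {z : Site n} (hz : δ z ≤ k) :
    loc (wperm (wres W w)) x z = loc (wperm (wres W' w)) y z ∧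
      δ (loc (wperm (wres W w)) x z) ≤ k + r * w.length := by
  induction w with
  | nil =>
    have e : ∀ (W : Set X.Pt) (x : X.Pt), loc (wperm (wres W ([] : List (Lt X n)))) x z = z := by
      intro W x
      show loc (1 : Perm (Hat X n)) x z = z
      rw [loc_one hF]
      rfl
    rw [e, e]
    exact ⟨rfl, by simpa using hz⟩
  | cons l w ih =>
    have hl := hw l List.mem_cons_self
    have hlen : k + r * (l :: w).length = k + r * w.length + r := by
      rw [List.length_cons]; ring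
    obtain ⟨h₁, h₂⟩ := ih (fun l' hl' => hw l' (List.mem_cons_of_mem _ hl'))
      (fun l' hl' => hr l' (List.mem_cons_of_mem _ hl'))
      (fun l' hl' v z₁ hz₁ hδ => hag l' (List.mem_cons_of_mem _ hl') v z₁ hz₁ (by omega))
    rw [H1BaseAux.loc_cons hF, H1BaseAux.loc_cons hF, ← h₁]
    generalize loc (wperm (wres W w)) x z = z₁ at h₂
    by_cases hc : ∃ v : V, ∃ z' ∈ l.F, sht v z' = z₁ ∧ v +ᵥ x ∈ l.U ∩ W
    · obtain ⟨v, z', hz', rfl, hv⟩ := hc
      obtain ⟨h₃, h₄⟩ := hag l List.mem_cons_self v z' hz' (by omega)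
      rw [H1BaseAux.loc_pos hF (hl.res W) hv hz', H1BaseAux.loc_pos hF (hl.res W') (h₃.1 hv) hz']
      refine ⟨congrArg (fun g : Perm (Site n) => sht v (g z')) (h₄ hv), ?_⟩
      have := hr l List.mem_cons_self v hv (l.g (v +ᵥ x) z') (MsAux.apply_mem (hl.2 _) hz') z' hz'
      show δ (sht v (l.g (v +ᵥ x) z')) ≤ _
      omega
    · push Not at hc
      rw [H1BaseAux.loc_neg hF (hl.res W) hc, H1BaseAux.loc_neg hF (hl.res W')]
      · exact ⟨rfl, by omega⟩
      · intro v z' hz' he hv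
        refine hc v z' hz' he ((hag l List.mem_cons_self v z' hz' ?_).1.2 hv)
        rw [he]; omega

/-- The dependence cone for letters of radius `ρ`. -/
theorem cone_rad (hF : Free X) {ρ m : ℕ} (hw : ∀ l ∈ w, l.Pre ∧ l.Rad ρ) (hm : w.length ≤ m)
    {x y : X.Pt} {z : Site n} (hxy : Agree (box (2 * ρ * (m + 1))) (z.1 +ᵥ x) (z.1 +ᵥ y))
    (hW : ∀ v : V, v - z.1 ∈ box (2 * ρ * m + ρ) → (v +ᵥ x ∈ W ↔ v +ᵥ y ∈ W')) :
    loc (wperm (wres W w)) x z = loc (wperm (wres W' w)) y z := by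
  have hmul : 2 * ρ * w.length ≤ 2 * ρ * m := Nat.mul_le_mul_left _ hm
  refine (cone hF (fun l hl => (hw l hl).1) x y W W'
    (fun z' => max (z'.1.1 - z.1.1).natAbs (z'.1.2 - z.1.2).natAbs) (2 * ρ) 0
    (fun l hl v _ z₁ hz₁ z₂ hz₂ =>
      H1BaseAux.gauge z v ((hw l hl).2.1 z₁ hz₁) ((hw l hl).2.1 z₂ hz₂))
    (fun l hl v z₁ hz₁ hδ => ?_) (by simp)).1
  have hb : v - z.1 ∈ box (2 * ρ * m + ρ) := by
    have h₁ := mem_box.1 ((hw l hl).2.1 z₁ hz₁)
    simp only [sht_apply, Prod.fst_add, Prod.snd_add] at hδ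
    rw [mem_box]
    simp only [Prod.fst_sub, Prod.snd_sub, abs_le] at h₁ ⊢
    generalize 2 * ρ * m = M at hmul ⊢
    generalize 2 * ρ * w.length = M' at hmul hδ
    push_cast
    omega
  have ha : Agree (box ρ) (v +ᵥ x) (v +ᵥ y) := by
    have e : 2 * ρ * (m + 1) = ρ + (2 * ρ * m + ρ) := by ring
    rw [e] at hxy
    have := hxy.vadd hb
    rwa [← add_vadd, ← add_vadd, sub_add_cancel] at this
  have hR := (hw l hl).2.2
  exact ⟨⟨fun h => ⟨(hR _ _ ha h.1).1, (hW v hb).1 h.2⟩,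
    fun h => ⟨(hR _ _ ha.symm h.1).1, (hW v hb).2 h.2⟩⟩, fun h => (hR _ _ ha h.1).2⟩

theorem cone_disp (hF : Free X) {ρ m : ℕ} (hw : ∀ l ∈ w, l.Pre ∧ ∀ z ∈ l.F, z.1 ∈ box ρ)
    (hm : w.length ≤ m) (x : X.Pt) (z : Site n) :
    (loc (wperm (wres W w)) x z).1 - z.1 ∈ box (2 * ρ * m) := by
  have hmul : 2 * ρ * w.length ≤ 2 * ρ * m := Nat.mul_le_mul_left _ hm
  have h := (cone hF (fun l hl => (hw l hl).1) x x W W
    (fun z' => max (z'.1.1 - z.1.1).natAbs (z'.1.2 - z.1.2).natAbs) (2 * ρ) 0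
    (fun l hl v _ z₁ hz₁ z₂ hz₂ =>
      H1BaseAux.gauge z v ((hw l hl).2 z₁ hz₁) ((hw l hl).2 z₂ hz₂))
    (fun l hl v z₁ hz₁ hδ => ⟨Iff.rfl, fun _ => rfl⟩) (z := z) (by simp)).2
  rw [mem_box]
  simp only [Prod.fst_sub, Prod.snd_sub, abs_le]
  generalize 2 * ρ * m = M at hmul ⊢
  generalize 2 * ρ * w.length = M' at hmul h
  omega

/-- Far from the restricting set nothing moves. -/
theorem cone_fix (hF : Free X) (hw : ∀ l ∈ w, l.Pre) (x : X.Pt) (z : Site n)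
    (hW : ∀ l ∈ w, ∀ v : V, ∀ z₁ ∈ l.F, sht v z₁ = z → v +ᵥ x ∉ l.U ∩ W) :
    loc (wperm (wres W w)) x z = z := by
  induction w with
  | nil =>
    show loc (1 : Perm (Hat X n)) x z = z
    rw [loc_one hF]
    rfl
  | cons l w ih =>
    rw [H1BaseAux.loc_cons hF, ih (fun l' hl' => hw l' (List.mem_cons_of_mem _ hl'))
      (fun l' hl' => hW l' (List.mem_cons_of_mem _ hl'))]
    exact H1BaseAux.loc_neg hF ((hw l List.mem_cons_self).res W) (hW l List.mem_cons_self)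

section lift
variable [Finite S] (E : CExt X n Γ)

theorem Lt.OK.perm_mem_L (h : l.OK) : l.perm ∈ L l.U l.F := by
  exact msf_mem_L h.1 h.2.2.1 h.2.1 fun x _ => h.2.2.2.2 x

theorem CExt.lf_spec (hn : 5 ≤ n) (h : l.OK) :
    E.lf l ∈ til E.θ (L l.U l.F) ∧ E.θ (E.lf l) = l.perm := by
  have hex : ∃ γ ∈ til E.θ (L l.U l.F), E.θ γ = l.perm := by
    have hm := h.perm_mem_L
    rw [← map_til (θ := E.θ) (by rw [E.range]; exact L_le_Alt hn h.2.2.1)
      (L_perfect h.2.2.1 h.2.2.2.1)] at hm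
    exact hm
  have e : E.lf l = hex.choose := dif_pos hex
  rw [e]
  exact hex.choose_spec

theorem CExt.Split.eq {E : CExt X n Γ} (hs : E.Split) {U : Set X.Pt} {F : Finset (Site n)}
    (hU : Loc U) (hF : MS U F) (hc : 5 ≤ F.card) {γ γ' : Γ} (h : γ ∈ til E.θ (L U F))
    (h' : γ' ∈ til E.θ (L U F)) (he : E.θ γ = E.θ γ') : γ = γ' := by
  have hm : γ * γ'⁻¹ ∈ til E.θ (L U F) ⊓ E.θ.ker :=
    Subgroup.mem_inf.2 ⟨mul_mem h (inv_mem h'), by
      rw [MonoidHom.mem_ker, map_mul, map_inv, he, mul_inv_cancel]⟩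
  rw [hs U F hU hF hc, Subgroup.mem_bot] at hm
  exact mul_inv_eq_one.1 hm

theorem CExt.wv_nil : E.wv ([] : List (Lt X n)) = 1 := by
  rfl

theorem CExt.wv_cons (l : Lt X n) (w : List (Lt X n)) : E.wv (l :: w) = E.lf l * E.wv w := by
  exact List.prod_cons

theorem CExt.wv_append (w w' : List (Lt X n)) : E.wv (w ++ w') = E.wv w * E.wv w' := by
  show ((w ++ w').map E.lf).prod = (w.map E.lf).prod * (w'.map E.lf).prod
  rw [List.map_append, List.prod_append]

theorem CExt.θ_wv (hn : 5 ≤ n) (h : ∀ l ∈ w, l.OK) : E.θ (E.wv w) = wperm w := by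
  induction w with
  | nil => exact map_one _
  | cons l w ih =>
    rw [E.wv_cons, map_mul, ih fun l' hl' => h l' (List.mem_cons_of_mem _ hl'), wperm_cons,
      (E.lf_spec hn (h l List.mem_cons_self)).2]

theorem CExt.wv_winv (hn : 5 ≤ n) (hs : E.Split) (h : ∀ l ∈ w, l.OK) :
    E.wv (winv w) = (E.wv w)⁻¹ := by
  induction w with
  | nil => exact inv_one.symm
  | cons l w ih =>
    have hl := h l List.mem_cons_self
    have e : E.lf l.inv = (E.lf l)⁻¹ := by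
      refine hs.eq hl.1 hl.2.2.1 hl.2.2.2.1 (E.lf_spec hn hl.inv).1
        (inv_mem (E.lf_spec hn hl).1) ?_
      rw [(E.lf_spec hn hl.inv).2, map_inv, (E.lf_spec hn hl).2, hl.pre.perm_inv]
    rw [H1BaseAux.winv_cons, E.wv_append, ih fun l' hl' => h l' (List.mem_cons_of_mem _ hl'),
      E.wv_cons, E.wv_cons, E.wv_nil, mul_one, e, mul_inv_rev]

theorem CExt.wv_mem_til (hn : 5 ≤ n) (h : ∀ l ∈ w, l.OK) {H : Subgroup (Perm (Hat X n))}
    (hH : ∀ l ∈ w, L l.U l.F ≤ H) : E.wv w ∈ til E.θ H := by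
  induction w with
  | nil => exact one_mem _
  | cons l w ih =>
    rw [E.wv_cons]
    exact mul_mem (til_mono (hH l List.mem_cons_self) (E.lf_spec hn (h l List.mem_cons_self)).1)
      (ih (fun l' hl' => h l' (List.mem_cons_of_mem _ hl'))
        fun l' hl' => hH l' (List.mem_cons_of_mem _ hl'))

theorem CExt.lf_res (hn : 5 ≤ n) (hs : E.Split) (h : l.OK) (hW : Loc W) :
    E.lf l = E.lf (l.res W) * E.lf (l.res Wᶜ) := by
  have h₁ := E.lf_spec hn (h.res hW)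
  have h₂ := E.lf_spec hn (h.res hW.compl)
  refine hs.eq h.1 h.2.2.1 h.2.2.2.1 (E.lf_spec hn h).1
    (mul_mem (til_mono (L_mono Set.inter_subset_left (Finset.Subset.refl _)) h₁.1)
      (til_mono (L_mono Set.inter_subset_left (Finset.Subset.refl _)) h₂.1)) ?_
  rw [map_mul, h₁.2, h₂.2, (E.lf_spec hn h).2]
  show msf l.U l.g = msf (l.U ∩ W) l.g * msf (l.U ∩ Wᶜ) l.g
  rw [← msf_union (F := l.F) (by rw [Set.inter_union_compl]; exact h.2.2.1)
    (fun x _ => h.pre.2 x) (Disjoint.mono Set.inter_subset_right Set.inter_subset_right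
      disjoint_compl_right), Set.inter_union_compl]

theorem CExt.lf_commute (hn : 5 ≤ n) {l' : Lt X n} (h : l.OK) (h' : l'.OK)
    (hd : ∀ x ∈ l.U, ∀ y ∈ l'.U, ∀ z ∈ l.F, ∀ z' ∈ l'.F, pt x z ≠ pt y z') :
    Commute (E.lf l) (E.lf l') := by
  refine til_commute E.central (E.lf_spec hn h).1 fun a ha => ?_
  rw [(E.lf_spec hn h').2]
  exact L_commute h.2.2.1 h'.2.2.1 hd a ha _ h'.perm_mem_L

theorem CExt.exists_word (hn : 5 ≤ n) (hs : E.Split) (γ : Γ) :
    ∃ w : List (Lt X n), (∀ l ∈ w, l.OK) ∧ E.wv w = γ := by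
  let K : Subgroup Γ :=
    { carrier := {γ | ∃ w : List (Lt X n), (∀ l ∈ w, l.OK) ∧ E.wv w = γ}
      one_mem' := ⟨[], by simp, E.wv_nil⟩
      mul_mem' := by
        rintro _ _ ⟨w, hw, rfl⟩ ⟨w', hw', rfl⟩
        refine ⟨w ++ w', fun l hl => ?_, E.wv_append w w'⟩
        rcases List.mem_append.1 hl with hl | hl
        exacts [hw l hl, hw' l hl]
      inv_mem' := by
        rintro _ ⟨w, hw, rfl⟩
        refine ⟨winv w, fun l hl => ?_, E.wv_winv hn hs hw⟩
        obtain ⟨l', hl', rfl⟩ := mem_winv.1 hl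
        exact (hw l' hl').inv }
  have hK : ∀ (U : Set X.Pt) (F : Finset (Site n)), Loc U → MS U F → 5 ≤ F.card →
      til E.θ (L U F) ≤ K := by
    intro U F hU hF hc γ hγ
    obtain ⟨g, hg, hgF, he⟩ := (mem_L_iff hU hF).1 (til_le_comap hγ)
    have hl : (⟨U, F, g⟩ : Lt X n).OK := ⟨hU, hg, hF, hc, hgF⟩
    refine ⟨[⟨U, F, g⟩], by simpa using hl, ?_⟩
    rw [E.wv_cons, E.wv_nil, mul_one]
    exact hs.eq hU hF hc (E.lf_spec hn hl).1 hγ ((E.lf_spec hn hl).2.trans he.symm)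
  have hA : Alt X n ≤ K.map E.θ := by
    refine Alt_le_of_L hn fun U F hU hF hc => ?_
    rw [← map_til (θ := E.θ) (by rw [E.range]; exact L_le_Alt hn hF) (L_perfect hF hc)]
    exact Subgroup.map_mono (hK U F hU hF hc)
  have hT : til E.θ (Alt X n) = ⊤ := by
    have : (Alt X n).comap E.θ = ⊤ := by
      rw [← E.range, eq_top_iff]
      exact fun γ _ => ⟨γ, rfl⟩
    show ⁅(Alt X n).comap E.θ, (Alt X n).comap E.θ⁆ = ⊤
    rw [this]
    exact E.perfect
  have hγ : γ ∈ K := til_le_of_map E.central hA (by rw [hT]; trivial)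
  exact hγ

theorem H1BaseAux.split_aux (hn : 5 ≤ n) (hs : E.Split) {d : X.Pt → ℕ} (hd : LocF d) {r : ℕ}
    (hW : Loc W) (w : List (Lt X n)) : (∀ l ∈ w, l.OK) →
    (∀ l ∈ w, ∀ l' ∈ w, ∀ z ∈ l.F, ∀ z' ∈ l'.F, ∀ x : X.Pt, d ((z.1 - z'.1) +ᵥ x) ≤ d x + r) →
    ∀ c : ℕ → ℕ, (∀ i j, i < j → c i + r ≤ c j) →
      E.wv (wres W w) = E.wv (w.mapIdx fun i l => l.res (W ∩ {x | c i < d x})) *
        E.wv (w.mapIdx fun i l => l.res (W ∩ {x | d x ≤ c i})) := by
  induction w with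
  | nil => intro _ _ c _; exact (mul_one _).symm
  | cons l w ih =>
    intro hw hr c hc
    have hl := hw l List.mem_cons_self
    have e : wres W (l :: w) = l.res W :: wres W w := rfl
    have hA : ∀ k : ℕ, Loc (W ∩ {x | k < d x}) := fun k => hW.inter (hd.setOf fun t => k < t)
    have hB : ∀ k : ℕ, Loc (W ∩ {x | d x ≤ k}) := fun k => hW.inter (hd.setOf fun t => t ≤ k)
    have h₀ := E.lf_res hn hs (hl.res hW) (hd.setOf fun t => c 0 < t)
    have e' : {x | c 0 < d x}ᶜ = {x | d x ≤ c 0} := by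
      ext x
      simp only [Set.mem_compl_iff, Set.mem_ofPred_eq, not_lt]
    rw [e', Lt.res_res, Lt.res_res] at h₀
    have hcomm : Commute (E.lf (l.res (W ∩ {x | d x ≤ c 0})))
        (E.wv (w.mapIdx fun i l => l.res (W ∩ {x | c (i + 1) < d x}))) := by
      refine Commute.list_prod_right _ _ fun γ hγ => ?_
      obtain ⟨l', hl', rfl⟩ := List.mem_map.1 hγ
      obtain ⟨i, hi, rfl⟩ := List.mem_mapIdx.1 hl'
      have hm : w[i] ∈ l :: w := List.mem_cons_of_mem _ (List.getElem_mem hi)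
      refine E.lf_commute hn (hl.res (hB _)) ((hw _ hm).res (hA _)) fun x hx y hy z hz z' hz' he => ?_
      obtain ⟨rfl, -⟩ := pt_eq_iff.1 he
      have h₁ := hr l List.mem_cons_self _ hm z hz z' hz' x
      have h₂ : d x ≤ c 0 := hx.2.2
      have h₃ : c (i + 1) < d ((z.1 - z'.1) +ᵥ x) := hy.2.2
      have h₄ := hc 0 (i + 1) (Nat.succ_pos i)
      omega
    rw [e, E.wv_cons, List.mapIdx_cons, List.mapIdx_cons, E.wv_cons, E.wv_cons, h₀,
      ih (fun l' hl' => hw l' (List.mem_cons_of_mem _ hl'))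
        (fun l₁ h₁ l₂ h₂ => hr l₁ (List.mem_cons_of_mem _ h₁) l₂ (List.mem_cons_of_mem _ h₂))
        (fun i => c (i + 1)) (fun i j hij => hc _ _ (by omega))]
    rw [mul_assoc, mul_assoc, ← mul_assoc (E.lf (l.res (W ∩ {x | d x ≤ c 0}))), hcomm.eq,
      mul_assoc]

/-- The splitting lemma. -/
theorem CExt.split (hn : 5 ≤ n) (hs : E.Split) (hw : ∀ l ∈ w, l.OK) {d : X.Pt → ℕ}
    (hd : LocF d) {r : ℕ} (hr : ∀ l ∈ w, ∀ l' ∈ w, ∀ z ∈ l.F, ∀ z' ∈ l'.F, ∀ x : X.Pt,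
      d ((z.1 - z'.1) +ᵥ x) ≤ d x + r) {p q : ℕ} (hpq : p + (r + 1) * w.length ≤ q) :
    E.wv w = E.wv (wres {x | p < d x} w) * (E.wv (wres {x | p < d x ∧ d x ≤ q} w))⁻¹ *
      E.wv (wres {x | d x ≤ q} w) := by
  have hc : ∀ i j : ℕ, i < j → p + r * i + r ≤ p + r * j := fun i j hij => by
    have := Nat.mul_le_mul_left r (Nat.succ_le_of_lt hij)
    rw [Nat.mul_succ] at this
    omega
  have hq : ∀ i : ℕ, i < w.length → p + r * i ≤ q := fun i hi => by
    have h₁ := Nat.mul_le_mul_left r hi.le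
    have h₂ : r * w.length ≤ (r + 1) * w.length := Nat.mul_le_mul_right _ (Nat.le_succ r)
    omega
  have key := fun (W : Set X.Pt) (hW : Loc W) =>
    H1BaseAux.split_aux E hn hs hd hW w hw hr (fun i => p + r * i) hc
  have congr : ∀ {P Q : ℕ → Set X.Pt}, (∀ i, i < w.length → P i = Q i) →
      w.mapIdx (fun i l => l.res (P i)) = w.mapIdx (fun i l => l.res (Q i)) := by
    intro P Q h
    exact List.mapIdx_eq_mapIdx_iff.2 fun i hi => by rw [h i hi]
  have h₀ := key _ Loc.univ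
  have h₁ := key _ (hd.setOf fun t => p < t)
  have h₂ := key _ (hd.setOf fun t => p < t ∧ t ≤ q)
  have h₃ := key _ (hd.setOf fun t => t ≤ q)
  rw [wres_univ] at h₀
  have e₁ : w.mapIdx (fun i l => l.res ({x | p < d x} ∩ {x | p + r * i < d x})) =
      w.mapIdx (fun i l => l.res (Set.univ ∩ {x | p + r * i < d x})) :=
    congr (P := fun i => {x | p < d x} ∩ {x | p + r * i < d x})
      (Q := fun i => Set.univ ∩ {x | p + r * i < d x}) fun i _ => by
        ext x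
        simp only [Set.mem_inter_iff, Set.mem_ofPred_eq, Set.mem_univ, true_and]
        omega
  have e₂ : w.mapIdx (fun i l => l.res ({x | p < d x ∧ d x ≤ q} ∩ {x | d x ≤ p + r * i})) =
      w.mapIdx (fun i l => l.res ({x | p < d x} ∩ {x | d x ≤ p + r * i})) :=
    congr (P := fun i => {x | p < d x ∧ d x ≤ q} ∩ {x | d x ≤ p + r * i})
      (Q := fun i => {x | p < d x} ∩ {x | d x ≤ p + r * i}) fun i hi => by
        have := hq i hi
        ext x
        simp only [Set.mem_inter_iff, Set.mem_ofPred_eq]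
        omega
  have e₃ : w.mapIdx (fun i l => l.res ({x | d x ≤ q} ∩ {x | p + r * i < d x})) =
      w.mapIdx (fun i l => l.res ({x | p < d x ∧ d x ≤ q} ∩ {x | p + r * i < d x})) :=
    congr (P := fun i => {x | d x ≤ q} ∩ {x | p + r * i < d x})
      (Q := fun i => {x | p < d x ∧ d x ≤ q} ∩ {x | p + r * i < d x}) fun i _ => by
        ext x
        simp only [Set.mem_inter_iff, Set.mem_ofPred_eq]
        omega
  have e₄ : w.mapIdx (fun i l => l.res ({x | d x ≤ q} ∩ {x | d x ≤ p + r * i})) =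
      w.mapIdx (fun i l => l.res (Set.univ ∩ {x | d x ≤ p + r * i})) :=
    congr (P := fun i => {x | d x ≤ q} ∩ {x | d x ≤ p + r * i})
      (Q := fun i => Set.univ ∩ {x | d x ≤ p + r * i}) fun i hi => by
        have := hq i hi
        ext x
        simp only [Set.mem_inter_iff, Set.mem_ofPred_eq, Set.mem_univ, true_and]
        omega
  rw [h₀, h₁, h₂, h₃, e₁, e₂, e₃, e₄]
  group

end lift

end Crest.Agent.R189
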