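import Crest.Agent.R189.StepB
import Crest.Agent.R189.H0a
import Crest.Agent.R189.H0b

/-! Row 189: the kernel of a perfect central extension is finitely generated. -/

set_option autoImplicit false

namespace Crest.Agent.R189

variable {S : Type} [Finite S] {X : Sub S} {n : ℕ} {Γ : Type} [Group Γ]

namespace KerFG

/-- The set of pairs (value, flux) of trivial words is a subgroup. -/
theorem exists_subgroup (E : CExt X n Γ) (hn : 5 ≤ n) (hF : Free X) (hs : E.Split) (x : X.Pt) :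
    ∃ H : Subgroup (Γ × Multiplicative ℤ), ∀ p, p ∈ H ↔ ∃ w : List (Lt X n),
      (∀ l ∈ w, l.OK) ∧ wperm w = 1 ∧ p = (E.wv w, Multiplicative.ofAdd (flux w x)) := by
  have hinv : ∀ w : List (Lt X n), (∀ l ∈ w, l.OK) → ∀ l ∈ winv w, l.OK := by
    intro w hw l hl
    obtain ⟨l', hl', rfl⟩ := mem_winv.1 hl
    exact (hw l' hl').inv
  refine ⟨{ carrier := {p | ∃ w : List (Lt X n), (∀ l ∈ w, l.OK) ∧ wperm w = 1 ∧
      p = (E.wv w, Multiplicative.ofAdd (flux w x))}
            one_mem' := ?_, mul_mem' := ?_, inv_mem' := ?_ }, fun p => Iff.rfl⟩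
  · rintro _ _ ⟨w, hw, h1, rfl⟩ ⟨w', hw', h1', rfl⟩
    refine ⟨w ++ w', ?_, by rw [wperm_append, h1, h1', one_mul], ?_⟩
    · intro l hl
      rcases List.mem_append.1 hl with h | h
      exacts [hw l h, hw' l h]
    · rw [E.wv_append, flux_append hF hw hw' h1 h1', ofAdd_add]; rfl
  · refine ⟨[], by simp, wperm_nil, ?_⟩
    have h := flux_append (X := X) (n := n) (w := []) (w' := []) hF (by simp) (by simp)
      wperm_nil wperm_nil x
    have h0 : flux ([] : List (Lt X n)) x = 0 := by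
      rw [List.append_nil] at h; omega
    rw [E.wv_nil, h0]; rfl
  · rintro _ ⟨w, hw, h1, rfl⟩
    refine ⟨winv w, hinv w hw, ?_, ?_⟩
    · rw [wperm_winv fun l hl => (hw l hl).pre, h1, inv_one]
    · rw [E.wv_winv hn hs hw, flux_winv hF hw h1, ofAdd_neg]; rfl

theorem finite_of_bound {α : Type} (A : Set α) (N : ℕ)
    (h : ∀ T : Finset α, (T : Set α) ⊆ A → T.card ≤ N) : A.Finite := by
  by_contra hA
  obtain ⟨T, hT, hc⟩ := Set.Infinite.exists_subset_card_eq hA (N + 1)
  have := h T hT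
  omega

end KerFG

open KerFG in
theorem CExt.ker_fg_of_split (E : CExt X n Γ) (hn : 5 ≤ n) (hne : Nonempty X.Pt) (hF : Free X)
    (hM : Minimal X) (hs : E.Split) (hb : HB X) : E.θ.ker.FG := by
  classical
  obtain ⟨x⟩ := hne
  obtain ⟨H, hH⟩ := exists_subgroup E hn hF hs x
  obtain ⟨N, hN⟩ := E.stepB hn hF hs hb
  -- the values without flux form a finite set
  have hfin : {γ : Γ | (γ, (1 : Multiplicative ℤ)) ∈ H}.Finite := by
    refine finite_of_bound _ N fun T hT => ?_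
    have hw : ∀ γ : T, ∃ w : List (Lt X n), (∀ l ∈ w, l.OK) ∧ wperm w = 1 ∧ E.wv w = γ.1 ∧
        flux w x = 0 := by
      intro γ
      obtain ⟨w, hw, h1, he⟩ := (hH _).1 (hT γ.2)
      refine ⟨w, hw, h1, (congrArg Prod.fst he).symm, ?_⟩
      have := congrArg (fun p => Multiplicative.toAdd p.2) he
      simpa using this.symm
    choose w hw h1 hv hf using hw
    have hρ : ∀ γ : T, ∃ ρ, ∀ l ∈ w γ, l.Rad ρ := fun γ => exists_rad_word (hw γ)
    choose ρ hρ using hρ
    obtain ⟨K, hK, hKw⟩ := hN (Finset.univ.sup ρ) (Finset.univ.sup fun γ => (w γ).length)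
    refine le_trans (Finset.card_le_card fun γ hγ => ?_) hK
    have := hKw (w ⟨γ, hγ⟩)
      (fun l hl => ⟨hw _ l hl, (hρ _ l hl).mono (Finset.le_sup (Finset.mem_univ _))⟩)
      (Finset.le_sup (f := fun γ => (w γ).length) (Finset.mem_univ _)) (h1 _)
      (fun y => by rw [flux_indep hF hM (hw _) (h1 _) y x, hf])
    rwa [hv] at this
  -- the fluxes form a cyclic group
  obtain ⟨d, hd⟩ := Int.subgroup_cyclic
    (Subgroup.toAddSubgroup' (H.map (MonoidHom.snd Γ (Multiplicative ℤ))))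
  have hd0 : Multiplicative.ofAdd d ∈ H.map (MonoidHom.snd Γ (Multiplicative ℤ)) := by
    have : d ∈ Subgroup.toAddSubgroup' (H.map (MonoidHom.snd Γ (Multiplicative ℤ))) := by
      rw [hd]; exact AddSubgroup.subset_closure rfl
    exact this
  obtain ⟨p₀, hp₀, hp₀d⟩ := hd0
  have hker : ∀ p ∈ H, p.1 ∈ E.θ.ker := by
    intro p hp
    obtain ⟨w, hw, h1, rfl⟩ := (hH _).1 hp
    rw [MonoidHom.mem_ker, E.θ_wv hn hw, h1]
  rw [Subgroup.fg_iff]
  refine ⟨insert p₀.1 {γ : Γ | (γ, (1 : Multiplicative ℤ)) ∈ H}, le_antisymm ?_ ?_,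
    hfin.insert _⟩
  · rw [Subgroup.closure_le]
    rintro γ (rfl | hγ)
    · exact hker _ hp₀
    · exact hker _ hγ
  · intro γ hγ
    obtain ⟨w, hw, rfl⟩ := E.exists_word hn hs γ
    have h1 : wperm w = 1 := by rw [← E.θ_wv hn hw]; exact hγ
    have hp : (E.wv w, Multiplicative.ofAdd (flux w x)) ∈ H := (hH _).2 ⟨w, hw, h1, rfl⟩
    have hfl : flux w x ∈ AddSubgroup.closure {d} := by
      rw [← hd]
      exact ⟨_, hp, rfl⟩
    obtain ⟨k, hk⟩ := AddSubgroup.mem_closure_singleton.1 hfl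
    have hq := H.mul_mem hp (H.zpow_mem hp₀ (-k))
    have hq2 : ((E.wv w, Multiplicative.ofAdd (flux w x)) * p₀ ^ (-k)) =
        (E.wv w * p₀.1 ^ (-k), 1) := by
      refine Prod.ext rfl ?_
      have h2 : p₀.2 = Multiplicative.ofAdd d := hp₀d
      change Multiplicative.ofAdd (flux w x) * p₀.2 ^ (-k) = 1
      rw [h2, ← ofAdd_zsmul, ← ofAdd_add, ← hk, neg_smul, add_neg_cancel, ofAdd_zero]
    rw [hq2] at hq
    have e : E.wv w = (E.wv w * p₀.1 ^ (-k)) * p₀.1 ^ k := by group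
    rw [e]
    exact Subgroup.mul_mem _ (Subgroup.subset_closure (Or.inr hq))
      (Subgroup.zpow_mem _ (Subgroup.subset_closure (Set.mem_insert _ _)) _)

theorem CExt.ker_fg (E : CExt X n Γ) (hn : 50 ≤ n) (hG : Good X) : E.θ.ker.FG := by
  obtain ⟨Z0, hfin, hle, hZT⟩ := E.exists_ZT hn hG.free hG.rank
  have hnorm : Z0.Normal := ⟨fun z hz g => by
    have := Subgroup.mem_center_iff.1 (E.central (hle hz)) g
    rw [this, mul_inv_cancel_right]; exact hz⟩
  obtain ⟨E', hE', hZT'⟩ := E.exists_quot Z0 hle hZT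
  have hfg := E'.ker_fg_of_split (by omega) hG.nonempty hG.free hG.minimal
    (E'.split_of_ZT hn hG.free hZT') hG.hb
  obtain ⟨T, hT, hTf⟩ := Subgroup.fg_iff _ |>.1 hfg
  rw [Subgroup.fg_iff]
  have hsurj := QuotientGroup.mk'_surjective Z0
  refine ⟨Function.surjInv hsurj '' T ∪ Z0, ?_, (hTf.image _).union (Set.toFinite _)⟩
  have hk : E.θ.ker = E'.θ.ker.comap (QuotientGroup.mk' Z0) := by
    ext γ
    rw [Subgroup.mem_comap, MonoidHom.mem_ker, MonoidHom.mem_ker, hE']
    rfl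
  have hT' : T = QuotientGroup.mk' Z0 '' (Function.surjInv hsurj '' T) := by
    rw [← Set.image_comp, Function.comp_surjInv, Set.image_id]
  rw [hk, ← hT, Subgroup.closure_union, Subgroup.closure_eq]
  conv_rhs => rw [hT', ← MonoidHom.map_closure, Subgroup.comap_map_eq, QuotientGroup.ker_mk']

end Crest.Agent.R189
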