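import Crest.Agent.R189.Ms

/-! Row 189: the groups of multisections and the alternating full group. -/

set_option autoImplicit false

namespace Crest.Agent.R189

open Equiv Pointwise

variable {S : Type} {X : Sub S} {n : ℕ} {U U' : Set X.Pt} {F F' : Finset (Site n)}

namespace LGrpAux

theorem ms_one (U : Set X.Pt) : ms U (1 : Perm (Site n)) = 1 := msf_one fun _ _ => rfl

theorem ms_mul (h : MS U F) {a b : Perm (Site n)} (ha : a ∈ AltOn F) (hb : b ∈ AltOn F) :
    ms U (a * b) = ms U a * ms U b :=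
  msf_mul (g := fun _ => a) (g' := fun _ => b) h (fun _ _ _ hz => AltOn.apply_of_not_mem ha hz)
    (fun _ _ _ hz => AltOn.apply_of_not_mem hb hz)

theorem ms_inv (h : MS U F) {a : Perm (Site n)} (ha : a ∈ AltOn F) :
    ms U a⁻¹ = (ms U a)⁻¹ :=
  msf_inv (g := fun _ => a) h (fun _ _ _ hz => AltOn.apply_of_not_mem ha hz)

theorem ms_vadd (v : V) (a : Perm (Site n)) :
    ms (v +ᵥ U) a = ms U (sht v * a * (sht v)⁻¹) := msf_vadd (g := fun _ => a) v

theorem L_vadd_le (v : V) : L (v +ᵥ U) F ≤ L U (F.image (sht v)) := by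
  rw [L, Subgroup.closure_le]
  rintro γ ⟨W, hW, a, ha, hL, rfl⟩
  have e : W = v +ᵥ ((-v) +ᵥ W) := by rw [vadd_neg_vadd]
  rw [e, ms_vadd]
  refine Subgroup.subset_closure ⟨(-v) +ᵥ W, ?_, _, AltOn.conj _ ha, hL.vadd _, rfl⟩
  intro x hx
  rw [mem_vadd_iff, neg_neg] at hx
  have := hW hx
  rwa [mem_vadd_iff, neg_vadd_vadd] at this

theorem comm_le {G : Type} [Group G] (H : Subgroup G) : ⁅H, H⁆ ≤ H := by
  rw [Subgroup.commutator_le]
  intro a ha b hb
  rw [commutatorElement_def]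
  exact H.mul_mem (H.mul_mem (H.mul_mem ha hb) (H.inv_mem ha)) (H.inv_mem hb)

theorem gen_mem (hU : Loc U) (δ : Fin n → V) {i j k : Fin n} (hij : i ≠ j) (hik : i ≠ k)
    (hjk : j ≠ k) : tr δ * ap U (c3 i j k) * (tr δ)⁻¹ ∈ Alt X n :=
  Subgroup.subset_closure
    ⟨U, δ, c3 i j k, hU, isThreeCycle_iff_c3.2 ⟨i, j, k, hij, hik, hjk, rfl⟩, rfl⟩

theorem exists_two_fresh (hn : 5 ≤ n) (i j k : Fin n) :
    ∃ p q : Fin n, p ≠ q ∧ p ∉ ({i, j, k} : Finset (Fin n)) ∧ q ∉ ({i, j, k} : Finset (Fin n)) := by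
  have h3 : ({i, j, k} : Finset (Fin n)).card ≤ 3 := Finset.card_le_three
  have hc : 1 < (({i, j, k} : Finset (Fin n))ᶜ).card := by
    rw [Finset.card_compl, Fintype.card_fin]; omega
  obtain ⟨p, hp, q, hq, hpq⟩ := Finset.one_lt_card.1 hc
  exact ⟨p, q, hpq, Finset.mem_compl.1 hp, Finset.mem_compl.1 hq⟩

end LGrpAux

open LGrpAux

theorem ms_mem_L (hU : U' ⊆ U) (hL : Loc U') {a : Perm (Site n)} (ha : a ∈ AltOn F) :
    ms U' a ∈ L U F :=
  Subgroup.subset_closure ⟨U', hU, a, ha, hL, rfl⟩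

theorem L_mono (hU : U' ⊆ U) (hF : F' ⊆ F) : L U' F' ≤ L U F := by
  refine Subgroup.closure_mono ?_
  rintro γ ⟨W, hW, a, ha, hL, rfl⟩
  exact ⟨W, hW.trans hU, a, AltOn.mono hF ha, hL, rfl⟩

theorem L_vadd (v : V) : L (v +ᵥ U) F = L U (F.image (sht v)) := by
  refine le_antisymm (L_vadd_le v) ?_
  have h := L_vadd_le (U := v +ᵥ U) (F := F.image (sht v)) (-v)
  rw [neg_vadd_vadd] at h
  refine h.trans (L_mono subset_rfl ?_)
  intro z hz
  simp only [Finset.mem_image] at hz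
  obtain ⟨_, ⟨w, hw, rfl⟩, rfl⟩ := hz
  simpa using hw

theorem LGrpAux.msf_mem [Finite S] (hU : Loc U) (h : MS U F) {g : X.Pt → Perm (Site n)}
    (hg : LocF g) (hgF : ∀ x ∈ U, g x ∈ AltOn F) : msf U g ∈ L U F := by
  refine Loc.cover' (fun W => msf W g ∈ L U F) ?_ hU ?_ ?_
  · rw [msf_empty]; exact Subgroup.one_mem _
  · intro U₁ U₂ _ _ h₁ h₂ hd q₁ q₂
    have hs := Set.union_subset h₁ h₂
    rw [msf_union (h.mono hs subset_rfl)
      (fun x hx z hz => AltOn.apply_of_not_mem (hgF x (hs hx)) hz) hd]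
    exact Subgroup.mul_mem _ q₁ q₂
  · intro x hx
    obtain ⟨r, hr⟩ := hg
    refine ⟨r, fun W hW hs => ?_⟩
    have e : msf W g = ms W (g x) := msf_congr fun y hy => (hr x y (hs hy).2).symm
    rw [e]
    exact ms_mem_L (fun y hy => (hs hy).1) hW (hgF x hx)

theorem mem_L_iff [Finite S] (hU : Loc U) (h : MS U F) {γ : Perm (Hat X n)} :
    γ ∈ L U F ↔ ∃ g : X.Pt → Perm (Site n), LocF g ∧ (∀ x, g x ∈ AltOn F) ∧ γ = msf U g := by
  classical
  constructor
  · intro hγ
    induction hγ using Subgroup.closure_induction with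
    | mem γ hγ =>
      obtain ⟨W, hW, a, ha, hL, rfl⟩ := hγ
      refine ⟨fun x => if x ∈ W then a else 1, LocF.ite hL (LocF.const a) (LocF.const 1),
        fun x => ?_, ?_⟩
      · beta_reduce
        split_ifs
        · exact ha
        · exact Subgroup.one_mem _
      · exact (msf_restrict hW (fun x _ hx => if_neg hx) (fun x hx => if_pos hx)).symm
    | one =>
      exact ⟨fun _ => 1, LocF.const 1, fun _ => Subgroup.one_mem _,
        (msf_one fun _ _ => rfl).symm⟩
    | mul γ γ' _ _ ih ih' =>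
      obtain ⟨g, hg, hgF, rfl⟩ := ih
      obtain ⟨g', hg', hgF', rfl⟩ := ih'
      exact ⟨fun x => g x * g' x, hg.comp₂ hg' (· * ·),
        fun x => Subgroup.mul_mem _ (hgF x) (hgF' x),
        (msf_mul h (fun x _ _ hz => AltOn.apply_of_not_mem (hgF x) hz)
          (fun x _ _ hz => AltOn.apply_of_not_mem (hgF' x) hz)).symm⟩
    | inv γ _ ih =>
      obtain ⟨g, hg, hgF, rfl⟩ := ih
      exact ⟨fun x => (g x)⁻¹, hg.comp (·⁻¹), fun x => Subgroup.inv_mem _ (hgF x),
        (msf_inv h (fun x _ _ hz => AltOn.apply_of_not_mem (hgF x) hz)).symm⟩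
  · rintro ⟨g, hg, hgF, rfl⟩
    exact LGrpAux.msf_mem hU h hg fun x _ => hgF x

theorem msf_mem_L [Finite S] (hU : Loc U) (h : MS U F) {g : X.Pt → Perm (Site n)} (hg : LocF g)
    (hgF : ∀ x ∈ U, g x ∈ AltOn F) : msf U g ∈ L U F :=
  LGrpAux.msf_mem hU h hg hgF

theorem L_perfect (h : MS U F) (hc : 5 ≤ F.card) : ⁅L U F, L U F⁆ = L U F := by
  refine le_antisymm (comm_le _) ?_
  conv_lhs => rw [L]
  rw [Subgroup.closure_le]
  rintro γ ⟨W, hW, a, ha, hL, rfl⟩
  have hW' : MS W F := h.mono hW subset_rfl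
  refine AltOn.comm_induction hc (fun a => ms W a ∈ ⁅L U F, L U F⁆) ?_ ?_ ?_ a ha
  · rw [ms_one]; exact Subgroup.one_mem _
  · intro a ha b hb
    have ha' := Subgroup.inv_mem _ ha
    have hb' := Subgroup.inv_mem _ hb
    have hab := Subgroup.mul_mem _ ha hb
    rw [ms_mul hW' (Subgroup.mul_mem _ hab ha') hb', ms_mul hW' hab ha', ms_mul hW' ha hb,
      ms_inv hW' ha, ms_inv hW' hb, ← commutatorElement_def]
    exact Subgroup.commutator_mem_commutator (ms_mem_L hW hL ha) (ms_mem_L hW hL hb)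
  · intro a ha b hb qa qb
    rw [ms_mul hW' ha hb]
    exact Subgroup.mul_mem _ qa qb

theorem L_commute (h : MS U F) (h' : MS U' F')
    (hd : ∀ x ∈ U, ∀ y ∈ U', ∀ z ∈ F, ∀ z' ∈ F', pt x z ≠ pt y z') :
    ∀ γ ∈ L U F, ∀ γ' ∈ L U' F', Commute γ γ' := by
  intro γ hγ γ' hγ'
  induction hγ using Subgroup.closure_induction with
  | mem γ hγ =>
    obtain ⟨W, hW, a, ha, -, rfl⟩ := hγ
    induction hγ' using Subgroup.closure_induction with
    | mem γ' hγ' =>
      obtain ⟨W', hW', a', ha', -, rfl⟩ := hγ'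
      exact msf_commute (h.mono hW subset_rfl) (h'.mono hW' subset_rfl)
        (fun _ _ _ hz => AltOn.apply_of_not_mem ha hz)
        (fun _ _ _ hz => AltOn.apply_of_not_mem ha' hz)
        (fun x hx y hy => hd x (hW hx) y (hW' hy))
    | one => exact Commute.one_right _
    | mul _ _ _ _ ih ih' => exact ih.mul_right ih'
    | inv _ _ ih => exact ih.inv_right
  | one => exact Commute.one_left _
  | mul _ _ _ _ ih ih' => exact ih.mul_left ih'
  | inv _ _ ih => exact ih.inv_left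

/-- Rebasing. -/
theorem L_rebase {B : Set X.Pt} (hB : Loc B) (h : MS U F) (hne : F.Nonempty)
    (hx : ∀ x ∈ U, ∃ x₀ ∈ B, ∃ v : V, x = v +ᵥ x₀ ∧ ∀ z ∈ F, sht v z ∈ F') : L U F ≤ L B F' := by
  classical
  obtain ⟨z₀, hz₀⟩ := hne
  conv_lhs => rw [L]
  rw [Subgroup.closure_le]
  rintro γ ⟨W, hW, a, ha, hL, rfl⟩
  have key : ∀ T : Finset V, (∀ v ∈ T, ∀ z ∈ F, sht v z ∈ F') → ∀ W : Set X.Pt, Loc W → W ⊆ U →
      (∀ x ∈ W, ∃ v ∈ T, x ∈ v +ᵥ B) → ms W a ∈ L B F' := by
    intro T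
    induction T using Finset.induction_on with
    | empty =>
      intro _ W _ _ hc
      have e : W = ∅ := Set.eq_empty_of_forall_notMem fun x hx => by simpa using hc x hx
      rw [e, ms, msf_empty]
      exact Subgroup.one_mem _
    | insert v T _ ih =>
      intro hT W hL hW hc
      have e : W = (W ∩ (v +ᵥ B)) ∪ (W \ (v +ᵥ B)) := (Set.inter_union_sdiff _ _).symm
      have hm : MS ((W ∩ (v +ᵥ B)) ∪ (W \ (v +ᵥ B))) F := by
        rw [← e]; exact h.mono hW subset_rfl
      have e2 : ms W a = ms (W ∩ (v +ᵥ B)) a * ms (W \ (v +ᵥ B)) a := by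
        conv_lhs => rw [e]
        exact msf_union hm (fun _ _ _ hz => AltOn.apply_of_not_mem ha hz)
          (Set.disjoint_left.2 fun x hx hx' => hx'.2 hx.2)
      rw [e2]
      refine Subgroup.mul_mem _ ?_ ?_
      · have h1 : ms (W ∩ (v +ᵥ B)) a ∈ L (v +ᵥ B) F :=
          ms_mem_L Set.inter_subset_right (hL.inter (hB.vadd v)) ha
        rw [L_vadd] at h1
        refine L_mono subset_rfl ?_ h1
        intro z hz
        obtain ⟨w, hw, rfl⟩ := Finset.mem_image.1 hz
        exact hT v (Finset.mem_insert_self _ _) w hw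
      · refine ih (fun w hw => hT w (Finset.mem_insert_of_mem hw)) _ (hL.diff (hB.vadd v))
          (Set.sdiff_subset.trans hW) fun x hx => ?_
        obtain ⟨w, hw, hxw⟩ := hc x hx.1
        rcases Finset.mem_insert.1 hw with rfl | hw
        · exact absurd hxw hx.2
        · exact ⟨w, hw, hxw⟩
  refine key ((F'.image fun z => z.1 - z₀.1).filter fun v => ∀ z ∈ F, sht v z ∈ F')
    (fun v hv => (Finset.mem_filter.1 hv).2) W hL hW fun x hxW => ?_
  obtain ⟨x₀, hx₀, v, rfl, hv⟩ := hx x (hW hxW)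
  refine ⟨v, Finset.mem_filter.2 ⟨Finset.mem_image.2 ⟨_, hv z₀ hz₀, ?_⟩, hv⟩,
    Set.vadd_mem_vadd_set hx₀⟩
  simp

theorem ap_mem_Alt (hU : Loc U) {a : Perm (Fin n)} (ha : a ∈ alternatingGroup (Fin n)) :
    ap U a ∈ Alt X n := by
  rw [← Equiv.Perm.closure_three_cycles_eq_alternating] at ha
  induction ha using Subgroup.closure_induction with
  | mem a ha =>
    refine Subgroup.subset_closure ⟨U, 0, a, hU, ha, ?_⟩
    rw [tr_zero, one_mul, inv_one, mul_one]
  | one => rw [ap_one]; exact Subgroup.one_mem _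
  | mul a b _ _ ih ih' => rw [ap_mul]; exact Subgroup.mul_mem _ ih ih'
  | inv a _ ih =>
    have e : ap U a⁻¹ = (ap U a)⁻¹ := by
      refine eq_inv_of_mul_eq_one_left ?_
      rw [← ap_mul, inv_mul_cancel, ap_one]
    rw [e]; exact Subgroup.inv_mem _ ih

theorem apf_mem_Alt [Finite S] {g : X.Pt → Perm (Fin n)} (hg : LocF g)
    (ha : ∀ x, g x ∈ alternatingGroup (Fin n)) : apf g ∈ Alt X n := by
  have key := Loc.cover (X := X)
    (fun W => apf (fun x => @ite _ (x ∈ W) (Classical.propDecidable _) (g x) 1) ∈ Alt X n)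
    ?_ ?_ Loc.univ ?_
  · simpa using key
  · have e : (apf fun x : X.Pt => @ite _ (x ∈ (∅ : Set X.Pt)) (Classical.propDecidable _) (g x) 1)
        = 1 := by
      ext1 ⟨x, i⟩
      simp
    rw [e]; exact Subgroup.one_mem _
  · intro W W' _ _ hd q q'
    have e : (fun x : X.Pt => @ite _ (x ∈ W ∪ W') (Classical.propDecidable _) (g x) 1)
        = fun x => @ite _ (x ∈ W) (Classical.propDecidable _) (g x) 1 *
          @ite _ (x ∈ W') (Classical.propDecidable _) (g x) 1 := by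
      funext x
      by_cases h1 : x ∈ W
      · have h2 : x ∉ W' := Set.disjoint_left.1 hd h1
        simp [h1, h2]
      · by_cases h2 : x ∈ W' <;> simp [h1, h2]
    rw [e, apf_mul]
    exact Subgroup.mul_mem _ q q'
  · intro x _
    obtain ⟨r, hr⟩ := hg
    refine ⟨r, fun W hW hs => ?_⟩
    have e : (apf fun y : X.Pt => @ite _ (y ∈ W) (Classical.propDecidable _) (g y) 1)
        = ap W (g x) := by
      rw [ap]
      congr 1
      funext y
      by_cases hy : y ∈ W
      · rw [if_pos hy, if_pos hy, hr x y (hs hy).2]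
      · rw [if_neg hy, if_neg hy]
    rw [e]
    exact ap_mem_Alt hW (ha x)

theorem LGrpAux.D_ind (I : Finset (Fin n)) (Q : D n → Prop) (h0 : Q 0)
    (hadd : ∀ δ δ', Q δ → Q δ' → Q (δ + δ'))
    (hel : ∀ (δ : D n) (i j : Fin n) (v : V), i ∉ I → j ∉ I → i ≠ j →
      δ.1 = Pi.single i v - Pi.single j v → Q δ) :
    ∀ δ : D n, (∀ i ∈ I, δ.1 i = 0) → Q δ := by
  intro δ hδ
  by_cases hI : ∀ j, j ∈ I
  · have e : δ = 0 := Subtype.ext (funext fun i => hδ i (hI i))
    rw [e]; exact h0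
  push Not at hI
  obtain ⟨j, hj⟩ := hI
  have hmem : ∀ i : Fin n, (Pi.single i (δ.1 i) - Pi.single j (δ.1 i) : Fin n → V) ∈ D n := by
    intro i
    show ∑ l, (Pi.single i (δ.1 i) - Pi.single j (δ.1 i) : Fin n → V) l = 0
    simp [Finset.sum_sub_distrib]
  have hsum : ∑ i, δ.1 i = 0 := δ.2
  have e : δ = ∑ i, (⟨_, hmem i⟩ : D n) := by
    apply Subtype.ext
    rw [AddSubmonoidClass.coe_finsetSum]
    funext l
    simp only [Finset.sum_apply, Pi.sub_apply, Finset.sum_sub_distrib, Pi.single_apply]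
    by_cases hl : l = j
    · simp [hl, hsum]
    · simp [hl]
  rw [e]
  refine Finset.sum_induction _ Q hadd h0 fun i _ => ?_
  by_cases hi : i ∈ I
  · have e' : (⟨_, hmem i⟩ : D n) = 0 := Subtype.ext (by simp [hδ i hi])
    rw [e']; exact h0
  by_cases hij : i = j
  · have e' : (⟨_, hmem i⟩ : D n) = 0 := Subtype.ext (by simp [hij])
    rw [e']; exact h0
  · exact hel _ i j (δ.1 i) hi hj hij rfl

theorem tr_mem_Alt (hn : 3 ≤ n) {δ : Fin n → V} (hδ : δ ∈ D n) : (tr δ : Perm (Hat X n)) ∈ Alt X n := by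
  refine LGrpAux.D_ind ∅ (fun δ => (tr δ.1 : Perm (Hat X n)) ∈ Alt X n) ?_ ?_ ?_ ⟨δ, hδ⟩
    (by simp)
  · show (tr 0 : Perm (Hat X n)) ∈ Alt X n
    rw [tr_zero]; exact Subgroup.one_mem _
  · intro δ δ' h h'
    show (tr (δ.1 + δ'.1) : Perm (Hat X n)) ∈ Alt X n
    rw [tr_add]; exact Subgroup.mul_mem _ h h'
  · intro δ i j v _ _ hij e
    have h2 : ({i, j} : Finset (Fin n)).card ≤ 2 := Finset.card_le_two
    have hc : 0 < (({i, j} : Finset (Fin n))ᶜ).card := by
      rw [Finset.card_compl, Fintype.card_fin]; omega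
    obtain ⟨k, hk⟩ := Finset.card_pos.1 hc
    simp only [Finset.mem_compl, Finset.mem_insert, Finset.mem_singleton, not_or] at hk
    have hik : i ≠ k := fun h => hk.1 h.symm
    have hkj : k ≠ j := hk.2
    have hci : c3 i k j i = j := c3_apply_fst hik hij hkj
    have hconj := ap_tr_conj (X := X) (c3 i k j) (δ := Pi.single i v) (δ' := Pi.single j v) (by
      intro l
      by_cases hl : l = i
      · rw [hl, hci, Pi.single_eq_same, Pi.single_eq_same]
      · rw [Pi.single_eq_of_ne hl, Pi.single_eq_of_ne]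
        intro h
        exact hl ((c3 i k j).injective (h.trans hci.symm)))
    have e2 : (tr δ.1 : Perm (Hat X n)) =
        (tr (Pi.single i v) * ap Set.univ (c3 i k j) * (tr (Pi.single i v))⁻¹) *
          (tr 0 * ap Set.univ (c3 i k j) * (tr 0)⁻¹)⁻¹ := by
      rw [e, sub_eq_add_neg, tr_add, ← tr_inv, ← hconj, tr_zero]
      group
    show (tr δ.1 : Perm (Hat X n)) ∈ Alt X n
    rw [e2]
    exact Subgroup.mul_mem _ (gen_mem Loc.univ _ hik hij hkj)
      (Subgroup.inv_mem _ (gen_mem Loc.univ _ hik hij hkj))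

/-- The offsets with sum zero that vanish on `I` are generated by elementary ones. -/
theorem D_induction (I : Finset (Fin n)) (Q : D n → Prop) (h0 : Q 0)
    (hadd : ∀ δ δ', Q δ → Q δ' → Q (δ + δ'))
    (hel : ∀ (δ : D n) (i j : Fin n) (v : V), i ∉ I → j ∉ I → i ≠ j →
      δ.1 = Pi.single i v - Pi.single j v → Q δ) :
    ∀ δ : D n, (∀ i ∈ I, δ.1 i = 0) → Q δ :=
  LGrpAux.D_ind I Q h0 hadd hel

theorem ms_mem_Alt (hn : 5 ≤ n) (hU : Loc U) (h : MS U F) {a : Perm (Site n)}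
    (ha : a ∈ AltOn F) : ms U a ∈ Alt X n := by
  refine AltOn.c3_induction (fun a => ms U a ∈ Alt X n) ?_ ?_ ?_ a ha
  · rw [ms_one]; exact Subgroup.one_mem _
  · intro x hx y hy z hz hxy hxz _
    obtain ⟨p, q, hpq, hp, hq⟩ := exists_two_fresh hn x.2 y.2 z.2
    have hfr : ∀ w ∈ ({x, y, z} : Finset (Site n)), w.2 ≠ p ∧ w.2 ≠ q := by
      intro w hw
      have hw2 : w.2 ∈ ({x.2, y.2, z.2} : Finset (Fin n)) := by
        simp only [Finset.mem_insert, Finset.mem_singleton] at hw ⊢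
        rcases hw with rfl | rfl | rfl <;> simp
      exact ⟨fun h => hp (h ▸ hw2), fun h => hq (h ▸ hw2)⟩
    have hM : MS U (({x, y, z} : Finset (Site n)) ∪ {((0 : V), p), ((0 : V), q)}) := by
      refine MS.union_fresh (h.mono subset_rfl ?_) (MS.of_sheets ?_) ?_
      · intro w hw
        simp only [Finset.mem_insert, Finset.mem_singleton] at hw
        rcases hw with rfl | rfl | rfl <;> assumption
      · intro w hw w' hw' e
        simp only [Finset.mem_insert, Finset.mem_singleton] at hw hw'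
        rcases hw with rfl | rfl <;> rcases hw' with rfl | rfl
        · rfl
        · exact absurd e hpq
        · exact absurd e.symm hpq
        · rfl
      · intro w hw w' hw'
        simp only [Finset.mem_insert, Finset.mem_singleton] at hw'
        rcases hw' with rfl | rfl
        · exact (hfr w hw).1
        · exact (hfr w hw).2
    have hcl := AltOn_eq_closure_two
      (F := ({x, y, z} : Finset (Site n)) ∪ {((0 : V), p), ((0 : V), q)})
      (p := ((0 : V), p)) (q := ((0 : V), q)) (by simp) (by simp)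
      (fun e => hpq (congrArg Prod.snd e))
    have hmem : c3 x y z ∈
        AltOn (({x, y, z} : Finset (Site n)) ∪ {((0 : V), p), ((0 : V), q)}) :=
      c3_mem_AltOn hxy hxz (by simp) (by simp) (by simp)
    generalize c3 x y z = b at hmem
    rw [hcl] at hmem
    induction hmem using Subgroup.closure_induction with
    | mem b hb =>
      obtain ⟨w, hw, hwp, hwq, rfl⟩ := hb
      have hw' : w ∈ ({x, y, z} : Finset (Site n)) := by
        rcases Finset.mem_union.1 hw with hw | hw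
        · exact hw
        · simp only [Finset.mem_insert, Finset.mem_singleton] at hw
          exact absurd hw (not_or.2 ⟨hwp, hwq⟩)
      obtain ⟨h1, h2⟩ := hfr w hw'
      have e := tr_ap_c3 U (Pi.single w.2 w.1) h1 h2 hpq
      rw [Pi.single_eq_same, Pi.single_eq_of_ne h1.symm, Pi.single_eq_of_ne h2.symm] at e
      have := gen_mem hU (Pi.single w.2 w.1) h1 h2 hpq
      rwa [e] at this
    | one => rw [ms_one]; exact Subgroup.one_mem _
    | mul a b ha hb ih ih' =>
      rw [← hcl] at ha hb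
      rw [ms_mul hM ha hb]; exact Subgroup.mul_mem _ ih ih'
    | inv a ha ih =>
      rw [← hcl] at ha
      rw [ms_inv hM ha]; exact Subgroup.inv_mem _ ih
  · intro a ha b hb qa qb
    rw [ms_mul h ha hb]
    exact Subgroup.mul_mem _ qa qb

theorem L_le_Alt (hn : 5 ≤ n) (h : MS U F) : L U F ≤ Alt X n := by
  rw [L, Subgroup.closure_le]
  rintro γ ⟨W, hW, a, ha, hL, rfl⟩
  exact ms_mem_Alt hn hL (h.mono hW subset_rfl) ha

/-- Every generator is a three-cycle on a multisection with five sites on distinct sheets. -/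
theorem gens_eq_ms (hn : 5 ≤ n) {γ : Perm (Hat X n)} (hγ : γ ∈ gens X n) :
    ∃ (U : Set X.Pt) (F : Finset (Site n)) (x y z : Site n), Loc U ∧ MS U F ∧ F.card = 5 ∧
      x ∈ F ∧ y ∈ F ∧ z ∈ F ∧ x ≠ y ∧ x ≠ z ∧ y ≠ z ∧ γ = ms U (c3 x y z) := by
  obtain ⟨U, δ, a, hU, ha, rfl⟩ := hγ
  obtain ⟨i, j, k, hij, hik, hjk, rfl⟩ := isThreeCycle_iff_c3.1 ha
  obtain ⟨I, hI, -, hc⟩ := Finset.exists_subsuperset_card_eq (n := 5)
    (Finset.subset_univ ({i, j, k} : Finset (Fin n)))
    (Finset.card_le_three.trans (by norm_num)) (by simpa using hn)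
  refine ⟨U, I.image fun l => (δ l, l), (δ i, i), (δ j, j), (δ k, k), hU, MS.of_sheets ?_, ?_,
    Finset.mem_image_of_mem _ (hI (by simp)), Finset.mem_image_of_mem _ (hI (by simp)),
    Finset.mem_image_of_mem _ (hI (by simp)), fun e => hij (congrArg Prod.snd e),
    fun e => hik (congrArg Prod.snd e), fun e => hjk (congrArg Prod.snd e),
    tr_ap_c3 U δ hij hik hjk⟩
  · intro z hz z' hz' e
    obtain ⟨l, -, rfl⟩ := Finset.mem_image.1 hz
    obtain ⟨l', -, rfl⟩ := Finset.mem_image.1 hz'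
    have e' : l = l' := e
    rw [e']
  · rw [Finset.card_image_of_injective _ (fun l l' e => congrArg Prod.snd e), hc]

theorem Alt_le_of_L (hn : 5 ≤ n) {H : Subgroup (Perm (Hat X n))}
    (h : ∀ (U : Set X.Pt) (F : Finset (Site n)), Loc U → MS U F → 5 ≤ F.card → L U F ≤ H) :
    Alt X n ≤ H := by
  rw [Alt, Subgroup.closure_le]
  intro γ hγ
  obtain ⟨U, F, x, y, z, hU, hM, hc, hx, hy, hz, hxy, hxz, -, rfl⟩ := gens_eq_ms hn hγ
  exact h U F hU hM hc.ge (ms_mem_L subset_rfl hU (c3_mem_AltOn hxy hxz hx hy hz))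

theorem Alt_perfect (hn : 5 ≤ n) : ⁅Alt X n, Alt X n⁆ = Alt X n := by
  refine le_antisymm (comm_le _) (Alt_le_of_L hn fun U F _ hM hc => ?_)
  rw [← L_perfect hM hc]
  exact Subgroup.commutator_mono (L_le_Alt hn hM) (L_le_Alt hn hM)

end Crest.Agent.R189
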