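import Crest.Agent.R189.ModelB

/-! Row 189: the finitely presented model. -/

set_option autoImplicit false

namespace Crest.Agent.R189

open Equiv

namespace PresentAux

/-- A finitely generated free abelian group is finitely presented. -/
theorem fp_of_basis {A : Type} [AddCommGroup A] {k : ℕ} (b : Module.Basis (Fin k) ℤ A) :
    Group.IsFinitelyPresented (Multiplicative A) := by
  let φ : FreeGroup (Fin k) →* Multiplicative A :=
    FreeGroup.lift fun i => Multiplicative.ofAdd (b i)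
  let R : Set (FreeGroup (Fin k)) := Set.range fun p : Fin k × Fin k =>
    FreeGroup.of p.1 * FreeGroup.of p.2 * (FreeGroup.of p.1)⁻¹ * (FreeGroup.of p.2)⁻¹
  have hφ : ∀ i, φ (FreeGroup.of i) = Multiplicative.ofAdd (b i) := fun i => FreeGroup.lift_apply_of
  refine ⟨k, φ, fun a => ?_, R, Set.finite_range _, le_antisymm ?_ ?_⟩
  · have : Multiplicative.toAdd a ∈ Submodule.span ℤ (Set.range b) := by
      rw [b.span_eq]; trivial
    refine Submodule.span_induction (p := fun x _ => Multiplicative.ofAdd x ∈ φ.range) ?_ ?_ ?_ ?_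
      this
    · rintro _ ⟨i, rfl⟩
      exact ⟨_, hφ i⟩
    · exact one_mem _
    · intro x y _ _ hx hy
      exact mul_mem hx hy
    · intro m x _ hx
      rw [ofAdd_zsmul]
      exact zpow_mem hx m
  · refine Subgroup.normalClosure_le_normal ?_
    rintro _ ⟨p, rfl⟩
    show φ _ = 1
    simp only [map_mul, map_inv]
    rw [mul_comm (φ (FreeGroup.of p.1)), mul_inv_cancel_right, mul_inv_cancel]
  · let π := QuotientGroup.mk' (Subgroup.normalClosure R)
    have h₁ : ∀ i j, Commute (π (FreeGroup.of i)) (π (FreeGroup.of j)) := by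
      intro i j
      have : π (FreeGroup.of i * FreeGroup.of j * (FreeGroup.of i)⁻¹ * (FreeGroup.of j)⁻¹) = 1 :=
        (QuotientGroup.eq_one_iff _).2 (Subgroup.subset_normalClosure ⟨(i, j), rfl⟩)
      simp only [map_mul, map_inv] at this
      exact commutatorElement_eq_one_iff_commute.1 this
    have h₂ : ∀ x j, Commute (π x) (π (FreeGroup.of j)) := by
      intro x j
      induction x using FreeGroup.induction_on with
      | C1 => rw [map_one]; exact Commute.one_left _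
      | of i => exact h₁ i j
      | inv_of i h => rw [map_inv]; exact h.inv_left
      | mul x y hx hy => rw [map_mul]; exact hx.mul_left hy
    have h₃ : ∀ x y, Commute (π x) (π y) := by
      intro x y
      induction y using FreeGroup.induction_on with
      | C1 => rw [map_one]; exact Commute.one_right _
      | of i => exact h₂ x i
      | inv_of i h => rw [map_inv]; exact h.inv_right
      | mul y z hy hz => rw [map_mul]; exact hy.mul_right hz
    letI : CommGroup (FreeGroup (Fin k) ⧸ Subgroup.normalClosure R) :=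
      { (inferInstance : Group (FreeGroup (Fin k) ⧸ Subgroup.normalClosure R)) with
        mul_comm := fun x y => by
          obtain ⟨x, rfl⟩ := QuotientGroup.mk'_surjective _ x
          obtain ⟨y, rfl⟩ := QuotientGroup.mk'_surjective _ y
          exact h₃ x y }
    let ψ : A →ₗ[ℤ] Additive (FreeGroup (Fin k) ⧸ Subgroup.normalClosure R) :=
      b.constr ℤ fun i => Additive.ofMul (π (FreeGroup.of i))
    have h₄ : ∀ x, ψ (Multiplicative.toAdd (φ x)) = Additive.ofMul (π x) := by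
      intro x
      induction x using FreeGroup.induction_on with
      | C1 => rw [map_one φ, map_one π, toAdd_one, map_zero, ofMul_one]
      | of i => rw [hφ, toAdd_ofAdd]; exact b.constr_basis ℤ _ i
      | inv_of i h => rw [map_inv φ, map_inv π, toAdd_inv, map_neg, h, ofMul_inv]
      | mul x y hx hy => rw [map_mul φ, map_mul π, toAdd_mul, map_add, hx, hy, ofMul_mul]
    intro x hx
    have h₅ := h₄ x
    rw [MonoidHom.mem_ker.1 hx, toAdd_one, map_zero] at h₅
    exact (QuotientGroup.eq_one_iff _).1 (Additive.ofMul.injective h₅.symm)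

theorem finite_D (n : ℕ) : Module.Finite ℤ (D n) :=
  Module.Finite.of_injective (D n).subtype.toIntLinearMap Subtype.val_injective

theorem fp_D (n : ℕ) : Group.IsFinitelyPresented (Multiplicative (D n)) := by
  have := finite_D n
  exact fp_of_basis (Module.finBasis ℤ (D n))

theorem exists_gen {n : ℕ} (K : AddSubgroup (D n)) :
    ∃ T : Set (D n), T.Finite ∧ AddSubgroup.closure T = K := by
  have := finite_D n
  have h : (AddSubgroup.toIntSubmodule K).FG := IsNoetherian.noetherian _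
  rw [Submodule.fg_iff_addSubgroup_fg] at h
  obtain ⟨T, hT⟩ := h
  exact ⟨T, T.finite_toSet, hT⟩

theorem exists_P (n : ℕ) : ∃ P : Perm (Fin n) → D n →+ D n,
    ∀ c δ i, (P c δ).1 (c i) = δ.1 i := by
  refine ⟨fun c => AddMonoidHom.mk' (fun δ => ⟨fun i => δ.1 (c⁻¹ i), ?_⟩) fun _ _ => rfl,
    fun c δ i => congrArg δ.1 (MsAux.inv_app c i)⟩
  exact (Equiv.sum_comp c⁻¹ δ.1).trans δ.2

theorem exists_K {n : ℕ} (a : Perm (Fin n)) : ∃ K : AddSubgroup (D n),
    ∀ δ, δ ∈ K ↔ ∀ i, a i ≠ i → δ.1 i = 0 :=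
  ⟨{ carrier := {δ | ∀ i, a i ≠ i → δ.1 i = 0}
     zero_mem' := fun _ _ => rfl
     add_mem' := fun {δ δ'} h h' i hi => by
       show δ.1 i + δ'.1 i = 0
       rw [h i hi, h' i hi, add_zero]
     neg_mem' := fun {δ} h i hi => by
       show -δ.1 i = 0
       rw [h i hi, neg_zero] }, fun _ => Iff.rfl⟩

theorem exists_one {α : Type} (Q : α → Prop) :
    ∃ T : Set α, T.Finite ∧ (∀ x ∈ T, Q x) ∧ ∀ x, Q x → ∃ y, y ∈ T := by
  by_cases h : ∃ x, Q x
  · obtain ⟨x, hx⟩ := h
    exact ⟨{x}, Set.finite_singleton x, fun y hy => hy ▸ hx, fun _ _ => ⟨x, rfl⟩⟩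
  · exact ⟨∅, Set.finite_empty, by simp, fun x hx => (h ⟨x, hx⟩).elim⟩

theorem apf_ind {S : Type} {X : Sub S} {Ω : Finset V} {n : ℕ} (E : Set (Ω → S))
    (a : alternatingGroup (Fin n)) :
    (apf fun x : X.Pt => (ind E a fun ω : Ω => x.1 ω : alternatingGroup (Fin n)).1) =
      ap {x : X.Pt | (fun ω : Ω => x.1 ω) ∈ E} a := by
  rw [ap]
  congr 1
  funext x
  by_cases hx : (fun ω : Ω => x.1 ω) ∈ E <;> simp [ind, hx]

theorem map4 {G H : Type} [Group G] [Group H] (ψ : G →* H) (a b c d : G) :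
    ψ (a * b * c⁻¹ * d⁻¹) = ψ a * ψ b * (ψ c)⁻¹ * (ψ d)⁻¹ := by
  simp only [map_mul, map_inv]

end PresentAux

open PresentAux in
theorem exists_model {S : Type} [Finite S] (X : Sub S) (Ω : Finset V) (h0 : 0 ∈ Ω) (n : ℕ) :
    ∃ (Γ : Type) (_ : Group Γ), Group.IsFinitelyPresented Γ ∧ Nonempty (Model X Ω h0 n Γ) := by
  have := fp_D n
  let A : Type := (Ω → S) → alternatingGroup (Fin n)
  let Γ₀ : Type := Monoid.Coprod (Multiplicative (D n)) A
  let t : D n → Γ₀ := fun δ => Monoid.Coprod.inl (Multiplicative.ofAdd δ)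
  let l : A →* Γ₀ := Monoid.Coprod.inr
  have ht : ∀ δ δ', t (δ + δ') = t δ * t δ' := fun δ δ' =>
    map_mul (Monoid.Coprod.inl : Multiplicative (D n) →* Γ₀) (Multiplicative.ofAdd δ)
      (Multiplicative.ofAdd δ')
  obtain ⟨P, hP⟩ := exists_P n
  obtain ⟨T₀, hT₀, hT₀'⟩ := exists_gen (⊤ : AddSubgroup (D n))
  choose K hK using fun a : alternatingGroup (Fin n) => exists_K a.1
  choose T₁ hT₁ hT₁' using fun a : alternatingGroup (Fin n) => exists_gen (K a)
  choose T₂ hT₂ hT₂' hT₂'' using fun (p : Ω × alternatingGroup (Fin n)) =>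
    exists_one fun δ : D n => ∀ i, p.2.1 i ≠ i → δ.1 i = -p.1.1
  let R₁ : Set Γ₀ := ⋃ c : alternatingGroup (Fin n),
    (fun δ => l (fun _ => c) * t δ * (l fun _ => c)⁻¹ * (t (P c δ))⁻¹) '' T₀
  let R₂ : Set Γ₀ := ⋃ p : Set (Ω → S) × alternatingGroup (Fin n),
    (fun δ => l (ind p.1 p.2) * t δ * (l (ind p.1 p.2))⁻¹ * (t δ)⁻¹) '' T₁ p.2
  let R₃ : Set Γ₀ := ⋃ p : Set S × Ω × alternatingGroup (Fin n),
    (fun δ => t δ * l (ind {π | π ⟨0, h0⟩ ∈ p.1} p.2.2) * (t δ)⁻¹ *
      (l (ind {π | π p.2.1 ∈ p.1} p.2.2))⁻¹) '' T₂ p.2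
  let R₄ : Set Γ₀ := Set.range fun a : alternatingGroup (Fin n) =>
    l (ind {π | ¬ ∃ x ∈ X.car, ∀ ω : Ω, π ω = x ω} a)
  let R : Set Γ₀ := R₁ ∪ R₂ ∪ R₃ ∪ R₄
  have hR : R.Finite :=
    (((Set.finite_iUnion fun c => hT₀.image _).union
      (Set.finite_iUnion fun p => (hT₁ _).image _)).union
      (Set.finite_iUnion fun p => (hT₂ _).image _)).union (Set.finite_range _)
  let θt : Multiplicative (D n) →* Perm (Hat X n) :=
    MonoidHom.mk' (fun δ => tr (Multiplicative.toAdd δ).1) fun δ δ' => tr_add _ _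
  let θl : A →* Perm (Hat X n) :=
    MonoidHom.mk' (fun f => apf fun x => (f fun ω => x.1 ω : Perm (Fin n))) fun f f' =>
      apf_mul (fun x => (f fun ω => x.1 ω : Perm (Fin n))) fun x => (f' fun ω => x.1 ω : Perm (Fin n))
  let θ₀ : Γ₀ →* Perm (Hat X n) := Monoid.Coprod.lift θt θl
  have hθt : ∀ δ, θ₀ (t δ) = tr δ.1 := fun δ => Monoid.Coprod.lift_apply_inl _ _ _
  have hθl : ∀ f, θ₀ (l f) = apf fun x => (f fun ω => x.1 ω : Perm (Fin n)) := fun f =>
    Monoid.Coprod.lift_apply_inr _ _ _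
  have hθi : ∀ E a, θ₀ (l (ind E a)) = ap {x : X.Pt | (fun ω : Ω => x.1 ω) ∈ E} a := fun E a =>
    (hθl _).trans (apf_ind E a)
  have hker : Subgroup.normalClosure R ≤ θ₀.ker := by
    refine Subgroup.normalClosure_le_normal ?_
    rintro r (((hr | hr) | hr) | hr)
    · obtain ⟨c, δ, -, rfl⟩ := Set.mem_iUnion.1 hr
      show θ₀ _ = 1
      rw [map4, ← ind_univ (α := Ω → S) c, hθi, hθt, hθt, mul_inv_eq_one]
      exact ap_tr_conj c.1 (hP c δ)
    · obtain ⟨p, δ, hδ, rfl⟩ := Set.mem_iUnion.1 hr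
      have hδ' : δ ∈ K p.2 := hT₁' p.2 ▸ AddSubgroup.subset_closure hδ
      show θ₀ _ = 1
      rw [map4, hθi, hθt]
      have h := tr_ap_congr {x : X.Pt | (fun ω : Ω => x.1 ω) ∈ p.1} p.2.1 (δ' := 0)
        ((hK _ _).1 hδ')
      rw [tr_zero, one_mul, inv_one, mul_one, mul_inv_eq_iff_eq_mul] at h
      rw [← h]
      group
    · obtain ⟨p, δ, hδ, rfl⟩ := Set.mem_iUnion.1 hr
      show θ₀ _ = 1
      rw [map4, hθi, hθi, hθt, mul_inv_eq_one, tr_ap_shift _ _ (hT₂' _ _ hδ)]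
      congr 1
      ext x
      rw [mem_vadd_iff, neg_neg]
      change x.1 (0 + p.2.1.1) ∈ p.1 ↔ x.1 p.2.1.1 ∈ p.1
      rw [zero_add]
    · obtain ⟨a, rfl⟩ := hr
      show θ₀ _ = 1
      rw [hθi]
      have : {x : X.Pt | (fun ω : Ω => x.1 ω) ∈
          {π : Ω → S | ¬ ∃ x ∈ X.car, ∀ ω : Ω, π ω = x ω}} = ∅ :=
        Set.eq_empty_of_forall_notMem fun x hx => hx ⟨x.1, x.2, fun _ => rfl⟩
      rw [this]
      ext ⟨x, i⟩ : 1
      exact ap_apply_of_not_mem _ (Set.notMem_empty x) i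
  let π : Γ₀ →* Γ₀ ⧸ Subgroup.normalClosure R := QuotientGroup.mk' _
  have hπ : ∀ r ∈ R, π r = 1 := fun r hr =>
    (QuotientGroup.eq_one_iff _).2 (Subgroup.subset_normalClosure hr)
  have hτ : ∀ δ δ', π (t (δ + δ')) = π (t δ) * π (t δ') := fun δ δ' => by rw [ht, map_mul]
  have hτ0 : π (t 0) = 1 := by
    have := hτ 0 0
    rw [add_zero] at this
    exact left_eq_mul.1 this
  have hτn : ∀ δ, π (t (-δ)) = (π (t δ))⁻¹ := fun δ => by
    rw [eq_inv_iff_mul_eq_one, ← hτ, neg_add_cancel, hτ0]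
  have hcomm : ∀ (E : Set (Ω → S)) (a : alternatingGroup (Fin n)) (δ : D n),
      (∀ i, a.1 i ≠ i → δ.1 i = 0) → Commute (π (l (ind E a))) (π (t δ)) := by
    intro E a δ hδ
    have hδ' : δ ∈ AddSubgroup.closure (T₁ a) := by rw [hT₁']; exact (hK _ _).2 hδ
    refine AddSubgroup.closure_induction
      (p := fun δ _ => Commute (π (l (ind E a))) (π (t δ))) (fun δ hδ => ?_) ?_ ?_ ?_ hδ'
    · have := hπ _ (Or.inl (Or.inl (Or.inr (Set.mem_iUnion.2 ⟨(E, a), δ, hδ, rfl⟩))))
      rw [map4] at this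
      exact commutatorElement_eq_one_iff_commute.1 this
    · rw [hτ0]; exact Commute.one_right _
    · intro δ δ' _ _ h h'
      rw [hτ]; exact h.mul_right h'
    · intro δ _ h
      rw [hτn]; exact h.inv_right
  refine ⟨Γ₀ ⧸ Subgroup.normalClosure R, inferInstance,
    Group.IsFinitelyPresented.quotient _ ⟨R, hR, rfl⟩, ⟨
    { τ := fun δ => π (t δ)
      Λ := π.comp l
      θ := QuotientGroup.lift _ θ₀ hker
      τ_add := hτ
      θ_τ := hθt
      θ_Λ := hθl
      act := ?_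
      comm := hcomm
      shift := ?_
      forb := fun a => hπ _ (Or.inr ⟨a, rfl⟩)
      gen := ?_ }⟩⟩
  · intro c δ δ' hδ
    have e : δ' = P c δ := Subtype.ext (funext fun i => by
      have h₁ := hδ (c.1⁻¹ i)
      have h₂ := hP c δ (c.1⁻¹ i)
      rw [MsAux.app_inv] at h₁ h₂
      rw [h₁, h₂])
    rw [e]
    have hδ' : δ ∈ AddSubgroup.closure T₀ := by rw [hT₀']; trivial
    refine AddSubgroup.closure_induction (p := fun δ _ =>
      π (l fun _ => c) * π (t δ) * (π (l fun _ => c))⁻¹ = π (t (P c δ))) (fun δ hδ => ?_) ?_ ?_ ?_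
      hδ'
    · have := hπ _ (Or.inl (Or.inl (Or.inl (Set.mem_iUnion.2 ⟨c, δ, hδ, rfl⟩))))
      rw [map4] at this
      exact mul_inv_eq_one.1 this
    · rw [map_zero, hτ0, mul_one, mul_inv_cancel]
    · intro δ δ' _ _ h h'
      rw [map_add, hτ, hτ, ← h, ← h']
      group
    · intro δ _ h
      rw [map_neg, hτn, hτn, ← h]
      group
  · intro ω E a δ hδ
    obtain ⟨δ₀, hδ₀⟩ := hT₂'' (ω, a) δ hδ
    have h₁ := hπ _ (Or.inl (Or.inr (Set.mem_iUnion.2 ⟨(E, ω, a), δ₀, hδ₀, rfl⟩)))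
    rw [map4] at h₁
    have h₂ := hcomm {π | π ⟨0, h0⟩ ∈ E} a (δ - δ₀) fun i hi => by
      show δ.1 i - δ₀.1 i = 0
      rw [hδ i hi, hT₂' _ _ hδ₀ i hi, sub_self]
    have e : π (t δ) = π (t δ₀) * π (t (δ - δ₀)) := by rw [← hτ, add_sub_cancel]
    refine Eq.trans ?_ (mul_inv_eq_one.1 h₁)
    show π (t δ) * π (l _) * (π (t δ))⁻¹ = _
    rw [e, mul_assoc (π (t δ₀)), ← h₂.eq]
    group
  · rw [eq_top_iff]
    intro γ _
    obtain ⟨γ, rfl⟩ := QuotientGroup.mk'_surjective _ γ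
    induction γ using Monoid.Coprod.induction_on with
    | inl δ => exact Subgroup.subset_closure (Or.inl ⟨Multiplicative.toAdd δ, rfl⟩)
    | inr f => exact Subgroup.subset_closure (Or.inr ⟨f, rfl⟩)
    | mul x y hx hy =>
      rw [map_mul]
      exact mul_mem (hx trivial) (hy trivial)

end Crest.Agent.R189
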