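import Crest.Agent.R189.LGrp

/-! Row 189: the alternating full group is simple and infinite. -/

set_option autoImplicit false

namespace Crest.Agent.R189

open Equiv Pointwise

variable {S : Type} {X : Sub S} {n : ℕ}

namespace SimpleAux

variable {N : Subgroup (Perm (Hat X n))}

theorem all_of_one (hn : 5 ≤ n) (hN : ∀ g ∈ Alt X n, ∀ h ∈ N, g * h * g⁻¹ ∈ N) {U : Set X.Pt}
    {F : Finset (Site n)} (hU : Loc U) (h : MS U F) (hc : 5 ≤ F.card) {a : Perm (Site n)}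
    (ha : a ∈ AltOn F) (h1 : a ≠ 1) (haN : ms U a ∈ N) {b : Perm (Site n)} (hb : b ∈ AltOn F) :
    ms U b ∈ N := by
  let M : Subgroup (AltOn F) :=
    { carrier := {c | ms U c.1 ∈ N}
      one_mem' := by
        change ms U 1 ∈ N
        rw [LGrpAux.ms_one]
        exact N.one_mem
      mul_mem' := fun {c d} hc hd => by
        change ms U (c.1 * d.1) ∈ N
        rw [LGrpAux.ms_mul h c.2 d.2]
        exact N.mul_mem hc hd
      inv_mem' := fun {c} hc => by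
        change ms U c.1⁻¹ ∈ N
        rw [LGrpAux.ms_inv h c.2]
        exact N.inv_mem hc }
  have hM : M.Normal := ⟨fun c hc d => by
    change ms U (d.1 * c.1 * d.1⁻¹) ∈ N
    rw [LGrpAux.ms_mul h (mul_mem d.2 c.2) (inv_mem d.2), LGrpAux.ms_mul h d.2 c.2,
      LGrpAux.ms_inv h d.2]
    exact hN _ (ms_mem_Alt hn hU h d.2) _ hc⟩
  have := AltOn.simple hc
  rcases hM.eq_bot_or_eq_top with h2 | h2
  · have h3 : (⟨a, ha⟩ : AltOn F) ∈ M := haN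
    rw [h2, Subgroup.mem_bot] at h3
    exact absurd (congrArg Subtype.val h3) h1
  · have h3 : (⟨b, hb⟩ : AltOn F) ∈ M := h2 ▸ Subgroup.mem_top _
    exact h3

theorem exists_local [Finite S] (hn : 5 ≤ n) (hF : Free X) (hNA : N ≤ Alt X n)
    (hN : ∀ g ∈ Alt X n, ∀ h ∈ N, g * h * g⁻¹ ∈ N) {g : Perm (Hat X n)} (hg : g ∈ N)
    (hg1 : g ≠ 1) : ∃ (x : X.Pt) (r : ℕ) (F : Finset (Site n)) (a : Perm (Site n)),
      a ∈ AltOn F ∧ a ≠ 1 ∧ ∀ U, Loc U → U ⊆ cyl r x → ms U a ∈ N := by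
  obtain ⟨⟨x, i⟩, hx⟩ : ∃ p, g p ≠ p := by
    by_contra hc
    exact hg1 (Equiv.ext fun p => not_not.1 fun h => hc ⟨p, h⟩)
  obtain ⟨ρ, hρ⟩ := exists_hasRad hF (hNA hg)
  have : Nonempty (Fin n) := ⟨i⟩
  obtain ⟨σ, hσ⟩ : ∃ σ, σ = loc g x := ⟨_, rfl⟩
  obtain ⟨z₁, hz₁⟩ : ∃ z₁ : Site n, σ z₁ ≠ z₁ := ⟨(0, i), fun h => hx (by
    rw [← pt_zero, loc_spec hF hρ.full, ← hσ, h])⟩
  obtain ⟨z₂, hz₂⟩ := Infinite.exists_notMem_finset ({z₁, σ z₁} : Finset (Site n))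
  obtain ⟨z₃, hz₃⟩ := Infinite.exists_notMem_finset ({z₁, z₂, σ z₁} : Finset (Site n))
  simp only [Finset.mem_insert, Finset.mem_singleton, not_or] at hz₂ hz₃
  obtain ⟨F₀, hF₀⟩ : ∃ F₀ : Finset (Site n), F₀ = {z₁, z₂, z₃} := ⟨_, rfl⟩
  have hc : c3 z₁ z₂ z₃ ∈ AltOn F₀ :=
    c3_mem_AltOn (Ne.symm hz₂.1) (Ne.symm hz₃.1) (by simp [hF₀]) (by simp [hF₀]) (by simp [hF₀])
  have hc1 : c3 z₁ z₂ z₃ ∈ AltOn (F₀ ∪ F₀.image σ) := AltOn.mono Finset.subset_union_left hc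
  have hc2 : σ * c3 z₁ z₂ z₃ * σ⁻¹ ∈ AltOn (F₀ ∪ F₀.image σ) :=
    AltOn.mono Finset.subset_union_right (AltOn.conj σ hc)
  obtain ⟨r, hr⟩ := exists_MS_cyl hF (F₀ ∪ F₀.image σ)
  obtain ⟨s, hs⟩ := exists_box_of_finite ((F₀.finite_toSet).image Prod.fst)
  refine ⟨x, max r (ρ + s), F₀ ∪ F₀.image σ, σ * c3 z₁ z₂ z₃ * σ⁻¹ * (c3 z₁ z₂ z₃)⁻¹,
    mul_mem hc2 (inv_mem hc1), fun h => ?_, fun U hU hUx => ?_⟩
  · have h1 := congrArg (fun f : Perm (Site n) => f (σ z₁)) (mul_inv_eq_one.1 h)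
    simp only [Perm.mul_apply, Perm.coe_inv, symm_apply_apply] at h1
    rw [c3_apply_fst (Ne.symm hz₂.1) (Ne.symm hz₃.1) (Ne.symm hz₃.2.1),
      c3_apply_of_ne hz₁ (Ne.symm hz₂.2) (Ne.symm hz₃.2.2)] at h1
    exact hz₃.1 (σ.injective h1)
  · have hMS : MS U (F₀ ∪ F₀.image σ) :=
      (hr x).mono (hUx.trans (cyl_mono (le_max_left _ _) x)) subset_rfl
    have hMS₀ : MS U F₀ := hMS.mono subset_rfl Finset.subset_union_left
    have h1 := (conj_msf (g := fun _ => c3 z₁ z₂ z₃) (γ := g) (σ := σ) hMS₀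
      (fun _ _ z hz => AltOn.apply_of_not_mem hc hz) fun y hy z hz => by
        have h2 : Agree (box (ρ + s)) x y := cyl_mono (le_max_right _ _) x (hUx hy)
        rw [loc_spec hF hρ.full, hσ, hρ.loc_congr hF (h2.vadd (hs ⟨z, hz, rfl⟩))]).2
    have h2 : g * ms U (c3 z₁ z₂ z₃) * g⁻¹ = ms U (σ * c3 z₁ z₂ z₃ * σ⁻¹) := h1
    rw [LGrpAux.ms_mul hMS hc2 (inv_mem hc1), LGrpAux.ms_inv hMS hc1, ← h2, mul_assoc, mul_assoc,
      ← mul_assoc (ms U _)]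
    exact N.mul_mem hg (hN _ (ms_mem_Alt hn hU hMS₀ hc) _ (N.inv_mem hg))

theorem Alt_le [Finite S] (hn : 5 ≤ n) (hF : Free X) (hM : Minimal X) (hNA : N ≤ Alt X n)
    (hN : ∀ g ∈ Alt X n, ∀ h ∈ N, g * h * g⁻¹ ∈ N) {g : Perm (Hat X n)} (hg : g ∈ N)
    (hg1 : g ≠ 1) : Alt X n ≤ N := by
  obtain ⟨x, r, F', a, ha, ha1, H⟩ := exists_local hn hF hNA hN hg hg1
  refine Alt_le_of_L hn fun U F _ hMS hc => (Subgroup.closure_le _).2 ?_
  rintro _ ⟨W, hWU, b, hb, hW, rfl⟩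
  have hMW : MS W F := hMS.mono hWU subset_rfl
  refine Loc.cover' (fun U'' => ms U'' b ∈ N) ?_ hW (fun U₁ U₂ _ _ h1 h2 hd h3 h4 => ?_)
    fun w _ => ?_
  · rw [ms, msf_empty]
    exact N.one_mem
  · rw [ms, msf_union (hMW.mono (Set.union_subset h1 h2) subset_rfl)
      (fun _ _ z hz => AltOn.apply_of_not_mem hb hz) hd]
    exact N.mul_mem h3 h4
  · obtain ⟨v, hv⟩ := hM x w r
    obtain ⟨r', hr'⟩ := exists_MS_cyl hF (F' ∪ F.image ((sht v)⁻¹ : Perm (Site n)))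
    obtain ⟨s, hs⟩ := exists_mem_box v
    refine ⟨max r r' + s, fun U'' hU'' hsub => ?_⟩
    have h1 : v +ᵥ U'' ⊆ cyl (max r r') (v +ᵥ w) := by
      rintro _ ⟨y, hy, rfl⟩
      exact Agree.vadd (hsub hy).2 hs
    have h2 : v +ᵥ U'' ⊆ cyl r x := by
      rw [← cyl_eq_of_mem (show v +ᵥ w ∈ cyl r x from hv.symm)]
      exact h1.trans (cyl_mono (le_max_left _ _) _)
    have h3 := all_of_one hn hN (hU''.vadd v)
      ((hr' (v +ᵥ w)).mono (h1.trans (cyl_mono (le_max_right _ _) _)) subset_rfl)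
      (hc.trans (le_trans (Finset.card_image_of_injective F (Equiv.injective _)).ge
        (Finset.card_le_card Finset.subset_union_right)))
      (AltOn.mono Finset.subset_union_left ha) ha1 (H _ (hU''.vadd v) h2)
      (AltOn.mono Finset.subset_union_right (AltOn.conj (sht v)⁻¹ hb))
    rw [LGrpAux.ms_vadd] at h3
    simpa [mul_assoc] using h3

end SimpleAux

theorem infinite_Alt (hn : 5 ≤ n) (hne : Nonempty X.Pt) (hF : Free X) : Infinite (Alt X n) := by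
  obtain ⟨x⟩ := hne
  obtain ⟨i, j, hij⟩ : ∃ i j : Fin n, i ≠ j :=
    ⟨⟨0, by omega⟩, ⟨1, by omega⟩, by simp⟩
  have hD : ∀ v : V, (Pi.single i v - Pi.single j v : Fin n → V) ∈ D n := fun v => by
    change ∑ k, (Pi.single i v - Pi.single j v : Fin n → V) k = 0
    simp [Finset.sum_sub_distrib]
  refine Infinite.of_injective (fun v : V => (⟨_, tr_mem_Alt (by omega) (hD v)⟩ : Alt X n))
    fun v w h => ?_
  have h1 := congrArg (fun γ : Alt X n => (γ.1 (x, i)).1) h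
  simp only [tr_apply, Pi.sub_apply, Pi.single_eq_same, Pi.single_eq_of_ne hij, sub_zero] at h1
  exact hF.vadd_inj h1

theorem simple_Alt [Finite S] (hn : 5 ≤ n) (hne : Nonempty X.Pt) (hF : Free X)
    (hM : Minimal X) : IsSimpleGroup (Alt X n) := by
  have := infinite_Alt hn hne hF
  refine ⟨fun H hH => ?_⟩
  rcases H.bot_or_exists_ne_one with h | ⟨g, hg, hg1⟩
  · exact Or.inl h
  · refine Or.inr (eq_top_iff.2 fun γ _ => ?_)
    have h1 := SimpleAux.Alt_le (N := H.map (Alt X n).subtype) hn hF hM (Subgroup.map_subtype_le H)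
      (by
        rintro a ha _ ⟨b, hb, rfl⟩
        exact ⟨_, hH.conj_mem b hb ⟨a, ha⟩, rfl⟩)
      (g := g.1) ⟨g, hg, rfl⟩ (fun h => hg1 (Subtype.ext h)) γ.2
    obtain ⟨b, hb, hbγ⟩ := h1
    rwa [← Subtype.ext hbγ]

theorem center_Alt [Finite S] (hn : 5 ≤ n) (hne : Nonempty X.Pt) (hF : Free X)
    (hM : Minimal X) : Subgroup.center (Alt X n) = ⊥ := by
  have := infinite_Alt hn hne hF
  have := simple_Alt hn hne hF hM
  refine (Subgroup.Normal.eq_bot_or_eq_top inferInstance).resolve_right fun h => ?_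
  have h1 : ⁅Alt X n, Alt X n⁆ = ⊥ := by
    refine eq_bot_iff.2 (Subgroup.commutator_le.2 fun a ha b hb => ?_)
    have h2 : (⟨b, hb⟩ : Alt X n) ∈ Subgroup.center (Alt X n) := h ▸ Subgroup.mem_top _
    exact Subgroup.mem_bot.2 (commutatorElement_eq_one_iff_mul_comm.2
      (congrArg Subtype.val (Subgroup.mem_center_iff.1 h2 ⟨a, ha⟩)))
  rw [Alt_perfect hn] at h1
  obtain ⟨g, hg⟩ := exists_ne (1 : Alt X n)
  exact hg (Subtype.ext (Subgroup.mem_bot.1 (h1 ▸ g.2)))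

end Crest.Agent.R189
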