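import Crest.Agent.R189.LGrp

/-! Row 189: the stabiliser of a pair of half spaces is locally finite. -/

set_option autoImplicit false

namespace Crest.Agent.R189

open Equiv Pointwise

variable {S : Type} {X : Sub S} {n : ℕ}

namespace StabFinAux

/-- coordinate along the fault -/
def al (d : Bool) (w : V) : ℤ := if d then w.2 else w.1
/-- height above the fault -/
def ht (d : Bool) (w : V) : ℤ := if d then w.1 else w.2

theorem anchor : (∀ d w, al d w = if d then w.2 else w.1) ∧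
    ∀ d w, ht d w = if d then w.1 else w.2 := ⟨fun _ _ => by simp only [al],
      fun _ _ => by simp only [ht]⟩

theorem al_ax (d : Bool) (s h : ℤ) : al d (ax d s h) = s := by cases d <;> rfl
theorem ht_ax (d : Bool) (s h : ℤ) : ht d (ax d s h) = h := by cases d <;> rfl
theorem al_sub (d : Bool) (v w : V) : al d (v - w) = al d v - al d w := by cases d <;> rfl
theorem ht_sub (d : Bool) (v w : V) : ht d (v - w) = ht d v - ht d w := by cases d <;> rfl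
theorem ax_add (d : Bool) (s h s' h' : ℤ) : ax d s h + ax d s' h' = ax d (s + s') (h + h') := by
  cases d <;> rfl
theorem ax_al_ht (d : Bool) (w : V) : ax d (al d w) (ht d w) = w := by cases d <;> rfl
theorem box_iff (d : Bool) {r : ℕ} {w : V} : w ∈ box r ↔ |al d w| ≤ r ∧ |ht d w| ≤ r := by
  cases d
  · rfl
  · exact and_comm
theorem ax_mem_box (d : Bool) {r : ℕ} {s h : ℤ} (hs : |s| ≤ r) (hh : |h| ≤ r) :
    ax d s h ∈ box r := (box_iff d).2 (by rw [al_ax, ht_ax]; exact ⟨hs, hh⟩)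

theorem pt_eq (d : Bool) (y : X.Pt) (z : Site n) :
    pt y z = pt (ax d (al d z.1) 0 +ᵥ y) (ax d 0 (ht d z.1), z.2) := by
  rw [pt_vadd, sht_apply, ax_add, zero_add, add_zero, ax_al_ht]

theorem pt_shift (v : V) (x : X.Pt) (z : Site n) : pt x z = pt (v +ᵥ x) (z.1 - v, z.2) := by
  rw [pt_vadd, sht_apply, sub_add_cancel]

section
variable {d : Bool} {Y : Set X.Pt} {T : Set (Hat X n)} {ρ : ℕ}

theorem sign (hY : ∀ y ∈ Y, ∀ s h : ℤ, ax d s h +ᵥ y ∈ Y ↔ h = 0)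
    (h1 : ∀ y ∈ Y, ∀ (h : ℤ) (i : Fin n), (h ≤ -ρ → pt y (ax d 0 h, i) ∈ T) ∧
      ((ρ : ℤ) ≤ h → pt y (ax d 0 h, i) ∉ T)) {y : X.Pt} (hy : y ∈ Y) (z : Site n) :
    (ht d z.1 ≤ -ρ → pt y z ∈ T) ∧ ((ρ : ℤ) ≤ ht d z.1 → pt y z ∉ T) := by
  rw [pt_eq d y z]
  exact h1 _ ((hY y hy _ _).2 rfl) _ _

/-- the sites below the approximate fault through the origin of `x₀` -/
def Below (d : Bool) (Y : Set X.Pt) (T : Set (Hat X n)) (ρ : ℕ) (x₀ : X.Pt) : Set (Site n) :=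
  {z | ht d z.1 ≤ -ρ ∨ (ht d z.1 < ρ ∧ ∃ y ∈ Y, Agree (box ρ) (ax d (al d z.1) 0 +ᵥ x₀) y ∧
    pt y (ax d 0 (ht d z.1), z.2) ∈ T)}

theorem anchor' (x₀ : X.Pt) : Below d Y T ρ x₀ =
  {z | ht d z.1 ≤ -ρ ∨ (ht d z.1 < ρ ∧ ∃ y ∈ Y, Agree (box ρ) (ax d (al d z.1) 0 +ᵥ x₀) y ∧
    pt y (ax d 0 (ht d z.1), z.2) ∈ T)} := by simp only [Below]

theorem below_iff (hY : ∀ y ∈ Y, ∀ s h : ℤ, ax d s h +ᵥ y ∈ Y ↔ h = 0)
    (h1 : ∀ y ∈ Y, ∀ (h : ℤ) (i : Fin n), (h ≤ -ρ → pt y (ax d 0 h, i) ∈ T) ∧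
      ((ρ : ℤ) ≤ h → pt y (ax d 0 h, i) ∉ T))
    (h2 : ∀ y ∈ Y, ∀ y' ∈ Y, Agree (box ρ) y y' → ∀ (h : ℤ) (i : Fin n),
      pt y (ax d 0 h, i) ∈ T → pt y' (ax d 0 h, i) ∈ T) {r : ℕ} {x₀ y : X.Pt} {s : ℤ}
    (hy : y ∈ Y) (ha : Agree (box (ρ + r)) (ax d s 0 +ᵥ x₀) y) {z : Site n}
    (hz : |al d z.1 - s| ≤ r) : z ∈ Below d Y T ρ x₀ ↔ pt y (z.1 - ax d s 0, z.2) ∈ T := by
  have hy1 : ax d (al d z.1 - s) 0 +ᵥ y ∈ Y := (hY y hy _ _).2 rfl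
  have ha1 : Agree (box ρ) (ax d (al d z.1) 0 +ᵥ x₀) (ax d (al d z.1 - s) 0 +ᵥ y) := by
    have := ha.vadd (v := ax d (al d z.1 - s) 0) (ax_mem_box d hz (by simp))
    rwa [vadd_vadd, ax_add, sub_add_cancel, add_zero] at this
  have he : pt y (z.1 - ax d s 0, z.2) =
      pt (ax d (al d z.1 - s) 0 +ᵥ y) (ax d 0 (ht d z.1), z.2) := by
    rw [pt_eq d y, al_sub, ht_sub, al_ax, ht_ax, sub_zero]
  rw [he]
  constructor
  · rintro (h | ⟨-, y', hy', ha', h⟩)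
    · exact (h1 _ hy1 _ _).1 h
    · exact h2 _ hy' _ hy1 (ha'.symm.trans ha1) _ _ h
  · intro h
    refine Or.inr ⟨?_, _, hy1, ha1, h⟩
    by_contra hc
    exact (h1 _ hy1 _ _).2 (not_lt.1 hc) h

theorem below_loc (hF : Free X) (hY : ∀ y ∈ Y, ∀ s h : ℤ, ax d s h +ᵥ y ∈ Y ↔ h = 0)
    (h1 : ∀ y ∈ Y, ∀ (h : ℤ) (i : Fin n), (h ≤ -ρ → pt y (ax d 0 h, i) ∈ T) ∧
      ((ρ : ℤ) ≤ h → pt y (ax d 0 h, i) ∉ T))
    (h2 : ∀ y ∈ Y, ∀ y' ∈ Y, Agree (box ρ) y y' → ∀ (h : ℤ) (i : Fin n),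
      pt y (ax d 0 h, i) ∈ T → pt y' (ax d 0 h, i) ∈ T) {r : ℕ} {x₀ : X.Pt}
    (hx : ∀ s : ℤ, ∃ y ∈ Y, Agree (box (ρ + r + r + 1)) (ax d s 0 +ᵥ x₀) y)
    {γ : Perm (Hat X n)} (hγ : HasRad γ r) (hT : γ • T = T) (z : Site n) :
    z ∈ Below d Y T ρ x₀ ↔ loc γ x₀ z ∈ Below d Y T ρ x₀ := by
  have hb := (box_iff d).1 (hγ.loc_sub hF x₀ z)
  rw [al_sub, ht_sub] at hb
  have hb2 := abs_le.1 hb.2
  by_cases c1 : ht d z.1 ≤ -(ρ + r)
  · exact ⟨fun _ => Or.inl (by omega), fun _ => Or.inl (by omega)⟩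
  by_cases c2 : (ρ : ℤ) + r < ht d z.1
  · constructor <;> rintro (h | ⟨h, -⟩) <;> omega
  obtain ⟨y, hy, ha⟩ := hx (al d z.1)
  have ha' : Agree (box (ρ + r)) (ax d (al d z.1) 0 +ᵥ x₀) y := ha.mono (box_mono (by omega))
  rw [below_iff hY h1 h2 hy ha' (by simp), below_iff hY h1 h2 hy ha' hb.1]
  have e1 : loc γ (ax d (al d z.1) 0 +ᵥ x₀) (z.1 - ax d (al d z.1) 0, z.2) =
      ((loc γ x₀ z).1 - ax d (al d z.1) 0, (loc γ x₀ z).2) := by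
    refine loc_eq hF hγ.full ?_
    rw [← pt_shift, ← pt_shift, loc_spec hF hγ.full]
  have e2 : loc γ (ax d (al d z.1) 0 +ᵥ x₀) (z.1 - ax d (al d z.1) 0, z.2) =
      loc γ y (z.1 - ax d (al d z.1) 0, z.2) := by
    refine hγ.loc_congr hF (Agree.vadd (s := ρ + r) (ha.mono (box_mono (by omega))) ?_)
    refine (box_iff d).2 ?_
    rw [al_sub, ht_sub, al_ax, ht_ax, sub_self, sub_zero, abs_zero, abs_le]
    push_cast
    omega
  rw [← e1, e2, ← loc_spec hF hγ.full]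
  conv_rhs => rw [← hT]
  exact (Set.smul_mem_smul_set_iff (a := γ)).symm

theorem height_bound (hF : Free X) (hY : Fault X d Y) (hT : InS d Y T)
    (F : Finset (Perm (Hat X n))) {r : ℕ} (hF' : ∀ γ ∈ F, HasRad γ r ∧ γ • T = T) :
    ∃ N : ℕ, ∀ g ∈ Subgroup.closure (F : Set (Perm (Hat X n))), ∀ (x : X.Pt) (i : Fin n),
      |ht d (loc g x (0, i)).1| ≤ N := by
  obtain ⟨ρ, h1, h2⟩ := hT
  obtain ⟨b, hb, R, hR1, hR2, hR3⟩ := hY.2 (ρ + r + r + 1)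
  have key : ∀ g ∈ Subgroup.closure (F : Set (Perm (Hat X n))), Full g ∧ ∀ x₀ ∈ R, ∀ z,
      z ∈ Below d Y T ρ x₀ ↔ loc g x₀ z ∈ Below d Y T ρ x₀ := by
    intro g hg
    induction hg using Subgroup.closure_induction with
    | mem γ hγ =>
      exact ⟨(hF' γ hγ).1.full, fun x₀ hx z => below_loc hF hY.1 h1 h2
        (fun s => hR3 _ ((hR2 x₀ hx s 0).2 (dvd_zero _))) (hF' γ hγ).1 (hF' γ hγ).2 z⟩
    | one => exact ⟨Full.one, fun x₀ _ z => by rw [loc_one hF]; rfl⟩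
    | mul g g' _ _ ih ih' =>
      refine ⟨ih.1.mul ih'.1, fun x₀ hx z => ?_⟩
      rw [loc_mul hF ih.1 ih'.1, Perm.mul_apply, ← ih.2 x₀ hx, ← ih'.2 x₀ hx]
    | inv g _ ih =>
      refine ⟨ih.1.inv, fun x₀ hx z => ?_⟩
      rw [loc_inv hF ih.1, ih.2 x₀ hx ((loc g x₀)⁻¹ z), MsAux.app_inv]
  refine ⟨2 * ρ + b + 1, fun g hg x i => ?_⟩
  obtain ⟨hfull, hg⟩ := key g hg
  obtain ⟨h₀, hh₀⟩ := hR1 x
  have hb0 : (0 : ℤ) < b := by omega
  have hrow : ∀ c : ℤ, ∃ k, c ≤ k ∧ k < c + b ∧ ax d 0 k +ᵥ x ∈ R := by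
    intro c
    refine ⟨c + (h₀ - c) % b, by have := Int.emod_nonneg (h₀ - c) hb0.ne'; omega,
      by have := Int.emod_lt_of_pos (h₀ - c) hb0; omega, ?_⟩
    have := (hR2 _ hh₀ 0 (c + (h₀ - c) % b - h₀)).2
      ⟨-((h₀ - c) / b), by have := Int.emod_add_mul_ediv (h₀ - c) b; linarith⟩
    rwa [vadd_vadd, ax_add, add_zero, sub_add_cancel] at this
  have hloc : ∀ v : V, loc g (v +ᵥ x) (0 - v, i) =
      ((loc g x (0, i)).1 - v, (loc g x (0, i)).2) := by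
    intro v
    refine loc_eq hF hfull ?_
    rw [← pt_shift, ← pt_shift v x (0, i), loc_spec hF hfull]
  have ht0 : ht d (0 : V) = 0 := by cases d <;> rfl
  rw [abs_le]
  constructor
  · obtain ⟨k, hk1, hk2, hk⟩ := hrow (-ρ - b)
    have := (hg _ hk (0 - ax d 0 k, i)).not.1 (by
      rintro (h | ⟨h, -⟩) <;> rw [ht_sub, ht_ax, ht0] at h <;> omega)
    rw [hloc] at this
    have h3 : ¬ ht d ((loc g x (0, i)).1 - ax d 0 k) ≤ -ρ := fun h => this (Or.inl h)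
    rw [ht_sub, ht_ax] at h3
    push_cast
    omega
  · obtain ⟨k, hk1, hk2, hk⟩ := hrow ρ
    have := (hg _ hk (0 - ax d 0 k, i)).1 (Or.inl (by rw [ht_sub, ht_ax, ht0]; omega))
    rw [hloc] at this
    push_cast
    rcases this with h | ⟨h, -⟩ <;> rw [ht_sub, ht_ax] at h <;> omega

end

end StabFinAux

open StabFinAux

theorem InS.smul (hF : Free X) {d : Bool} {Y : Set X.Pt}
    (hY : ∀ y ∈ Y, ∀ s h : ℤ, ax d s h +ᵥ y ∈ Y ↔ h = 0) {T : Set (Hat X n)} (hT : InS d Y T)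
    {γ : Perm (Hat X n)} (hγ : γ ∈ Alt X n) : InS d Y (γ • T) := by
  obtain ⟨ρ, h1, h2⟩ := hT
  obtain ⟨r, hr⟩ := exists_hasRad hF ((Alt X n).inv_mem hγ)
  have hm : ∀ (y : X.Pt) (z : Site n), pt y z ∈ γ • T ↔ pt y (loc γ⁻¹ y z) ∈ T := by
    intro y z
    rw [Set.mem_smul_set_iff_inv_smul_mem, ← loc_spec hF hr.full]
    rfl
  have hb : ∀ (y : X.Pt) (h : ℤ) (i : Fin n), |al d (loc γ⁻¹ y (ax d 0 h, i)).1| ≤ r ∧
      |ht d (loc γ⁻¹ y (ax d 0 h, i)).1 - h| ≤ r := by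
    intro y h i
    have := (box_iff d).1 (hr.loc_sub hF y (ax d 0 h, i))
    rwa [al_sub, ht_sub, al_ax, ht_ax, sub_zero] at this
  have hs : ∀ y ∈ Y, ∀ (h : ℤ) (i : Fin n), (h ≤ -(ρ + r) → pt y (ax d 0 h, i) ∈ γ • T) ∧
      ((ρ : ℤ) + r ≤ h → pt y (ax d 0 h, i) ∉ γ • T) := by
    intro y hy h i
    have := abs_le.1 (hb y h i).2
    rw [hm]
    exact ⟨fun hh => (sign hY h1 hy _).1 (by omega), fun hh => (sign hY h1 hy _).2 (by omega)⟩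
  refine ⟨r + (ρ + r), fun y hy h i => ⟨fun hh => (hs y hy h i).1 (by omega),
    fun hh => (hs y hy h i).2 (by omega)⟩, fun y hy y' hy' ha h i hp => ?_⟩
  by_cases c1 : h ≤ -(ρ + r)
  · exact (hs y' hy' h i).1 c1
  by_cases c2 : (ρ : ℤ) + r ≤ h
  · exact absurd hp ((hs y hy h i).2 c2)
  have e : loc γ⁻¹ y (ax d 0 h, i) = loc γ⁻¹ y' (ax d 0 h, i) :=
    hr.loc_congr hF (ha.vadd (ax_mem_box d (by simp; positivity) (by
      rw [abs_le]; push_cast; omega)))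
  rw [hm] at hp ⊢
  rw [← e, pt_eq d y']
  rw [pt_eq d y] at hp
  refine h2 _ ((hY y hy _ _).2 rfl) _ ((hY y' hy' _ _).2 rfl) ?_ _ _ hp
  exact Agree.vadd (s := r) (ha.mono (box_mono (by omega))) (ax_mem_box d (hb y h i).1 (by simp))

theorem finite_stab (hF : Free X) {Y Y' : Set X.Pt} (hY : Fault X false Y)
    (hY' : Fault X true Y') {T T' : Set (Hat X n)} (hT : InS false Y T) (hT' : InS true Y' T')
    (F : Finset (Perm (Hat X n))) (hF' : ∀ γ ∈ F, γ ∈ Alt X n ∧ γ • T = T ∧ γ • T' = T') :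
    Finite (Subgroup.closure (F : Set (Perm (Hat X n)))) := by
  classical
  obtain ⟨r, hr⟩ := SubAux.exists_bound (T := (F : Set (Perm (Hat X n)))) F.finite_toSet
    (P := fun γ r => HasRad γ r) (fun _ _ _ h h' => h'.mono h)
    (fun γ hγ => exists_hasRad hF (hF' γ hγ).1)
  obtain ⟨N, hN⟩ := height_bound hF hY hT F fun γ hγ => ⟨hr γ hγ, (hF' γ hγ).2.1⟩
  obtain ⟨N', hN'⟩ := height_bound hF hY' hT' F fun γ hγ => ⟨hr γ hγ, (hF' γ hγ).2.2⟩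
  refine finite_of_bounded_orbits F (rsites n (-N') N' (-N) N).card fun p => ?_
  obtain ⟨x, i⟩ := p
  refine ⟨(rsites n (-N') N' (-N) N).image (pt x), Finset.card_image_le, fun g hg => ?_⟩
  have hA : g ∈ Alt X n := (Subgroup.closure_le _).2 (fun γ hγ => (hF' γ hγ).1) hg
  obtain ⟨s, hs⟩ := exists_hasRad hF hA
  rw [← pt_zero, loc_spec hF hs.full]
  refine Finset.mem_image_of_mem _ (mem_rsites.2 ?_)
  have a1 := abs_le.1 (hN g hg x i)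
  have a2 := abs_le.1 (hN' g hg x i)
  exact ⟨a2.1, a2.2, a1.1, a1.2⟩

end Crest.Agent.R189
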