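import Crest.Agent.R189.Tile3

/-! Row 189: the minimal subshift of finite type. -/

set_option autoImplicit false

namespace Crest.Agent.R189

namespace Tile4Aux

theorem mem_box_add {c w : V} {r : ℕ} (hw : w ∈ box r) :
    c + w ∈ box (r + c.1.natAbs + c.2.natAbs) := by
  obtain ⟨h1, h2⟩ := hw
  simp only [box, Set.mem_ofPred_eq, Prod.fst_add, Prod.snd_add, abs_le] at *
  omega

theorem gap_odd (k m : ℕ) : Odd (gap k m).1 ∧ Odd (gap k m).2 := by
  induction m generalizing k with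
  | zero => exact ⟨odd_one, odd_one⟩
  | succ m ih =>
    refine ⟨(ih (k + 1)).2, Odd.mul ?_ (ih (k + 1)).1⟩
    exact ⟨3 * 2 ^ k, by rw [M, hh]; ring⟩

theorem at_local (m : ℕ) : ∃ r : ℕ, ∀ x ∈ X0, ∀ x' ∈ X0, ∀ c c' : V,
    (∀ w ∈ box r, x (c + w) = x' (c' + w)) → At m x c → At m x' c' := by
  obtain ⟨r, hr⟩ := At.local m
  refine ⟨r, fun x hx x' hx' c c' h hc => ?_⟩
  have := hr _ (sh_mem_X0 hx c) _ (sh_mem_X0 hx' c')
    (fun w hw => by rw [sh_apply, sh_apply, add_comm w, add_comm w]; exact h w hw)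
    ((At_sh c).2 (by rwa [zero_add]))
  rwa [At_sh, zero_add] at this

theorem exists_near {A : ℤ} {r : ℕ} (hA : 2 * (r : ℤ) < A) (s : ℤ) :
    ∃ c : ℤ, A ∣ c - s ∧ ∀ w : ℤ, |w| ≤ r → |w - c| < A := by
  have h0 : 0 < A := by omega
  have h1 := Int.emod_nonneg s h0.ne'
  have h2 := Int.emod_lt_of_pos s h0
  have h3 : A ∣ s % A - s := Int.emod_emod_of_dvd s dvd_rfl |> Int.ModEq.symm |>.dvd
  by_cases h : s % A + r < A
  · exact ⟨s % A, h3, fun w hw => by rw [abs_lt]; rw [abs_le] at hw; omega⟩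
  · refine ⟨s % A - A, ?_, fun w hw => by rw [abs_lt]; rw [abs_le] at hw; omega⟩
    rw [sub_right_comm]
    exact dvd_sub h3 dvd_rfl

/-- A pattern around a high vertex whose cell is in `Cinf` occurs in every tiling. -/
theorem occurs {x y : V → Sy} (hy : y ∈ X0) {m : ℕ} {c : V} (hc : At m x c) (hχ : (x c).2 ∈ Cinf) :
    ∃ v : V, ∀ w : V, |w.1 - c.1| < (gap 0 m).1 → |w.2 - c.2| < (gap 0 m).2 → y (w + v) = x w := by
  obtain ⟨x'', hx'', h0, ⟨m', hr, hs⟩, e⟩ := hχ m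
  have hm : m ≤ m' + 1 := by
    by_contra hcon
    exact hr ⟨0, h0.mono (by omega)⟩
  obtain ⟨c'', hc''⟩ := exists_At hx'' (m' + 1)
  obtain ⟨c1, hc1⟩ := exists_At hy (m' + 1)
  have h1 := hc''.mono (Nat.le_succ m')
  rw [h1.rowGe_iff, zero_sub] at hr
  rw [h1.colGe_iff, zero_sub] at hs
  have h2 := hc''.det_off hc1 (w := -c'') hs hr
  rw [add_neg_cancel] at h2
  have h3 : At m y (c1 + -c'') := by
    have := (hc''.mono hm).iff.1 h0
    refine (hc1.mono hm).iff.2 ?_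
    simpa using this
  refine ⟨c1 + -c'' - c, fun w hw1 hw2 => ?_⟩
  have := hc.det_vertex h3 (by rw [← h2, e]) (w := w - c) hw1 hw2
  rw [add_sub_cancel] at this
  rw [this]
  congr 1
  abel

end Tile4Aux

open Tile4Aux

theorem Z_nonempty (k : ℕ) : (Z (hh k)).Nonempty := by
  choose y hy using fun m => Pre_nonempty (hh (k + m))
  obtain ⟨z, hz⟩ := exists_cluster fun m => sh ((((gap k m).1 / 2 : ℕ) : ℤ), 0) (Fm k m (y m))
  refine ⟨z, fun c => ?_, fun c => ?_⟩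
  · obtain ⟨m, -, hm⟩ := hz (1 + c.1.natAbs + c.2.natAbs) 0
    have h0 := hm _ (mem_box_add (c := c) (w := 0) (r := 1) (by simp [box]))
    rw [add_zero] at h0
    rw [h0, hm _ (mem_box_add (c := c) (w := (1, 0)) (r := 1) (by simp [box])),
      hm _ (mem_box_add (c := c) (w := (0, 1)) (r := 1) (by simp [box]))]
    exact Tile1Aux.match_sh (Fm_mem_Pre (hy m)).1 _ c
  · obtain ⟨m₀, hm₀⟩ := gap_large k (2 * c.1.natAbs + 2)
    obtain ⟨m, hm1, hm⟩ := hz (0 + c.1.natAbs + c.2.natAbs) m₀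
    have h0 := hm _ (mem_box_add (c := c) (w := 0) (r := 0) (by simp [box]))
    rw [add_zero] at h0
    have h1 := (hm₀ m hm1).1
    have := rule_Fm (hy m) (c := c + ((((gap k m).1 / 2 : ℕ) : ℤ), 0)) fun h => by
      have h2 := Int.le_of_dvd (by simp only [Prod.fst_add]; omega) h.1
      simp only [Prod.fst_add] at h2
      omega
    rw [h0, sh_apply]
    simpa only [Prod.snd_add, add_zero] using this

/-- A tiling without lines of infinite level. -/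
theorem exists_generic :
    ∃ x ∈ X0, (∀ r, ∃ m, ¬ RowGe m x r) ∧ ∀ s, ∃ m, ¬ ColGe m x s := by
  choose y hy using Z_nonempty
  choose p hp using fun m => (gap_odd 0 (m + 1)).1
  choose q hq using fun m => (gap_odd 0 (m + 1)).2
  have hAt : ∀ m, At m (emb (Fm 0 m (y m))) 0 := fun m => ⟨y m, hy m, sh_zero _⟩
  obtain ⟨x, hx⟩ := exists_cluster fun m => sh ((p m : ℤ), (q m : ℤ)) (emb (Fm 0 m (y m)))
  have hX : ∀ m, sh ((p m : ℤ), (q m : ℤ)) (emb (Fm 0 m (y m))) ∈ X0 := fun m =>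
    sh_mem_X0 (hAt m).mem_X0 _
  have hx0 : x ∈ X0 := X0_closed fun r => by
    obtain ⟨m, -, hm⟩ := hx r 0
    exact ⟨_, hX m, hm⟩
  have key : ∀ j c, At j x c → ((gap 0 (j + 1)).1 : ℤ) ∣ 2 * c.1 - 1 ∧
      ((gap 0 (j + 1)).2 : ℤ) ∣ 2 * c.2 - 1 := by
    intro j c hc
    obtain ⟨r, hr⟩ := at_local j
    obtain ⟨m, hjm, hm⟩ := hx (r + c.1.natAbs + c.2.natAbs) j
    have h1 := hr _ hx0 _ (hX m) c c (fun w hw => hm _ (mem_box_add hw)) hc
    rw [At_sh, ((hAt m).mono hjm).iff] at h1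
    have h2 := gap_dvd 0 (Nat.succ_le_succ hjm)
    simp only [Prod.fst_add, Prod.snd_add, Prod.fst_zero, Prod.snd_zero, sub_zero] at h1
    constructor
    · have e : 2 * c.1 - 1 = 2 * (c.1 + p m) - ((gap 0 (m + 1)).1 : ℤ) := by
        rw [hp m]; push_cast; ring
      rw [e]
      exact dvd_sub (h1.1.mul_left 2) (Int.natCast_dvd_natCast.2 h2.1)
    · have e : 2 * c.2 - 1 = 2 * (c.2 + q m) - ((gap 0 (m + 1)).2 : ℤ) := by
        rw [hq m]; push_cast; ring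
      rw [e]
      exact dvd_sub (h1.2.mul_left 2) (Int.natCast_dvd_natCast.2 h2.2)
  refine ⟨x, hx0, fun r => ?_, fun s => ?_⟩
  · obtain ⟨m, hm⟩ := gap_large 0 ((2 * r - 1).natAbs + 1)
    refine ⟨m, fun ⟨s, h⟩ => ?_⟩
    have h1 := Int.natAbs_le_of_dvd_ne_zero (key m _ h).2 (by omega)
    have h2 := (hm (m + 1) (Nat.le_succ m)).2
    simp only [Int.natAbs_natCast] at h1
    omega
  · obtain ⟨m, hm⟩ := gap_large 0 ((2 * s - 1).natAbs + 1)
    refine ⟨m, fun ⟨r, h⟩ => ?_⟩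
    have h1 := Int.natAbs_le_of_dvd_ne_zero (key m _ h).1 (by omega)
    have h2 := (hm (m + 1) (Nat.le_succ m)).1
    simp only [Int.natAbs_natCast] at h1
    omega

theorem exists_stab : ∃ N, Stab N := by
  have h : ∀ χ : Cell, ∃ m, χ ∉ Cinf → ¬ ∃ x ∈ X0, At m x 0 ∧
      (∃ m', ¬ RowGe m' x 0 ∧ ¬ ColGe m' x 0) ∧ (x 0).2 = χ := by
    intro χ
    by_cases hχ : χ ∈ Cinf
    · exact ⟨0, fun h => absurd hχ h⟩
    · obtain ⟨m, hm⟩ := not_forall.1 hχ
      exact ⟨m, fun _ => hm⟩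
  choose f hf using h
  obtain ⟨N, hN⟩ := Finite.exists_le f
  refine ⟨N, fun x hx c hc ⟨m', h1, h2⟩ => ?_⟩
  by_contra hχ
  refine hf _ hχ ⟨sh c x, sh_mem_X0 hx c, ?_, ⟨m', ?_, ?_⟩, ?_⟩
  · rw [At_sh, zero_add]; exact hc.mono (hN _)
  · rwa [RowGe_sh, zero_add]
  · rwa [ColGe_sh, zero_add]
  · rw [sh_apply, zero_add]

theorem exists_min_sft : ∃ X : Sub Sy, X.car ⊆ X0 ∧ Nonempty X.Pt ∧ Minimal X ∧
    ∃ Ω : Finset V, 0 ∈ Ω ∧ (1, 0) ∈ Ω ∧ (0, 1) ∈ Ω ∧ SFT X Ω := by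
  obtain ⟨N, hN⟩ := exists_stab
  obtain ⟨ρ, hρ⟩ := at_local N
  let X : Sub Sy :=
    { car := X1 N
      shift_mem := fun x hx v => ⟨sh_mem_X0 hx.1 v, fun c hc => hx.2 _ ((At_sh v).1 hc)⟩
      closed := fun x h => by
        have hx : x ∈ X0 := X0_closed fun r => by
          obtain ⟨y, hy, e⟩ := h r
          exact ⟨y, hy.1, e⟩
        refine ⟨hx, fun c hc => ?_⟩
        obtain ⟨y, hy, e⟩ := h (ρ + c.1.natAbs + c.2.natAbs)
        have h0 := e _ (mem_box_add (c := c) (w := 0) (r := ρ) (by simp [box]))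
        rw [add_zero] at h0
        rw [h0]
        exact hy.2 c (hρ _ hx _ hy.1 c c (fun w hw => e _ (mem_box_add hw)) hc) }
  refine ⟨X, fun x hx => hx.1, ?_, fun x y r => ?_,
    Finset.Icc (-(ρ + 1 : ℤ)) (ρ + 1) ×ˢ Finset.Icc (-(ρ + 1 : ℤ)) (ρ + 1), ?_, ?_, ?_, ?_⟩
  · obtain ⟨x, hx, h1, h2⟩ := exists_generic
    refine ⟨⟨x, hx, fun c hc => hN x hx c hc ?_⟩⟩
    obtain ⟨a, ha⟩ := h1 c.2
    obtain ⟨b, hb⟩ := h2 c.1
    exact ⟨max a b, fun h => ha (h.mono (le_max_left _ _)), fun h => hb (h.mono (le_max_right _ _))⟩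
  · by_cases h : ∀ t ∈ Finset.Icc (-(r : ℤ)) r, (∃ m, ¬ RowGe m x.1 t) ∧ ∃ m, ¬ ColGe m x.1 t
    · have : ∀ᶠ m in Filter.atTop, ∀ t ∈ Finset.Icc (-(r : ℤ)) r,
          ¬ RowGe m x.1 t ∧ ¬ ColGe m x.1 t := by
        refine (Filter.eventually_all_finset _).2 fun t ht => ?_
        obtain ⟨⟨a, ha⟩, b, hb⟩ := h t ht
        filter_upwards [Filter.eventually_ge_atTop a, Filter.eventually_ge_atTop b] with m h1 h2
        exact ⟨fun h => ha (h.mono h1), fun h => hb (h.mono h2)⟩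
      obtain ⟨m, hm⟩ := this.exists
      obtain ⟨c, hc⟩ := exists_At x.2.1 (m + 1)
      obtain ⟨c', hc'⟩ := exists_At y.2.1 (m + 1)
      refine ⟨c' - c, fun w hw => ?_⟩
      have h1 := hc.mono (Nat.le_succ m)
      have := hc.det_off hc' (w := w - c)
        (fun hd => (hm w.1 (Finset.mem_Icc.2 (abs_le.1 hw.1))).2 (h1.colGe_iff.2 hd))
        (fun hd => (hm w.2 (Finset.mem_Icc.2 (abs_le.1 hw.2))).1 (h1.rowGe_iff.2 hd))
      rw [add_sub_cancel] at this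
      rw [vadd_val, this]
      exact congrArg y.1 (by abel)
    · obtain ⟨m₀, hm₀⟩ := gap_large 0 (2 * r + 1)
      suffices H : ∃ m c, N ≤ m ∧ At m x.1 c ∧ ∀ w ∈ box r,
          |w.1 - c.1| < (gap 0 m).1 ∧ |w.2 - c.2| < (gap 0 m).2 by
        obtain ⟨m, c, hm, hc, hw⟩ := H
        obtain ⟨v, hv⟩ := occurs y.2.1 hc (x.2.2 c (hc.mono hm))
        exact ⟨v, fun w h => hv w (hw w h).1 (hw w h).2⟩
      push Not at h
      obtain ⟨t, ht, h⟩ := h
      rw [Finset.mem_Icc] at ht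
      by_cases hrow : ∀ m, RowGe m x.1 t
      · obtain ⟨s, hs⟩ := hrow (2 * (N + m₀))
        obtain ⟨h1, h2⟩ := hm₀ (2 * (N + m₀)) (by omega)
        obtain ⟨a, ha, ha'⟩ := exists_near (A := (gap 0 (2 * (N + m₀))).1) (r := r) (by omega) s
        refine ⟨2 * (N + m₀), (a, t), by omega, hs.iff.2 ?_, fun w hw => ⟨ha' _ hw.1, ?_⟩⟩
        · rw [gap_succ, if_pos (even_two_mul _)]
          exact ⟨ha, by simp⟩
        · have := abs_le.1 hw.2
          rw [abs_lt]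
          omega
      · obtain ⟨s, hs⟩ := h (not_forall.1 hrow) (2 * (N + m₀) + 1)
        obtain ⟨h1, h2⟩ := hm₀ (2 * (N + m₀) + 1) (by omega)
        obtain ⟨a, ha, ha'⟩ := exists_near (A := (gap 0 (2 * (N + m₀) + 1)).2) (r := r) (by omega) s
        refine ⟨2 * (N + m₀) + 1, (t, a), by omega, hs.iff.2 ?_, fun w hw => ⟨?_, ha' _ hw.2⟩⟩
        · rw [gap_succ, if_neg (Nat.not_even_iff_odd.2 (odd_two_mul_add_one _))]
          exact ⟨by simp, ha⟩
        · have := abs_le.1 hw.1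
          rw [abs_lt]
          omega
  · simp only [Finset.mem_product, Finset.mem_Icc, Prod.fst_zero, Prod.snd_zero]; omega
  · simp only [Finset.mem_product, Finset.mem_Icc]; omega
  · simp only [Finset.mem_product, Finset.mem_Icc]; omega
  · intro y h
    have hbox : ∀ w ∈ box (ρ + 1), w ∈
        Finset.Icc (-(ρ + 1 : ℤ)) (ρ + 1) ×ˢ Finset.Icc (-(ρ + 1 : ℤ)) (ρ + 1) := fun w hw => by
      simp only [Finset.mem_product, Finset.mem_Icc]
      exact ⟨abs_le.1 hw.1, abs_le.1 hw.2⟩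
    have hy : y ∈ X0 := mem_X0_iff.2 fun c => by
      obtain ⟨x, hx, e⟩ := h c
      have h0 := e 0 (hbox _ (by simp [box]; omega))
      rw [add_zero] at h0
      have := mem_X0_iff.1 hx.1 0
      rw [zero_add, zero_add] at this
      rw [h0, e (1, 0) (hbox _ (by simp [box]; omega)), e (0, 1) (hbox _ (by simp [box]; omega))]
      exact this
    refine ⟨hy, fun c hc => ?_⟩
    obtain ⟨x, hx, e⟩ := h c
    have h0 := e 0 (hbox _ (by simp [box]; omega))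
    rw [add_zero] at h0
    rw [h0]
    refine hx.2 0 (hρ _ hy _ hx.1 c 0 (fun w hw => ?_) hc)
    rw [zero_add]
    refine e w (hbox w ⟨hw.1.trans ?_, hw.2.trans ?_⟩) <;> simp

end Crest.Agent.R189
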