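import Crest.Agent.R189.Tile3

/-! Row 189: bounded rank and boundedly many patterns along cuts. -/

set_option autoImplicit false

namespace Crest.Agent.R189

open Pointwise

namespace Tile5Aux

theorem rank_of {S κ : Type} [Fintype κ] {X : Sub S}
    (h : ∀ r : ℕ, ∃ G : κ → Set X.Pt, (∀ c, Loc (G c)) ∧ ∃ T : Set (κ × V), T.Finite ∧
      (∀ x : X.Pt, ∃! t, t ∈ T ∧ x ∈ t.2 +ᵥ G t.1) ∧
      ∀ t ∈ T, ∀ x ∈ t.2 +ᵥ G t.1, ∀ y ∈ t.2 +ᵥ G t.1, Agree (box r) x y) : Rank X := by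
  refine ⟨Fintype.card κ, fun r => ?_⟩
  obtain ⟨G, hG, T, hT, h1, h2⟩ := h r
  let e := (Fintype.equivFin κ).symm
  let e' : Fin (Fintype.card κ) × V ≃ κ × V := e.prodCongr (Equiv.refl V)
  refine ⟨fun c => G (e c), fun c => hG _, (hT.preimage e'.injective.injOn).toFinset,
    fun x => ?_, fun t ht => h2 (e' t) (by simpa using ht)⟩
  simp only [Set.Finite.mem_toFinset, Set.mem_preimage]
  exact (e'.existsUnique_congr (q := fun t => t ∈ T ∧ x ∈ t.2 +ᵥ G t.1) fun _ => Iff.rfl).2 (h1 x)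

theorem pat_of {S κ : Type} [Fintype κ] {X : Sub S} {B : Set X.Pt} {R : Set V} (f : X.Pt → κ)
    (h : ∀ x ∈ B, ∀ y ∈ B, f x = f y → Agree R x y) : Pat (Fintype.card κ) B R :=
  ⟨fun x => Fintype.equivFin κ (f x), fun x hx y hy e =>
    h x hx y hy ((Fintype.equivFin κ).injective e)⟩

theorem eq_of_dvd {n s t : ℤ} (h : n ∣ s - t) (h1 : s - t < n) (h2 : t - s < n) : s = t :=
  sub_eq_zero.1 (Int.eq_zero_of_abs_lt_dvd h (abs_lt.2 ⟨by omega, h1⟩))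

theorem exists_At_in {x : V → Sy} (hx : x ∈ X0) (m : ℕ) (p q : ℤ) :
    ∃ c, At m x c ∧ p ≤ c.1 ∧ c.1 < p + (gap 0 (m + 1)).1 ∧ q ≤ c.2 ∧
      c.2 < q + (gap 0 (m + 1)).2 := by
  obtain ⟨c, hc⟩ := exists_At hx m
  have h1 : (0 : ℤ) < (gap 0 (m + 1)).1 := by exact_mod_cast (gap_pos 0 (m + 1)).1
  have h2 : (0 : ℤ) < (gap 0 (m + 1)).2 := by exact_mod_cast (gap_pos 0 (m + 1)).2
  have key : ∀ n p s : ℤ, n ∣ p + (s - p) % n - s := fun n p s => by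
    rw [show p + (s - p) % n - s = (s - p) % n - (s - p) by ring]
    exact (Int.mod_modEq _ _).symm.dvd
  exact ⟨(p + (c.1 - p) % (gap 0 (m + 1)).1, q + (c.2 - q) % (gap 0 (m + 1)).2),
    hc.iff.2 ⟨key _ _ _, key _ _ _⟩, le_add_of_nonneg_right (Int.emod_nonneg _ h1.ne'),
    add_lt_add_right (Int.emod_lt_of_pos _ h1) _,
    le_add_of_nonneg_right (Int.emod_nonneg _ h2.ne'), add_lt_add_right (Int.emod_lt_of_pos _ h2) _⟩

theorem tower_At' {X : Sub Sy} (hX : X.car ⊆ X0) (m : ℕ) (c : V) :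
    Tower (gap 0 (m + 1)).1 (gap 0 (m + 1)).2 {x : X.Pt | At m x.1 c} := by
  refine ⟨loc_At hX m c, fun x => ?_, fun x hx w => ?_⟩
  · obtain ⟨c', hc⟩ := exists_At (hX x.2) m
    exact ⟨c' - c, (At_sh (c' - c)).2 (by rwa [add_sub_cancel])⟩
  · have hx : At m x.1 c := hx
    refine (At_sh w).trans (hx.iff.trans ?_)
    simp

theorem quiet {h : ℕ} (hh2 : 2 ≤ h) {y : Conf} (hy : y ∈ Z h) (s : ℤ) {t : ℤ} (h1 : 1 ≤ t)
    (h2 : t ≤ h) : y (s, t) = y (s, 1) := by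
  obtain ⟨s₀, y₀, -, rfl⟩ := collapse hh2 hy
  have hM := Tile1Aux.M_cast h
  have hh2' : (2 : ℤ) ≤ h := by exact_mod_cast hh2
  simp only [sh_apply, E, Prod.mk_add_mk, add_zero]
  rw [Int.emod_eq_of_lt (a := t) (by omega) (by omega),
    Int.emod_eq_of_lt (a := 1) (by omega) (by omega),
    Int.ediv_eq_zero_of_lt (a := t) (by omega) (by omega),
    Int.ediv_eq_zero_of_lt (a := 1) (by omega) (by omega)]
  exact Ecell_quiet hh2 (Int.emod_nonneg _ (M_pos _).ne') (Int.emod_lt_of_pos _ (M_pos _)) h1 h2 _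

theorem det_quiet {m : ℕ} (hm : Even m) {x x' : V → Sy} {c : V} (h : At m x c) (h' : At m x' c)
    {s t : ℤ} (he : (x (ver 0 m (s, 1) + c)).2 = (x' (ver 0 m (s, 1) + c)).2) (h1 : 1 ≤ t)
    (h2 : t ≤ hh m) {w : V} (w1 : |w.1 - c.1 - (gap 0 m).1 * s| < (gap 0 m).1)
    (w2 : |w.2 - c.2 - (gap 0 m).2 * t| < (gap 0 m).2) : x w = x' w := by
  obtain ⟨y, hy, e⟩ := h
  obtain ⟨y', hy', e'⟩ := h'
  rw [← sh_apply c x, ← sh_apply c x', e, e'] at he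
  have h3 := Fm_ver_inj (Tile3Aux.pre_of_Z hy) (Tile3Aux.pre_of_Z hy') he
  rw [← quiet (two_le_hh m) hy s h1 h2, ← quiet (two_le_hh m) hy' s h1 h2] at h3
  have h4 := det_cell (Tile3Aux.pre_of_Z hy) (Tile3Aux.pre_of_Z hy') h3 (c := w - c)
    (by simp only [ver, if_pos hm]; exact w1) (by simp only [ver, if_pos hm]; exact w2)
  rw [← sub_add_cancel w c, ← sh_apply c x, ← sh_apply c x', e, e']
  simp only [emb, h4]

end Tile5Aux

open Tile5Aux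

theorem rank_of_subset {X : Sub Sy} (hX : X.car ⊆ X0) : Rank X := by
  refine rank_of (κ := Fin 3 × Cell) fun r => ?_
  obtain ⟨m₀, hm₀⟩ := gap_large 0 (4 * r + 4)
  obtain ⟨m, hm, hmm⟩ : ∃ m, Even m ∧ m₀ ≤ m := ⟨2 * m₀, even_two_mul _, by omega⟩
  have hm1 : ¬ Even (m + 1) := by simpa [Nat.even_add_one] using hm
  have hm2 : Even (m + 1 + 1) := Nat.even_add_one.2 hm1
  have g1 : (gap 0 (m + 1)).1 = (gap 0 m).1 := by rw [gap_succ, if_pos hm]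
  have g2 : (gap 0 (m + 1 + 1)).2 = (gap 0 (m + 1)).2 := by rw [gap_succ 0 (m + 1), if_neg hm1]
  have g3 : (gap 0 (m + 1 + 1 + 1)).1 = (gap 0 (m + 1 + 1)).1 := by
    rw [gap_succ 0 (m + 1 + 1), if_pos hm2]
  have la : 4 * (r : ℤ) + 4 ≤ (gap 0 m).1 := by exact_mod_cast (hm₀ m hmm).1
  have lb₀ : 4 * (r : ℤ) + 4 ≤ (gap 0 m).2 := by exact_mod_cast (hm₀ m hmm).2
  have lb : 4 * (r : ℤ) + 4 ≤ (gap 0 (m + 1)).2 := by exact_mod_cast (hm₀ (m + 1) (by omega)).2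
  have la₂ : 4 * (r : ℤ) + 4 ≤ (gap 0 (m + 1 + 1)).1 := by
    exact_mod_cast (hm₀ (m + 1 + 1) (by omega)).1
  let P : Fin 3 → V → Prop := ![
    fun c => -(((gap 0 m).1 : ℤ) / 2) ≤ c.1 ∧ c.1 < -(((gap 0 m).1 : ℤ) / 2) + (gap 0 m).1 ∧
      -(r : ℤ) ≤ c.2 ∧ c.2 ≤ r,
    fun c => -(r : ℤ) ≤ c.1 ∧ c.1 ≤ r ∧ r < c.2 ∧ c.2 < (gap 0 (m + 1)).2 - r,
    fun c => r < c.1 ∧ c.1 < (gap 0 (m + 1 + 1)).1 - r ∧ 0 ≤ c.2 ∧
      c.2 < (gap 0 (m + 1 + 1 + 1)).2 ∧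
      ∀ t : ℤ, -(r : ℤ) ≤ t → t ≤ r → ¬ ((gap 0 (m + 1)).2 : ℤ) ∣ c.2 - t]
  have hmem : ∀ (i : Fin 3) (χ : Cell) (v : V) (x : X.Pt),
      x ∈ v +ᵥ {x : X.Pt | At (m + i) x.1 0 ∧ (x.1 0).2 = χ} ↔
        At (m + i) x.1 (-v) ∧ (x.1 (-v)).2 = χ := fun i χ v x => by
    rw [mem_vadd_iff, Set.mem_ofPred_eq, vadd_val, zero_add]
    exact and_congr_left' ((At_sh (-v)).trans (by rw [zero_add]))
  have hex : ∀ x ∈ X0, ∃ (i : Fin 3) (c : V), P i c ∧ At (m + i) x c := by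
    intro x hx
    obtain ⟨c₀, a0, a1, a2, a3, a4⟩ := exists_At_in hx m (-(((gap 0 m).1 : ℤ) / 2)) (-r)
    rw [g1] at a2
    by_cases h0 : c₀.2 ≤ r
    · exact ⟨0, c₀, ⟨a1, a2, a3, h0⟩, a0⟩
    obtain ⟨c₁, b0, b1, b2, b3, b4⟩ := exists_At_in hx (m + 1) (-r) (-r)
    rw [g2] at b4
    have e1 := eq_of_dvd (a0.iff.1 (b0.mono (Nat.le_succ m))).2 (by omega) (by omega)
    by_cases h1 : c₁.1 ≤ r
    · exact ⟨1, c₁, ⟨b1, h1, by omega, by omega⟩, b0⟩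
    obtain ⟨c₂, d0, d1, d2, d3, d4⟩ := exists_At_in hx (m + 1 + 1) (-r) 0
    rw [g3] at d2
    have e2 := eq_of_dvd (b0.iff.1 (d0.mono (Nat.le_succ _))).1 (by omega) (by omega)
    refine ⟨2, c₂, ⟨by omega, by omega, d3, by omega, fun t t1 t2 ht => ?_⟩, d0⟩
    have h3 := dvd_sub ht (a0.iff.1 (d0.mono (by omega))).2
    rw [sub_sub_sub_cancel_left] at h3
    have := eq_of_dvd h3 (by omega) (by omega)
    omega
  have h01 : ∀ x c c', P 0 c → P 1 c' → At m x c → At (m + 1) x c' → False := by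
    rintro x c c' ⟨a1, a2, a3, a4⟩ ⟨b1, b2, b3, b4⟩ ha hb
    have := eq_of_dvd (ha.iff.1 (hb.mono (Nat.le_succ m))).2 (by omega) (by omega)
    omega
  have h02 : ∀ x c c', P 0 c → P 2 c' → At m x c → At (m + 1 + 1) x c' → False := by
    rintro x c c' ⟨a1, a2, a3, a4⟩ ⟨b1, b2, b3, b4, b5⟩ ha hb
    exact b5 _ a3 a4 (ha.iff.1 (hb.mono (by omega))).2
  have h12 : ∀ x c c', P 1 c → P 2 c' → At (m + 1) x c → At (m + 1 + 1) x c' → False := by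
    rintro x c c' ⟨a1, a2, a3, a4⟩ ⟨b1, b2, b3, b4, b5⟩ ha hb
    have := eq_of_dvd (ha.iff.1 (hb.mono (Nat.le_succ _))).1 (by omega) (by omega)
    omega
  have huniq : ∀ x (i i' : Fin 3) c c', P i c → P i' c' → At (m + i) x c → At (m + i') x c' →
      i = i' ∧ c = c' := by
    intro x i i' c c' p p' ha hb
    fin_cases i <;> fin_cases i'
    · obtain ⟨a1, a2, a3, a4⟩ := p
      obtain ⟨b1, b2, b3, b4⟩ := p'
      obtain ⟨e1, e2⟩ := (At.iff (m := m) hb).1 ha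
      rw [g1] at e1
      exact ⟨rfl, Prod.ext (eq_of_dvd e1 (by omega) (by omega))
        (eq_of_dvd e2 (by omega) (by omega))⟩
    · exact (h01 x c c' p p' ha hb).elim
    · exact (h02 x c c' p p' ha hb).elim
    · exact (h01 x c' c p' p hb ha).elim
    · obtain ⟨a1, a2, a3, a4⟩ := p
      obtain ⟨b1, b2, b3, b4⟩ := p'
      obtain ⟨e1, e2⟩ := (At.iff (m := m + 1) hb).1 ha
      rw [g2] at e2
      exact ⟨rfl, Prod.ext (eq_of_dvd e1 (by omega) (by omega))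
        (eq_of_dvd e2 (by omega) (by omega))⟩
    · exact (h12 x c c' p p' ha hb).elim
    · exact (h02 x c' c p' p hb ha).elim
    · exact (h12 x c' c p' p hb ha).elim
    · obtain ⟨a1, a2, a3, a4, -⟩ := p
      obtain ⟨b1, b2, b3, b4, -⟩ := p'
      obtain ⟨e1, e2⟩ := (At.iff (m := m + 1 + 1) hb).1 ha
      rw [g3] at e1
      exact ⟨rfl, Prod.ext (eq_of_dvd e1 (by omega) (by omega))
        (eq_of_dvd e2 (by omega) (by omega))⟩
  have hdet : ∀ x x' (i : Fin 3) c, P i c → At (m + i) x c → At (m + i) x' c →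
      (x c).2 = (x' c).2 → ∀ w ∈ box r, x (c + (w - c)) = x' (c + (w - c)) := by
    intro x x' i c p ha hb he w hw
    obtain ⟨w1, w2⟩ := hw
    rw [abs_le] at w1 w2
    fin_cases i
    · obtain ⟨a1, a2, a3, a4⟩ := p
      refine At.det_vertex (m := m) ha hb he ?_ ?_ <;>
        simp only [abs_lt, Prod.fst_sub, Prod.snd_sub] <;> omega
    · obtain ⟨a1, a2, a3, a4⟩ := p
      refine At.det_vertex (m := m + 1) ha hb he ?_ ?_ <;>
        simp only [abs_lt, Prod.fst_sub, Prod.snd_sub] <;> omega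
    · obtain ⟨a1, a2, a3, a4, a5⟩ := p
      refine At.det_off (m := m + 1 + 1) ha hb (fun h => ?_) fun h => ?_
      · have := eq_of_dvd (s := w.1) (t := c.1) h (by omega) (by omega)
        omega
      · rw [g2] at h
        exact a5 _ w2.1 w2.2 (dvd_sub_comm.1 h)
  refine ⟨fun k => {x | At (m + k.1) x.1 0 ∧ (x.1 0).2 = k.2},
    fun k => (loc_At hX _ 0).inter (Loc.site 0 {s : Sy | s.2 = k.2}), {t | P t.1.1 (-t.2)}, ?_,
    fun x => ?_, fun t ht x hx y hy w hw => ?_⟩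
  · refine (Set.finite_univ.prod (box_finite ((gap 0 m).1 + (gap 0 (m + 1)).2 +
      (gap 0 (m + 1 + 1)).1 + (gap 0 (m + 1 + 1 + 1)).2))).subset ?_
    rintro ⟨⟨i, χ⟩, v⟩ hp
    refine ⟨trivial, ?_⟩
    fin_cases i <;> obtain ⟨a1, a2, a3, a4⟩ := hp <;>
      simp only [Prod.fst_neg, Prod.snd_neg] at a1 a2 a3 a4 <;>
      simp only [mem_box, abs_le] <;> omega
  · obtain ⟨i, c, p, ha⟩ := hex x.1 (hX x.2)
    refine ⟨((i, (x.1 c).2), -c), ⟨by simpa using p, (hmem _ _ _ _).2 (by simpa using ha)⟩, ?_⟩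
    rintro ⟨⟨i', χ⟩, v⟩ ⟨p', hb⟩
    obtain ⟨hb', rfl⟩ := (hmem i' χ v x).1 hb
    obtain ⟨rfl, rfl⟩ := huniq _ i' i (-v) c p' p hb' ha
    simp
  · obtain ⟨ha, e⟩ := (hmem _ _ _ _).1 hx
    obtain ⟨hb, e'⟩ := (hmem _ _ _ _).1 hy
    simpa using hdet _ _ _ _ ht ha hb (e.trans e'.symm) w hw

theorem hb_of_subset {X : Sub Sy} (hX : X.car ⊆ X0) : HB X := by
  refine ⟨Fintype.card (Cell × Cell), fun ρ => ?_⟩
  obtain ⟨m₀, hm₀⟩ := gap_large 0 (ρ + 1)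
  obtain ⟨m₁, hm₁⟩ := hh_large (2 * ρ + 1)
  obtain ⟨m, hm, h0, h1⟩ : ∃ m, ¬ Even m ∧ m₀ ≤ m ∧ m₁ ≤ m :=
    ⟨2 * (m₀ + m₁) + 1, by simp, by omega, by omega⟩
  have hm1 : Even (m + 1) := Nat.even_add_one.2 hm
  have g1 : (gap 0 (m + 1)).2 = (gap 0 m).2 := by rw [gap_succ, if_neg hm]
  have g2 : (gap 0 (m + 1 + 1)).1 = (gap 0 (m + 1)).1 := by rw [gap_succ 0 (m + 1), if_pos hm1]
  have g3 : (gap 0 (m + 1 + 1)).2 = M (hh (m + 1)) * (gap 0 (m + 1)).2 := by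
    rw [gap_succ 0 (m + 1), if_pos hm1, Nat.zero_add]
  have l1 := hm₀ m h0
  have l2 := hm₀ (m + 1) (by omega)
  have l3 := hm₁ (m + 1) (by omega)
  obtain ⟨b, hbdef⟩ : ∃ b : ℤ, b = ((gap 0 (m + 1)).2 : ℕ) := ⟨_, rfl⟩
  have hT := tower_At' hX (m + 1) ((0 : ℤ), -(((ρ : ℤ) + 1) * b))
  rw [g2] at hT
  refine ⟨_, _, _, _, _, by omega, by omega, ?_, tower_At hX m, hT, fun x hx => ?_, ?_, ?_⟩
  · rw [g3]
    exact Nat.mul_le_mul_right _ (by unfold M; omega)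
  · exact (At.mono (Nat.le_succ m) hx).iff.2 ⟨by simp, by simp [hbdef]⟩
  · refine pat_of (fun x => ((x.1 0).2, (x.1 ((0 : ℤ), b)).2))
      fun x hx y hy e w ⟨w1, w2, w3, w4⟩ => ?_
    have hx : At m x.1 0 := hx
    have hy : At m y.1 0 := hy
    have hx' : At m x.1 ((0 : ℤ), b) := hx.iff.2 ⟨by simp, by simp [hbdef]⟩
    have hy' : At m y.1 ((0 : ℤ), b) := hy.iff.2 ⟨by simp, by simp [hbdef]⟩
    by_cases hw : w.2 < b
    · simpa using hx.det_vertex hy (Prod.ext_iff.1 e).1 (w := w) (by rw [abs_lt]; omega)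
        (by rw [abs_lt]; omega)
    · simpa using hx'.det_vertex hy' (Prod.ext_iff.1 e).2 (w := w - ((0 : ℤ), b))
        (by simp only [abs_lt, Prod.fst_sub]; omega) (by simp only [abs_lt, Prod.snd_sub]; omega)
  · refine pat_of (fun x => ((x.1 (ver 0 (m + 1) (0, 1) + ((0 : ℤ), -(((ρ : ℤ) + 1) * b)))).2,
      (x.1 (ver 0 (m + 1) (1, 1) + ((0 : ℤ), -(((ρ : ℤ) + 1) * b)))).2))
      fun x hx y hy e w ⟨w1, w2, w3, w4⟩ => ?_
    have hb : (0 : ℤ) < b := by omega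
    rw [← hbdef] at w3 w4
    have t1 : 1 ≤ (w.2 + (ρ + 1) * b) / b := (Int.le_ediv_iff_mul_le hb).2 (by linarith)
    have t2 : (w.2 + (ρ + 1) * b) / b ≤ 2 * ρ + 1 := Int.ediv_le_of_le_mul hb (by linarith)
    have t3 : |w.2 - -((ρ + 1) * b) - b * ((w.2 + (ρ + 1) * b) / b)| < b := by
      rw [sub_neg_eq_add, ← Int.emod_def, abs_of_nonneg (Int.emod_nonneg _ hb.ne')]
      exact Int.emod_lt_of_pos _ hb
    by_cases hw : w.1 < (gap 0 (m + 1)).1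
    · exact det_quiet hm1 hx hy (Prod.ext_iff.1 e).1 t1 (by omega)
        (by simp only [abs_lt]; omega) (by rw [← hbdef]; exact t3)
    · exact det_quiet hm1 hx hy (Prod.ext_iff.1 e).2 t1 (by omega)
        (by simp only [abs_lt]; omega) (by rw [← hbdef]; exact t3)

end Crest.Agent.R189
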