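import Crest.Agent.R189.Tile3

/-! Row 189: faults and quiet zones. -/

set_option autoImplicit false

namespace Crest.Agent.R189

namespace Tile6Aux

/-- The mesh along the direction `d`. -/
def al (d : Bool) (g : ℕ × ℕ) : ℕ := if d then g.2 else g.1

/-- The mesh across the direction `d`. -/
def ht (d : Bool) (g : ℕ × ℕ) : ℕ := if d then g.1 else g.2

/-- The line at height `h` belongs to the grid of level `m + 1`. -/
def Line (d : Bool) (m : ℕ) (x : V → Sy) (h : ℤ) : Prop := ∃ s, At m x (ax d s h)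

variable {d : Bool} {m : ℕ} {x x' : V → Sy}

theorem ax_add (d : Bool) (s h s' h' : ℤ) : ax d s h + ax d s' h' = ax d (s + s') (h + h') := by
  cases d <;> simp [ax]

theorem ax_zero (d : Bool) : ax d 0 0 = 0 := by
  cases d <;> rfl

theorem exists_ax (d : Bool) (c : V) : ∃ s h, c = ax d s h := by
  cases d
  · exact ⟨c.1, c.2, rfl⟩
  · exact ⟨c.2, c.1, rfl⟩

theorem At_ax {s h : ℤ} (H : At m x (ax d s h)) (s' h' : ℤ) : At m x (ax d s' h') ↔
    (al d (gap 0 (m + 1)) : ℤ) ∣ s' - s ∧ (ht d (gap 0 (m + 1)) : ℤ) ∣ h' - h := by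
  rw [H.iff]
  cases d
  · rfl
  · exact and_comm

theorem At_ax0 {s : ℤ} (H : At m x (ax d s 0)) (s' : ℤ) : At m x (ax d s' 0) ↔
    (al d (gap 0 (m + 1)) : ℤ) ∣ s' - s := by
  rw [At_ax H]
  simp

theorem At_sh_ax (s h s' h' : ℤ) :
    At m (sh (ax d s h) x) (ax d s' h') ↔ At m x (ax d (s' + s) (h' + h)) := by
  rw [At_sh, ax_add]

theorem Line_sh (s h h' : ℤ) : Line d m (sh (ax d s h) x) h' ↔ Line d m x (h' + h) := by
  constructor
  · rintro ⟨s', H⟩
    exact ⟨_, (At_sh_ax _ _ _ _).1 H⟩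
  · rintro ⟨s', H⟩
    exact ⟨s' - s, (At_sh_ax _ _ _ _).2 (by rwa [sub_add_cancel])⟩

theorem Line_iff (H : Line d m x 0) (h : ℤ) :
    Line d m x h ↔ (ht d (gap 0 (m + 1)) : ℤ) ∣ h := by
  obtain ⟨s, H⟩ := H
  constructor
  · rintro ⟨s', H'⟩
    simpa using ((At_ax H _ _).1 H').2
  · intro hd
    exact ⟨s, (At_ax H _ _).2 ⟨by simp, by simpa using hd⟩⟩

theorem Line.mono {m' : ℕ} (hm : m ≤ m') {h : ℤ} (H : Line d m' x h) : Line d m x h := by
  obtain ⟨s, H⟩ := H
  exact ⟨s, H.mono hm⟩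

theorem loc_Line {X : Sub Sy} (hX : X.car ⊆ X0) (d : Bool) (m : ℕ) (h : ℤ) :
    Loc {x : X.Pt | Line d m x.1 h} := by
  cases d
  · exact loc_RowGe hX m h
  · exact loc_ColGe hX m h

theorem ht_large (d : Bool) (r : ℕ) : ∃ m₀, ∀ m, m₀ ≤ m → r ≤ ht d (gap 0 (m + 1)) := by
  obtain ⟨m₀, h⟩ := gap_large 0 r
  refine ⟨m₀, fun m hm => ?_⟩
  have := h (m + 1) (by omega)
  cases d
  · exact this.2
  · exact this.1

theorem fault {X : Sub Sy} (hX : X.car ⊆ X0) (d : Bool) :
    Fault X d {y | ∀ m, Line d m y.1 0} := by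
  refine ⟨fun y hy s h => ?_, fun ρ => ?_⟩
  · have e : ∀ m, Line d m (ax d s h +ᵥ y).1 0 ↔ (ht d (gap 0 (m + 1)) : ℤ) ∣ h := fun m =>
      (Line_sh s h 0).trans (by rw [zero_add]; exact Line_iff (hy m) h)
    constructor
    · intro H
      obtain ⟨m, hm⟩ := ht_large d (h.natAbs + 1)
      have h1 : ((h.natAbs + 1 : ℕ) : ℤ) ≤ ht d (gap 0 (m + 1)) := by exact_mod_cast hm m le_rfl
      refine Int.eq_zero_of_abs_lt_dvd ((e m).1 (H m)) ?_
      rw [Nat.cast_add, Int.natCast_natAbs] at h1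
      push_cast at h1
      linarith
    · rintro rfl m
      exact (e m).2 (dvd_zero _)
  · obtain ⟨m₀, hm₀⟩ := ht_large d ρ
    have key : ∃ m, ∀ x : X.Pt, Line d (m + m₀) x.1 0 →
        ∃ y ∈ {y : X.Pt | ∀ m, Line d m y.1 0}, Agree (box ρ) x y := by
      by_contra hc
      push Not at hc
      choose x hx hx' using hc
      obtain ⟨y, hy⟩ := exists_cluster_pt x
      have hY : y ∈ {y : X.Pt | ∀ m, Line d m y.1 0} := by
        intro j
        obtain ⟨r, hr⟩ := loc_Line hX d j 0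
        obtain ⟨k, hk, hk'⟩ := hy r j
        exact hr (x k) y hk'.symm ((hx k).mono (by omega))
      obtain ⟨k, -, hk⟩ := hy ρ 0
      exact hx' k y hY hk.symm
    obtain ⟨m, hm⟩ := key
    refine ⟨ht d (gap 0 (m + m₀ + 1)), hm₀ _ (by omega), {x | Line d (m + m₀) x.1 0},
      fun x => ?_, fun x hx s h => ?_, hm⟩
    · obtain ⟨c, hc⟩ := exists_At (hX x.2) (m + m₀)
      obtain ⟨s, h, rfl⟩ := exists_ax d c
      exact ⟨h, (Line_sh 0 h 0).2 ⟨s, by rwa [zero_add]⟩⟩
    · exact (Line_sh s h 0).trans (by rw [zero_add]; exact Line_iff hx h)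

theorem al_pos (d : Bool) (m : ℕ) : 0 < al d (gap 0 m) := by
  cases d
  · exact (gap_pos 0 m).1
  · exact (gap_pos 0 m).2

theorem ht_pos (d : Bool) (m : ℕ) : 0 < ht d (gap 0 m) := by
  cases d
  · exact (gap_pos 0 m).2
  · exact (gap_pos 0 m).1

theorem ver_ax (hp : Even m ↔ d = false) (s t : ℤ) :
    ver 0 m (s, t) = ax d (al d (gap 0 m) * s) (ht d (gap 0 m) * t) := by
  cases d
  · rw [ver, if_pos (hp.2 rfl)]
    rfl
  · rw [ver, if_neg (by simpa using hp)]
    rfl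

theorem al_succ (hp : Even m ↔ d = false) : al d (gap 0 (m + 1)) = al d (gap 0 m) := by
  rw [gap_succ]
  cases d
  · rw [if_pos (hp.2 rfl)]
    rfl
  · rw [if_neg (by simpa using hp)]
    rfl

theorem al_succ2 (hp : Even m ↔ d = false) :
    al d (gap 0 (m + 1 + 1)) = M (2 * hh m) * al d (gap 0 m) := by
  rw [← al_succ hp, gap_succ 0 (m + 1), Nat.zero_add, hh_succ]
  cases d
  · rw [if_neg (by rw [Nat.even_add_one]; simpa using hp)]
    rfl
  · rw [if_pos (by rw [Nat.even_add_one]; simpa using hp)]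
    rfl

theorem exists_level (d : Bool) (t : ℕ) : ∃ m, (Even m ↔ d = false) ∧ t ≤ hh m ∧
    t * al d (gap 0 m) ≤ hh m * ht d (gap 0 m) := by
  obtain ⟨m₁, h₁⟩ := hh_large t
  obtain ⟨m₂, h₂⟩ := gap_ratio t
  cases d
  · have he : Even (2 * (m₁ + m₂)) := even_two_mul _
    exact ⟨2 * (m₁ + m₂), by simpa using he, h₁ _ (by omega), (h₂ _ (by omega)).1 he⟩
  · have he : ¬ Even (2 * (m₁ + m₂) + 1) := by simp [Nat.even_add_one]
    exact ⟨2 * (m₁ + m₂) + 1, by simpa using he, h₁ _ (by omega), (h₂ _ (by omega)).2 he⟩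

/-- Two tilings with the same cell at a vertex agree around it. -/
theorem det (hp : Even m ↔ d = false) {c c' : V} {z z' : Conf} (hz : z ∈ Z (hh m))
    (hz' : z' ∈ Z (hh m)) (e : sh c x = emb (Fm 0 m z)) (e' : sh c' x' = emb (Fm 0 m z'))
    {k τ s η : ℤ} (he : z (k, τ) = z' (k, τ)) (h1 : |s - al d (gap 0 m) * k| < al d (gap 0 m))
    (h2 : |η - ht d (gap 0 m) * τ| < ht d (gap 0 m)) :
    x (ax d s η + c) = x' (ax d s η + c') := by
  have := det_cell (Tile3Aux.pre_of_Z hz) (Tile3Aux.pre_of_Z hz') he (c := ax d s η)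
    (by rw [ver_ax hp]; cases d; exacts [h1, h2]) (by rw [ver_ax hp]; cases d; exacts [h2, h1])
  rw [← sh_apply c x, ← sh_apply c' x', e, e']
  simp only [emb, this]

theorem Ecell_one {h : ℕ} {i : ℤ} {σ σ' : Cell} (e : σ.r = σ'.r) :
    Ecell h i 1 σ = Ecell h i 1 σ' := by
  simp only [Ecell, one_ne_zero, if_false, e]

theorem Ecell_p {h : ℕ} (i : ℤ) (σ : Cell) :
    (Ecell h i 1 σ).l.p = if i = 6 * h then 2 else if i = 0 then 1 else 0 := by
  simp only [Ecell, one_ne_zero, if_false, rowSt]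

/-- The picture above a line of high level. -/
theorem frame (hp : Even m ↔ d = false) (H : Line d (m + 2) x 0) {κ : ℤ}
    (hκ : At m x (ax d κ 0)) :
    ∃ z ∈ Z (hh m), ∃ (k₀ : ℤ) (σ : ℤ → Cell), sh (ax d κ 0) x = emb (Fm 0 m z) ∧
      (∀ s, At (m + 1) x (ax d s 0) ↔
        (M (2 * hh m) * al d (gap 0 m) : ℤ) ∣ s - κ + al d (gap 0 m) * k₀) ∧
      (∀ k, (k + k₀) % M (2 * hh m) ≠ 0 →
        (σ k).r = rowSt (2 * hh m) 1 ((k + k₀) % M (2 * hh m))) ∧
      ∀ k τ : ℤ, 1 ≤ τ → τ ≤ hh m →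
        z (k, τ) = Ecell (hh m) ((k + k₀) % M (2 * hh m)) 1 (σ k) := by
  obtain ⟨s₀, H⟩ := H
  have H1 : At (m + 1) x (ax d s₀ 0) := H.mono (by omega)
  have H0 : At m x (ax d s₀ 0) := H.mono (by omega)
  obtain ⟨k₀, hk₀⟩ := (At_ax0 H0 κ).1 hκ
  rw [al_succ hp] at hk₀
  obtain ⟨y, hy, e⟩ := H
  rw [Tile3Aux.Fm_succ_zero, Tile3Aux.Fm_succ_zero] at e
  have hy1 := Tile3Aux.E_mem hy
  have hz := Tile3Aux.E_mem hy1
  have hu : (M (hh m) : ℤ) ∣ ((k₀, 0) : V).2 := dvd_zero _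
  have e' := Tile3Aux.shift e hu
  rw [ver_ax hp, ax_add, ← hk₀, add_sub_cancel, mul_zero, add_zero] at e'
  have h2 : (2 : ℤ) ≤ hh m := by exact_mod_cast two_le_hh m
  refine ⟨_, sh_mem_Z hz hu, k₀, fun k => E (hh (m + 1)) y (0, k + k₀), e', fun s => ?_,
    fun k hk => ?_, fun k τ h1 h2' => ?_⟩
  · rw [At_ax0 H1, al_succ2 hp, ← hk₀, sub_add_sub_cancel]
    push_cast
    rfl
  · rw [hh_succ]
    have : (1 : ℤ) % M (2 * (2 * hh m)) = 1 := by
      refine Int.emod_eq_of_lt (by norm_num) ?_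
      rw [Tile1Aux.M2_cast]
      push_cast
      omega
    simp only [E, Ecell, if_neg hk, Int.zero_emod, zero_add, this]
  · have hM := Tile1Aux.M_cast (hh m)
    have e1 : τ % M (hh m) = τ := Int.emod_eq_of_lt (by omega) (by omega)
    have e2 : τ / M (hh m) = 0 := Int.ediv_eq_zero_of_lt (by omega) (by omega)
    rw [sh_apply, Prod.mk_add_mk, add_zero, E]
    simp only [e1, e2]
    exact Ecell_quiet (two_le_hh m) (Int.emod_nonneg _ (M_pos _).ne')
      (Int.emod_lt_of_pos _ (M_pos _)) h1 h2' _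

theorem exists_col {X : Sub Sy} (hX : X.car ⊆ X0) (hp : Even m ↔ d = false) :
    ∃ col : X.Pt → ZMod (al d (gap 0 m)), LocF col ∧
      ∀ (x : X.Pt) (s : ℤ), At m x.1 (ax d s 0) → col x = ((-s : ℤ) : ZMod (al d (gap 0 m))) := by
  classical
  have : NeZero (al d (gap 0 m)) := ⟨(al_pos d m).ne'⟩
  refine ⟨fun x => if h : ∃ k : ZMod (al d (gap 0 m)), At m x.1 (ax d (-(k.val : ℤ)) 0) then
    h.choose else 0, ?_, fun x s hs => ?_⟩
  · exact (LocF.pi fun k : ZMod (al d (gap 0 m)) =>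
      (loc_At hX m (ax d (-(k.val : ℤ)) 0)).locF).comp
      fun Q : ZMod (al d (gap 0 m)) → Prop => if h : ∃ k, Q k then h.choose else 0
  · have key : ∀ k : ZMod (al d (gap 0 m)), At m x.1 (ax d (-(k.val : ℤ)) 0) ↔
        k = ((-s : ℤ) : ZMod (al d (gap 0 m))) := by
      intro k
      rw [At_ax0 hs, al_succ hp, ← ZMod.intCast_zmod_eq_zero_iff_dvd]
      push_cast
      rw [ZMod.natCast_zmod_val]
      constructor
      · intro h
        linear_combination -h
      · intro h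
        linear_combination -h
    have h : ∃ k : ZMod (al d (gap 0 m)), At m x.1 (ax d (-(k.val : ℤ)) 0) := ⟨_, (key _).2 rfl⟩
    simp only [dif_pos h]
    exact (key _).1 h.choose_spec

theorem exists_tau {b h η : ℤ} (hb : 0 < b) (h0 : 0 < η) (h1 : η ≤ h * b) :
    ∃ τ, 1 ≤ τ ∧ τ ≤ h ∧ |η - b * τ| < b := by
  have e1 := Int.emod_add_mul_ediv (η - 1) b
  have e2 := Int.emod_nonneg (η - 1) hb.ne'
  have e3 := Int.emod_lt_of_pos (η - 1) hb
  have e4 : 0 ≤ (η - 1) / b := Int.ediv_nonneg (by omega) hb.le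
  have e5 : (η - 1) / b < h := Int.ediv_lt_of_lt_mul hb (by omega)
  refine ⟨(η - 1) / b + 1, by omega, by omega, ?_⟩
  rw [abs_lt, mul_add, mul_one]
  constructor <;> omega

theorem far {a h s : ℤ} (ha : 0 < a) (hh : 0 ≤ h) {e : ℤ} (he : e = 0 ∨ e = 1 ∨ e = -1)
    (H : (6 * h + 1) * a ∣ s - e * ((2 * h + 1) * a)) : s = 0 ∨ 2 * h * a ≤ |s| := by
  obtain ⟨n, hn⟩ := H
  have e1 : s = a * ((6 * h + 1) * n + e * (2 * h + 1)) := by linear_combination hn
  have key : (6 * h + 1) * n + e * (2 * h + 1) = 0 ∨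
      2 * h ≤ |(6 * h + 1) * n + e * (2 * h + 1)| := by
    rw [le_abs]
    rcases lt_trichotomy n 0 with h1 | h1 | h1
    · rcases he with rfl | rfl | rfl <;> right <;> right <;> nlinarith
    · subst h1
      rcases he with rfl | rfl | rfl
      · left; ring
      · right; left; linarith
      · right; right; linarith
    · rcases he with rfl | rfl | rfl <;> right <;> left <;> nlinarith
  rcases key with h1 | h1
  · left; rw [e1, h1, mul_zero]
  · right
    rw [e1, abs_mul, abs_of_pos ha]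
    nlinarith

theorem dvd_of_emod {a N k i : ℤ} (h : k % N = i) (j : ℤ) (hj : N ∣ i + j) :
    N * a ∣ a * (k + j) := by
  rw [mul_comm N]
  refine mul_dvd_mul_left a ?_
  have : k + j = i + j + N * (k / N) := by
    have := Int.emod_add_mul_ediv k N
    omega
  rw [this]
  exact dvd_add hj (dvd_mul_right _ _)

theorem zone {X : Sub Sy} (hX : X.car ⊆ X0) (d : Bool) :
    Zone X d {y | ∀ m, Line d m y.1 0} := by
  refine ⟨Fintype.card Cell, fun t => ?_⟩
  obtain ⟨m, hp, ht1, ht2⟩ := exists_level d t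
  obtain ⟨col, hcol, hcol'⟩ := exists_col hX hp
  have : NeZero (al d (gap 0 m)) := ⟨(al_pos d m).ne'⟩
  have ha : (0 : ℤ) < al d (gap 0 m) := by exact_mod_cast al_pos d m
  have hb : (0 : ℤ) < ht d (gap 0 m) := by exact_mod_cast ht_pos d m
  have ht1' : (t : ℤ) ≤ hh m := by exact_mod_cast ht1
  have ht2' : (t : ℤ) * al d (gap 0 m) ≤ hh m * ht d (gap 0 m) := by exact_mod_cast ht2
  have h2 : (2 : ℤ) ≤ hh m := by exact_mod_cast two_le_hh m
  have hM := Tile1Aux.M2_cast (hh m)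
  set ctr : Set X.Pt := {x | At (m + 1) x.1 (ax d 0 0)} ∪
    {x | At (m + 1) x.1 (ax d (-((2 * hh m + 1) * al d (gap 0 m))) 0)} with hctr
  have hc : ∀ (y : X.Pt) (s : ℤ), ax d s 0 +ᵥ y ∈ ctr ↔ At (m + 1) y.1 (ax d s 0) ∨
      At (m + 1) y.1 (ax d (s - (2 * hh m + 1) * al d (gap 0 m)) 0) := fun y s =>
    or_congr ((At_sh_ax s 0 _ _).trans (by simp))
      ((At_sh_ax s 0 _ _).trans (by rw [neg_add_eq_sub, add_zero]))
  refine ⟨al d (gap 0 m), al_pos d m, col, ctr,
    fun x => Fintype.equivFin Cell (x.1 (ax d 0 (ht d (gap 0 m)))).2, hcol,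
    (loc_At hX _ _).union (loc_At hX _ _),
    (LocF.site _).comp fun σ : Sy => Fintype.equivFin Cell σ.2, fun y hy s => ?_,
    fun y _ hy s hs => ?_, fun y hy y' hy' hyy' hn hn' η h0 h1 => ?_,
    fun y hy y' hy' hyc hyc' hty s η hs h0 h1 => ?_⟩
  · obtain ⟨s₀, H⟩ := hy m
    rw [hcol' y s₀ H, hcol' (ax d s 0 +ᵥ y) (s₀ - s)
      ((At_sh_ax s 0 _ _).2 (by rwa [sub_add_cancel, add_zero]))]
    push_cast
    ring
  · have key : s = 0 ∨ 2 * (hh m : ℤ) * al d (gap 0 m) ≤ |s| := by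
      rw [hc] at hs
      rcases hy with hy | hy <;> rcases hs with hs | hs <;>
        rw [At_ax0 hy, al_succ2 hp, Nat.cast_mul, hM] at hs
      · exact far ha (by omega) (Or.inl rfl) (by convert hs using 1; ring)
      · exact far ha (by omega) (Or.inr (Or.inl rfl)) (by convert hs using 1; ring)
      · exact far ha (by omega) (Or.inr (Or.inr rfl)) (by convert hs using 1; ring)
      · exact far ha (by omega) (Or.inl rfl) (by convert hs using 1; ring)
    refine key.imp id fun h => le_trans ?_ h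
    nlinarith
  · have hj0 : (0 : ℤ) ≤ (col y).val := Int.natCast_nonneg _
    have hj1 : ((col y).val : ℤ) < al d (gap 0 m) := by exact_mod_cast ZMod.val_lt (col y)
    have hat : ∀ w : X.Pt, (∀ m, Line d m w.1 0) → col y = col w →
        At m w.1 (ax d (-((col y).val : ℤ)) 0) := by
      intro w hw e
      obtain ⟨s₀, H⟩ := hw m
      rw [At_ax0 H, al_succ hp, ← ZMod.intCast_zmod_eq_zero_iff_dvd]
      push_cast
      rw [ZMod.natCast_zmod_val, e, hcol' w s₀ H]
      push_cast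
      ring
    generalize ((col y).val : ℤ) = j at hj0 hj1 hat
    have hstd : ∀ (w : X.Pt) (k₀ : ℤ), (∀ s : ℤ, |s| ≤ 2 * al d (gap 0 m) → ax d s 0 +ᵥ w ∉ ctr) →
        (∀ s, At (m + 1) w.1 (ax d s 0) ↔
          (M (2 * hh m) * al d (gap 0 m) : ℤ) ∣ s - -j + al d (gap 0 m) * k₀) →
        0 < (0 + k₀) % M (2 * hh m) ∧ (0 + k₀) % M (2 * hh m) < 6 * hh m - 1 ∧
          (0 + k₀) % M (2 * hh m) ≠ 2 * hh m + 1 := by
      intro w k₀ hw hA
      rw [zero_add]
      have e2 := Int.emod_nonneg k₀ (M_pos (2 * hh m)).ne'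
      have e3 := Int.emod_lt_of_pos k₀ (M_pos (2 * hh m))
      have n1 : ∀ i : ℤ, 0 ≤ i → i ≤ 2 → ¬ (M (2 * hh m) : ℤ) ∣ k₀ % M (2 * hh m) + i := by
        intro i hi0 hi2 hd
        refine hw (al d (gap 0 m) * i - j) (by rw [abs_le]; constructor <;> nlinarith)
          ((hc _ _).2 (Or.inl ((hA _).2 ?_)))
        convert dvd_of_emod (a := al d (gap 0 m)) rfl i hd using 1
        ring
      have n2 : k₀ % M (2 * hh m) ≠ 2 * hh m + 1 := by
        intro hd
        refine hw (-j) (by rw [abs_le]; constructor <;> nlinarith)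
          ((hc _ _).2 (Or.inr ((hA _).2 ?_)))
        convert dvd_of_emod (a := al d (gap 0 m)) hd (-(2 * hh m + 1)) (by simp) using 1
        ring
      have n3 : k₀ % M (2 * hh m) ≠ 0 := fun e => n1 0 le_rfl (by norm_num) (by simp [e])
      have n4 : k₀ % M (2 * hh m) ≠ 6 * hh m := fun e =>
        n1 1 (by norm_num) (by norm_num) (by rw [e, hM])
      have n5 : k₀ % M (2 * hh m) ≠ 6 * hh m - 1 := fun e =>
        n1 2 (by norm_num) (by norm_num) (by rw [e, hM]; exact ⟨1, by ring⟩)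
      omega
    obtain ⟨z, hz, k₀, σ, e, hA, hσ, hq⟩ := frame hp (hy (m + 2)) (hat y hy rfl)
    obtain ⟨z', hz', k₀', σ', e', hA', hσ', hq'⟩ := frame hp (hy' (m + 2)) (hat y' hy' hyy')
    obtain ⟨s1, s2, s3⟩ := hstd y k₀ hn hA
    obtain ⟨s1', s2', s3'⟩ := hstd y' k₀' hn' hA'
    obtain ⟨τ, t1, t2, t3⟩ := exists_tau hb h0 (h1.trans ht2')
    have he : z (0, τ) = z' (0, τ) := by
      rw [hq 0 τ t1 t2, hq' 0 τ t1 t2]
      exact Ecell_standard (two_le_hh m) s1 s2 s3 s1' s2' s3' (hσ 0 s1.ne') (hσ' 0 s1'.ne')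
    have := det hp hz hz' e e' he (s := j) (by rw [mul_zero, sub_zero, abs_of_nonneg hj0]; exact hj1) t3
    rwa [ax_add, add_neg_cancel, add_zero] at this
  · have hat : ∀ w ∈ ctr, At m w.1 (ax d 0 0) := by
      rintro w (hw | hw)
      · exact At.mono (Nat.le_succ m) hw
      · have hw' : At m w.1 _ := At.mono (Nat.le_succ m) hw
        rw [At_ax0 hw', al_succ hp]
        exact ⟨2 * hh m + 1, by ring⟩
    have hres : ∀ w ∈ ctr, ∀ k₀ : ℤ, (∀ s, At (m + 1) w.1 (ax d s 0) ↔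
          (M (2 * hh m) * al d (gap 0 m) : ℤ) ∣ s - 0 + al d (gap 0 m) * k₀) →
        k₀ % M (2 * hh m) = 0 ∨ k₀ % M (2 * hh m) = 2 * hh m + 1 := by
      rintro w (hw | hw) k₀ hA
      · left
        have h3 := (hA _).1 hw
        rw [sub_zero, zero_add, mul_comm] at h3
        exact Int.emod_eq_zero_of_dvd (Int.dvd_of_mul_dvd_mul_left ha.ne' h3)
      · right
        have h3 := (hA _).1 hw
        have e3 : -((2 * hh m + 1) * al d (gap 0 m) : ℤ) - 0 + al d (gap 0 m) * k₀ =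
            al d (gap 0 m) * (k₀ - (2 * hh m + 1)) := by ring
        rw [e3, mul_comm] at h3
        have h4 := (Int.emod_emod_of_dvd _ (dvd_refl _)).symm.trans
          (Int.emod_eq_zero_of_dvd (Int.dvd_of_mul_dvd_mul_left ha.ne' h3) ▸ rfl :
            (k₀ - (2 * hh m + 1)) % M (2 * hh m) % M (2 * hh m) = 0 % M (2 * hh m))
        have h5 : k₀ % M (2 * hh m) = (2 * hh m + 1) % M (2 * hh m) :=
          Int.emod_emod_of_dvd k₀ (dvd_refl _) ▸
            (Int.emod_eq_emod_iff_emod_sub_eq_zero.2 (by simpa using h4))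
        rw [h5]
        exact Int.emod_eq_of_lt (by omega) (by omega)
    obtain ⟨z, hz, k₀, σ, e, hA, hσ, hq⟩ := frame hp (hy (m + 2)) (hat y hyc)
    obtain ⟨z', hz', k₀', σ', e', hA', hσ', hq'⟩ := frame hp (hy' (m + 2)) (hat y' hyc')
    have r1 := hres y hyc k₀ hA
    have r1' := hres y' hyc' k₀' hA'
    have h01 : z (0, 1) = z' (0, 1) := by
      refine Fm_ver_inj (Tile3Aux.pre_of_Z hz) (Tile3Aux.pre_of_Z hz') ?_
      have a1 := congrArg Prod.snd (congrFun e (ver 0 m (0, 1)))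
      have a2 := congrArg Prod.snd (congrFun e' (ver 0 m (0, 1)))
      simp only [emb, sh_apply, ax_zero, add_zero] at a1 a2
      rw [← a1, ← a2, ver_ax hp, mul_zero, mul_one]
      exact (Fintype.equivFin Cell).injective hty
    have h01' := h01
    rw [hq 0 1 le_rfl (by omega), hq' 0 1 le_rfl (by omega), zero_add, zero_add] at h01'
    have hk : k₀ % M (2 * hh m) = k₀' % M (2 * hh m) := by
      have hp' := congrArg (fun σ : Cell => σ.l.p) h01'
      simp only [Ecell_p] at hp'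
      rcases r1 with r1 | r1 <;> rcases r1' with r1' | r1'
      · rw [r1, r1']
      · rw [r1, r1', if_neg (by omega), if_pos rfl, if_neg (by omega), if_neg (by omega)] at hp'
        exact absurd hp' (by decide)
      · rw [r1, r1', if_neg (by omega), if_neg (by omega), if_neg (by omega), if_pos rfl] at hp'
        exact absurd hp' (by decide)
      · rw [r1, r1']
    obtain ⟨τ, t1, t2, t3⟩ := exists_tau hb h0 (h1.trans ht2')
    have e1 := Int.emod_add_mul_ediv s (al d (gap 0 m))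
    have e2 := Int.emod_nonneg s ha.ne'
    have e3 := Int.emod_lt_of_pos s ha
    have hs' := abs_le.1 hs
    have e4 : -(t : ℤ) ≤ s / al d (gap 0 m) := Int.le_ediv_of_mul_le ha (by linarith [hs'.1])
    have e5 : s / al d (gap 0 m) ≤ t := Int.ediv_le_of_le_mul ha hs'.2
    generalize s / al d (gap 0 m) = k at e1 e4 e5
    have he : z (k, τ) = z' (k, τ) := by
      rw [hq k τ t1 t2, hq' k τ t1 t2]
      by_cases hk0 : k = 0
      · rw [hk0, zero_add, zero_add]
        exact h01'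
      · have hkk : (k + k₀) % M (2 * hh m) = (k + k₀') % M (2 * hh m) := by
          rw [Int.add_emod, hk, ← Int.add_emod]
        have hne : (k + k₀) % M (2 * hh m) ≠ 0 := by
          intro h3
          rw [← Int.add_emod_emod] at h3
          have h4 := Int.dvd_of_emod_eq_zero h3
          have h5 := Int.eq_zero_of_abs_lt_dvd h4 (by rw [abs_lt]; constructor <;> omega)
          omega
        rw [← hkk]
        exact Ecell_one ((hσ k hne).trans (hkk ▸ (hσ' k (hkk ▸ hne)).symm))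
    have := det hp hz hz' e e' he (s := s) (by rw [abs_lt]; constructor <;> omega) t3
    rwa [ax_zero, add_zero] at this

end Tile6Aux

theorem cut_of_subset {X : Sub Sy} (hX : X.car ⊆ X0) (d : Bool) :
    ∃ Y : Set X.Pt, Fault X d Y ∧ Zone X d Y :=
  ⟨_, Tile6Aux.fault hX d, Tile6Aux.zone hX d⟩

end Crest.Agent.R189
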