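import Crest.Agent.R189.Defs

/-! Row 189: clopen sets and compactness in a subshift. -/

set_option autoImplicit false

namespace Crest.Agent.R189

open Pointwise

variable {S : Type} {X : Sub S}

theorem mem_box {r : ℕ} {w : V} : w ∈ box r ↔ |w.1| ≤ r ∧ |w.2| ≤ r := Iff.rfl

theorem mem_rect {p q r s : ℤ} {w : V} :
    w ∈ rect p q r s ↔ p ≤ w.1 ∧ w.1 ≤ q ∧ r ≤ w.2 ∧ w.2 ≤ s := Iff.rfl

theorem box_mono {r s : ℕ} (h : r ≤ s) : box r ⊆ box s := by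
  have : (r : ℤ) ≤ s := by exact_mod_cast h
  exact fun w hw => ⟨hw.1.trans this, hw.2.trans this⟩

theorem zero_mem_box (r : ℕ) : (0 : V) ∈ box r := by
  simp [mem_box]

theorem add_mem_box {r s : ℕ} {v w : V} (hv : v ∈ box r) (hw : w ∈ box s) :
    v + w ∈ box (r + s) := by
  rw [mem_box, Nat.cast_add]
  exact ⟨(abs_add_le _ _).trans (add_le_add hv.1 hw.1),
    (abs_add_le _ _).trans (add_le_add hv.2 hw.2)⟩

theorem neg_mem_box {r : ℕ} {v : V} (hv : v ∈ box r) : -v ∈ box r := by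
  simpa only [mem_box, Prod.fst_neg, Prod.snd_neg, abs_neg] using hv

theorem exists_mem_box (v : V) : ∃ r, v ∈ box r := by
  refine ⟨v.1.natAbs + v.2.natAbs, ?_⟩
  rw [mem_box, Nat.cast_add, Int.natCast_natAbs, Int.natCast_natAbs]
  exact ⟨le_add_of_nonneg_right (abs_nonneg _), le_add_of_nonneg_left (abs_nonneg _)⟩

theorem box_finite (r : ℕ) : (box r).Finite :=
  ((Set.finite_Icc (-r : ℤ) r).prod (Set.finite_Icc (-r : ℤ) r)).subset
    fun _ hw => ⟨abs_le.1 hw.1, abs_le.1 hw.2⟩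

/-- A uniform radius over a finite index set. -/
theorem SubAux.exists_bound {ι : Type} {T : Set ι} (hT : T.Finite) {P : ι → ℕ → Prop}
    (mono : ∀ i r s, r ≤ s → P i r → P i s) (h : ∀ i ∈ T, ∃ r, P i r) : ∃ r, ∀ i ∈ T, P i r := by
  choose! f hf using h
  obtain ⟨r, hr⟩ := (hT.image f).bddAbove
  exact ⟨r, fun i hi => mono i _ _ (hr ⟨i, hi, rfl⟩) (hf i hi)⟩

theorem exists_box_of_finite {R : Set V} (h : R.Finite) : ∃ r, R ⊆ box r :=
  SubAux.exists_bound h (P := fun v r => v ∈ box r) (fun _ _ _ hrs hv => box_mono hrs hv)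
    fun v _ => exists_mem_box v

theorem Sub.Pt.ext {x y : X.Pt} (h : ∀ w, x.1 w = y.1 w) : x = y := Subtype.ext (funext h)

theorem mem_vadd_iff {U : Set X.Pt} {v : V} {x : X.Pt} : x ∈ v +ᵥ U ↔ (-v) +ᵥ x ∈ U :=
  Set.mem_vadd_set_iff_neg_vadd_mem

theorem Agree.refl (R : Set V) (x : X.Pt) : Agree R x x := fun _ _ => rfl

theorem Agree.symm {R : Set V} {x y : X.Pt} (h : Agree R x y) : Agree R y x :=
  fun w hw => (h w hw).symm

theorem Agree.trans {R : Set V} {x y z : X.Pt} (h : Agree R x y) (h' : Agree R y z) :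
    Agree R x z := fun w hw => (h w hw).trans (h' w hw)

theorem Agree.mono {R R' : Set V} {x y : X.Pt} (h : Agree R x y) (hR : R' ⊆ R) : Agree R' x y :=
  fun w hw => h w (hR hw)

theorem Agree.vadd' {R R' : Set V} {x y : X.Pt} (h : Agree R x y) {v : V}
    (hv : ∀ w ∈ R', w + v ∈ R) : Agree R' (v +ᵥ x) (v +ᵥ y) := fun w hw => h _ (hv w hw)

theorem Agree.vadd {r s : ℕ} {x y : X.Pt} (h : Agree (box (r + s)) x y) {v : V}
    (hv : v ∈ box s) : Agree (box r) (v +ᵥ x) (v +ᵥ y) :=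
  h.vadd' fun _ hw => add_mem_box hw hv

theorem mem_cyl_self (r : ℕ) (x : X.Pt) : x ∈ cyl r x := Agree.refl _ _

theorem cyl_mono {r s : ℕ} (h : r ≤ s) (x : X.Pt) : cyl s x ⊆ cyl r x :=
  fun _ hy => Agree.mono hy (box_mono h)

theorem cyl_eq_of_mem {r : ℕ} {x y : X.Pt} (h : y ∈ cyl r x) : cyl r y = cyl r x :=
  Set.ext fun _ => ⟨fun hz => Agree.trans h hz, fun hz => Agree.trans (Agree.symm h) hz⟩

theorem Loc.univ : Loc (Set.univ : Set X.Pt) := ⟨0, fun _ _ _ h => h⟩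

theorem Loc.empty : Loc (∅ : Set X.Pt) := ⟨0, fun _ _ _ h => h⟩

theorem Loc.compl {U : Set X.Pt} (h : Loc U) : Loc Uᶜ := by
  obtain ⟨r, hr⟩ := h
  exact ⟨r, fun x y hxy hx hy => hx (hr y x hxy.symm hy)⟩

theorem Loc.inter {U U' : Set X.Pt} (h : Loc U) (h' : Loc U') : Loc (U ∩ U') := by
  obtain ⟨r, hr⟩ := h
  obtain ⟨s, hs⟩ := h'
  exact ⟨max r s, fun x y hxy hx => ⟨hr x y (hxy.mono (box_mono (le_max_left _ _))) hx.1,
    hs x y (hxy.mono (box_mono (le_max_right _ _))) hx.2⟩⟩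

theorem Loc.union {U U' : Set X.Pt} (h : Loc U) (h' : Loc U') : Loc (U ∪ U') := by
  have := (h.compl.inter h'.compl).compl
  rwa [← Set.compl_union, compl_compl] at this

theorem Loc.diff {U U' : Set X.Pt} (h : Loc U) (h' : Loc U') : Loc (U \ U') :=
  h.inter h'.compl

theorem Loc.vadd {U : Set X.Pt} (h : Loc U) (v : V) : Loc (v +ᵥ U) := by
  obtain ⟨r, hr⟩ := h
  obtain ⟨s, hs⟩ := exists_mem_box (-v)
  exact ⟨r + s, fun x y hxy hx => mem_vadd_iff.2 (hr _ _ (hxy.vadd hs) (mem_vadd_iff.1 hx))⟩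

theorem Loc.preimage_vadd {U : Set X.Pt} (h : Loc U) (v : V) : Loc {x | v +ᵥ x ∈ U} := by
  obtain ⟨r, hr⟩ := h
  obtain ⟨s, hs⟩ := exists_mem_box v
  exact ⟨r + s, fun x y hxy hx => hr _ _ (hxy.vadd hs) hx⟩

theorem Loc.biUnion {ι : Type} {T : Set ι} (hT : T.Finite) {U : ι → Set X.Pt}
    (h : ∀ i ∈ T, Loc (U i)) : Loc (⋃ i ∈ T, U i) := by
  obtain ⟨r, hr⟩ := SubAux.exists_bound hT
    (P := fun i r => ∀ x y, Agree (box r) x y → x ∈ U i → y ∈ U i)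
    (fun _ _ _ hrs hi x y hxy => hi x y (hxy.mono (box_mono hrs))) h
  refine ⟨r, fun x y hxy hx => ?_⟩
  obtain ⟨i, hi, hx⟩ := Set.mem_iUnion₂.1 hx
  exact Set.mem_iUnion₂.2 ⟨i, hi, hr i hi x y hxy hx⟩

theorem Loc.biInter {ι : Type} {T : Set ι} (hT : T.Finite) {U : ι → Set X.Pt}
    (h : ∀ i ∈ T, Loc (U i)) : Loc (⋂ i ∈ T, U i) := by
  obtain ⟨r, hr⟩ := SubAux.exists_bound hT
    (P := fun i r => ∀ x y, Agree (box r) x y → x ∈ U i → y ∈ U i)
    (fun _ _ _ hrs hi x y hxy => hi x y (hxy.mono (box_mono hrs))) h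
  exact ⟨r, fun x y hxy hx => Set.mem_iInter₂.2 fun i hi =>
    hr i hi x y hxy (Set.mem_iInter₂.1 hx i hi)⟩

theorem Loc.cyl (r : ℕ) (x : X.Pt) : Loc (cyl r x) :=
  ⟨r, fun _ _ hyz hy => Agree.trans hy hyz⟩

theorem Loc.site (z : V) (E : Set S) : Loc {x : X.Pt | x.1 z ∈ E} := by
  obtain ⟨r, hr⟩ := exists_mem_box z
  exact ⟨r, fun x y hxy hx => Set.mem_of_eq_of_mem (s := E) (hxy z hr).symm hx⟩

theorem Loc.of_finite {R : Set V} (hR : R.Finite) {U : Set X.Pt}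
    (h : ∀ x y, Agree R x y → x ∈ U → y ∈ U) : Loc U := by
  obtain ⟨r, hr⟩ := exists_box_of_finite hR
  exact ⟨r, fun x y hxy => h x y (hxy.mono hr)⟩

theorem Loc.exists_cyl {U : Set X.Pt} (h : Loc U) : ∃ r, ∀ x ∈ U, R189.cyl r x ⊆ U := by
  obtain ⟨r, hr⟩ := h
  exact ⟨r, fun x hx y hy => hr x y hy hx⟩

section locf
variable {β γ : Type}

theorem LocF.const (b : β) : LocF (fun _ : X.Pt => b) := ⟨0, fun _ _ _ => rfl⟩

theorem LocF.site (z : V) : LocF (fun x : X.Pt => x.1 z) := by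
  obtain ⟨r, hr⟩ := exists_mem_box z
  exact ⟨r, fun x y hxy => hxy z hr⟩

theorem LocF.comp {f : X.Pt → β} (h : LocF f) (g : β → γ) : LocF (fun x => g (f x)) := by
  obtain ⟨r, hr⟩ := h
  exact ⟨r, fun x y hxy => congrArg g (hr x y hxy)⟩

theorem LocF.comp₂ {δ : Type} {f : X.Pt → β} {f' : X.Pt → γ} (h : LocF f) (h' : LocF f')
    (g : β → γ → δ) : LocF (fun x => g (f x) (f' x)) := by
  obtain ⟨r, hr⟩ := h
  obtain ⟨s, hs⟩ := h'
  exact ⟨max r s, fun x y hxy => congrArg₂ g (hr x y (hxy.mono (box_mono (le_max_left _ _))))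
    (hs x y (hxy.mono (box_mono (le_max_right _ _))))⟩

theorem LocF.pi {ι : Type} [Finite ι] {f : X.Pt → ι → β} (h : ∀ i, LocF fun x => f x i) :
    LocF f := by
  obtain ⟨r, hr⟩ := SubAux.exists_bound (Set.finite_univ (α := ι))
    (P := fun i r => ∀ x y, Agree (box r) x y → f x i = f y i)
    (fun _ _ _ hrs hi x y hxy => hi x y (hxy.mono (box_mono hrs))) fun i _ => h i
  exact ⟨r, fun x y hxy => funext fun i => hr i trivial x y hxy⟩

theorem LocF.vadd {f : X.Pt → β} (h : LocF f) (v : V) : LocF (fun x => f (v +ᵥ x)) := by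
  obtain ⟨r, hr⟩ := h
  obtain ⟨s, hs⟩ := exists_mem_box v
  exact ⟨r + s, fun x y hxy => hr _ _ (hxy.vadd hs)⟩

theorem LocF.preimage {f : X.Pt → β} (h : LocF f) (A : Set β) : Loc {x | f x ∈ A} := by
  obtain ⟨r, hr⟩ := h
  exact ⟨r, fun x y hxy hx => Set.mem_of_eq_of_mem (s := A) (hr x y hxy).symm hx⟩

theorem LocF.setOf {f : X.Pt → β} (h : LocF f) (Q : β → Prop) : Loc {x | Q (f x)} :=
  h.preimage {b | Q b}

theorem LocF.ite {U : Set X.Pt} (hU : Loc U) [DecidablePred (· ∈ U)] {f f' : X.Pt → β}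
    (h : LocF f) (h' : LocF f') : LocF (fun x => if x ∈ U then f x else f' x) := by
  obtain ⟨r, hr⟩ := hU
  obtain ⟨s, hs⟩ := h.comp₂ h' Prod.mk
  refine ⟨max r s, fun x y hxy => ?_⟩
  have h1 := hxy.mono (box_mono (le_max_left r s))
  have h2 := Prod.mk.inj (hs x y (hxy.mono (box_mono (le_max_right r s))))
  exact if_congr ⟨hr x y h1, hr y x h1.symm⟩ h2.1 h2.2

theorem LocF.of_finite {R : Set V} (hR : R.Finite) {f : X.Pt → β}
    (h : ∀ x y, Agree R x y → f x = f y) : LocF f := by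
  obtain ⟨r, hr⟩ := exists_box_of_finite hR
  exact ⟨r, fun x y hxy => h x y (hxy.mono hr)⟩

theorem Loc.locF {U : Set X.Pt} (h : Loc U) : LocF (fun x => x ∈ U) := by
  obtain ⟨r, hr⟩ := h
  exact ⟨r, fun x y hxy => propext ⟨hr x y hxy, hr y x hxy.symm⟩⟩

theorem LocF.finite_range [Finite S] {f : X.Pt → β} (h : LocF f) : (Set.range f).Finite := by
  obtain ⟨r, hr⟩ := h
  have := (box_finite r).to_subtype
  refine (Set.finite_iUnion (f := fun π : box r → S => f '' {x | ∀ w : box r, x.1 w = π w})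
    fun π => Set.Subsingleton.finite ?_).subset ?_
  · rintro _ ⟨x, hx, rfl⟩ _ ⟨y, hy, rfl⟩
    exact hr x y fun w hw => (hx ⟨w, hw⟩).trans (hy ⟨w, hw⟩).symm
  · rintro _ ⟨x, rfl⟩
    exact Set.mem_iUnion.2 ⟨fun w => x.1 w, x, fun _ => rfl, rfl⟩

end locf

section compact
variable [Finite S]

theorem finite_cyl (r : ℕ) : (Set.range (cyl r : X.Pt → Set X.Pt)).Finite :=
  LocF.finite_range ⟨r, fun _ _ h => (cyl_eq_of_mem h).symm⟩

/-- A sequence of configurations has a cluster point. -/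
theorem exists_cluster {α : Type} [Finite α] (x : ℕ → V → α) :
    ∃ y : V → α, ∀ r N : ℕ, ∃ k, N ≤ k ∧ ∀ w ∈ box r, y w = x k w := by
  choose y hy using fun w => ((Filter.hyperfilter ℕ).map fun k => x k w).eq_pure_of_finite
  refine ⟨y, fun r N => ?_⟩
  have h1 : ∀ᶠ k in (Filter.hyperfilter ℕ : Filter ℕ), N ≤ k :=
    Nat.hyperfilter_le_atTop (Filter.eventually_ge_atTop N)
  have h2 : ∀ᶠ k in (Filter.hyperfilter ℕ : Filter ℕ), ∀ w ∈ box r, y w = x k w :=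
    (Filter.eventually_all_finite (box_finite r)).2 fun w _ => by
      have : {a | y w = a} ∈ (Filter.hyperfilter ℕ).map fun k => x k w := by
        rw [hy w]
        exact Ultrafilter.mem_pure.2 rfl
      exact this
  exact (h1.and h2).exists

theorem exists_cluster_pt (x : ℕ → X.Pt) :
    ∃ y : X.Pt, ∀ r N : ℕ, ∃ k, N ≤ k ∧ Agree (box r) y (x k) := by
  obtain ⟨y, hy⟩ := exists_cluster fun k => (x k).1
  refine ⟨⟨y, X.closed y fun r => ?_⟩, hy⟩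
  obtain ⟨k, -, hk⟩ := hy r 0
  exact ⟨_, (x k).2, hk⟩

/-- Uniformity by compactness. -/
theorem unif (Q : Set X.Pt → Prop) (mono : ∀ U U', U' ⊆ U → Q U → Q U')
    (h : ∀ x, ∃ r, Q (cyl r x)) : ∃ r, ∀ x, Q (cyl r x) := by
  by_contra hc
  choose x hx using fun r => not_forall.1 (not_exists.1 hc r)
  obtain ⟨y, hy⟩ := exists_cluster_pt x
  obtain ⟨r, hr⟩ := h y
  obtain ⟨k, hk, hk'⟩ := hy r r
  exact hx k (mono _ _ ((cyl_mono hk _).trans (cyl_eq_of_mem hk').subset) hr)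

/-- Clopen sets are generated by the site cylinders. -/
theorem Loc.induction (Q : Set X.Pt → Prop) (site : ∀ (z : V) (E : Set S), Q {x | x.1 z ∈ E})
    (compl : ∀ U, Loc U → Q U → Q Uᶜ)
    (inter : ∀ U U', Loc U → Loc U' → Q U → Q U' → Q (U ∩ U')) : ∀ U, Loc U → Q U := by
  have hI : ∀ {ι : Type} {T : Set ι}, T.Finite → ∀ {U : ι → Set X.Pt},
      (∀ i ∈ T, Loc (U i) ∧ Q (U i)) → Q (⋂ i ∈ T, U i) := by
    intro ι T hT U h
    induction T, hT using Set.Finite.induction_on with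
    | empty => simpa using site 0 Set.univ
    | insert _ hT ih =>
      rw [Set.biInter_insert]
      exact inter _ _ (h _ (Set.mem_insert _ _)).1
        (Loc.biInter hT fun i hi => (h i (Set.mem_insert_of_mem _ hi)).1)
        (h _ (Set.mem_insert _ _)).2 (ih fun i hi => h i (Set.mem_insert_of_mem _ hi))
  have hc : ∀ r (x : X.Pt), Q (R189.cyl r x) := by
    intro r x
    have e : R189.cyl r x = ⋂ w ∈ box r, {y : X.Pt | y.1 w ∈ {s | x.1 w = s}} :=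
      Set.ext fun _ => by rw [Set.mem_iInter₂]; rfl
    rw [e]
    exact hI (box_finite r) fun w _ => ⟨Loc.site _ _, site _ _⟩
  intro U hU
  obtain ⟨r, hr⟩ := hU.compl.exists_cyl
  have e : U = ⋂ C ∈ R189.cyl r '' Uᶜ, Cᶜ := by
    ext x
    rw [Set.biInter_image, Set.mem_iInter₂]
    exact ⟨fun hx y hy hxy => hr y hy hxy hx, fun h => by_contra fun hx =>
      h x hx (mem_cyl_self r x)⟩
  rw [e]
  refine hI ((finite_cyl r).subset (Set.image_subset_range _ _)) ?_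
  rintro _ ⟨y, -, rfl⟩
  exact ⟨(Loc.cyl r y).compl, compl _ (Loc.cyl r y) (hc r y)⟩

theorem SubAux.cover (Q : Set X.Pt → Prop) (empty : Q ∅) {U : Set X.Pt} (hU : Loc U)
    (union : ∀ U₁ U₂, Loc U₁ → Loc U₂ → U₁ ⊆ U → U₂ ⊆ U → Disjoint U₁ U₂ → Q U₁ → Q U₂ →
      Q (U₁ ∪ U₂))
    (h : ∀ x ∈ U, ∃ r, ∀ U', Loc U' → U' ⊆ U ∩ R189.cyl r x → Q U') : Q U := by
  obtain ⟨r, hr⟩ := unif (fun C => ∀ U', Loc U' → U' ⊆ U ∩ C → Q U')
    (fun C C' hC h U' h1 h2 => h U' h1 (h2.trans (Set.inter_subset_inter_right _ hC)))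
    fun x => by
      by_cases hx : x ∈ U
      · exact h x hx
      · obtain ⟨r, hr⟩ := hU.compl.exists_cyl
        refine ⟨r, fun U' _ h2 => ?_⟩
        rwa [Set.eq_empty_of_forall_notMem fun y hy => hr x hx (h2 hy).2 (h2 hy).1]
  have key : ∀ T : Set (Set X.Pt), T.Finite → T ⊆ Set.range (cyl r) →
      ∀ U', Loc U' → U' ⊆ U ∩ ⋃₀ T → Q U' := by
    intro T hT
    induction T, hT using Set.Finite.induction_on with
    | empty =>
      intro _ U' _ h2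
      rw [Set.sUnion_empty, Set.inter_empty, Set.subset_empty_iff] at h2
      rwa [h2]
    | insert _ _ ih =>
      intro hT U' h1 h2
      obtain ⟨x, rfl⟩ := hT (Set.mem_insert _ _)
      rw [Set.sUnion_insert] at h2
      rw [← Set.inter_union_sdiff U' (cyl r x)]
      exact union _ _ (h1.inter (Loc.cyl r x)) (h1.diff (Loc.cyl r x))
        (fun y hy => (h2 hy.1).1) (fun y hy => (h2 hy.1).1)
        (Set.disjoint_left.2 fun y hy hy' => hy'.2 hy.2)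
        (hr x _ (h1.inter (Loc.cyl r x)) fun y hy => ⟨(h2 hy.1).1, hy.2⟩)
        (ih ((Set.subset_insert _ _).trans hT) _ (h1.diff (Loc.cyl r x))
          fun y hy => ⟨(h2 hy.1).1, (h2 hy.1).2.resolve_left hy.2⟩)
  exact key _ (finite_cyl r) subset_rfl U hU fun x hx => ⟨hx, _, ⟨x, rfl⟩, mem_cyl_self r x⟩

/-- An additive property that holds locally holds globally. -/
theorem Loc.cover (Q : Set X.Pt → Prop) (empty : Q ∅)
    (union : ∀ U U', Loc U → Loc U' → Disjoint U U' → Q U → Q U' → Q (U ∪ U'))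
    {U : Set X.Pt} (hU : Loc U)
    (h : ∀ x ∈ U, ∃ r, ∀ U', Loc U' → U' ⊆ U ∩ R189.cyl r x → Q U') : Q U :=
  SubAux.cover Q empty hU (fun U₁ U₂ h1 h2 _ _ => union U₁ U₂ h1 h2) h

/-- The same with closure of `Q` only needed for subsets of `U`. -/
theorem Loc.cover' (Q : Set X.Pt → Prop) (empty : Q ∅) {U : Set X.Pt} (hU : Loc U)
    (union : ∀ U₁ U₂, Loc U₁ → Loc U₂ → U₁ ⊆ U → U₂ ⊆ U → Disjoint U₁ U₂ → Q U₁ → Q U₂ →
      Q (U₁ ∪ U₂))
    (h : ∀ x ∈ U, ∃ r, ∀ U', Loc U' → U' ⊆ U ∩ R189.cyl r x → Q U') : Q U :=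
  SubAux.cover Q empty hU union h

/-- Small cylinders are disjoint from their short translates. -/
theorem Free.small (hF : Free X) (R : ℕ) :
    ∃ r, ∀ x : X.Pt, ∀ y ∈ cyl r x, ∀ v ∈ box R, v +ᵥ y ∈ cyl r x → v = 0 := by
  refine unif (fun C => ∀ y ∈ C, ∀ v ∈ box R, v +ᵥ y ∈ C → v = 0)
    (fun C C' hC h y hy v hv h' => h y (hC hy) v hv (hC h')) fun x => ?_
  obtain ⟨r, hr⟩ := SubAux.exists_bound (box_finite R)
    (P := fun v r => ∀ y ∈ cyl r x, v +ᵥ y ∈ cyl r x → v = 0)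
    (fun _ _ _ hrs h y hy h' => h y (cyl_mono hrs x hy) (cyl_mono hrs x h')) fun v hv => by
      by_cases h0 : v = 0
      · exact ⟨0, fun _ _ _ => h0⟩
      · obtain ⟨w, hw⟩ := not_forall.1 fun h => h0 (hF x v (Sub.Pt.ext h))
        obtain ⟨s, hs⟩ := exists_mem_box w
        exact ⟨s + R, fun y hy h' => absurd ((hy _ (add_mem_box hs hv)).trans
          (h' w (box_mono (Nat.le_add_right _ _) hs)).symm) hw⟩
  exact ⟨r, fun y hy v hv => hr v hv y hy⟩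

end compact

theorem Free.vadd_inj (hF : Free X) {x : X.Pt} {v w : V} (h : v +ᵥ x = w +ᵥ x) : v = w :=
  (neg_add_eq_zero.1 (hF x (-w + v) (by rw [add_vadd, h, neg_vadd_vadd]))).symm

/-- A locally constant invariant function on a minimal system is constant. -/
theorem Minimal.const (hM : Minimal X) {β : Type} {f : X.Pt → β} (hf : LocF f)
    (hinv : ∀ (v : V) x, f (v +ᵥ x) = f x) (x y : X.Pt) : f x = f y := by
  obtain ⟨r, hr⟩ := hf
  obtain ⟨v, hv⟩ := hM x y r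
  rw [← hr _ _ hv, hinv]

section tower
variable {a b : ℕ} {B : Set X.Pt}

theorem Tower.exists_rep (h : Tower a b B) (ha : 0 < a) (hb : 0 < b) (x : X.Pt) (p q : ℤ) :
    ∃ x₀ ∈ B, ∃ v : V, p ≤ v.1 ∧ v.1 < p + a ∧ q ≤ v.2 ∧ v.2 < q + b ∧ x = v +ᵥ x₀ := by
  obtain ⟨w, hw⟩ := h.2.1 x
  have ha' : (0 : ℤ) < a := by exact_mod_cast ha
  have hb' : (0 : ℤ) < b := by exact_mod_cast hb
  let v : V := (p + (-w.1 - p) % a, q + (-w.2 - q) % b)
  refine ⟨(-w - v) +ᵥ (w +ᵥ x), (h.2.2 _ hw _).2 ⟨?_, ?_⟩, v,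
    le_add_of_nonneg_right (Int.emod_nonneg _ ha'.ne'),
    add_lt_add_right (Int.emod_lt_of_pos _ ha') _,
    le_add_of_nonneg_right (Int.emod_nonneg _ hb'.ne'),
    add_lt_add_right (Int.emod_lt_of_pos _ hb') _, ?_⟩
  · have := Int.dvd_self_sub_emod (x := -w.1 - p) (m := a)
    rwa [sub_sub] at this
  · have := Int.dvd_self_sub_emod (x := -w.2 - q) (m := b)
    rwa [sub_sub] at this
  · rw [← add_vadd, add_sub_cancel, neg_vadd_vadd]

theorem Tower.vadd_eq (h : Tower a b B) {v : V} (h1 : (a : ℤ) ∣ v.1) (h2 : (b : ℤ) ∣ v.2) :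
    v +ᵥ B = B := by
  ext x
  rw [mem_vadd_iff]
  refine ⟨fun hx => ?_, fun hx => (h.2.2 x hx _).2 ⟨h1.neg_right, h2.neg_right⟩⟩
  have := (h.2.2 _ hx v).2 ⟨h1, h2⟩
  rwa [vadd_neg_vadd] at this

theorem Tower.vadd (h : Tower a b B) (v : V) : Tower a b (v +ᵥ B) := by
  refine ⟨h.1.vadd v, fun x => ?_, fun x hx w => ?_⟩
  · obtain ⟨w, hw⟩ := h.2.1 x
    exact ⟨v + w, by rwa [mem_vadd_iff, add_vadd, neg_vadd_vadd]⟩
  · rw [mem_vadd_iff, vadd_comm, h.2.2 _ (mem_vadd_iff.1 hx)]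

/-- The coordinates of a point in a tower. -/
theorem Tower.exists_coord (h : Tower a b B) (ha : 0 < a) (hb : 0 < b) :
    ∃ (κ₁ : X.Pt → ZMod a) (κ₂ : X.Pt → ZMod b), LocF κ₁ ∧ LocF κ₂ ∧
      (∀ x, x ∈ B ↔ κ₁ x = 0 ∧ κ₂ x = 0) ∧
      ∀ (v : V) x, κ₁ (v +ᵥ x) = κ₁ x + (v.1 : ZMod a) ∧ κ₂ (v +ᵥ x) = κ₂ x + (v.2 : ZMod b) := by
  choose w hw using h.2.1
  have key : ∀ (x : X.Pt) (u : V), u +ᵥ x ∈ B ↔
      ((w x).1 : ZMod a) = (u.1 : ℤ) ∧ ((w x).2 : ZMod b) = (u.2 : ℤ) := by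
    intro x u
    rw [ZMod.intCast_eq_intCast_iff_dvd_sub, ZMod.intCast_eq_intCast_iff_dvd_sub,
      ← Prod.fst_sub, ← Prod.snd_sub, ← h.2.2 _ (hw x), ← add_vadd, sub_add_cancel]
  have hl : LocF fun x => (((w x).1 : ZMod a), ((w x).2 : ZMod b)) := by
    obtain ⟨r, hr⟩ := h.1
    refine ⟨r + (a + b), fun x y hxy => ?_⟩
    obtain ⟨x₀, h0, v, h1, h2, h3, h4, e⟩ := h.exists_rep ha hb x 0 0
    have hv : v ∈ box (a + b) := by
      rw [mem_box, abs_of_nonneg h1, abs_of_nonneg h3, Nat.cast_add]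
      constructor <;> omega
    have hx : -v +ᵥ x ∈ B := by rwa [e, neg_vadd_vadd]
    have h5 := (key x _).1 hx
    have h6 := (key y _).1 (hr _ _ (hxy.vadd (neg_mem_box hv)) hx)
    exact Prod.ext (h5.1.trans h6.1.symm) (h5.2.trans h6.2.symm)
  refine ⟨fun x => -((w x).1 : ZMod a), fun x => -((w x).2 : ZMod b), hl.comp fun c => -c.1,
    hl.comp fun c => -c.2, fun x => ?_, fun v x => ?_⟩
  · simpa using key x 0
  · have := (key (v +ᵥ x) (w x - v)).1 (by rw [← add_vadd, sub_add_cancel]; exact hw x)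
    simp only [this.1, this.2, Prod.fst_sub, Prod.snd_sub, Int.cast_sub]
    constructor <;> ring

theorem SubAux.exists_dist {κ : X.Pt → ZMod a} (ha : 0 < a) (hκ : LocF κ) (π : V → ℤ)
    (h0 : ∀ x ∈ B, κ x = 0) (hv : ∀ (v : V) x, κ (v +ᵥ x) = κ x + (π v : ZMod a)) :
    ∃ d : X.Pt → ℕ, LocF d ∧ (∀ (v : V) x, d (v +ᵥ x) ≤ d x + (π v).natAbs) ∧
      ∀ x ∈ B, ∀ (v : V) (k : ℕ), d (v +ᵥ x) ≤ k ↔ ∃ j : ℤ, |π v - j * a| ≤ k := by
  have : NeZero a := ⟨ha.ne'⟩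
  have hmin : ∀ (c : ZMod a) (m : ℤ), c = m → c.valMinAbs.natAbs ≤ m.natAbs := fun c m h =>
    ZMod.natAbs_min_of_le_div_two a _ _ ((ZMod.coe_valMinAbs c).trans h)
      (ZMod.natAbs_valMinAbs_le c)
  refine ⟨fun x => (κ x).valMinAbs.natAbs, hκ.comp fun c => c.valMinAbs.natAbs, fun v x => ?_,
    fun x hx v k => ⟨fun h => ?_, fun ⟨j, hj⟩ => ?_⟩⟩
  · exact (hmin _ ((κ x).valMinAbs + π v) (by rw [hv, Int.cast_add, ZMod.coe_valMinAbs])).trans
      (Int.natAbs_add_le _ _)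
  · obtain ⟨j, hj⟩ := (ZMod.intCast_eq_intCast_iff_dvd_sub (κ (v +ᵥ x)).valMinAbs (π v) a).1
      (by rw [ZMod.coe_valMinAbs, hv, h0 x hx, zero_add])
    refine ⟨j, ?_⟩
    rw [mul_comm, ← hj, sub_sub_cancel, ← Int.natCast_natAbs]
    exact_mod_cast h
  · refine (hmin _ (π v - j * a) (by simp [hv, h0 x hx])).trans ?_
    rw [← Int.natCast_natAbs] at hj
    exact_mod_cast hj

/-- The horizontal distance to the nearest vertical cut. -/
theorem Tower.exists_dist₁ (h : Tower a b B) (ha : 0 < a) (hb : 0 < b) :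
    ∃ d : X.Pt → ℕ, LocF d ∧ (∀ (v : V) x, d (v +ᵥ x) ≤ d x + v.1.natAbs) ∧
      ∀ x ∈ B, ∀ (v : V) (k : ℕ), d (v +ᵥ x) ≤ k ↔ ∃ j : ℤ, |v.1 - j * a| ≤ k := by
  obtain ⟨κ₁, κ₂, h1, -, h3, h4⟩ := h.exists_coord ha hb
  exact SubAux.exists_dist ha h1 Prod.fst (fun x hx => ((h3 x).1 hx).1) fun v x => (h4 v x).1

/-- The vertical distance to the nearest horizontal cut. -/
theorem Tower.exists_dist₂ (h : Tower a b B) (ha : 0 < a) (hb : 0 < b) :
    ∃ d : X.Pt → ℕ, LocF d ∧ (∀ (v : V) x, d (v +ᵥ x) ≤ d x + v.2.natAbs) ∧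
      ∀ x ∈ B, ∀ (v : V) (k : ℕ), d (v +ᵥ x) ≤ k ↔ ∃ j : ℤ, |v.2 - j * b| ≤ k := by
  obtain ⟨κ₁, κ₂, -, h2, h3, h4⟩ := h.exists_coord ha hb
  exact SubAux.exists_dist hb h2 Prod.snd (fun x hx => ((h3 x).1 hx).2) fun v x => (h4 v x).2

end tower

end Crest.Agent.R189
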