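import Crest.Agent.R189.Omp
import Crest.Agent.R189.Sub

/-! Row 189: commuting site observables define a Boolean homomorphism on the clopen sets. -/

set_option autoImplicit false

namespace Crest.Agent.R189

open ROMP

namespace PhiAux

/-- Joint observables are compatible with restriction. -/
theorem compat {S P ι ι' : Type} [Finite S] [Finite ι'] [ROMP P] {J : Obs P (ι → S) one}
    {J' : Obs P (ι' → S) one} (φ : ι' → ι)
    (h : ∀ i (A : Set S), J'.f {π | π i ∈ A} = J.f {π | π (φ i) ∈ A}) (B : Set (ι' → S)) :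
    J'.f B = J.f {π | (fun i => π (φ i)) ∈ B} := by
  rw [Obs.pi_ext J' (J.map fun π i => π (φ i)) fun i a => h i {a}]
  rfl

end PhiAux

open PhiAux in
theorem exists_phi {S : Type} [Finite S] {X : Sub S} {Ω : Finset V} (hS : SFT X Ω)
    {P : Type} [ROMP P] (O : V → Obs P S one) (W : V → Obs P (Ω → S) one)
    (hOW : ∀ (z : V) (ω : Ω) (E : Set S), (W z).f {π | π ω ∈ E} = (O (z + ω)).f E)
    (hforb : ∀ z : V, (W z).f {π | ¬ ∃ x ∈ X.car, ∀ ω : Ω, π ω = x ω} = zero)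
    (hcom : ∀ (z z' : V) (E E' : Set S), Com ((O z).f E) ((O z').f E')) :
    ∃ Φ : Set X.Pt → P, Φ Set.univ = one ∧
      (∀ U U', Loc U → Loc U' → Disjoint U U' →
        orth (Φ U) (Φ U') ∧ Φ (U ∪ U') = add (Φ U) (Φ U')) ∧
      (∀ (z : V) (E : Set S), Φ {x | x.1 z ∈ E} = (O z).f E) ∧
      ∀ (z : V) (E : Set (Ω → S)), Φ {x | (fun ω : Ω => x.1 (z + ω)) ∈ E} = (W z).f E := by
  classical
  have hfin : ∀ r, Finite (box r) := fun r => (box_finite r).to_subtype
  choose J hJ _ using fun r : ℕ =>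
    Obs.exists_pi (fun i : box r => O i) fun i j A B => hcom i j A B
  have hres : ∀ {r s : ℕ} (h : r ≤ s) (B : Set (box r → S)),
      (J r).f B = (J s).f {π | (fun i : box r => π ⟨i, box_mono h i.2⟩) ∈ B} :=
    fun {r s} h B => compat (fun i : box r => (⟨i, box_mono h i.2⟩ : box s))
      (fun i A => by rw [hJ, hJ]) B
  have hbox : ∀ z : V, ∃ r, ∀ ω : Ω, z + ω ∈ box r := fun z => by
    obtain ⟨r, hr⟩ := exists_box_of_finite (Set.finite_range fun ω : Ω => z + ω)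
    exact ⟨r, fun ω => hr ⟨ω, rfl⟩⟩
  have hwin : ∀ {z : V} {s : ℕ} (h : ∀ ω : Ω, z + ω ∈ box s) (B : Set (Ω → S)),
      (W z).f B = (J s).f {π | (fun ω : Ω => π ⟨z + ω, h ω⟩) ∈ B} :=
    fun {z s} h B => compat (fun ω : Ω => (⟨z + ω, h ω⟩ : box s)) (fun i A => by rw [hOW, hJ]) B
  -- patterns which do not occur are null
  have hnull : ∀ r, (J r).f {π | ¬ ∃ x : X.Pt, ∀ i : box r, π i = x.1 i} = zero := fun r => by
    refine (J r).eq_zero_of_singleton fun π hπ => ?_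
    by_contra h0
    have hk : ∀ k, ∃ π' : box (r + k) → S,
        (∀ i : box r, π' ⟨i, box_mono (Nat.le_add_right r k) i.2⟩ = π i) ∧
          (J (r + k)).f {π'} ≠ zero := fun k => by
      by_contra hc
      refine h0 ?_
      rw [hres (Nat.le_add_right r k)]
      refine (J (r + k)).eq_zero_of_singleton fun π' hπ' => ?_
      by_contra h1
      exact hc ⟨π', fun i => congrFun hπ' i, h1⟩
    choose π' h1 h2 using hk
    obtain ⟨y, hy⟩ := exists_cluster fun k w =>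
      if h : w ∈ box (r + k) then π' k ⟨w, h⟩ else π ⟨0, zero_mem_box r⟩
    refine hπ ⟨⟨y, hS y fun z => ?_⟩, fun i => ?_⟩
    · obtain ⟨s, hs⟩ := hbox z
      obtain ⟨k, hk, hyk⟩ := hy s s
      have hs' : ∀ ω : Ω, z + ω ∈ box (r + k) := fun ω => box_mono (by omega) (hs ω)
      have : ∃ x ∈ X.car, ∀ ω : Ω, π' k ⟨z + ω, hs' ω⟩ = x ω := by
        by_contra hc
        refine h2 k (eq_zero_of_le ?_)
        rw [← hforb z, hwin hs']
        exact (J (r + k)).mono (Set.singleton_subset_iff.2 hc)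
      obtain ⟨x, hx, hxe⟩ := this
      refine ⟨x, hx, fun ω hω => ?_⟩
      rw [hyk _ (hs ⟨ω, hω⟩), dif_pos (hs' ⟨ω, hω⟩)]
      exact hxe ⟨ω, hω⟩
    · obtain ⟨k, -, hyk⟩ := hy r 0
      change π i = y i
      rw [hyk _ i.2, dif_pos (box_mono (Nat.le_add_right r k) i.2), h1]
  let im : ∀ r : ℕ, Set X.Pt → Set (box r → S) := fun r U =>
    {π | ∃ x ∈ U, ∀ i : box r, π i = x.1 i}
  have him : ∀ (r : ℕ) (U : Set X.Pt) (B : Set (box r → S)),
      (∀ x : X.Pt, x ∈ U ↔ (fun i : box r => x.1 i) ∈ B) → (J r).f (im r U) = (J r).f B := by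
    intro r U B h
    refine (J r).eq_of_null (hnull r) ?_ ?_
    · rintro π ⟨x, hx, e⟩
      exact Or.inl ((funext e : π = fun i : box r => x.1 i) ▸ (h x).1 hx)
    · intro π hπ
      by_cases hc : ∃ x : X.Pt, ∀ i : box r, π i = x.1 i
      · obtain ⟨x, e⟩ := hc
        exact Or.inl ⟨x, (h x).2 ((funext e : π = fun i : box r => x.1 i) ▸ hπ), e⟩
      · exact Or.inr hc
  have hup : ∀ {r s : ℕ} {U : Set X.Pt}, (∀ x y, Agree (box r) x y → x ∈ U → y ∈ U) → r ≤ s →
      (J r).f (im r U) = (J s).f (im s U) := fun {r s U} hU h => by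
    rw [hres h, him s U]
    exact fun x => ⟨fun hx => ⟨x, hx, fun _ => rfl⟩, fun ⟨y, hy, e⟩ =>
      hU y x (fun w hw => (e ⟨w, hw⟩).symm) hy⟩
  let Φ : Set X.Pt → P := fun U =>
    if h : Loc U then (J h.choose).f (im h.choose U) else zero
  have hΦ : ∀ (s : ℕ) (U : Set X.Pt), (∀ x y, Agree (box s) x y → x ∈ U → y ∈ U) →
      Φ U = (J s).f (im s U) := fun s U hU => by
    have h : Loc U := ⟨s, hU⟩
    simp only [Φ, dif_pos h]
    rw [hup h.choose_spec (le_max_left _ s), hup hU (le_max_right h.choose s)]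
  refine ⟨Φ, ?_, ?_, fun z E => ?_, fun z E => ?_⟩
  · rw [hΦ 0 _ fun _ _ _ h => h, him 0 Set.univ Set.univ fun _ => Iff.rfl, Obs.univ]
  · rintro U U' ⟨r, hr⟩ ⟨r', hr'⟩ hd
    have h1 : ∀ x y, Agree (box (max r r')) x y → x ∈ U → y ∈ U := fun x y h =>
      hr x y (h.mono (box_mono (le_max_left _ _)))
    have h2 : ∀ x y, Agree (box (max r r')) x y → x ∈ U' → y ∈ U' := fun x y h =>
      hr' x y (h.mono (box_mono (le_max_right _ _)))
    have hd' : Disjoint (im (max r r') U) (im (max r r') U') := by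
      rw [Set.disjoint_left]
      rintro π ⟨x, hx, e⟩ ⟨y, hy, e'⟩
      exact Set.disjoint_left.1 hd
        (h1 x y (fun w hw => (e ⟨w, hw⟩).symm.trans (e' ⟨w, hw⟩)) hx) hy
    have hu : im (max r r') (U ∪ U') = im (max r r') U ∪ im (max r r') U' := by
      ext π
      constructor
      · rintro ⟨x, hx | hx, e⟩
        exacts [Or.inl ⟨x, hx, e⟩, Or.inr ⟨x, hx, e⟩]
      · rintro (⟨x, hx, e⟩ | ⟨x, hx, e⟩)
        exacts [⟨x, Or.inl hx, e⟩, ⟨x, Or.inr hx, e⟩]
    rw [hΦ _ U h1, hΦ _ U' h2, hΦ (max r r') (U ∪ U') fun x y h hx =>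
      hx.imp (h1 x y h) (h2 x y h), hu]
    exact ⟨(J _).orth hd', (J _).add hd'⟩
  · obtain ⟨s, hs⟩ := exists_mem_box z
    rw [hΦ s _ fun x y h hx => by
      change y.1 z ∈ E
      rw [← h z hs]; exact hx,
      him s {x | x.1 z ∈ E} {π | π ⟨z, hs⟩ ∈ E} fun _ => Iff.rfl, hJ]
  · obtain ⟨s, hs⟩ := hbox z
    rw [hΦ s _ fun x y h hx => by
      change (fun ω : Ω => y.1 (z + ω)) ∈ E
      rw [← funext fun ω : Ω => h _ (hs ω)]; exact hx, hwin hs]
    exact him s _ _ fun _ => Iff.rfl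

end Crest.Agent.R189
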