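import Crest.Agent.R189.Proj
import Crest.Agent.R189.Phi

/-! Row 189: in a centreless model the permutations of sheets above clopen sets lift. -/

set_option autoImplicit false

namespace Crest.Agent.R189

open Equiv Pointwise

namespace ToLoc3Aux

open ProjAux

variable {S : Type} {X : Sub S} {Ω : Finset V} {h0 : 0 ∈ Ω} {n : ℕ} {Γ : Type} [Group Γ]

theorem exists_const (hn : 50 ≤ n) {I : Finset (Fin n)} (hI : I.card ≤ 32) (v : V) :
    ∃ δ : D n, ∀ i ∈ I, δ.1 i = v :=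
  exists_D I (by omega) fun _ => v

theorem exists_const1 (hn : 50 ≤ n) {a : Perm (Fin n)} (ha : Sm a) (v : V) :
    ∃ δ : D n, ∀ i, a i ≠ i → δ.1 i = v := by
  obtain ⟨δ, hδ⟩ := exists_const hn (I := a.support) (ha.2.trans (by norm_num)) v
  exact ⟨δ, fun i hi => hδ i (Perm.mem_support.2 hi)⟩

theorem exists_const2 (hn : 50 ≤ n) {a b : Perm (Fin n)} (ha : Sm a) (hb : Sm b) (v : V) :
    ∃ δ : D n, ∀ i ∈ a.support ∪ b.support, δ.1 i = v :=
  exists_const hn ((Finset.card_union_le _ _).trans (by have := ha.2; have := hb.2; omega)) v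

/-- the projections attached to a window -/
theorem exists_pr (M : Model X Ω h0 n Γ) (hn : 50 ≤ n) (z : V) (E : Set (Ω → S)) :
    ∃ p : Pr M, ∀ (a : Perm (Fin n)) (ha : Sm a) (δ : D n), (∀ i, a i ≠ i → δ.1 i = -z) →
      p.f a = M.τ δ * M.Λ (ind E ⟨a, ha.1⟩) * (M.τ δ)⁻¹ := by
  classical
  have hex : ∀ a : Perm (Fin n), ∃ γ : Γ, (¬ Sm a → γ = 1) ∧
      ∀ (ha : Sm a) (δ : D n), (∀ i, a i ≠ i → δ.1 i = -z) →
        γ = M.τ δ * M.Λ (ind E ⟨a, ha.1⟩) * (M.τ δ)⁻¹ := by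
    intro a
    by_cases ha : Sm a
    · obtain ⟨δ, hδ⟩ := exists_const1 hn ha (-z)
      refine ⟨M.τ δ * M.Λ (ind E ⟨a, ha.1⟩) * (M.τ δ)⁻¹, fun h => absurd ha h, fun _ δ' hδ' => ?_⟩
      exact M.conj_congr E ⟨a, ha.1⟩ fun i hi => (hδ i hi).trans (hδ' i hi).symm
    · exact ⟨1, fun _ => rfl, fun h => absurd h ha⟩
  choose f hjunk hf using hex
  refine ⟨⟨f, hjunk, ?_, ?_, ?_⟩, hf⟩
  · intro a b ha hb hc
    have ha' : a ∈ AltOn (a.support ∪ b.support) := mem_left ha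
    have hb' : b ∈ AltOn (a.support ∪ b.support) := mem_right hb
    have sa := Sm.of_AltOn ha' hc
    have sb := Sm.of_AltOn hb' hc
    have sab := Sm.of_AltOn (mul_mem ha' hb') hc
    obtain ⟨δ, hδ⟩ := exists_const2 hn sa sb (-z)
    rw [hf a sa δ fun i hi => hδ i (supp_of ha' (Perm.mem_support.2 hi)),
      hf b sb δ fun i hi => hδ i (supp_of hb' (Perm.mem_support.2 hi)),
      hf (a * b) sab δ fun i hi => hδ i (supp_of (mul_mem ha' hb') (Perm.mem_support.2 hi))]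
    have e : (⟨a * b, sab.1⟩ : alternatingGroup (Fin n)) = ⟨a, sa.1⟩ * ⟨b, sb.1⟩ := rfl
    rw [e, ind_mul, map_mul]
    group
  · intro c a hc
    by_cases ha : Sm a
    · obtain ⟨δ, hδ⟩ := exists_const1 hn ha (-z)
      obtain ⟨δ', hδ'⟩ := exists_D_perm c δ
      rw [hf a ha δ hδ, hf _ ((Sm.conj c).2 ha) δ' ?_]
      · exact M.κ_conj E ⟨c, hc⟩ ⟨a, ha.1⟩ hδ'
      · intro i hi
        obtain ⟨j, rfl⟩ := c.surjective i
        rw [hδ', hδ j]
        intro hj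
        apply hi
        simp [hj]
    · rw [hjunk a ha, hjunk _ (mt (Sm.conj c).1 ha), mul_one, mul_inv_cancel]
  · intro a I _ hI
    by_cases ha : Sm a
    · obtain ⟨δ, hδ⟩ := exists_const1 hn ha (-z)
      rw [hf a ha δ hδ]
      exact Subgroup.subset_closure ⟨δ, E, ⟨a, ha.1⟩, hI, rfl⟩
    · rw [hjunk a ha]; exact one_mem _

theorem τ_κ (M : Model X Ω h0 n Γ) {a : Perm (Fin n)} (ha : a ∈ alternatingGroup (Fin n))
    {δ : D n} {v : V} (hδ : ∀ i, a i ≠ i → δ.1 i = v) :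
    M.τ δ * M.κ a * (M.τ δ)⁻¹ = M.κ a := by
  have h := M.act ⟨a, ha⟩ δ δ fun i => by
    change δ.1 (a i) = δ.1 i
    by_cases hi : a i = i
    · rw [hi]
    · rw [hδ i hi, hδ (a i) fun e => hi (a.injective e)]
  rw [← M.κ_eq] at h
  change M.κ a * M.τ δ * (M.κ a)⁻¹ = M.τ δ at h
  rw [mul_inv_eq_iff_eq_mul] at h ⊢
  exact h.symm

/-- translations vanishing on the support commute with the values of a projection -/
theorem τ_commute_pr {M : Model X Ω h0 n Γ} (hn : 50 ≤ n) (p : Pr M) {a : Perm (Fin n)}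
    (ha : Sm a) (η : D n) (hη : ∀ i ∈ a.support, η.1 i = 0) : Commute (M.τ η) (p.f a) := by
  refine D_induction a.support (fun η => Commute (M.τ η) (p.f a)) ?_ ?_ ?_ η hη
  · rw [M.τ_zero]; exact Commute.one_left _
  · intro δ δ' h h'
    rw [M.τ_add]; exact h.mul_left h'
  · intro δ i j v hi hj _ e
    obtain ⟨I, i1, -, i3, i4⟩ := ha.exists_AltOn {i, j} (by
      rw [Finset.disjoint_insert_right, Finset.disjoint_singleton_right]; exact ⟨hi, hj⟩)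
      (by have := Finset.card_le_two (a := i) (b := j); omega)
    refine M.τ_commute_GI (I := I) (fun k hk => ?_) (p.mem a I i1 (supp_of i3))
    have hk' := Finset.disjoint_left.1 i4 hk
    simp only [Finset.mem_insert, Finset.mem_singleton, not_or] at hk'
    rw [e, Pi.sub_apply, Pi.single_eq_of_ne hk'.1, Pi.single_eq_of_ne hk'.2, sub_zero]

section romp
variable {M : Model X Ω h0 n Γ} [ROMP (Pr M)]

theorem one_f (hP : PrSpec M) {a : Perm (Fin n)} (ha : Sm a) :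
    (ROMP.one : Pr M).f a = M.κ a := by
  rw [ROMP.one, hP.compl _ a ha, hP.zero, inv_one, mul_one]

/-- the window observables -/
theorem exists_W (hP : PrSpec M) (hn : 50 ≤ n) (z : V) :
    ∃ W : Obs (Pr M) (Ω → S) ROMP.one, ∀ (E : Set (Ω → S)) (a : Perm (Fin n)) (ha : Sm a)
      (δ : D n), (∀ i, a i ≠ i → δ.1 i = -z) →
      (W.f E).f a = M.τ δ * M.Λ (ind E ⟨a, ha.1⟩) * (M.τ δ)⁻¹ := by
  choose p hp using exists_pr M hn z
  have horth : ∀ {A B : Set (Ω → S)}, Disjoint A B → ROMP.orth (p A) (p B) := by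
    intro A B hAB
    refine (hP.orth _ _).2 fun a b => ?_
    by_cases ha : Sm a
    swap
    · rw [(p A).junk a ha]; exact Commute.one_left _
    by_cases hb : Sm b
    swap
    · rw [(p B).junk b hb]; exact Commute.one_right _
    obtain ⟨δ, hδ⟩ := exists_const2 hn ha hb (-z)
    rw [hp A a ha δ fun i hi => hδ i (Finset.mem_union_left _ (Perm.mem_support.2 hi)),
      hp B b hb δ fun i hi => hδ i (Finset.mem_union_right _ (Perm.mem_support.2 hi))]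
    exact ((ind_commute_of_disjoint hAB _ _).map M.Λ).map (MulAut.conj (M.τ δ))
  refine ⟨⟨p, ?_, horth, fun {A B} hAB => ?_⟩, hp⟩
  · ext a
    by_cases ha : Sm a
    · obtain ⟨δ, hδ⟩ := exists_const1 hn ha (-z)
      rw [hp _ a ha δ hδ, one_f hP ha, ind_univ, ← M.κ_eq]
      exact τ_κ M ha.1 hδ
    · rw [(p _).junk a ha, (ROMP.one : Pr M).junk a ha]
  · ext a
    by_cases ha : Sm a
    · obtain ⟨δ, hδ⟩ := exists_const1 hn ha (-z)
      rw [hP.add _ _ (horth hAB), hp _ a ha δ hδ, hp _ a ha δ hδ, hp _ a ha δ hδ, ind_union hAB,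
        map_mul]
      group
    · rw [(p _).junk a ha, (ROMP.add (p A) (p B)).junk a ha]

/-- the Boolean homomorphism -/
theorem exists_Φ [Finite S] (hP : PrSpec M) (hn : 50 ≤ n) (hS : SFT X Ω) (hR : Rigid X Ω) :
    ∃ Φ : Set X.Pt → Pr M, Φ Set.univ = ROMP.one ∧
      (∀ U U', Loc U → Loc U' → Disjoint U U' →
        ROMP.orth (Φ U) (Φ U') ∧ Φ (U ∪ U') = ROMP.add (Φ U) (Φ U')) ∧
      (∀ (z : V) (E : Set S) (a : Perm (Fin n)) (ha : Sm a) (δ : D n),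
        (∀ i, a i ≠ i → δ.1 i = -z) → (Φ {x | x.1 z ∈ E}).f a =
          M.τ δ * M.Λ (ind {π | π ⟨0, h0⟩ ∈ E} ⟨a, ha.1⟩) * (M.τ δ)⁻¹) ∧
      ∀ (E : Set (Ω → S)) (a : Perm (Fin n)) (ha : Sm a),
        (Φ {x | (fun ω : Ω => x.1 (0 + ω)) ∈ E}).f a = M.Λ (ind E ⟨a, ha.1⟩) := by
  choose W hW using exists_W hP hn
  let O : V → Obs (Pr M) S ROMP.one := fun z => (W z).map fun π => π ⟨0, h0⟩
  have hO : ∀ z E, (O z).f E = (W z).f {π | π ⟨0, h0⟩ ∈ E} := fun _ _ => rfl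
  have hOW : ∀ (z : V) (ω : Ω) (E : Set S), (W z).f {π | π ω ∈ E} = (O (z + ω)).f E := by
    intro z ω E
    rw [hO]
    ext a
    by_cases ha : Sm a
    · obtain ⟨δ, hδ⟩ := exists_const1 hn ha (-z)
      obtain ⟨η, hη⟩ := exists_const1 hn ha (-ω.1)
      rw [hW z _ a ha δ hδ, hW (z + ω) _ a ha (δ + η) fun i hi => by
        change δ.1 i + η.1 i = _
        rw [hδ i hi, hη i hi, neg_add], ← M.shift ω E ⟨a, ha.1⟩ η hη, M.τ_add]
      group
    · rw [Pr.junk _ a ha, Pr.junk _ a ha]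
  have hforb : ∀ z : V, (W z).f {π | ¬ ∃ x ∈ X.car, ∀ ω : Ω, π ω = x ω} = ROMP.zero := by
    intro z
    ext a
    by_cases ha : Sm a
    · obtain ⟨δ, hδ⟩ := exists_const1 hn ha (-z)
      rw [hW z _ a ha δ hδ, M.forb, hP.zero, mul_one, mul_inv_cancel]
    · rw [Pr.junk _ a ha, Pr.junk _ a ha]
  obtain ⟨Φ, h1, h2, h3, h4⟩ := exists_phi hS O W hOW hforb (hR (Pr M) O W hOW hforb)
  refine ⟨Φ, h1, h2, fun z E a ha δ hδ => ?_, fun E a ha => ?_⟩
  · rw [h3, hO, hW z _ a ha δ hδ]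
  · rw [h4, hW 0 E a ha 0 fun i _ => by simp, M.τ_zero, one_mul, inv_one, mul_one]

variable {Φ : Set X.Pt → Pr M}

theorem Φ_compl (hP : PrSpec M) (h1 : Φ Set.univ = ROMP.one)
    (h2 : ∀ U U', Loc U → Loc U' → Disjoint U U' →
      ROMP.orth (Φ U) (Φ U') ∧ Φ (U ∪ U') = ROMP.add (Φ U) (Φ U'))
    {U : Set X.Pt} (hU : Loc U) {a : Perm (Fin n)} (ha : Sm a) :
    (Φ Uᶜ).f a = M.κ a * ((Φ U).f a)⁻¹ := by
  obtain ⟨h3, h4⟩ := h2 U Uᶜ hU hU.compl disjoint_compl_right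
  rw [Set.union_compl_self, h1] at h4
  rw [ROMP.eq_compl_of_add h3 h4.symm, hP.compl _ a ha]

theorem Φ_comm (hP : PrSpec M)
    (h2 : ∀ U U', Loc U → Loc U' → Disjoint U U' →
      ROMP.orth (Φ U) (Φ U') ∧ Φ (U ∪ U') = ROMP.add (Φ U) (Φ U'))
    {U U' : Set X.Pt} (hU : Loc U) (hU' : Loc U') {I : Finset (Fin n)} (hI : I.card ≤ 16)
    {g h : Perm (Fin n)} (hg : g ∈ AltOn I) (hh : h ∈ AltOn I) :
    (Φ (U ∩ U')).f (g * h * g⁻¹ * h⁻¹) =
      (Φ U).f g * (Φ U').f h * ((Φ U).f g)⁻¹ * ((Φ U').f h)⁻¹ := by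
  obtain ⟨hrp, e1⟩ := h2 (U ∩ U') (U \ U') (hU.inter hU') (hU.diff hU')
    (Set.disjoint_sdiff_right.mono_left Set.inter_subset_right)
  obtain ⟨hrq, e2⟩ := h2 (U ∩ U') (U' \ U) (hU.inter hU') (hU'.diff hU)
    (Set.disjoint_sdiff_right.mono_left Set.inter_subset_left)
  obtain ⟨hpq, -⟩ := h2 (U \ U') (U' \ U) (hU.diff hU') (hU'.diff hU) disjoint_sdiff_sdiff
  rw [Set.inter_union_sdiff] at e1
  rw [Set.inter_comm U U', Set.inter_union_sdiff, Set.inter_comm U' U] at e2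
  rw [e1, e2, hP.add _ _ hrp, hP.add _ _ hrq, f_comm _ hI hg hh]
  rw [hP.orth] at hrp hrq hpq
  generalize Φ (U ∩ U') = r at *
  generalize Φ (U \ U') = p at *
  generalize Φ (U' \ U) = q at *
  have e1 : p.f g * (r.f h * q.f h) = (r.f h * q.f h) * p.f g :=
    ((hrp h g).symm.mul_right (hpq g h)).eq
  have e2 : q.f h * (r.f g)⁻¹ = (r.f g)⁻¹ * q.f h := (hrq g h).symm.inv_right.eq
  symm
  calc r.f g * p.f g * (r.f h * q.f h) * (r.f g * p.f g)⁻¹ * (r.f h * q.f h)⁻¹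
      = r.f g * (p.f g * (r.f h * q.f h)) * (r.f g * p.f g)⁻¹ * (r.f h * q.f h)⁻¹ := by group
    _ = r.f g * r.f h * (q.f h * (r.f g)⁻¹) * (r.f h * q.f h)⁻¹ := by rw [e1]; group
    _ = _ := by rw [e2]; group

theorem Φ_θ [Finite S] (hP : PrSpec M) (hn : 50 ≤ n) (h1 : Φ Set.univ = ROMP.one)
    (h2 : ∀ U U', Loc U → Loc U' → Disjoint U U' →
      ROMP.orth (Φ U) (Φ U') ∧ Φ (U ∪ U') = ROMP.add (Φ U) (Φ U'))
    (h3 : ∀ (z : V) (E : Set S) (a : Perm (Fin n)) (ha : Sm a) (δ : D n),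
      (∀ i, a i ≠ i → δ.1 i = -z) → (Φ {x | x.1 z ∈ E}).f a =
        M.τ δ * M.Λ (ind {π | π ⟨0, h0⟩ ∈ E} ⟨a, ha.1⟩) * (M.τ δ)⁻¹) :
    ∀ U, Loc U → ∀ a, Sm a → M.θ ((Φ U).f a) = ap U a := by
  refine Loc.induction _ (fun z E a ha => ?_) (fun U hU ih a ha => ?_)
    fun U U' hU hU' ih ih' a ha => ?_
  · obtain ⟨δ, hδ⟩ := exists_const1 hn ha (-z)
    rw [h3 z E a ha δ hδ, map_mul, map_mul, map_inv, M.θ_τ, M.θ_ind, tr_ap_shift _ _ hδ]
    congr 1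
    ext x
    rw [mem_vadd_iff, neg_neg]
    change x.1 (0 + z) ∈ E ↔ x.1 z ∈ E
    rw [zero_add]
  · rw [Φ_compl hP h1 h2 hU ha, map_mul, map_inv, ih a ha, M.θ_κ ha.1,
      ← Set.compl_union_self U, ap_union disjoint_compl_left, mul_inv_cancel_right]
  · obtain ⟨I, i1, i2, i3⟩ := exists_I1 (by omega) ha
    refine AltOn.comm_induction i1 (fun a => M.θ ((Φ (U ∩ U')).f a) = ap (U ∩ U') a) ?_ ?_ ?_ a i3
    · rw [f_one, map_one, ap_one]
    · intro g hg h hh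
      rw [Φ_comm hP h2 hU hU' i2 hg hh, ← ap_comm_inter, map_mul, map_mul, map_mul, map_inv,
        map_inv, ih g (Sm.of_AltOn hg i2), ih' h (Sm.of_AltOn hh i2)]
    · intro g hg h hh e1 e2
      rw [f_mul _ i2 hg hh, map_mul, e1, e2, ap_mul]

theorem Φ_shift [Finite S] (hP : PrSpec M) (hn : 50 ≤ n) (h1 : Φ Set.univ = ROMP.one)
    (h2 : ∀ U U', Loc U → Loc U' → Disjoint U U' →
      ROMP.orth (Φ U) (Φ U') ∧ Φ (U ∪ U') = ROMP.add (Φ U) (Φ U'))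
    (h3 : ∀ (z : V) (E : Set S) (a : Perm (Fin n)) (ha : Sm a) (δ : D n),
      (∀ i, a i ≠ i → δ.1 i = -z) → (Φ {x | x.1 z ∈ E}).f a =
        M.τ δ * M.Λ (ind {π | π ⟨0, h0⟩ ∈ E} ⟨a, ha.1⟩) * (M.τ δ)⁻¹)
    {I : Finset (Fin n)} (i1 : 5 ≤ I.card) (i2 : I.card ≤ 16) {δ : D n} {v : V}
    (hδ : ∀ i ∈ I, δ.1 i = v) :
    ∀ U, Loc U → ∀ a ∈ AltOn I, M.τ δ * (Φ U).f a * (M.τ δ)⁻¹ = (Φ (v +ᵥ U)).f a := by
  refine Loc.induction _ (fun z E a ha => ?_) (fun U hU ih a ha => ?_)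
    fun U U' hU hU' ih ih' => ?_
  · have sa := Sm.of_AltOn ha i2
    obtain ⟨η, hη⟩ := exists_const1 hn sa (-z)
    have e : v +ᵥ {x : X.Pt | x.1 z ∈ E} = {x : X.Pt | x.1 (z + -v) ∈ E} := by
      ext x
      rw [mem_vadd_iff]
      rfl
    rw [e, h3 z E a sa η hη, h3 (z + -v) E a sa (δ + η) fun i hi => by
      change δ.1 i + η.1 i = _
      rw [hδ i (supp_of ha (Perm.mem_support.2 hi)), hη i hi]; abel, M.τ_add]
    group
  · have sa := Sm.of_AltOn ha i2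
    rw [Set.vadd_set_compl, Φ_compl hP h1 h2 hU sa, Φ_compl hP h1 h2 (hU.vadd v) sa, ← ih a ha]
    conv_rhs => rw [← τ_κ M sa.1 (δ := δ) fun i hi => hδ i (supp_of ha (Perm.mem_support.2 hi))]
    group
  · refine AltOn.comm_induction i1
      (fun a => M.τ δ * (Φ (U ∩ U')).f a * (M.τ δ)⁻¹ = (Φ (v +ᵥ (U ∩ U'))).f a) ?_ ?_ ?_
    · rw [f_one, f_one, mul_one, mul_inv_cancel]
    · intro g hg h hh
      rw [Set.vadd_set_inter, Φ_comm hP h2 hU hU' i2 hg hh,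
        Φ_comm hP h2 (hU.vadd v) (hU'.vadd v) i2 hg hh, ← ih g hg, ← ih' h hh]
      group
    · intro g hg h hh e1 e2
      rw [f_mul _ i2 hg hh, f_mul _ i2 hg hh, ← e1, ← e2]
      group

end romp

end ToLoc3Aux

open ToLoc3Aux ProjAux in
theorem exists_loc3 {S : Type} [Finite S] {X : Sub S} {Ω : Finset V} {h0 : 0 ∈ Ω} {n : ℕ}
    {Γ : Type} [Group Γ] (M : Model X Ω h0 n Γ) (hn : 50 ≤ n) (hZ : Subgroup.center Γ = ⊥)
    (hS : SFT X Ω) (hR : Rigid X Ω) : ∃ L : Loc3 X n Γ, L.θ = M.θ := by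
  obtain ⟨R, hP⟩ := exists_romp M hn hZ
  obtain ⟨Φ, h1, h2, h3, h4⟩ := exists_Φ hP hn hS hR
  refine ⟨{
    τ := M.τ
    A := fun U a => (Φ U).f a
    θ := M.θ
    τ_add := M.τ_add
    θ_τ := M.θ_τ
    θ_A := fun U a hU ha => Φ_θ hP hn h1 h2 h3 U hU a ha
    mul := fun U a b _ ha hb hc => (Φ U).mul a b ha hb hc
    add := fun U U' a hU hU' hd _ => by
      obtain ⟨e1, e2⟩ := h2 U U' hU hU' hd
      rw [e2, hP.add _ _ e1]
    orth := fun U U' a b hU hU' hd _ _ => (hP.orth _ _).1 (h2 U U' hU hU' hd).1 a b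
    disj := fun U U' a b _ _ ha hb hd => ?_
    shift := fun U a δ v hU ha hδ => ?_
    gen := ?_ }, rfl⟩
  · obtain ⟨I, i1, i2, i3, i4⟩ := ha.exists_AltOn b.support hd (by have := hb.2; omega)
    obtain ⟨J, j1, j2, j3, j4⟩ := hb.exists_AltOn I i4.symm (by omega)
    exact M.GI_commute j4.symm (by omega) _ ((Φ U).mem a I i1 (supp_of i3)) _
      ((Φ U').mem b J j1 (supp_of j3))
  · obtain ⟨I, i1, i2, i3⟩ := exists_I1 (by omega) ha
    obtain ⟨δ', hδ'⟩ := exists_const hn (I := I) (by omega) v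
    have hc := τ_commute_pr hn (Φ U) ha (δ - δ') fun i hi => by
      change δ.1 i - δ'.1 i = 0
      rw [hδ i (Perm.mem_support.1 hi), hδ' i (supp_of i3 hi), sub_self]
    have e : M.τ δ = M.τ δ' * M.τ (δ - δ') := by rw [← M.τ_add, add_sub_cancel]
    rw [← Φ_shift hP hn h1 h2 h3 i1 i2 hδ' U hU a i3, e, mul_assoc (M.τ δ'), hc.eq]
    group
  · refine M.eq_top (by omega) fun δ E a ha => Subgroup.subset_closure
      ⟨{x | (fun ω : Ω => x.1 (0 + ω)) ∈ E}, a.1, δ,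
        (LocF.pi fun ω : Ω => LocF.site (X := X) (0 + ω)).preimage E, ha, ?_⟩
    rw [h4 E a.1 (Sm.of_isThreeCycle ha)]

end Crest.Agent.R189
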