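import Crest.Agent.R189.KerFG
import Crest.Agent.R189.ToLoc3
import Crest.Agent.R189.FP0b
import Crest.Agent.R189.Present
import Crest.Agent.R189.AmenH
import Crest.Agent.R189.StabFin
import Crest.Agent.R189.Simple
import Crest.Agent.R189.Tile4
import Crest.Agent.R189.Tile5
import Crest.Agent.R189.Tile6

/-! Row 189: assembly. -/

set_option autoImplicit false

namespace Crest.Agent.R189

open Equiv Pointwise

section general
variable {S : Type} [Finite S] {X : Sub S} {n : ℕ}

theorem Model.center_le_ker {Ω : Finset V} {h0 : 0 ∈ Ω} {Γ : Type} [Group Γ]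
    (M : Model X Ω h0 n Γ) (hn : 50 ≤ n) (hG : Good X) : Subgroup.center Γ ≤ M.θ.ker := by
  intro γ hγ
  have hr := M.range (by omega)
  have hmem : M.θ γ ∈ Alt X n := hr ▸ ⟨γ, rfl⟩
  have hc : (⟨M.θ γ, hmem⟩ : Alt X n) ∈ Subgroup.center (Alt X n) := by
    rw [Subgroup.mem_center_iff]
    rintro ⟨g, hg⟩
    rw [← hr] at hg
    obtain ⟨g', rfl⟩ := hg
    apply Subtype.ext
    change M.θ g' * M.θ γ = M.θ γ * M.θ g'
    rw [← map_mul, ← map_mul, Subgroup.mem_center_iff.1 hγ g']
  rw [center_Alt (by omega) hG.nonempty hG.free hG.minimal, Subgroup.mem_bot] at hc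
  exact congrArg Subtype.val hc

theorem Model.ker_le_center {Ω : Finset V} {h0 : 0 ∈ Ω} {Γ : Type} [Group Γ]
    (M : Model X Ω h0 n Γ) (hn : 50 ≤ n) (hG : Good X) (hS : SFT X Ω) (hR : Rigid X Ω) :
    M.θ.ker ≤ Subgroup.center Γ := by
  have hle := M.center_le_ker hn hG
  obtain ⟨M', hM'⟩ := M.exists_quot (Subgroup.center Γ) hle
  have hZ := center_quot_center (M.perfect (by omega))
  obtain ⟨L, hL⟩ := exists_loc3 M' hn hZ hS hR
  have hk := L.ker_le_center hn hG.free
  rw [hZ, hL, hM'] at hk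
  intro γ hγ
  have : (QuotientGroup.mk γ : Γ ⧸ Subgroup.center Γ) ∈
      (QuotientGroup.lift (Subgroup.center Γ) M.θ hle).ker := by
    rw [MonoidHom.mem_ker, QuotientGroup.lift_mk]; exact hγ
  have h1 := hk this
  rw [Subgroup.mem_bot, QuotientGroup.eq_one_iff] at h1
  exact h1

theorem fp_Alt (hn : 50 ≤ n) (hG : Good X) : Group.IsFinitelyPresented (Alt X n) := by
  obtain ⟨Ω, h0, hS, hR⟩ := hG.sft
  obtain ⟨Γ, _, hfp, ⟨M⟩⟩ := exists_model X Ω h0 n
  have hr := M.range (by omega)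
  let E : CExt X n Γ := ⟨M.θ, hr, M.ker_le_center hn hG hS hR, M.perfect (by omega)⟩
  have hfg : M.θ.ker.FG := E.ker_fg hn hG
  have h1 : Group.IsFinitelyPresented M.θ.range := by
    refine Group.IsFinitelyPresented.of_surjective M.θ.rangeRestrict
      M.θ.rangeRestrict_surjective ?_
    rw [MonoidHom.ker_rangeRestrict]
    have : Group.FG M.θ.ker := (Group.fg_iff_subgroup_fg _).2 hfg
    exact Subgroup.IsFinitelyNormallyGenerated.of_FG _
  exact hr ▸ h1

theorem amenable_Alt (hG : Good X) : Crest.GroupTheory.Amenable (Alt X n) := by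
  classical
  obtain ⟨Y, hY, hZ⟩ := hG.cut false
  obtain ⟨Y', hY', hZ'⟩ := hG.cut true
  refine amenable_of_reiter (Ω := Set (Hat X n) × Set (Hat X n))
    {g : Alt X n | (g : Perm (Hat X n)) ∈ gens X n} ?_
    ({T | InS false Y T} ×ˢ {T | InS true Y' T}) ?_ ?_ ?_
  · exact Subgroup.closure_closure_coe_preimage
  · rintro g ⟨T, T'⟩ ⟨hT, hT'⟩
    exact ⟨InS.smul hG.free hY.1 hT g.2, InS.smul hG.free hY'.1 hT' g.2⟩
  · rintro ⟨T, T'⟩ ⟨hT, hT'⟩ F hF
    have hfin := finite_stab hG.free hY hY' hT hT' (F.image ((↑) : Alt X n → Perm (Hat X n)))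
      (by
        intro γ hγ
        obtain ⟨g, hg, rfl⟩ := Finset.mem_image.1 hγ
        exact ⟨g.2, congrArg Prod.fst (hF g hg), congrArg Prod.snd (hF g hg)⟩)
    have hmap : (Subgroup.closure (F : Set (Alt X n))).map (Alt X n).subtype =
        Subgroup.closure ((F.image ((↑) : Alt X n → Perm (Hat X n)) : Finset _) :
          Set (Perm (Hat X n))) := by
      rw [MonoidHom.map_closure, Finset.coe_image]; rfl
    rw [← hmap] at hfin
    exact Finite.of_equiv _
      ((Subgroup.closure (F : Set (Alt X n))).equivMapOfInjective (Alt X n).subtype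
        Subtype.val_injective).toEquiv.symm
  · intro F hF ε hε
    have hsub : ((F.image ((↑) : Alt X n → Perm (Hat X n)) : Finset _) :
        Set (Perm (Hat X n))) ⊆ gens X n := by
      intro γ hγ
      obtain ⟨g, hg, rfl⟩ := Finset.mem_image.1 (Finset.mem_coe.1 hγ)
      exact hF (Finset.mem_coe.2 hg)
    have h1 := ai_InS hG.free hY.1 hZ _ hsub (half_pos hε)
    have h2 := ai_InS hG.free hY'.1 hZ' _ hsub (half_pos hε)
    have h3 := h1.prod h2
    rw [add_halves] at h3
    exact AI.subgroup h3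

end general

theorem exists_good : ∃ X : Sub Sy, Good X := by
  obtain ⟨X, hX, hne, hM, Ω, h0, h1, h2, hS⟩ := exists_min_sft
  exact ⟨X, hne, free_of_subset hX, hM, ⟨Ω, h0, hS, rigid_of_subset X hX Ω h0 h1 h2⟩,
    rank_of_subset hX, hb_of_subset hX, cut_of_subset hX⟩

theorem main : ∃ (G : Type) (_ : Group G), Infinite G ∧ Group.IsFinitelyPresented G ∧
    IsSimpleGroup G ∧ Crest.GroupTheory.Amenable G := by
  obtain ⟨X, hG⟩ := exists_good
  exact ⟨Alt X 50, inferInstance, infinite_Alt (by norm_num) hG.nonempty hG.free,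
    fp_Alt le_rfl hG, simple_Alt (by norm_num) hG.nonempty hG.free hG.minimal, amenable_Alt hG⟩

end Crest.Agent.R189
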