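import Crest.Agent.R189.LGrp

/-! Row 189: basic facts on models of the presentation. -/

set_option autoImplicit false

namespace Crest.Agent.R189

open Equiv

variable {S : Type} {X : Sub S} {Ω : Finset V} {h0 : 0 ∈ Ω} {n : ℕ} {Γ : Type} [Group Γ]

theorem ind_mul {α G : Type} [Group G] (E : Set α) (a b : G) :
    ind E (a * b) = ind E a * ind E b := by
  funext x
  by_cases hx : x ∈ E <;> simp [ind, hx]

theorem ind_one {α G : Type} [Group G] (E : Set α) : ind E (1 : G) = 1 := by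
  funext x
  simp [ind]

theorem ind_univ {α G : Type} [Group G] (a : G) : ind (Set.univ : Set α) a = fun _ => a := by
  funext x
  simp [ind]

theorem ind_empty {α G : Type} [Group G] (a : G) : ind (∅ : Set α) a = 1 := by
  funext x
  simp [ind]

theorem ind_union {α G : Type} [Group G] {E E' : Set α} (h : Disjoint E E') (a : G) :
    ind (E ∪ E') a = ind E a * ind E' a := by
  funext x
  have : x ∈ E → x ∉ E' := fun hx => Set.disjoint_left.1 h hx
  by_cases hx : x ∈ E <;> by_cases hx' : x ∈ E' <;> simp_all [ind]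

theorem ind_commute_of_disjoint {α G : Type} [Group G] {E E' : Set α} (h : Disjoint E E')
    (a b : G) : Commute (ind E a) (ind E' b) := by
  funext x
  have : x ∈ E → x ∉ E' := fun hx => Set.disjoint_left.1 h hx
  by_cases hx : x ∈ E <;> by_cases hx' : x ∈ E' <;> simp_all [ind]

theorem ind_commute {α G : Type} [Group G] (E E' : Set α) {a b : G} (h : Commute a b) :
    Commute (ind E a) (ind E' b) := by
  funext x
  by_cases hx : x ∈ E <;> by_cases hx' : x ∈ E' <;> simp [ind, hx, hx', h.eq]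

theorem exists_D_perm (c : Perm (Fin n)) (δ : D n) : ∃ δ' : D n, ∀ i, δ'.1 (c i) = δ.1 i := by
  refine ⟨⟨fun i => δ.1 (c⁻¹ i), ?_⟩, fun i => congrArg δ.1 (MsAux.inv_app c i)⟩
  exact (Equiv.sum_comp c⁻¹ δ.1).trans δ.2

theorem Sm.one : Sm (1 : Perm (Fin n)) := by
  exact ⟨one_mem _, by simp⟩

theorem Sm.inv {a : Perm (Fin n)} (h : Sm a) : Sm a⁻¹ := by
  exact ⟨inv_mem h.1, by rw [Perm.support_inv]; exact h.2⟩

theorem Sm.conj {a : Perm (Fin n)} (c : Perm (Fin n)) : Sm (c * a * c⁻¹) ↔ Sm a := by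
  unfold Sm
  rw [Perm.card_support_conj, Perm.mem_alternatingGroup, Perm.mem_alternatingGroup]
  refine and_congr_left fun _ => ?_
  rw [map_mul, map_mul, mul_right_comm, ← map_mul, mul_inv_cancel, map_one, one_mul]

theorem Sm.of_AltOn {a : Perm (Fin n)} {I : Finset (Fin n)} (ha : a ∈ AltOn I)
    (hI : I.card ≤ 16) : Sm a := by
  rw [mem_AltOn_iff] at ha
  exact ⟨ha.1, (Finset.card_le_card ha.2).trans hI⟩

theorem Sm.of_isThreeCycle {a : Perm (Fin n)} (ha : a.IsThreeCycle) : Sm a := by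
  exact ⟨ha.mem_alternatingGroup, by rw [ha.card_support]; norm_num⟩

/-- A small permutation lives on a set with between 5 and 16 points, avoiding a given set. -/
theorem Sm.exists_AltOn {a : Perm (Fin n)} (ha : Sm a) (J : Finset (Fin n))
    (hJ : Disjoint a.support J) (hn : J.card + 16 ≤ n) :
    ∃ I : Finset (Fin n), 5 ≤ I.card ∧ I.card ≤ 16 ∧ a ∈ AltOn I ∧ Disjoint I J := by
  obtain ⟨I, h1, h2, h3⟩ := Finset.exists_subsuperset_card_eq (s := a.support) (t := Jᶜ) (n := 16)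
    (Finset.subset_compl_comm.1 (by simpa using hJ.symm.le_compl_right)) ha.2
    (by rw [Finset.card_compl, Fintype.card_fin]; omega)
  exact ⟨I, by omega, h3.le, mem_AltOn_iff.2 ⟨ha.1, h1⟩,
    Finset.disjoint_left.2 fun x hx => Finset.mem_compl.1 (h2 hx)⟩

/-- Moving a set off another one. -/
theorem exists_alt_disjoint (I J : Finset (Fin n)) (h : I.card + J.card + 2 ≤ n) :
    ∃ c ∈ alternatingGroup (Fin n), Disjoint (I.image c) J := by
  have : Nonempty (Fin n) := ⟨⟨0, by omega⟩⟩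
  obtain ⟨f, hf, hinj⟩ := I.finite_toSet.exists_injOn_of_encard_le
    (t := ((Jᶜ : Finset (Fin n)) : Set (Fin n)))
    (by
      rw [Set.encard_coe_eq_coe_finsetCard, Set.encard_coe_eq_coe_finsetCard, Nat.cast_le,
        Finset.card_compl, Fintype.card_fin]
      omega)
  obtain ⟨c, hc, hcf⟩ := AltOn.exists_extend (Finset.subset_univ I)
    (by rw [Finset.card_univ, Fintype.card_fin]; omega) f hinj fun _ _ => Finset.mem_univ _
  refine ⟨c, (mem_AltOn_iff.1 hc).1, Finset.disjoint_left.2 fun x hx => ?_⟩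
  obtain ⟨y, hy, rfl⟩ := Finset.mem_image.1 hx
  rw [hcf y hy]
  exact Finset.mem_compl.1 (hf hy)

theorem ModelBAux.exists_hom (M : Model X Ω h0 n Γ) (δ : D n) (E : Set (Ω → S)) :
    ∃ φ : alternatingGroup (Fin n) →* Γ, ∀ a, φ a = M.τ δ * M.Λ (ind E a) * (M.τ δ)⁻¹ :=
  ⟨(MulAut.conj (M.τ δ)).toMonoidHom.comp (M.Λ.comp (MonoidHom.mk' (ind E) (ind_mul E))),
    fun _ => rfl⟩

namespace Model
variable (M : Model X Ω h0 n Γ)

theorem τ_zero : M.τ 0 = 1 := by
  have := M.τ_add 0 0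
  rw [add_zero] at this
  exact left_eq_mul.1 this

theorem τ_neg (δ : D n) : M.τ (-δ) = (M.τ δ)⁻¹ := by
  rw [eq_inv_iff_mul_eq_one, ← M.τ_add, neg_add_cancel, M.τ_zero]

theorem τ_commute (δ δ' : D n) : Commute (M.τ δ) (M.τ δ') := by
  rw [Commute, SemiconjBy, ← M.τ_add, ← M.τ_add, add_comm]

theorem κ_eq (a : alternatingGroup (Fin n)) : M.κ a = M.Λ fun _ => a := by
  rw [κ, dif_pos a.2]

theorem κ_one : M.κ 1 = 1 := by
  exact (M.κ_eq 1).trans (map_one M.Λ)

theorem κ_mul {a b : Perm (Fin n)} (ha : a ∈ alternatingGroup (Fin n))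
    (hb : b ∈ alternatingGroup (Fin n)) : M.κ (a * b) = M.κ a * M.κ b := by
  rw [M.κ_eq ⟨a, ha⟩, M.κ_eq ⟨b, hb⟩, ← map_mul]
  exact M.κ_eq (⟨a, ha⟩ * ⟨b, hb⟩)

theorem κ_inv (a : Perm (Fin n)) : M.κ a⁻¹ = (M.κ a)⁻¹ := by
  by_cases ha : a ∈ alternatingGroup (Fin n)
  · rw [eq_inv_iff_mul_eq_one, ← M.κ_mul (inv_mem ha) ha, inv_mul_cancel, M.κ_one]
  · rw [κ, κ, dif_neg ha, dif_neg (by rwa [inv_mem_iff]), inv_one]

theorem θ_κ {a : Perm (Fin n)} (ha : a ∈ alternatingGroup (Fin n)) :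
    M.θ (M.κ a) = ap Set.univ a := by
  rw [M.κ_eq ⟨a, ha⟩, M.θ_Λ, ap]
  simp

theorem θ_ind (E : Set (Ω → S)) (a : alternatingGroup (Fin n)) :
    M.θ (M.Λ (ind E a)) = ap {x : X.Pt | (fun ω : Ω => x.1 ω) ∈ E} a := by
  rw [M.θ_Λ, ap]
  congr 1
  funext x
  by_cases hx : (fun ω : Ω => x.1 ω) ∈ E <;> simp [ind, hx]

theorem conj_congr (E : Set (Ω → S)) (a : alternatingGroup (Fin n)) {δ δ' : D n}
    (h : ∀ i, a.1 i ≠ i → δ.1 i = δ'.1 i) :
    M.τ δ * M.Λ (ind E a) * (M.τ δ)⁻¹ = M.τ δ' * M.Λ (ind E a) * (M.τ δ')⁻¹ := by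
  have hc := M.comm E a (δ' - δ) fun i hi => sub_eq_zero.2 (h i hi).symm
  have e : M.τ δ' = M.τ δ * M.τ (δ' - δ) := by rw [← M.τ_add, add_sub_cancel]
  rw [e, mul_assoc (M.τ δ) (M.τ (δ' - δ)), ← hc.eq]
  group

theorem κ_conj (E : Set (Ω → S)) (c a : alternatingGroup (Fin n)) {δ δ' : D n}
    (h : ∀ i, δ'.1 (c.1 i) = δ.1 i) :
    M.κ c * (M.τ δ * M.Λ (ind E a) * (M.τ δ)⁻¹) * (M.κ c)⁻¹ =
      M.τ δ' * M.Λ (ind E (c * a * c⁻¹)) * (M.τ δ')⁻¹ := by
  have e : ind E (c * a * c⁻¹) = (fun _ => c) * ind E a * (fun _ => c)⁻¹ := by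
    funext x
    by_cases hx : x ∈ E <;> simp [ind, hx]
  rw [e, map_mul, map_mul, map_inv, ← M.act c δ δ' h, M.κ_eq]
  group

theorem GI_mono {I J : Finset (Fin n)} (h : I ⊆ J) : M.GI I ≤ M.GI J := by
  refine Subgroup.closure_mono ?_
  rintro _ ⟨δ, E, a, ha, rfl⟩
  exact ⟨δ, E, a, ha.trans h, rfl⟩

theorem κ_mem_GI {a : Perm (Fin n)} {I : Finset (Fin n)} (h : a.support ⊆ I) :
    M.κ a ∈ M.GI I := by
  by_cases ha : a ∈ alternatingGroup (Fin n)
  · refine Subgroup.subset_closure ⟨0, Set.univ, ⟨a, ha⟩, h, ?_⟩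
    rw [M.τ_zero, ind_univ, one_mul, inv_one, mul_one]
    exact M.κ_eq ⟨a, ha⟩
  · rw [κ, dif_neg ha]
    exact one_mem _

theorem GI_commute {I J : Finset (Fin n)} (h : Disjoint I J) (hc : I.card + J.card < n) :
    ∀ γ ∈ M.GI I, ∀ γ' ∈ M.GI J, Commute γ γ' := by
  intro γ hγ γ' hγ'
  induction hγ using Subgroup.closure_induction with
  | mem x hx =>
    induction hγ' using Subgroup.closure_induction with
    | mem y hy =>
      obtain ⟨δ, E, a, ha, rfl⟩ := hx
      obtain ⟨δ', E', a', ha', rfl⟩ := hy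
      obtain ⟨η, hη⟩ := exists_D (I ∪ J) ((Finset.card_union_le _ _).trans_lt hc)
        fun i => if i ∈ I then δ.1 i else δ'.1 i
      rw [M.conj_congr E a (δ' := η) fun i hi => by
          have hi' := ha (Perm.mem_support.2 hi)
          rw [hη i (Finset.mem_union_left _ hi'), if_pos hi'],
        M.conj_congr E' a' (δ := δ') (δ' := η) fun i hi => by
          have hi' := ha' (Perm.mem_support.2 hi)
          rw [hη i (Finset.mem_union_right _ hi'), if_neg (Finset.disjoint_right.1 h hi')]]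
      have hab : Commute a a' := Subtype.ext (Perm.Disjoint.commute
        (Perm.disjoint_iff_disjoint_support.2 (h.mono ha ha'))).eq
      exact ((ind_commute E E' hab).map M.Λ).map (MulAut.conj (M.τ η))
    | one => exact Commute.one_right _
    | mul _ _ _ _ h1 h2 => exact h1.mul_right h2
    | inv _ _ h1 => exact h1.inv_right
  | one => exact Commute.one_left _
  | mul _ _ _ _ h1 h2 => exact h1.mul_left h2
  | inv _ _ h1 => exact h1.inv_left

theorem κ_conj_mem_GI {c : Perm (Fin n)} (hc : c ∈ alternatingGroup (Fin n))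
    {I : Finset (Fin n)} {γ : Γ} (h : γ ∈ M.GI I) :
    M.κ c * γ * (M.κ c)⁻¹ ∈ M.GI (I.image c) := by
  refine (Subgroup.closure_le ((M.GI (I.image c)).comap (MulAut.conj (M.κ c)).toMonoidHom)).2 ?_ h
  rintro _ ⟨δ, E, a, ha, rfl⟩
  obtain ⟨δ', hδ⟩ := exists_D_perm c δ
  let c' : alternatingGroup (Fin n) := ⟨c, hc⟩
  refine Subgroup.subset_closure ⟨δ', E, c' * a * c'⁻¹, ?_, M.κ_conj E c' a hδ⟩
  change (c * a.1 * c⁻¹).support ⊆ _
  rw [Perm.support_conj, Finset.map_eq_image]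
  exact Finset.image_subset_image ha

theorem τ_conj_mem_GI (δ : D n) {I : Finset (Fin n)} {γ : Γ} (h : γ ∈ M.GI I) :
    M.τ δ * γ * (M.τ δ)⁻¹ ∈ M.GI I := by
  refine (Subgroup.closure_le ((M.GI I).comap (MulAut.conj (M.τ δ)).toMonoidHom)).2 ?_ h
  rintro _ ⟨δ', E, a, ha, rfl⟩
  refine Subgroup.subset_closure ⟨δ + δ', E, a, ha, ?_⟩
  change M.τ δ * _ * (M.τ δ)⁻¹ = _
  rw [M.τ_add]
  group

theorem τ_commute_GI {δ : D n} {I : Finset (Fin n)} (hδ : ∀ i ∈ I, δ.1 i = 0) {γ : Γ}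
    (h : γ ∈ M.GI I) : Commute (M.τ δ) γ := by
  induction h using Subgroup.closure_induction with
  | mem x hx =>
    obtain ⟨δ', E, a, ha, rfl⟩ := hx
    have := M.conj_congr E a (δ := δ') (δ' := δ + δ') fun i hi => by
      change _ = δ.1 i + δ'.1 i
      rw [hδ i (ha (Perm.mem_support.2 hi)), zero_add]
    rw [Commute, SemiconjBy]
    conv_rhs => rw [this, M.τ_add]
    group
  | one => exact Commute.one_right _
  | mul _ _ _ _ h1 h2 => exact h1.mul_right h2
  | inv _ _ h1 => exact h1.inv_right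

/-- Generation by conjugates of three-cycles. -/
theorem eq_top [Finite S] (hn : 5 ≤ n) {H : Subgroup Γ}
    (h : ∀ (δ : D n) (E : Set (Ω → S)) (a : alternatingGroup (Fin n)), a.1.IsThreeCycle →
      M.τ δ * M.Λ (ind E a) * (M.τ δ)⁻¹ ∈ H) : H = ⊤ := by
  classical
  have h1 : ∀ (δ : D n) (E : Set (Ω → S)) (a : alternatingGroup (Fin n)),
      M.τ δ * M.Λ (ind E a) * (M.τ δ)⁻¹ ∈ H := fun δ E a => by
    obtain ⟨φ, hφ⟩ := ModelBAux.exists_hom M δ E
    rw [← hφ]
    refine (Subgroup.closure_le (H.comap φ)).2 (fun b hb => ?_)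
      (alternatingGroup.closure_isThreeCycles_eq_top.ge (Subgroup.mem_top a))
    change φ b ∈ H
    rw [hφ]
    exact h δ E b hb
  have h2 : ∀ f, M.Λ f ∈ H := fun f => by
    refine Subgroup.pi_mem_of_mulSingle_mem (H := H.comap M.Λ) f fun π => ?_
    have e : Pi.mulSingle π (f π) = ind {π} (f π) := by
      funext x
      simp [ind, Pi.mulSingle_apply]
    have := h1 0 {π} (f π)
    rwa [M.τ_zero, one_mul, inv_one, mul_one, ← e] at this
  rw [eq_top_iff, ← M.gen, Subgroup.closure_le]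
  rintro _ (⟨δ, rfl⟩ | ⟨f, rfl⟩)
  swap
  · exact h2 f
  refine D_induction ∅ (fun δ => M.τ δ ∈ H) ?_ ?_ ?_ δ (by simp)
  · rw [M.τ_zero]; exact one_mem _
  · intro δ δ' h h'
    rw [M.τ_add]; exact mul_mem h h'
  · intro δ i j v _ _ hij e
    obtain ⟨k, l, hkl, hk, hl⟩ := LGrpAux.exists_two_fresh hn i j j
    simp only [Finset.mem_insert, Finset.mem_singleton, not_or] at hk hl
    have hs : ∀ p q : Fin n, (Pi.single p v - Pi.single q v : Fin n → V) ∈ D n := fun p q => by
      change ∑ x, (Pi.single p v - Pi.single q v : Fin n → V) x = 0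
      simp [Finset.sum_sub_distrib]
    let c : alternatingGroup (Fin n) := ⟨c3 i j k, (mem_AltOn_iff.1 (c3_mem_AltOn hij (Ne.symm hk.1)
      (Finset.mem_univ _) (Finset.mem_univ _) (Finset.mem_univ _))).1⟩
    have c1 : c.1 j = i := c3_apply_snd hij (Ne.symm hk.1) (Ne.symm hk.2.1)
    have c2 : c.1 l = l := c3_apply_of_ne hl.1 hl.2.1 hkl.symm
    have ha := M.act c ⟨_, hs j l⟩ ⟨_, hs i l⟩ fun x => by
      change (Pi.single i v - Pi.single l v : Fin n → V) (c.1 x) =
        (Pi.single j v - Pi.single l v : Fin n → V) x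
      conv_lhs => rw [← c1, ← c2]
      simp only [Pi.sub_apply, Pi.single_apply, c.1.injective.eq_iff]
    have e' : M.τ δ = M.τ ⟨_, hs i l⟩ * (M.τ ⟨_, hs j l⟩)⁻¹ := by
      rw [← M.τ_neg, ← M.τ_add]
      congr 1
      refine Subtype.ext (e.trans ?_)
      change _ = (Pi.single i v - Pi.single l v : Fin n → V) +
        -(Pi.single j v - Pi.single l v : Fin n → V)
      abel
    have h3 := h1 ⟨_, hs j l⟩ Set.univ c
    rw [ind_univ] at h3
    have h4 := mul_mem (h2 fun _ => c) (inv_mem h3)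
    rw [e', ← ha]
    convert h4 using 1
    group

theorem mem_center [Finite S] (hn : 5 ≤ n) {γ : Γ}
    (h : ∀ I : Finset (Fin n), I.card = 5 → ∀ γ' ∈ M.GI I, Commute γ γ') :
    γ ∈ Subgroup.center Γ := by
  have := M.eq_top hn (H := Subgroup.centralizer {γ}) fun δ E a ha => by
    obtain ⟨I, h1, h2⟩ := Finset.exists_superset_card_eq (s := a.1.support) (n := 5)
      (by rw [ha.card_support]; norm_num) (by rwa [Fintype.card_fin])
    rintro _ rfl
    exact (h I h2 _ (Subgroup.subset_closure ⟨δ, E, a, h1, rfl⟩)).eq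
  rw [Subgroup.mem_center_iff]
  intro g
  exact ((this.ge (Subgroup.mem_top g)) γ rfl).symm

include M in
theorem perfect [Finite S] (hn : 5 ≤ n) : commutator Γ = ⊤ := by
  refine M.eq_top hn fun δ E a _ => ?_
  obtain ⟨φ, hφ⟩ := ModelBAux.exists_hom M δ E
  have ha : a ∈ commutator (alternatingGroup (Fin n)) := by
    rw [commutator_alternatingGroup_eq_top (by simpa using hn)]
    trivial
  have := Subgroup.mem_map_of_mem φ ha
  rw [commutator, Subgroup.map_commutator] at this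
  rw [← hφ]
  exact Subgroup.commutator_mono le_top le_top this

theorem range [Finite S] (hn : 6 ≤ n) : M.θ.range = Alt X n := by
  apply le_antisymm
  · rw [MonoidHom.range_eq_map, ← M.gen, Subgroup.map_le_iff_le_comap, Subgroup.closure_le]
    rintro _ (⟨δ, rfl⟩ | ⟨f, rfl⟩)
    · change M.θ _ ∈ Alt X n
      rw [M.θ_τ]
      exact tr_mem_Alt (by omega) δ.2
    · change M.θ _ ∈ Alt X n
      rw [M.θ_Λ]
      exact apf_mem_Alt ((LocF.pi fun ω : Ω => LocF.site (X := X) ω).comp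
        fun π => (f π : Perm (Fin n))) fun x => (f _).2
  · have key : ∀ U : Set X.Pt, Loc U → ∀ a ∈ alternatingGroup (Fin n), ap U a ∈ M.θ.range := by
      refine Loc.induction _ (fun z E a ha => ?_) (fun U _ hU a ha => ?_)
        fun U U' _ _ hU hU' a ha => ?_
      · rw [← Equiv.Perm.closure_three_cycles_eq_alternating] at ha
        induction ha using Subgroup.closure_induction with
        | mem a ha =>
          obtain ⟨δ, hδ⟩ := exists_D a.support (by rw [ha.card_support]; omega) fun _ => -z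
          refine ⟨M.τ δ * M.Λ (ind {π | π ⟨0, h0⟩ ∈ E} ⟨a, ha.mem_alternatingGroup⟩) * (M.τ δ)⁻¹,
            ?_⟩
          rw [map_mul, map_mul, map_inv, M.θ_τ, M.θ_ind,
            tr_ap_shift _ _ fun i hi => hδ i (Perm.mem_support.2 hi)]
          congr 1
          ext x
          rw [mem_vadd_iff, neg_neg]
          change x.1 (0 + z) ∈ E ↔ x.1 z ∈ E
          rw [zero_add]
        | one => rw [ap_one]; exact one_mem _
        | mul a b _ _ ih ih' => rw [ap_mul]; exact mul_mem ih ih'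
        | inv a _ ih => rw [← MsAux.ap_inv]; exact inv_mem ih
      · have h1 : ap Set.univ a ∈ M.θ.range := ⟨M.κ a, M.θ_κ ha⟩
        rw [← Set.union_compl_self U, ap_union disjoint_compl_right] at h1
        exact (mul_mem_cancel_left (hU a ha)).1 h1
      · refine AltOn.comm_induction (F := Finset.univ)
          (by rw [Finset.card_univ, Fintype.card_fin]; omega)
          (fun a => ap (U ∩ U') a ∈ M.θ.range) ?_ ?_ ?_ a
          (mem_AltOn_iff.2 ⟨ha, Finset.subset_univ _⟩)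
        · rw [ap_one]; exact one_mem _
        · intro a ha b hb
          have h1 := hU a (mem_AltOn_iff.1 ha).1
          have h2 := hU' b (mem_AltOn_iff.1 hb).1
          rw [← ap_comm_inter]
          exact mul_mem (mul_mem (mul_mem h1 h2) (inv_mem h1)) (inv_mem h2)
        · intro a _ b _ h1 h2
          rw [ap_mul]; exact mul_mem h1 h2
    rw [Alt, Subgroup.closure_le]
    rintro _ ⟨U, δ, a, hU, ha, rfl⟩
    obtain ⟨δ', hδ⟩ := exists_D a.support (by rw [ha.card_support]; omega) δ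
    have h1 : (tr δ'.1 : Perm (Hat X n)) ∈ M.θ.range := ⟨M.τ δ', M.θ_τ δ'⟩
    rw [tr_ap_congr U a (δ' := δ'.1) fun i hi => (hδ i (Perm.mem_support.2 hi)).symm]
    exact mul_mem (mul_mem h1 (key U hU a ha.mem_alternatingGroup)) (inv_mem h1)

theorem exists_quot (N : Subgroup Γ) [N.Normal] (hN : N ≤ M.θ.ker) :
    ∃ M' : Model X Ω h0 n (Γ ⧸ N), M'.θ = QuotientGroup.lift N M.θ hN := by
  let q := QuotientGroup.mk' N
  refine ⟨{
    τ := fun δ => q (M.τ δ)
    Λ := q.comp M.Λ
    θ := QuotientGroup.lift N M.θ hN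
    τ_add := fun δ δ' => by rw [M.τ_add, map_mul]
    θ_τ := fun δ => M.θ_τ δ
    θ_Λ := fun f => M.θ_Λ f
    act := fun c δ δ' h => by
      rw [← M.act c δ δ' h, map_mul, map_mul, map_inv]; rfl
    comm := fun E a δ h => (M.comm E a δ h).map q
    shift := fun ω E a δ h => by
      rw [MonoidHom.comp_apply, MonoidHom.comp_apply, ← M.shift ω E a δ h, map_mul, map_mul,
        map_inv]
    forb := fun a => by rw [MonoidHom.comp_apply, M.forb, map_one]
    gen := ?_ }, rfl⟩
  have := congrArg (Subgroup.map q) M.gen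
  rw [MonoidHom.map_closure, Subgroup.map_top_of_surjective _ (QuotientGroup.mk'_surjective N),
    Set.image_union, ← Set.range_comp, ← Set.range_comp] at this
  exact this

end Model

end Crest.Agent.R189
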