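import Crest.Agent.R189.Alt
import Crest.Agent.R189.Sub

/-! Row 189: multisections and their permutations. -/

set_option autoImplicit false

namespace Crest.Agent.R189

open Equiv Pointwise

variable {S : Type} {X : Sub S} {n : ℕ}

theorem MsAux.inv_app {α : Type} (f : Perm α) (x : α) : f⁻¹ (f x) = x := f.symm_apply_apply x

theorem MsAux.app_inv {α : Type} (f : Perm α) (x : α) : f (f⁻¹ x) = x := f.apply_symm_apply x

theorem MsAux.snd_eq {x y : X.Pt} {z z' : Site n} (h : pt x z = pt y z') : z.2 = z'.2 :=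
  congrArg (fun p : Hat X n => p.2) h

@[simp] theorem pt_fst (x : X.Pt) (z : Site n) : (pt x z).1 = z.1 +ᵥ x := rfl

@[simp] theorem pt_snd (x : X.Pt) (z : Site n) : (pt x z).2 = z.2 := rfl

@[simp] theorem sht_apply (v : V) (z : Site n) : sht v z = (z.1 + v, z.2) := rfl

theorem sht_add (v w : V) : (sht (v + w) : Perm (Site n)) = sht v * sht w := by
  refine Equiv.ext fun z => ?_
  simp only [sht_apply, Perm.mul_apply]
  rw [add_comm v w, add_assoc]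

theorem sht_zero : (sht 0 : Perm (Site n)) = 1 := by
  refine Equiv.ext fun z => ?_
  simp only [sht_apply, add_zero, Perm.one_apply]

theorem sht_inv (v : V) : (sht v : Perm (Site n))⁻¹ = sht (-v) := by
  rw [inv_eq_iff_mul_eq_one, ← sht_add, add_neg_cancel, sht_zero]

theorem pt_zero (x : X.Pt) (i : Fin n) : pt x (0, i) = (x, i) := by
  simp only [pt, zero_vadd]

theorem pt_vadd (v : V) (x : X.Pt) (z : Site n) : pt (v +ᵥ x) z = pt x (sht v z) := by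
  simp only [pt, sht_apply, add_vadd]

theorem pt_inj (hF : Free X) {x : X.Pt} {z z' : Site n} (h : pt x z = pt x z') : z = z' := by
  exact Prod.ext (hF.vadd_inj (congrArg Prod.fst h)) (MsAux.snd_eq h)

theorem pt_eq_iff {x y : X.Pt} {z z' : Site n} :
    pt x z = pt y z' ↔ y = (z.1 - z'.1) +ᵥ x ∧ z.2 = z'.2 := by
  rw [Prod.ext_iff, pt_fst, pt_fst, pt_snd, pt_snd]
  refine and_congr_left fun _ => ⟨fun h => ?_, fun h => ?_⟩
  · rw [sub_eq_neg_add, add_vadd, h, neg_vadd_vadd]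
  · rw [h, ← add_vadd, add_sub_cancel]

theorem mem_sites {R : Finset V} {z : Site n} : z ∈ sites n R ↔ z.1 ∈ R := by
  simp [sites, Finset.mem_product]

theorem mem_rsites {p q r s : ℤ} {z : Site n} :
    z ∈ rsites n p q r s ↔ p ≤ z.1.1 ∧ z.1.1 ≤ q ∧ r ≤ z.1.2 ∧ z.1.2 ≤ s := by
  simp only [rsites, mem_sites, Finset.mem_product, Finset.mem_Icc, and_assoc]

theorem le_card_rsites {p q r s : ℤ} (h1 : p ≤ q) (h2 : r ≤ s) : n ≤ (rsites n p q r s).card := by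
  have h : (Finset.univ.image fun i : Fin n => (((p, r), i) : Site n)) ⊆ rsites n p q r s := by
    intro z hz
    obtain ⟨i, -, rfl⟩ := Finset.mem_image.1 hz
    exact mem_rsites.2 ⟨le_rfl, h1, le_rfl, h2⟩
  refine le_trans (le_of_eq ?_) (Finset.card_le_card h)
  rw [Finset.card_image_of_injective _ fun i j hij => congrArg Prod.snd hij, Finset.card_univ,
    Fintype.card_fin]

@[simp] theorem tr_apply (δ : Fin n → V) (x : X.Pt) (i : Fin n) :
    tr δ (x, i) = (δ i +ᵥ x, i) := rfl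

theorem tr_pt (δ : Fin n → V) (x : X.Pt) (z : Site n) :
    tr δ (pt x z) = pt x (z.1 + δ z.2, z.2) := by
  simp only [pt, tr_apply]
  rw [add_comm, add_vadd]

theorem tr_add (δ δ' : Fin n → V) : (tr (δ + δ') : Perm (Hat X n)) = tr δ * tr δ' := by
  refine Equiv.ext fun ⟨x, i⟩ => ?_
  simp only [tr_apply, Perm.mul_apply, Pi.add_apply, add_vadd]

theorem tr_zero : (tr 0 : Perm (Hat X n)) = 1 := by
  refine Equiv.ext fun ⟨x, i⟩ => ?_
  simp only [tr_apply, Pi.zero_apply, zero_vadd, Perm.one_apply]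

theorem tr_inv (δ : Fin n → V) : (tr δ : Perm (Hat X n))⁻¹ = tr (-δ) := by
  rw [inv_eq_iff_mul_eq_one, ← tr_add, add_neg_cancel, tr_zero]

@[simp] theorem apf_apply (g : X.Pt → Perm (Fin n)) (x : X.Pt) (i : Fin n) :
    apf g (x, i) = (x, g x i) := rfl

theorem apf_mul (g g' : X.Pt → Perm (Fin n)) :
    apf (fun x => g x * g' x) = apf g * apf g' := by
  exact Equiv.ext fun _ => rfl

theorem ap_apply_of_mem {U : Set X.Pt} (a : Perm (Fin n)) {x : X.Pt} (hx : x ∈ U) (i : Fin n) :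
    ap U a (x, i) = (x, a i) := by
  simp only [ap, apf_apply, if_pos hx]

theorem ap_apply_of_not_mem {U : Set X.Pt} (a : Perm (Fin n)) {x : X.Pt} (hx : x ∉ U)
    (i : Fin n) : ap U a (x, i) = (x, i) := by
  simp only [ap, apf_apply, if_neg hx, Perm.one_apply]

theorem ap_one (U : Set X.Pt) : ap U (1 : Perm (Fin n)) = 1 := by
  refine Equiv.ext fun ⟨x, i⟩ => ?_
  simp only [ap, apf_apply, ite_self, Perm.one_apply]

theorem ap_mul (U : Set X.Pt) (a b : Perm (Fin n)) : ap U (a * b) = ap U a * ap U b := by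
  unfold ap
  rw [← apf_mul]
  congr 1
  funext x
  split_ifs
  · rfl
  · exact (mul_one 1).symm

theorem ap_union {U U' : Set X.Pt} (h : Disjoint U U') (a : Perm (Fin n)) :
    ap (U ∪ U') a = ap U a * ap U' a := by
  unfold ap
  rw [← apf_mul]
  congr 1
  funext x
  by_cases h1 : x ∈ U
  · have h2 : x ∉ U' := Set.disjoint_left.1 h h1
    rw [if_pos (Set.mem_union_left U' h1), if_pos h1, if_neg h2, mul_one]
  · by_cases h2 : x ∈ U'
    · rw [if_pos (Set.mem_union_right U h2), if_neg h1, if_pos h2, one_mul]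
    · rw [if_neg (fun h3 : x ∈ U ∪ U' => h3.elim h1 h2), if_neg h1, if_neg h2, one_mul]

theorem MsAux.ap_inv (U : Set X.Pt) (a : Perm (Fin n)) : (ap U a)⁻¹ = ap U a⁻¹ := by
  rw [inv_eq_iff_mul_eq_one, ← ap_mul, mul_inv_cancel, ap_one]

theorem MsAux.conj_pos (U : Set X.Pt) (a : Perm (Fin n)) (δ : Fin n → V) {x : X.Pt} {i : Fin n}
    (hx : -δ i +ᵥ x ∈ U) :
    (tr δ * ap U a * (tr δ)⁻¹ : Perm (Hat X n)) (x, i) = (δ (a i) +ᵥ -δ i +ᵥ x, a i) := by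
  rw [tr_inv, Perm.mul_apply, Perm.mul_apply, tr_apply (-δ), Pi.neg_apply,
    ap_apply_of_mem a hx, tr_apply]

theorem MsAux.conj_neg (U : Set X.Pt) (a : Perm (Fin n)) (δ : Fin n → V) {x : X.Pt} {i : Fin n}
    (hx : -δ i +ᵥ x ∉ U) : (tr δ * ap U a * (tr δ)⁻¹ : Perm (Hat X n)) (x, i) = (x, i) := by
  rw [tr_inv, Perm.mul_apply, Perm.mul_apply, tr_apply (-δ), Pi.neg_apply,
    ap_apply_of_not_mem a hx, tr_apply, vadd_neg_vadd]

theorem MsAux.conj_fix (U : Set X.Pt) (a : Perm (Fin n)) (δ : Fin n → V) (x : X.Pt) {i : Fin n}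
    (hi : a i = i) : (tr δ * ap U a * (tr δ)⁻¹ : Perm (Hat X n)) (x, i) = (x, i) := by
  by_cases hx : -δ i +ᵥ x ∈ U
  · rw [MsAux.conj_pos U a δ hx, hi, vadd_neg_vadd]
  · exact MsAux.conj_neg U a δ hx

theorem ap_comm_inter (U U' : Set X.Pt) (a b : Perm (Fin n)) :
    ap U a * ap U' b * (ap U a)⁻¹ * (ap U' b)⁻¹ = ap (U ∩ U') (a * b * a⁻¹ * b⁻¹) := by
  rw [MsAux.ap_inv, MsAux.ap_inv]
  unfold ap
  rw [← apf_mul, ← apf_mul, ← apf_mul]
  congr 1
  funext x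
  by_cases h1 : x ∈ U <;> by_cases h2 : x ∈ U' <;> simp [h1, h2]

theorem tr_ap_congr (U : Set X.Pt) (a : Perm (Fin n)) {δ δ' : Fin n → V}
    (h : ∀ i, a i ≠ i → δ i = δ' i) :
    tr δ * ap U a * (tr δ)⁻¹ = tr δ' * ap U a * (tr δ')⁻¹ := by
  refine Equiv.ext fun ⟨x, i⟩ => ?_
  by_cases hi : a i = i
  · rw [MsAux.conj_fix U a δ x hi, MsAux.conj_fix U a δ' x hi]
  · have h1 := h i hi
    have h2 := h (a i) fun e => hi (a.injective e)
    by_cases hx : -δ i +ᵥ x ∈ U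
    · rw [MsAux.conj_pos U a δ hx, MsAux.conj_pos U a δ' (h1 ▸ hx), h1, h2]
    · rw [MsAux.conj_neg U a δ hx, MsAux.conj_neg U a δ' (h1 ▸ hx)]

theorem tr_ap_shift (U : Set X.Pt) (a : Perm (Fin n)) {δ : Fin n → V} {v : V}
    (h : ∀ i, a i ≠ i → δ i = v) : tr δ * ap U a * (tr δ)⁻¹ = ap (v +ᵥ U) a := by
  rw [tr_ap_congr U a (δ' := fun _ => v) h]
  refine Equiv.ext fun ⟨x, i⟩ => ?_
  by_cases hx : -v +ᵥ x ∈ U
  · rw [MsAux.conj_pos U a (fun _ => v) hx, ap_apply_of_mem a (mem_vadd_iff.2 hx), vadd_neg_vadd]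
  · rw [MsAux.conj_neg U a (fun _ => v) hx,
      ap_apply_of_not_mem a fun h' => hx (mem_vadd_iff.1 h')]

theorem ap_tr_conj (c : Perm (Fin n)) {δ δ' : Fin n → V} (h : ∀ i, δ' (c i) = δ i) :
    ap Set.univ c * tr δ * (ap Set.univ c)⁻¹ = (tr δ' : Perm (Hat X n)) := by
  rw [mul_inv_eq_iff_eq_mul]
  refine Equiv.ext fun ⟨x, i⟩ => ?_
  simp only [Perm.mul_apply, tr_apply, ap_apply_of_mem c (Set.mem_univ _), h]

/-- An offset prescribed on a proper subset extends to an offset with sum zero. -/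
theorem exists_D (I : Finset (Fin n)) (hI : I.card < n) (δ : Fin n → V) :
    ∃ δ' : D n, ∀ i ∈ I, δ'.1 i = δ i := by
  obtain ⟨j, -, hj⟩ := Finset.exists_mem_notMem_of_card_lt_card
    (s := I) (t := Finset.univ) (by simpa using hI)
  refine ⟨⟨δ - Pi.single j (∑ i, δ i), ?_⟩, fun i hi => ?_⟩
  · change ∑ i, (δ - Pi.single j (∑ i, δ i) : Fin n → V) i = 0
    simp only [Pi.sub_apply, Finset.sum_sub_distrib, Finset.sum_pi_single', Finset.mem_univ,
      if_true, sub_self]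
  · have hij : i ≠ j := fun e => hj (e ▸ hi)
    change δ i - (Pi.single j (∑ i, δ i) : Fin n → V) i = δ i
    rw [Pi.single_eq_of_ne hij, sub_zero]

/-! ### Multisections -/

variable {U U' : Set X.Pt} {F F' : Finset (Site n)} {g g' : X.Pt → Perm (Site n)}

theorem MS.mono (h : MS U F) (hU : U' ⊆ U) (hF : F' ⊆ F) : MS U' F' := by
  exact fun x hx y hy z hz z' hz' => h x (hU hx) y (hU hy) z (hF hz) z' (hF hz')

theorem MS.of_sheets (h : ∀ z ∈ F, ∀ z' ∈ F, z.2 = z'.2 → z = z') : MS U F := by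
  intro x _ y _ z hz z' hz' he
  obtain rfl := h z hz z' hz' (MsAux.snd_eq he)
  exact ⟨vadd_left_cancel z.1 (congrArg Prod.fst he), rfl⟩

theorem MS.iff : MS U F ↔ ∀ z ∈ F, ∀ z' ∈ F, z.2 = z'.2 → z ≠ z' →
    Disjoint (z.1 +ᵥ U) (z'.1 +ᵥ U) := by
  constructor
  · intro h z hz z' hz' h2 hne
    refine Set.disjoint_left.2 ?_
    rintro _ ⟨x, hx, rfl⟩ ⟨y, hy, hxy⟩
    exact hne (h x hx y hy z hz z' hz' (Prod.ext hxy.symm h2)).2
  · intro h x hx y hy z hz z' hz' he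
    by_cases hzz : z = z'
    · subst hzz
      exact ⟨vadd_left_cancel z.1 (congrArg Prod.fst he), rfl⟩
    · exact absurd ⟨y, hy, (congrArg Prod.fst he).symm⟩
        (Set.disjoint_left.1 (h z hz z' hz' (MsAux.snd_eq he) hzz) ⟨x, hx, rfl⟩)

/-- Adding sites on new sheets. -/
theorem MS.union_fresh (h : MS U F) (h' : MS U F') (hd : ∀ z ∈ F, ∀ z' ∈ F', z.2 ≠ z'.2) :
    MS U (F ∪ F') := by
  intro x hx y hy z hz z' hz' he
  rcases Finset.mem_union.1 hz with hz | hz <;> rcases Finset.mem_union.1 hz' with hz' | hz'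
  · exact h x hx y hy z hz z' hz' he
  · exact absurd (MsAux.snd_eq he) (hd z hz z' hz')
  · exact absurd (MsAux.snd_eq he).symm (hd z' hz' z hz)
  · exact h' x hx y hy z hz z' hz' he

theorem MS.vadd_iff (v : V) : MS (v +ᵥ U) F ↔ MS U (F.image (sht v)) := by
  constructor
  · intro h x hx y hy w hw w' hw' he
    obtain ⟨z, hz, rfl⟩ := Finset.mem_image.1 hw
    obtain ⟨z', hz', rfl⟩ := Finset.mem_image.1 hw'
    rw [← pt_vadd, ← pt_vadd] at he
    obtain ⟨h1, h2⟩ := h _ ⟨x, hx, rfl⟩ _ ⟨y, hy, rfl⟩ z hz z' hz' he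
    exact ⟨vadd_left_cancel v h1, h2 ▸ rfl⟩
  · rintro h _ ⟨x, hx, rfl⟩ _ ⟨y, hy, rfl⟩ z hz z' hz' he
    have he' : pt x (sht v z) = pt y (sht v z') := by
      rw [← pt_vadd, ← pt_vadd]
      exact he
    obtain ⟨h1, h2⟩ := h x hx y hy _ (Finset.mem_image_of_mem _ hz) _
      (Finset.mem_image_of_mem _ hz') he'
    exact ⟨h1 ▸ rfl, (sht v).injective h2⟩

theorem exists_MS_cyl [Finite S] (hF : Free X) (F : Finset (Site n)) :
    ∃ r, ∀ x : X.Pt, MS (cyl r x) F := by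
  obtain ⟨R, hR⟩ := exists_box_of_finite
    ((F.finite_toSet.prod F.finite_toSet).image fun p : Site n × Site n => p.1.1 - p.2.1)
  obtain ⟨r, hr⟩ := hF.small R
  refine ⟨r, fun x₀ x hx y hy z hz z' hz' he => ?_⟩
  obtain ⟨h1, h2⟩ := pt_eq_iff.1 he
  have h3 := hr x₀ x hx (z.1 - z'.1) (hR ⟨(z, z'), ⟨hz, hz'⟩, rfl⟩) (h1 ▸ hy)
  rw [h3, zero_vadd] at h1
  exact ⟨h1.symm, Prod.ext (sub_eq_zero.1 h3) h2⟩

theorem Tower.ms {a b : ℕ} {B : Set X.Pt} (h : Tower a b B) {p q r s : ℤ} (h1 : q < p + a)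
    (h2 : s < r + b) : MS B (rsites n p q r s) := by
  intro x hx y hy z hz z' hz' he
  obtain ⟨e1, e2⟩ := pt_eq_iff.1 he
  obtain ⟨d1, d2⟩ := (h.2.2 x hx (z.1 - z'.1)).1 (e1 ▸ hy)
  obtain ⟨a1, a2, a3, a4⟩ := mem_rsites.1 hz
  obtain ⟨b1, b2, b3, b4⟩ := mem_rsites.1 hz'
  have f1 : (z.1 - z'.1).1 = 0 := Int.eq_zero_of_abs_lt_dvd d1 (by
    rw [Prod.fst_sub, abs_lt]; constructor <;> linarith)
  have f2 : (z.1 - z'.1).2 = 0 := Int.eq_zero_of_abs_lt_dvd d2 (by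
    rw [Prod.snd_sub, abs_lt]; constructor <;> linarith)
  have h3 : z.1 - z'.1 = 0 := Prod.ext f1 f2
  rw [h3, zero_vadd] at e1
  exact ⟨e1.symm, Prod.ext (sub_eq_zero.1 h3) e2⟩

theorem IsMs.unique {γ γ' : Perm (Hat X n)} (h : IsMs U g γ) (h' : IsMs U g γ') : γ = γ' := by
  refine Equiv.ext fun p => ?_
  by_cases hp : ∃ x ∈ U, ∃ z, g x z ≠ z ∧ p = pt x z
  · obtain ⟨x, hx, z, hz, rfl⟩ := hp
    rw [h.1 x hx z hz, h'.1 x hx z hz]
  · have hp' : ∀ x ∈ U, ∀ z, g x z ≠ z → p ≠ pt x z := fun x hx z hz e => hp ⟨x, hx, z, hz, e⟩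
    rw [h.2 p hp', h'.2 p hp']

theorem MsAux.apply_mem {a : Perm (Site n)} (ha : ∀ z ∉ F, a z = z) {z : Site n} (hz : z ∈ F) :
    a z ∈ F := by
  by_contra h
  exact h ((a.injective (ha _ h)).symm ▸ hz)

theorem MsAux.msf_eq {γ : Perm (Hat X n)} (h : IsMs U g γ) : msf U g = γ := by
  have hex : ∃ γ, IsMs U g γ := ⟨γ, h⟩
  rw [msf, dif_pos hex]
  exact hex.choose_spec.unique h

theorem MsAux.msf_of_iff (h : ∀ γ, IsMs U g γ ↔ IsMs U' g' γ) : msf U g = msf U' g' := by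
  by_cases hex : ∃ γ, IsMs U g γ
  · obtain ⟨γ, hγ⟩ := hex
    rw [MsAux.msf_eq hγ, MsAux.msf_eq ((h γ).1 hγ)]
  · rw [msf, msf, dif_neg hex, dif_neg fun ⟨γ, hγ⟩ => hex ⟨γ, (h γ).2 hγ⟩]

theorem MsAux.isMs_of (hg : ∀ x ∈ U, ∀ z ∉ F, g x z = z) {γ : Perm (Hat X n)}
    (h1 : ∀ x ∈ U, ∀ z ∈ F, γ (pt x z) = pt x (g x z))
    (h2 : ∀ p, (∀ x ∈ U, ∀ z ∈ F, p ≠ pt x z) → γ p = p) : IsMs U g γ := by
  refine ⟨fun x hx z hz => h1 x hx z (by_contra fun h => hz (hg x hx z h)), fun p hp => ?_⟩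
  by_cases h : ∃ x ∈ U, ∃ z ∈ F, p = pt x z
  · obtain ⟨x, hx, z, hz, rfl⟩ := h
    rw [h1 x hx z hz, by_contra fun e : g x z ≠ z => hp x hx z e rfl]
  · exact h2 p fun x hx z hz e => h ⟨x, hx, z, hz, e⟩

theorem MsAux.exists_fun (h : MS U F) (g : X.Pt → Perm (Site n)) :
    ∃ f : Hat X n → Hat X n, (∀ x ∈ U, ∀ z ∈ F, f (pt x z) = pt x (g x z)) ∧
      ∀ p, (∀ x ∈ U, ∀ z ∈ F, p ≠ pt x z) → f p = p := by
  have key : ∀ p : Hat X n, ∃ q, (∀ x ∈ U, ∀ z ∈ F, p = pt x z → q = pt x (g x z)) ∧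
      ((∀ x ∈ U, ∀ z ∈ F, p ≠ pt x z) → q = p) := by
    intro p
    by_cases hp : ∃ x ∈ U, ∃ z ∈ F, p = pt x z
    · obtain ⟨x, hx, z, hz, rfl⟩ := hp
      refine ⟨pt x (g x z), fun y hy z' hz' e => ?_, fun h' => absurd rfl (h' x hx z hz)⟩
      obtain ⟨rfl, rfl⟩ := h x hx y hy z hz z' hz' e
      rfl
    · exact ⟨p, fun x hx z hz e => absurd ⟨x, hx, z, hz, e⟩ hp, fun _ => rfl⟩
  choose f h1 h2 using key
  exact ⟨f, fun x hx z hz => h1 _ x hx z hz rfl, h2⟩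

theorem MsAux.exists_perm (h : MS U F) (hg : ∀ x ∈ U, ∀ z ∉ F, g x z = z) :
    ∃ γ : Perm (Hat X n), (∀ x ∈ U, ∀ z ∈ F, γ (pt x z) = pt x (g x z)) ∧
      ∀ p, (∀ x ∈ U, ∀ z ∈ F, p ≠ pt x z) → γ p = p := by
  obtain ⟨f, f1, f2⟩ := MsAux.exists_fun h g
  obtain ⟨f', f1', f2'⟩ := MsAux.exists_fun h fun x => (g x)⁻¹
  refine ⟨⟨f, f', fun p => ?_, fun p => ?_⟩, f1, f2⟩
  · by_cases hp : ∃ x ∈ U, ∃ z ∈ F, p = pt x z
    · obtain ⟨x, hx, z, hz, rfl⟩ := hp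
      rw [f1 x hx z hz, f1' x hx _ (MsAux.apply_mem (hg x hx) hz), MsAux.inv_app]
    · have hp' : ∀ x ∈ U, ∀ z ∈ F, p ≠ pt x z := fun x hx z hz e => hp ⟨x, hx, z, hz, e⟩
      rw [f2 p hp', f2' p hp']
  · by_cases hp : ∃ x ∈ U, ∃ z ∈ F, p = pt x z
    · obtain ⟨x, hx, z, hz, rfl⟩ := hp
      rw [f1' x hx z hz, f1 x hx _ (MsAux.apply_mem
        (fun w hw => Perm.inv_eq_iff_eq.2 (hg x hx w hw).symm) hz), MsAux.app_inv]
    · have hp' : ∀ x ∈ U, ∀ z ∈ F, p ≠ pt x z := fun x hx z hz e => hp ⟨x, hx, z, hz, e⟩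
      rw [f2' p hp', f2 p hp']

theorem isMs_msf (h : MS U F) (hg : ∀ x ∈ U, ∀ z ∉ F, g x z = z) : IsMs U g (msf U g) := by
  obtain ⟨γ, h1, h2⟩ := MsAux.exists_perm h hg
  have h3 := MsAux.isMs_of hg h1 h2
  rw [MsAux.msf_eq h3]
  exact h3

theorem msf_apply (h : MS U F) (hg : ∀ x ∈ U, ∀ z ∉ F, g x z = z) {x : X.Pt} (hx : x ∈ U)
    {z : Site n} (hz : z ∈ F) : msf U g (pt x z) = pt x (g x z) := by
  obtain ⟨γ, h1, h2⟩ := MsAux.exists_perm h hg
  rw [MsAux.msf_eq (MsAux.isMs_of hg h1 h2)]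
  exact h1 x hx z hz

theorem msf_fix (h : MS U F) (hg : ∀ x ∈ U, ∀ z ∉ F, g x z = z) {p : Hat X n}
    (hp : ∀ x ∈ U, ∀ z ∈ F, p ≠ pt x z) : msf U g p = p := by
  obtain ⟨γ, h1, h2⟩ := MsAux.exists_perm h hg
  rw [MsAux.msf_eq (MsAux.isMs_of hg h1 h2)]
  exact h2 p hp

/-- Recognising `msf`. -/
theorem eq_msf (h : MS U F) (hg : ∀ x ∈ U, ∀ z ∉ F, g x z = z) {γ : Perm (Hat X n)}
    (h1 : ∀ x ∈ U, ∀ z ∈ F, γ (pt x z) = pt x (g x z))
    (h2 : ∀ p, (∀ x ∈ U, ∀ z ∈ F, p ≠ pt x z) → γ p = p) : γ = msf U g := by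
  have _ := h
  exact (MsAux.msf_eq (MsAux.isMs_of hg h1 h2)).symm

theorem msf_congr (h : ∀ x ∈ U, g x = g' x) : msf U g = msf U g' := by
  refine MsAux.msf_of_iff fun γ => ?_
  exact and_congr (forall₂_congr fun x hx => by rw [h x hx])
    (forall_congr' fun p => imp_congr_left (forall₂_congr fun x hx => by rw [h x hx]))

theorem msf_one (h : ∀ x ∈ U, g x = 1) : msf U g = 1 := by
  refine MsAux.msf_eq ⟨fun x hx z hz => ?_, fun _ _ => rfl⟩
  rw [h x hx] at hz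
  exact absurd rfl hz

theorem msf_empty : msf (∅ : Set X.Pt) g = 1 := by
  exact msf_one fun _ hx => absurd hx (Set.notMem_empty _)

theorem msf_mul (h : MS U F) (hg : ∀ x ∈ U, ∀ z ∉ F, g x z = z)
    (hg' : ∀ x ∈ U, ∀ z ∉ F, g' x z = z) : msf U (fun x => g x * g' x) = msf U g * msf U g' := by
  refine (eq_msf h (fun x hx z hz => ?_) (fun x hx z hz => ?_) fun p hp => ?_).symm
  · rw [Perm.mul_apply, hg' x hx z hz, hg x hx z hz]
  · rw [Perm.mul_apply, msf_apply h hg' hx hz,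
      msf_apply h hg hx (MsAux.apply_mem (hg' x hx) hz), Perm.mul_apply]
  · rw [Perm.mul_apply, msf_fix h hg' hp, msf_fix h hg hp]

theorem msf_inv (h : MS U F) (hg : ∀ x ∈ U, ∀ z ∉ F, g x z = z) :
    msf U (fun x => (g x)⁻¹) = (msf U g)⁻¹ := by
  refine eq_inv_of_mul_eq_one_left ?_
  rw [← msf_mul h (fun x hx z hz => Perm.inv_eq_iff_eq.2 (hg x hx z hz).symm) hg]
  exact msf_one fun x _ => inv_mul_cancel _

theorem msf_union (h : MS (U ∪ U') F) (hg : ∀ x ∈ U ∪ U', ∀ z ∉ F, g x z = z)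
    (hd : Disjoint U U') : msf (U ∪ U') g = msf U g * msf U' g := by
  have h1 : MS U F := h.mono Set.subset_union_left (Finset.Subset.refl _)
  have h2 : MS U' F := h.mono Set.subset_union_right (Finset.Subset.refl _)
  have g1 : ∀ x ∈ U, ∀ z ∉ F, g x z = z := fun x hx => hg x (Or.inl hx)
  have g2 : ∀ x ∈ U', ∀ z ∉ F, g x z = z := fun x hx => hg x (Or.inr hx)
  refine (eq_msf h hg (fun x hx z hz => ?_) fun p hp => ?_).symm
  · rw [Perm.mul_apply]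
    rcases hx with hx | hx
    · rw [msf_fix h2 g2 fun y hy z' hz' e => Set.disjoint_left.1 hd hx
        ((h x (Or.inl hx) y (Or.inr hy) z hz z' hz' e).1 ▸ hy), msf_apply h1 g1 hx hz]
    · rw [msf_apply h2 g2 hx hz, msf_fix h1 g1 fun y hy z' hz' e => Set.disjoint_left.1 hd hy
        ((h x (Or.inr hx) y (Or.inl hy) _ (MsAux.apply_mem (g2 x hx) hz) z' hz' e).1 ▸ hx)]
  · rw [Perm.mul_apply, msf_fix h2 g2 fun x hx => hp x (Or.inr hx),
      msf_fix h1 g1 fun x hx => hp x (Or.inl hx)]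

theorem msf_restrict (hU : U' ⊆ U) (hg : ∀ x ∈ U, x ∉ U' → g x = 1)
    (hg' : ∀ x ∈ U', g x = g' x) : msf U g = msf U' g' := by
  have key : ∀ Q : X.Pt → Site n → Site n → Prop,
      (∀ x ∈ U, ∀ z, g x z ≠ z → Q x z (g x z)) ↔ ∀ x ∈ U', ∀ z, g' x z ≠ z → Q x z (g' x z) := by
    intro Q
    constructor
    · intro h x hx z hz
      rw [← hg' x hx] at hz ⊢
      exact h x (hU hx) z hz
    · intro h x hx z hz
      have hx' : x ∈ U' := by
        by_contra hx'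
        rw [hg x hx hx'] at hz
        exact hz rfl
      rw [hg' x hx'] at hz ⊢
      exact h x hx' z hz
  refine MsAux.msf_of_iff fun γ => ?_
  exact and_congr (key fun x z w => γ (pt x z) = pt x w)
    (forall_congr' fun p => imp_congr_left (key fun x z _ => p ≠ pt x z))

theorem msf_vadd (v : V) :
    msf (v +ᵥ U) g = msf U (fun x => sht v * g (v +ᵥ x) * (sht v)⁻¹) := by
  have key : ∀ Q : Hat X n → Hat X n → Prop,
      (∀ x ∈ v +ᵥ U, ∀ z, g x z ≠ z → Q (pt x z) (pt x (g x z))) ↔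
        ∀ x ∈ U, ∀ z, (sht v * g (v +ᵥ x) * (sht v)⁻¹ : Perm (Site n)) z ≠ z →
          Q (pt x z) (pt x ((sht v * g (v +ᵥ x) * (sht v)⁻¹ : Perm (Site n)) z)) := by
    intro Q
    constructor
    · intro h x hx z hz
      obtain ⟨z, rfl⟩ := (sht v).surjective z
      rw [Perm.mul_apply, Perm.mul_apply, MsAux.inv_app] at hz ⊢
      rw [← pt_vadd, ← pt_vadd]
      exact h _ ⟨x, hx, rfl⟩ z fun e => hz (congrArg _ e)
    · rintro h _ ⟨x, hx, rfl⟩ z hz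
      have h1 := h x hx (sht v z)
      rw [Perm.mul_apply, Perm.mul_apply, MsAux.inv_app, ← pt_vadd, ← pt_vadd] at h1
      exact h1 fun e => hz ((sht v).injective e)
  refine MsAux.msf_of_iff fun γ => ?_
  exact and_congr (key fun p q => γ p = q)
    (forall_congr' fun p => imp_congr_left (key fun q _ => p ≠ q))

theorem msf_injective (h : MS U F) (hg : ∀ x ∈ U, ∀ z ∉ F, g x z = z)
    (hg' : ∀ x ∈ U, ∀ z ∉ F, g' x z = z) (he : msf U g = msf U g') : ∀ x ∈ U, g x = g' x := by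
  intro x hx
  refine Equiv.ext fun z => ?_
  by_cases hz : z ∈ F
  · have h1 := msf_apply h hg hx hz
    rw [he, msf_apply h hg' hx hz] at h1
    exact (h x hx x hx _ (MsAux.apply_mem (hg' x hx) hz) _ (MsAux.apply_mem (hg x hx) hz)
      h1).2.symm
  · rw [hg x hx z hz, hg' x hx z hz]

theorem msf_commute (h : MS U F) (h' : MS U' F') (hg : ∀ x ∈ U, ∀ z ∉ F, g x z = z)
    (hg' : ∀ x ∈ U', ∀ z ∉ F', g' x z = z)
    (hd : ∀ x ∈ U, ∀ y ∈ U', ∀ z ∈ F, ∀ z' ∈ F', pt x z ≠ pt y z') :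
    Commute (msf U g) (msf U' g') := by
  refine Perm.Disjoint.commute fun p => ?_
  by_cases hp : ∃ x ∈ U, ∃ z ∈ F, p = pt x z
  · obtain ⟨x, hx, z, hz, rfl⟩ := hp
    exact Or.inr (msf_fix h' hg' fun y hy z' hz' => hd x hx y hy z hz z' hz')
  · exact Or.inl (msf_fix h hg fun x hx z hz e => hp ⟨x, hx, z, hz, e⟩)

/-- Conjugation formula. -/
theorem conj_msf (h : MS U F) (hg : ∀ x ∈ U, ∀ z ∉ F, g x z = z) {γ : Perm (Hat X n)}
    {σ : Perm (Site n)} (hγ : ∀ x ∈ U, ∀ z ∈ F, γ (pt x z) = pt x (σ z)) :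
    MS U (F.image σ) ∧ γ * msf U g * γ⁻¹ = msf U (fun x => σ * g x * σ⁻¹) := by
  have h1 : MS U (F.image σ) := by
    intro x hx y hy w hw w' hw' he
    obtain ⟨z, hz, rfl⟩ := Finset.mem_image.1 hw
    obtain ⟨z', hz', rfl⟩ := Finset.mem_image.1 hw'
    rw [← hγ x hx z hz, ← hγ y hy z' hz'] at he
    obtain ⟨e1, e2⟩ := h x hx y hy z hz z' hz' (γ.injective he)
    exact ⟨e1, e2 ▸ rfl⟩
  refine ⟨h1, eq_msf h1 (fun x hx w hw => ?_) (fun x hx w hw => ?_) fun p hp => ?_⟩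
  · obtain ⟨z, rfl⟩ := σ.surjective w
    rw [Perm.mul_apply, Perm.mul_apply, MsAux.inv_app,
      hg x hx z fun hz => hw (Finset.mem_image_of_mem _ hz)]
  · obtain ⟨z, hz, rfl⟩ := Finset.mem_image.1 hw
    rw [← hγ x hx z hz]
    simp only [Perm.mul_apply, MsAux.inv_app]
    rw [msf_apply h hg hx hz, hγ x hx _ (MsAux.apply_mem (hg x hx) hz)]
  · obtain ⟨p, rfl⟩ := γ.surjective p
    rw [Perm.mul_apply, Perm.mul_apply, MsAux.inv_app, msf_fix h hg]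
    intro x hx z hz e
    exact hp x hx _ (Finset.mem_image_of_mem _ hz) (e ▸ hγ x hx z hz)

theorem tr_ap_c3 (U : Set X.Pt) (δ : Fin n → V) {i j k : Fin n} (hij : i ≠ j) (hik : i ≠ k)
    (hjk : j ≠ k) :
    tr δ * ap U (c3 i j k) * (tr δ)⁻¹ = ms U (c3 (δ i, i) (δ j, j) (δ k, k)) := by
  have n1 : ((δ i, i) : Site n) ≠ (δ j, j) := fun e => hij (congrArg Prod.snd e)
  have n2 : ((δ i, i) : Site n) ≠ (δ k, k) := fun e => hik (congrArg Prod.snd e)
  have n3 : ((δ j, j) : Site n) ≠ (δ k, k) := fun e => hjk (congrArg Prod.snd e)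
  have key : ∀ x ∈ U, ∀ l, (tr δ * ap U (c3 i j k) * (tr δ)⁻¹ : Perm (Hat X n)) (pt x (δ l, l)) =
      pt x (δ (c3 i j k l), c3 i j k l) := by
    intro x hx l
    have h1 : -δ l +ᵥ δ l +ᵥ x ∈ U := by rwa [neg_vadd_vadd]
    refine (MsAux.conj_pos U _ δ h1).trans ?_
    rw [neg_vadd_vadd]
    rfl
  refine eq_msf (F := {(δ i, i), (δ j, j), (δ k, k)}) (MS.of_sheets ?_) (fun x _ z hz => ?_)
    (fun x hx z hz => ?_) ?_
  · have h1 : ∀ z ∈ ({(δ i, i), (δ j, j), (δ k, k)} : Finset (Site n)), z = (δ z.2, z.2) := by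
      intro z hz
      simp only [Finset.mem_insert, Finset.mem_singleton] at hz
      rcases hz with rfl | rfl | rfl <;> rfl
    intro z hz z' hz' e
    rw [h1 z hz, h1 z' hz', e]
  · simp only [Finset.mem_insert, Finset.mem_singleton, not_or] at hz
    exact c3_apply_of_ne hz.1 hz.2.1 hz.2.2
  · simp only [Finset.mem_insert, Finset.mem_singleton] at hz
    rcases hz with rfl | rfl | rfl
    · rw [key x hx, c3_apply_fst hij hik hjk, c3_apply_fst n1 n2 n3]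
    · rw [key x hx, c3_apply_snd hij hik hjk, c3_apply_snd n1 n2 n3]
    · rw [key x hx, c3_apply_thd hij hik hjk, c3_apply_thd n1 n2 n3]
  · rintro ⟨y, l⟩ hp
    by_cases hy : -δ l +ᵥ y ∈ U
    · have h1 : ((δ l, l) : Site n) ∉ ({(δ i, i), (δ j, j), (δ k, k)} : Finset (Site n)) :=
        fun hl => hp _ hy _ hl (Prod.ext (vadd_neg_vadd _ _).symm rfl)
      simp only [Finset.mem_insert, Finset.mem_singleton, not_or] at h1
      exact MsAux.conj_fix U _ δ y (c3_apply_of_ne (fun e : l = i => h1.1 (by rw [e]))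
        (fun e : l = j => h1.2.1 (by rw [e])) fun e : l = k => h1.2.2 (by rw [e]))
    · exact MsAux.conj_neg U _ δ hy

/-! ### Orbit preserving permutations -/

theorem Full.one : Full (1 : Perm (Hat X n)) := by
  exact fun x i => ⟨(0, i), (pt_zero x i).symm⟩

theorem MsAux.full_pt {γ : Perm (Hat X n)} (h : Full γ) (x : X.Pt) (z : Site n) :
    ∃ w, γ (pt x z) = pt x w := by
  obtain ⟨w, hw⟩ := h (z.1 +ᵥ x) z.2
  exact ⟨_, hw.trans (pt_vadd z.1 x w)⟩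

theorem Full.mul {γ γ' : Perm (Hat X n)} (h : Full γ) (h' : Full γ') : Full (γ * γ') := by
  intro x i
  obtain ⟨z, hz⟩ := h' x i
  obtain ⟨w, hw⟩ := MsAux.full_pt h x z
  exact ⟨w, by rw [Perm.mul_apply, hz, hw]⟩

theorem Full.inv {γ : Perm (Hat X n)} (h : Full γ) : Full γ⁻¹ := by
  intro x i
  obtain ⟨⟨y, j⟩, hy⟩ := γ.surjective (x, i)
  obtain ⟨z, hz⟩ := h y j
  have h1 : x = z.1 +ᵥ y := congrArg Prod.fst (hy.symm.trans hz)
  refine ⟨(-z.1, j), ?_⟩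
  rw [← hy, MsAux.inv_app, h1]
  exact Prod.ext (neg_vadd_vadd _ _).symm rfl

theorem full_msf (U : Set X.Pt) (g : X.Pt → Perm (Site n)) : Full (msf U g) := by
  by_cases h : ∃ γ, IsMs U g γ
  · obtain ⟨γ, h⟩ := h
    rw [MsAux.msf_eq h]
    intro x i
    by_cases hp : ∃ y ∈ U, ∃ z, g y z ≠ z ∧ (x, i) = pt y z
    · obtain ⟨y, hy, z, hz, e⟩ := hp
      have h1 : x = z.1 +ᵥ y := congrArg Prod.fst e
      refine ⟨sht (-z.1) (g y z), ?_⟩
      rw [e, h.1 y hy z hz, ← pt_vadd, h1, neg_vadd_vadd]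
    · exact ⟨(0, i), by rw [h.2 _ fun y hy z hz e => hp ⟨y, hy, z, hz, e⟩, pt_zero]⟩
  · rw [msf, dif_neg h]
    exact Full.one

theorem HasRad.full {γ : Perm (Hat X n)} {r : ℕ} (h : HasRad γ r) : Full γ := by
  obtain ⟨c, hc, -, -⟩ := h
  exact fun x i => ⟨c x i, hc x i⟩

theorem loc_spec (hF : Free X) {γ : Perm (Hat X n)} (h : Full γ) (x : X.Pt) (z : Site n) :
    γ (pt x z) = pt x (loc γ x z) := by
  have hex : ∃ a : Perm (Site n), ∀ z, γ (pt x z) = pt x (a z) := by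
    choose a ha using MsAux.full_pt h x
    choose b hb using MsAux.full_pt h.inv x
    refine ⟨⟨a, b, fun z => pt_inj hF (x := x) ?_, fun z => pt_inj hF (x := x) ?_⟩, ha⟩
    · rw [← hb, ← ha, MsAux.inv_app]
    · rw [← ha, ← hb, MsAux.app_inv]
  rw [loc, dif_pos hex]
  exact hex.choose_spec z

theorem loc_eq (hF : Free X) {γ : Perm (Hat X n)} (h : Full γ) {x : X.Pt} {z z' : Site n}
    (he : γ (pt x z) = pt x z') : loc γ x z = z' := by
  exact pt_inj hF ((loc_spec hF h x z).symm.trans he)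

theorem loc_one (hF : Free X) (x : X.Pt) : loc (1 : Perm (Hat X n)) x = 1 := by
  exact Equiv.ext fun z => loc_eq hF Full.one rfl

theorem loc_mul (hF : Free X) {γ γ' : Perm (Hat X n)} (h : Full γ) (h' : Full γ') (x : X.Pt) :
    loc (γ * γ') x = loc γ x * loc γ' x := by
  refine Equiv.ext fun z => loc_eq hF (h.mul h') ?_
  rw [Perm.mul_apply, loc_spec hF h', loc_spec hF h, Perm.mul_apply]

theorem loc_inv (hF : Free X) {γ : Perm (Hat X n)} (h : Full γ) (x : X.Pt) :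
    loc γ⁻¹ x = (loc γ x)⁻¹ := by
  refine eq_inv_of_mul_eq_one_left ?_
  rw [← loc_mul hF h.inv h, inv_mul_cancel, loc_one hF]

theorem loc_vadd (hF : Free X) {γ : Perm (Hat X n)} (h : Full γ) (v : V) (x : X.Pt) :
    loc γ x = sht v * loc γ (v +ᵥ x) * (sht v)⁻¹ := by
  refine Equiv.ext fun z => loc_eq hF h ?_
  obtain ⟨z, rfl⟩ := (sht v).surjective z
  rw [Perm.mul_apply, Perm.mul_apply, MsAux.inv_app, ← pt_vadd, ← pt_vadd, loc_spec hF h]

theorem HasRad.mono {γ : Perm (Hat X n)} {r s : ℕ} (h : HasRad γ r) (hrs : r ≤ s) :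
    HasRad γ s := by
  obtain ⟨c, h1, h2, h3⟩ := h
  exact ⟨c, h1, fun x i => box_mono hrs (h2 x i), fun x y ha => h3 x y (ha.mono (box_mono hrs))⟩

theorem HasRad.mul {γ γ' : Perm (Hat X n)} {r s : ℕ} (h : HasRad γ r) (h' : HasRad γ' s) :
    HasRad (γ * γ') (r + s) := by
  obtain ⟨c, h1, h2, h3⟩ := h
  obtain ⟨c', h1', h2', h3'⟩ := h'
  refine ⟨fun x i => sht (c' x i).1 (c ((c' x i).1 +ᵥ x) (c' x i).2), fun x i => ?_,
    fun x i => add_mem_box (h2 _ _) (h2' x i), fun x y ha => funext fun i => ?_⟩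
  · rw [Perm.mul_apply, h1', ← pt_vadd]
    exact h1 _ _
  · beta_reduce
    rw [← h3' x y (ha.mono (box_mono (Nat.le_add_left s r))), h3 _ _ (ha.vadd (h2' x i))]

theorem HasRad.loc_sub (hF : Free X) {γ : Perm (Hat X n)} {r : ℕ} (h : HasRad γ r) (x : X.Pt)
    (z : Site n) : (loc γ x z).1 - z.1 ∈ box r := by
  have hf := h.full
  obtain ⟨c, h1, h2, -⟩ := h
  rw [loc_eq hF hf ((h1 _ _).trans (pt_vadd z.1 x _)), sht_apply, add_sub_cancel_right]
  exact h2 _ _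

theorem HasRad.loc_congr (hF : Free X) {γ : Perm (Hat X n)} {r : ℕ} (h : HasRad γ r)
    {x y : X.Pt} {z : Site n} (ha : Agree (box r) (z.1 +ᵥ x) (z.1 +ᵥ y)) :
    loc γ x z = loc γ y z := by
  have hf := h.full
  obtain ⟨c, h1, -, h3⟩ := h
  rw [loc_eq hF hf ((h1 _ _).trans (pt_vadd z.1 x _)),
    loc_eq hF hf ((h1 _ _).trans (pt_vadd z.1 y _)), h3 _ _ ha]

theorem HasRad.inv (hF : Free X) {γ : Perm (Hat X n)} {r : ℕ} (h : HasRad γ r) :
    HasRad γ⁻¹ (2 * r) := by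
  have hf := h.full
  have hb : ∀ x i, ((loc γ x)⁻¹ (0, i)).1 ∈ box r := by
    intro x i
    have h1 := neg_mem_box (h.loc_sub hF x ((loc γ x)⁻¹ (0, i)))
    rwa [MsAux.app_inv, zero_sub, neg_neg] at h1
  refine ⟨fun x i => (loc γ x)⁻¹ (0, i), fun x i => ?_,
    fun x i => box_mono (by omega) (hb x i), fun x y ha => funext fun i => ?_⟩
  · rw [← pt_zero, loc_spec hF hf.inv, loc_inv hF hf]
  · rw [two_mul] at ha
    have h1 := h.loc_congr hF (ha.vadd (hb x i))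
    rw [MsAux.app_inv] at h1
    exact (Perm.inv_eq_iff_eq.2 h1).symm

theorem MsAux.hasRad_tr (δ : Fin n → V) : ∃ r, HasRad (tr δ : Perm (Hat X n)) r := by
  obtain ⟨r, hr⟩ := exists_box_of_finite (Set.finite_range δ)
  exact ⟨r, fun _ i => (δ i, i), fun _ _ => rfl, fun _ i => hr ⟨i, rfl⟩, fun _ _ _ => rfl⟩

theorem MsAux.hasRad_ap (hU : Loc U) (a : Perm (Fin n)) : ∃ r, HasRad (ap U a) r := by
  classical
  obtain ⟨r, hr⟩ := hU
  refine ⟨r, fun x i => (0, if x ∈ U then a i else i), fun x i => ?_, fun _ _ => zero_mem_box r,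
    fun x y ha => ?_⟩
  · rw [pt_zero]
    split_ifs with hx
    · exact ap_apply_of_mem a hx i
    · exact ap_apply_of_not_mem a hx i
  · have : x ∈ U ↔ y ∈ U := ⟨hr x y ha, hr y x ha.symm⟩
    simp only [this]

theorem exists_hasRad_gens {γ : Perm (Hat X n)} (h : γ ∈ gens X n) : ∃ r, HasRad γ r := by
  obtain ⟨U, δ, a, hU, -, rfl⟩ := h
  obtain ⟨r, hr⟩ := MsAux.hasRad_tr (X := X) δ
  obtain ⟨s, hs⟩ := MsAux.hasRad_ap hU a
  obtain ⟨t, ht⟩ := MsAux.hasRad_tr (X := X) (-δ)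
  rw [tr_inv]
  exact ⟨_, (hr.mul hs).mul ht⟩

theorem inv_mem_gens {γ : Perm (Hat X n)} (h : γ ∈ gens X n) : γ⁻¹ ∈ gens X n := by
  obtain ⟨U, δ, a, hU, ha, rfl⟩ := h
  refine ⟨U, δ, a⁻¹, hU, ha.inv, ?_⟩
  rw [← MsAux.ap_inv, mul_inv_rev, mul_inv_rev, inv_inv, mul_assoc]

theorem exists_hasRad (hF : Free X) {γ : Perm (Hat X n)} (h : γ ∈ Alt X n) :
    ∃ r, HasRad γ r := by
  induction h using Subgroup.closure_induction with
  | mem γ h => exact exists_hasRad_gens h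
  | one =>
    rw [← tr_zero]
    exact MsAux.hasRad_tr 0
  | mul γ γ' _ _ h h' =>
    obtain ⟨r, hr⟩ := h
    obtain ⟨s, hs⟩ := h'
    exact ⟨_, hr.mul hs⟩
  | inv γ _ h =>
    obtain ⟨r, hr⟩ := h
    exact ⟨_, hr.inv hF⟩

end Crest.Agent.R189
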