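import Crest.Agent.R189.Defs

/-! Row 189: regular orthomodular posets. -/

set_option autoImplicit false

namespace Crest.Agent.R189

namespace ROMP
variable {P : Type} [ROMP P] {p q r s x a b e : P}

theorem OmpAux.eq_of_orth_iff (h : ∀ r, orth p r ↔ orth q r) : p = q :=
  antisymm ((h _).2 (orth_compl q)) ((h _).1 (orth_compl p))

theorem le_refl (p : P) : le p p := by
  exact orth_compl p

theorem le_trans (h : le p q) (h' : le q r) : le p r := by
  exact trans h h'

theorem le_antisymm (h : le p q) (h' : le q p) : p = q := by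
  exact antisymm h h'

theorem zero_le (p : P) : le zero p := by
  exact zero_orth _

theorem le_one (p : P) : le p one := by
  unfold le one
  rw [compl_compl]
  exact orth_symm (zero_orth p)

theorem eq_zero_of_le (h : le p zero) : p = zero := by
  exact le_antisymm h (zero_le p)

theorem orth_iff_le : orth p q ↔ le p (compl q) := by
  unfold le
  rw [compl_compl]

theorem orth_of_le (h : le p q) (h' : orth q r) : orth p r := by
  exact trans h h'

theorem orth_mono (h : orth p q) (h1 : le a p) (h2 : le b q) : orth a b := by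
  exact orth_symm (orth_of_le h2 (orth_symm (orth_of_le h1 h)))

theorem eq_zero_of_le_orth (h : le p q) (h' : orth p q) : p = zero := by
  exact eq_zero (orth_of_le h (orth_symm h'))

theorem compl_le_compl (h : le p q) : le (compl q) (compl p) := by
  exact orth_iff_le.1 (orth_symm h)

theorem compl_one : compl (one : P) = zero := by
  exact compl_compl _

theorem le_add_left (h : orth p q) : le p (add p q) := by
  exact ((add_orth h).1 (orth_compl _)).1

theorem le_add_right (h : orth p q) : le q (add p q) := by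
  exact ((add_orth h).1 (orth_compl _)).2

theorem add_le (h : orth p q) : le (add p q) r ↔ le p r ∧ le q r := by
  exact add_orth h

theorem add_comm (h : orth p q) : add p q = add q p := by
  refine OmpAux.eq_of_orth_iff fun r => ?_
  rw [add_orth h, add_orth (orth_symm h), and_comm]

theorem add_assoc (h1 : orth p q) (h2 : orth p r) (h3 : orth q r) :
    add (add p q) r = add p (add q r) := by
  refine OmpAux.eq_of_orth_iff fun t => ?_
  rw [add_orth ((add_orth h1).2 ⟨h2, h3⟩), add_orth h1,
    add_orth (orth_symm ((add_orth h3).2 ⟨orth_symm h1, orth_symm h2⟩)), add_orth h3, and_assoc]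

theorem add_zero (p : P) : add p zero = p := by
  refine OmpAux.eq_of_orth_iff fun t => ?_
  rw [add_orth (orth_symm (zero_orth p))]
  exact ⟨fun h => h.1, fun h => ⟨h, zero_orth t⟩⟩

theorem zero_add (p : P) : add zero p = p := by
  rw [add_comm (zero_orth p), add_zero]

theorem add_compl (p : P) : add p (compl p) = one := by
  have h1 : le p (add p (compl p)) := le_add_left (orth_compl p)
  have h2 : le (compl p) (add p (compl p)) := le_add_right (orth_compl p)
  have h3 : compl (add p (compl p)) = zero :=
    eq_zero_of_le_orth (q := p) (orth_symm h2) (orth_symm h1)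
  rw [← compl_compl (add p (compl p)), h3]
  rfl

theorem eq_compl_of_add (h : orth p q) (h' : add p q = one) : q = compl p := by
  have h1 : le q (compl p) := orth_iff_le.1 (orth_symm h)
  have h2 := omod h1
  rw [compl_compl, add_comm (orth_symm h), h', compl_one, add_zero] at h2
  exact h2.symm

/-- Cancellation. -/
theorem le_of_le_add (h : orth p q) (h1 : le r (add p q)) (h2 : orth r p) : le r q := by
  have h3 : le p (compl q) := orth_iff_le.1 h
  have h4 := omod h3
  rw [compl_compl] at h4
  unfold le
  rw [h4]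
  exact orth_symm ((add_orth (le_add_left h)).2 ⟨orth_symm h2, orth_symm h1⟩)

theorem add_cancel (h1 : orth p q) (h2 : orth p r) (h : add p q = add p r) : q = r := by
  refine le_antisymm (le_of_le_add h2 ?_ (orth_symm h1)) (le_of_le_add h1 ?_ (orth_symm h2))
  · rw [← h]; exact le_add_right h1
  · rw [h]; exact le_add_right h2

theorem exists_add_of_le (h : le p q) : ∃ r, orth p r ∧ q = add p r := by
  exact ⟨compl (add p (compl q)), le_add_left h, omod h⟩

theorem Com.symm (h : Com x p) : Com p x := by
  obtain ⟨a, b, ha, hb, rfl⟩ := h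
  obtain ⟨c, hc, hx⟩ := exists_add_of_le (p := a) (q := x) ha
  have hab : orth a b := orth_of_le ha (orth_symm hb)
  have hcx : le c x := by rw [hx]; exact le_add_right hc
  refine ⟨a, c, le_add_left hab, ?_, hx⟩
  exact orth_symm ((add_orth hab).2 ⟨hc, orth_symm (orth_of_le hcx (orth_symm hb))⟩)

theorem com_iff : Com x p ↔ ∃ a b c, orth a b ∧ orth a c ∧ orth b c ∧ x = add a b ∧
    p = add a c := by
  constructor
  · rintro ⟨a, b, ha, hb, rfl⟩
    obtain ⟨c, hc, hx⟩ := exists_add_of_le (p := a) (q := x) ha
    have hab : orth a b := orth_of_le ha (orth_symm hb)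
    have hcx : le c x := by rw [hx]; exact le_add_right hc
    exact ⟨a, c, b, hc, hab, orth_of_le hcx (orth_symm hb), hx, rfl⟩
  · rintro ⟨a, b, c, hab, hac, hbc, rfl, rfl⟩
    exact ⟨a, c, le_add_left hab, orth_symm ((add_orth hab).2 ⟨hac, hbc⟩), rfl⟩

theorem com_of_le (h : le p x) : Com x p := by
  exact ⟨p, zero, h, zero_orth x, (add_zero p).symm⟩

theorem com_of_ge (h : le x p) : Com x p := by
  exact (com_of_le h).symm

theorem com_of_orth (h : orth x p) : Com x p := by
  exact ⟨zero, p, zero_orth _, orth_symm h, (zero_add p).symm⟩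

theorem Com.refl (p : P) : Com p p := by
  exact com_of_le (le_refl p)

theorem Com.compl_right (h : Com x p) : Com x (compl p) := by
  obtain ⟨a, b, ha, hb, hx⟩ := h.symm
  refine Com.symm ⟨b, a, orth_iff_le.1 hb, ha, ?_⟩
  rw [hx, add_comm (orth_of_le ha (orth_symm hb))]

theorem Com.compl_left (h : Com x p) : Com (compl x) p := by
  exact h.symm.compl_right.symm

theorem OmpAux.add_four {c d : P} (h : orth (add a b) (add c d)) (ha : le a x) (hb : orth b x)
    (hc : le c x) (hd : orth d x) :
    le (add a c) x ∧ orth (add b d) x ∧ add (add a b) (add c d) = add (add a c) (add b d) := by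
  have hab : orth a b := orth_of_le ha (orth_symm hb)
  have hcd : orth c d := orth_of_le hc (orth_symm hd)
  have hac : orth a c := orth_mono h (le_add_left hab) (le_add_left hcd)
  have hbd : orth b d := orth_mono h (le_add_right hab) (le_add_right hcd)
  have h1 : le (add a c) x := (add_le hac).2 ⟨ha, hc⟩
  have h2 : orth (add b d) x := (add_orth hbd).2 ⟨hb, hd⟩
  refine ⟨h1, h2, OmpAux.eq_of_orth_iff fun t => ?_⟩
  rw [add_orth h, add_orth hab, add_orth hcd, add_orth (orth_of_le h1 (orth_symm h2)),
    add_orth hac, add_orth hbd]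
  tauto

theorem OmpAux.meet_spec (h : Com x p) :
    le (meet x p) x ∧ ∃ b, orth b x ∧ p = add (meet x p) b := by
  unfold meet
  rw [dif_pos h]
  obtain ⟨b, h1, h2, h3⟩ := h.choose_spec
  exact ⟨h1, b, h2, h3⟩

theorem Com.add_right (h : orth p q) (h1 : Com x p) (h2 : Com x q) : Com x (add p q) := by
  obtain ⟨a, b, ha, hb, rfl⟩ := h1
  obtain ⟨c, d, hc, hd, rfl⟩ := h2
  obtain ⟨h3, h4, h5⟩ := OmpAux.add_four h ha hb hc hd
  exact ⟨_, _, h3, h4, h5⟩

theorem meet_le_left (h : Com x p) : le (meet x p) x := by
  exact (OmpAux.meet_spec h).1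

theorem meet_le_right (h : Com x p) : le (meet x p) p := by
  obtain ⟨h1, b, hb, hp⟩ := OmpAux.meet_spec h
  conv_rhs => rw [hp]
  exact le_add_left (orth_of_le h1 (orth_symm hb))

theorem le_meet (h : Com x p) (h1 : le r x) (h2 : le r p) : le r (meet x p) := by
  obtain ⟨h3, b, hb, hp⟩ := OmpAux.meet_spec h
  have h4 : orth (meet x p) b := orth_of_le h3 (orth_symm hb)
  refine le_of_le_add (orth_symm h4) ?_ (orth_of_le h1 (orth_symm hb))
  rw [← add_comm h4, ← hp]
  exact h2

theorem meet_comm (h : Com x p) : meet x p = meet p x := by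
  exact le_antisymm (le_meet h.symm (meet_le_right h) (meet_le_left h))
    (le_meet h (meet_le_right h.symm) (meet_le_left h.symm))

theorem meet_eq (ha : le a x) (hb : orth b x) (hp : p = add a b) : meet x p = a := by
  have h : Com x p := ⟨a, b, ha, hb, hp⟩
  have hab : orth a b := orth_of_le ha (orth_symm hb)
  refine le_antisymm (le_of_le_add (orth_symm hab) ?_
    (orth_of_le (meet_le_left h) (orth_symm hb))) (le_meet h ha ?_)
  · rw [← add_comm hab, ← hp]
    exact meet_le_right h
  · rw [hp]
    exact le_add_left hab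

theorem meet_of_le (h : le p x) : meet x p = p := by
  exact meet_eq h (zero_orth x) (add_zero p).symm

theorem meet_of_ge (h : le x p) : meet x p = x := by
  rw [meet_comm (com_of_ge h), meet_of_le h]

theorem meet_of_orth (h : orth x p) : meet x p = zero := by
  exact meet_eq (zero_le x) (orth_symm h) (zero_add p).symm

theorem orth_of_meet_eq_zero (h : Com x p) (h0 : meet x p = zero) : orth x p := by
  obtain ⟨-, b, hb, hp⟩ := OmpAux.meet_spec h
  rw [h0, zero_add] at hp
  rw [hp]
  exact orth_symm hb

theorem add_meet (h : Com x p) :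
    orth (meet x p) (meet (compl x) p) ∧ p = add (meet x p) (meet (compl x) p) := by
  obtain ⟨h1, b, hb, hp⟩ := OmpAux.meet_spec h
  have h2 : orth (meet x p) b := orth_of_le h1 (orth_symm hb)
  have h3 : meet (compl x) p = b :=
    meet_eq (orth_iff_le.1 hb) h1 (hp.trans (add_comm h2))
  rw [h3]
  exact ⟨h2, hp⟩

theorem meet_add (h : orth p q) (h1 : Com x p) (h2 : Com x q) :
    orth (meet x p) (meet x q) ∧ meet x (add p q) = add (meet x p) (meet x q) := by
  refine ⟨orth_mono h (meet_le_right h1) (meet_le_right h2), ?_⟩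
  obtain ⟨ha, b, hb, hp⟩ := OmpAux.meet_spec h1
  obtain ⟨hc, d, hd, hq⟩ := OmpAux.meet_spec h2
  have h' := h
  rw [hp, hq] at h'
  obtain ⟨h3, h4, h5⟩ := OmpAux.add_four h' ha hb hc hd
  rw [← hp, ← hq] at h5
  exact meet_eq h3 h4 h5

theorem meet_mono (h1 : Com x p) (h2 : Com x q) (h : le p q) : le (meet x p) (meet x q) := by
  exact le_meet h2 (meet_le_left h1) (le_trans (meet_le_right h1) h)

/-- Regularity: commutation passes to meets. -/
theorem Com.meet_right (h : Com p q) (h1 : Com x p) (h2 : Com x q) : Com x (meet p q) := by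
  obtain ⟨r, a, b, hra, hrb, hab, rfl, rfl⟩ := com_iff.1 h
  rw [meet_eq (le_add_left hra) (orth_symm ((add_orth hra).2 ⟨hrb, hab⟩)) rfl]
  exact reg hra hrb hab h1 h2

theorem meet_assoc (h1 : Com p q) (h2 : Com p r) (h3 : Com q r) :
    meet (meet p q) r = meet p (meet q r) := by
  have h4 : Com (meet p q) r := (Com.meet_right h1 h2.symm h3.symm).symm
  have h5 : Com p (meet q r) := Com.meet_right h3 h1 h2
  refine le_antisymm (le_meet h5 (le_trans (meet_le_left h4) (meet_le_left h1))
    (le_meet h3 (le_trans (meet_le_left h4) (meet_le_right h1)) (meet_le_right h4)))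
    (le_meet h4 (le_meet h1 (meet_le_left h5) (le_trans (meet_le_right h5) (meet_le_left h3)))
      (le_trans (meet_le_right h5) (meet_le_right h3)))

/-- Transfer of commutation through an event that contains `e`. -/
theorem com_transfer (he : le e s) (h1 : Com s p) (h2 : Com e (meet s p)) : Com e p := by
  obtain ⟨h3, h4⟩ := add_meet h1
  rw [h4]
  refine Com.add_right h3 h2 (com_of_orth ?_)
  exact orth_mono (orth_compl s) he (meet_le_left h1.compl_left)

end ROMP

open ROMP

namespace Obs
variable {P : Type} [ROMP P] {α β : Type} {e : P} {p x : P}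

@[ext] theorem ext {O O' : Obs P α e} (h : ∀ A, O.f A = O'.f A) : O = O' := by
  cases O
  cases O'
  congr
  exact funext h

theorem empty (O : Obs P α e) : O.f ∅ = zero := by
  exact eq_zero (O.orth (Set.disjoint_empty _))

theorem mono (O : Obs P α e) {A B : Set α} (h : A ⊆ B) : le (O.f A) (O.f B) := by
  rw [← Set.union_sdiff_cancel h, O.add Set.disjoint_sdiff_right]
  exact le_add_left (O.orth Set.disjoint_sdiff_right)

theorem le_top (O : Obs P α e) (A : Set α) : le (O.f A) e := by
  have := O.mono (Set.subset_univ A)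
  rwa [O.univ] at this

theorem com (O : Obs P α e) (A B : Set α) : Com (O.f A) (O.f B) := by
  refine ⟨O.f (A ∩ B), O.f (B \ A), O.mono Set.inter_subset_left,
    O.orth Set.disjoint_sdiff_left, ?_⟩
  rw [← O.add (Set.disjoint_sdiff_right.mono_left Set.inter_subset_left), Set.inter_comm,
    Set.inter_union_sdiff]

theorem inter (O : Obs P α e) (A B : Set α) : O.f (A ∩ B) = meet (O.f A) (O.f B) := by
  refine (meet_eq (b := O.f (B \ A)) (O.mono Set.inter_subset_left)
    (O.orth Set.disjoint_sdiff_left) ?_).symm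
  rw [← O.add (Set.disjoint_sdiff_right.mono_left Set.inter_subset_left), Set.inter_comm,
    Set.inter_union_sdiff]

theorem le_inter (O : Obs P α e) {A B : Set α} (h1 : le p (O.f A)) (h2 : le p (O.f B)) :
    le p (O.f (A ∩ B)) := by
  rw [O.inter]
  exact le_meet (O.com A B) h1 h2

theorem le_iInter {ι : Type} [Finite ι] (O : Obs P α e) {A : ι → Set α} (he : le p e)
    (h : ∀ i, le p (O.f (A i))) : le p (O.f (⋂ i, A i)) := by
  have key : ∀ s : Set ι, s.Finite → le p (O.f (⋂ i ∈ s, A i)) := by
    intro s hs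
    induction s, hs using Set.Finite.induction_on with
    | empty => simpa [O.univ] using he
    | insert _ _ ih =>
      rw [Set.biInter_insert]
      exact O.le_inter (h _) ih
  simpa using key Set.univ Set.finite_univ

theorem le_compl_iff (O : Obs P α e) {A : Set α} (he : le p e) :
    le p (O.f Aᶜ) ↔ ROMP.orth p (O.f A) := by
  constructor
  · intro h
    exact orth_of_le h (O.orth disjoint_compl_left)
  · intro h
    refine le_of_le_add (O.orth disjoint_compl_right) ?_ h
    rw [← O.add disjoint_compl_right, Set.union_compl_self, O.univ]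
    exact he

theorem compl_one (O : Obs P α one) (A : Set α) : O.f Aᶜ = compl (O.f A) := by
  refine eq_compl_of_add (O.orth disjoint_compl_right) ?_
  rw [← O.add disjoint_compl_right, Set.union_compl_self, O.univ]

/-- Null sets do not matter. -/
theorem mono_null (O : Obs P α e) {N A B : Set α} (hN : O.f N = zero) (h : A ⊆ B ∪ N) :
    le (O.f A) (O.f B) := by
  have h1 : O.f (N \ B) = zero := by
    have := O.mono (Set.sdiff_subset (s := N) (t := B))
    rw [hN] at this
    exact eq_zero_of_le this
  have h2 := O.mono h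
  rwa [← Set.union_sdiff_self, O.add Set.disjoint_sdiff_right, h1, ROMP.add_zero] at h2

theorem eq_of_null (O : Obs P α e) {N A B : Set α} (hN : O.f N = zero) (h1 : A ⊆ B ∪ N)
    (h2 : B ⊆ A ∪ N) : O.f A = O.f B := by
  exact ROMP.le_antisymm (O.mono_null hN h1) (O.mono_null hN h2)

theorem le_of_le_union (O : Obs P α e) {A B : Set α} (h1 : le p (O.f (A ∪ B)))
    (h2 : ROMP.orth p (O.f B)) : le p (O.f A) := by
  rw [Set.union_comm, ← Set.union_sdiff_self, O.add Set.disjoint_sdiff_right] at h1
  exact ROMP.le_trans (le_of_le_add (O.orth Set.disjoint_sdiff_right) h1 h2)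
    (O.mono Set.sdiff_subset)

theorem OmpAux.corner (O : Obs P α e) {g : P} (hg : le g e) (h : ∀ A, Com g (O.f A)) :
    ∃ O' : Obs P α g, ∀ A, O'.f A = meet g (O.f A) :=
  ⟨⟨fun A => meet g (O.f A), by rw [O.univ, meet_of_ge hg],
    fun hd => (meet_add (O.orth hd) (h _) (h _)).1,
    fun hd => by rw [O.add hd, (meet_add (O.orth hd) (h _) (h _)).2]⟩, fun _ => rfl⟩

section fin
variable [Finite α]

theorem OmpAux.ind (O : Obs P α e) (Q : P → Prop) (h0 : Q zero)
    (hadd : ∀ p q, ROMP.orth p q → Q p → Q q → Q (ROMP.add p q)) {A : Set α}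
    (h : ∀ a ∈ A, Q (O.f {a})) : Q (O.f A) := by
  have hA := Set.toFinite A
  induction A, hA using Set.Finite.induction_on with
  | empty => rwa [O.empty]
  | @insert a s has _ ih =>
    have hd : Disjoint {a} s := Set.disjoint_singleton_left.2 has
    rw [Set.insert_eq, O.add hd]
    exact hadd _ _ (O.orth hd) (h a (Set.mem_insert _ _))
      (ih fun b hb => h b (Set.mem_insert_of_mem _ hb))

theorem le_of_singleton (O : Obs P α e) {A : Set α} (h : ∀ a ∈ A, le (O.f {a}) p) :
    le (O.f A) p := by
  exact OmpAux.ind O (fun s => le s p) (ROMP.zero_le p)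
    (fun _ _ ho h1 h2 => (add_le ho).2 ⟨h1, h2⟩) h

theorem orth_of_singleton (O : Obs P α e) {A : Set α} (h : ∀ a ∈ A, ROMP.orth (O.f {a}) p) :
    ROMP.orth (O.f A) p := by
  exact OmpAux.ind O (fun s => ROMP.orth s p) (zero_orth p)
    (fun _ _ ho h1 h2 => (add_orth ho).2 ⟨h1, h2⟩) h

theorem com_of_singleton (O : Obs P α e) {A : Set α} (h : ∀ a ∈ A, Com x (O.f {a})) :
    Com x (O.f A) := by
  exact OmpAux.ind O (fun s => Com x s) (com_of_le (ROMP.zero_le x))
    (fun _ _ ho h1 h2 => Com.add_right ho h1 h2) h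

theorem eq_zero_of_singleton (O : Obs P α e) {A : Set α} (h : ∀ a ∈ A, O.f {a} = zero) :
    O.f A = zero := by
  refine eq_zero_of_le (O.le_of_singleton fun a ha => ?_)
  rw [h a ha]
  exact ROMP.le_refl _

theorem ext_singleton {e' : P} (O : Obs P α e) (O' : Obs P α e') {A : Set α}
    (h : ∀ a ∈ A, O.f {a} = O'.f {a}) : O.f A = O'.f A := by
  have hA := Set.toFinite A
  induction A, hA using Set.Finite.induction_on with
  | empty => rw [O.empty, O'.empty]
  | @insert a s has _ ih =>
    have hd : Disjoint {a} s := Set.disjoint_singleton_left.2 has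
    rw [Set.insert_eq, O.add hd, O'.add hd, h a (Set.mem_insert _ _),
      ih fun b hb => h b (Set.mem_insert_of_mem _ hb)]

theorem OmpAux.refine (O : Obs P α e) (O' : Obs P β e) (φ : α → β)
    (h : ∀ a, le (O.f {a}) (O'.f {φ a})) (B : Set β) : O'.f B = O.f (φ ⁻¹' B) := by
  have key : ∀ B : Set β, le (O.f (φ ⁻¹' B)) (O'.f B) := fun B =>
    O.le_of_singleton fun a ha => ROMP.le_trans (h a) (O'.mono (Set.singleton_subset_iff.2 ha))
  refine ROMP.le_antisymm ?_ (key B)
  rw [← compl_compl (φ ⁻¹' B), O.le_compl_iff (O'.le_top B)]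
  exact orth_symm (orth_of_le (key Bᶜ) (O'.orth disjoint_compl_left))

/-- Two partitions of the same element, one below the other, are equal. -/
theorem eq_of_le (O O' : Obs P α e) (h : ∀ a, le (O.f {a}) (O'.f {a})) : O = O' := by
  refine Obs.ext fun A => ?_
  exact (OmpAux.refine O O' id h A).symm

/-- A partition that refines an observable. -/
theorem eq_of_refine (O : Obs P α e) (O' : Obs P β e) (φ : α → β)
    (h : ∀ a, le (O.f {a}) (O'.f {φ a})) (B : Set β) : O'.f B = O.f (φ ⁻¹' B) := by
  exact OmpAux.refine O O' φ h B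

/-- An observable from a finite orthogonal family. -/
theorem exists_of_family (g : α → P) (h : ∀ a b, a ≠ b → ROMP.orth (g a) (g b)) :
    ∃ (e : P) (O : Obs P α e), ∀ a, O.f {a} = g a := by
  have key : ∀ A : Set α, ∃ s : P, ∀ r, ROMP.orth s r ↔ ∀ a ∈ A, ROMP.orth (g a) r := by
    intro A
    have hA := Set.toFinite A
    induction A, hA using Set.Finite.induction_on with
    | empty => exact ⟨zero, fun r => by simp [zero_orth]⟩
    | @insert a A has _ ih =>
      obtain ⟨s, hs⟩ := ih
      have ho : ROMP.orth (g a) s :=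
        orth_symm ((hs _).2 fun b hb => h b a fun hba => has (hba ▸ hb))
      refine ⟨ROMP.add (g a) s, fun r => ?_⟩
      rw [add_orth ho, hs, Set.forall_mem_insert]
  choose f hf using key
  have ho : ∀ {A B : Set α}, Disjoint A B → ROMP.orth (f A) (f B) := by
    intro A B hAB
    refine (hf A _).2 fun a ha => orth_symm ((hf B _).2 fun b hb => h b a ?_)
    rintro rfl
    exact Set.disjoint_left.1 hAB ha hb
  refine ⟨f Set.univ, ⟨f, rfl, ho, fun {A B} hAB => ?_⟩, fun a => ?_⟩
  · refine ROMP.OmpAux.eq_of_orth_iff fun r => ?_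
    rw [add_orth (ho hAB), hf, hf, hf]
    simp only [Set.mem_union, or_imp, forall_and]
  · refine ROMP.OmpAux.eq_of_orth_iff fun r => ?_
    change ROMP.orth (f {a}) r ↔ _
    rw [hf]
    simp

/-- A finite orthogonal family below `e` whose only common annihilator below `e` is zero. -/
theorem exists_of_family' (g : α → P) (h : ∀ a b, a ≠ b → ROMP.orth (g a) (g b))
    (hle : ∀ a, le (g a) e) (hmax : ∀ p, le p e → (∀ a, ROMP.orth p (g a)) → p = zero) :
    ∃ O : Obs P α e, ∀ a, O.f {a} = g a := by
  obtain ⟨e₀, O, hO⟩ := exists_of_family g h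
  have h1 : le e₀ e := by
    rw [← O.univ]
    exact O.le_of_singleton fun a _ => by rw [hO]; exact hle a
  obtain ⟨r, hr, he⟩ := exists_add_of_le h1
  have h2 : r = zero := by
    refine hmax r (by rw [he]; exact le_add_right hr) fun a => ?_
    rw [← hO]
    exact orth_symm (orth_of_le (O.le_top _) hr)
  rw [h2, ROMP.add_zero] at he
  subst he
  exact ⟨O, hO⟩

/-- Commutation can be checked in the corners of a central partition. -/
theorem com_of_corners (G : Obs P α e) {p q : P} (hp : le p e) (hq : le q e)
    (h1 : ∀ a, Com (G.f {a}) p) (h2 : ∀ a, Com (G.f {a}) q)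
    (h : ∀ a, Com (meet (G.f {a}) p) (meet (G.f {a}) q)) : Com p q := by
  obtain ⟨Op, hOp⟩ := OmpAux.corner G hp fun A => G.com_of_singleton fun a _ => (h1 a).symm
  obtain ⟨Oq, hOq⟩ := OmpAux.corner G hq fun A => G.com_of_singleton fun a _ => (h2 a).symm
  rw [← Op.univ, ← Oq.univ]
  refine Oq.com_of_singleton fun b _ => Com.symm (Op.com_of_singleton fun a _ => Com.symm ?_)
  rw [hOp, hOq, ← meet_comm (h1 a), ← meet_comm (h2 b)]
  by_cases hab : a = b
  · subst hab
    exact h a
  · exact com_of_orth (orth_mono (G.orth (Set.disjoint_singleton.2 hab))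
      (meet_le_left (h1 a)) (meet_le_left (h2 b)))

end fin

/-- Push forward of an observable. -/
def map (O : Obs P α e) (φ : α → β) : Obs P β e where
  f B := O.f (φ ⁻¹' B)
  univ := by rw [Set.preimage_univ, O.univ]
  orth h := O.orth (h.preimage φ)
  add h := by rw [Set.preimage_union, O.add (h.preimage φ)]

theorem map_f (O : Obs P α e) (φ : α → β) (B : Set β) : (O.map φ).f B = O.f (φ ⁻¹' B) := rfl

/-- Compression to a corner. -/
theorem exists_corner (O : Obs P α e) {g : P} (hg : le g e) (h : ∀ A, Com g (O.f A)) :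
    ∃ O' : Obs P α g, ∀ A, O'.f A = meet g (O.f A) := by
  exact OmpAux.corner O hg h

/-- Joint observable of two commuting observables. -/
theorem exists_prod [Finite α] [Finite β] (O : Obs P α e) (O' : Obs P β e)
    (h : ∀ A B, Com (O.f A) (O'.f B)) :
    ∃ J : Obs P (α × β) e, (∀ A B, J.f (A ×ˢ B) = meet (O.f A) (O'.f B)) ∧
      ∀ x, (∀ A, Com x (O.f A)) → (∀ B, Com x (O'.f B)) → ∀ C, Com x (J.f C) := by
  obtain ⟨e₀, J, hJ⟩ := exists_of_family (fun q : α × β => meet (O.f {q.1}) (O'.f {q.2})) (by
    rintro ⟨a, b⟩ ⟨a', b'⟩ hne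
    by_cases ha : a = a'
    · have hb : b ≠ b' := fun hb => hne (by rw [ha, hb])
      exact orth_mono (O'.orth (Set.disjoint_singleton.2 hb)) (meet_le_right (h _ _))
        (meet_le_right (h _ _))
    · exact orth_mono (O.orth (Set.disjoint_singleton.2 ha)) (meet_le_left (h _ _))
        (meet_le_left (h _ _)))
  have k1 : ∀ (a : α) (B : Set β), J.f ({a} ×ˢ B) = meet (O.f {a}) (O'.f B) := by
    intro a B
    obtain ⟨K, hK⟩ := O'.exists_corner (O.le_top {a}) fun B => h {a} B
    rw [← hK]
    let K' : Obs P β (J.f ({a} ×ˢ Set.univ)) :=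
      ⟨fun B => J.f ({a} ×ˢ B), rfl, fun hd => J.orth (Set.Disjoint.set_prod_right hd _ _), fun hd => by
        rw [Set.prod_union, J.add (Set.Disjoint.set_prod_right hd _ _)]⟩
    refine ext_singleton K' K fun b _ => ?_
    rw [hK]
    change J.f ({a} ×ˢ {b}) = _
    rw [Set.singleton_prod_singleton, hJ]
  have k2 : ∀ (A : Set α) (B : Set β), J.f (A ×ˢ B) = meet (O.f A) (O'.f B) := by
    intro A B
    obtain ⟨K, hK⟩ := O.exists_corner (O'.le_top B) fun A => (h A B).symm
    rw [meet_comm (h A B), ← hK]
    let K' : Obs P α (J.f (Set.univ ×ˢ B)) :=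
      ⟨fun A => J.f (A ×ˢ B), rfl, fun hd => J.orth (Set.Disjoint.set_prod_left hd _ _), fun hd => by
        rw [Set.union_prod, J.add (Set.Disjoint.set_prod_left hd _ _)]⟩
    refine ext_singleton K' K fun a _ => ?_
    rw [hK, ← meet_comm (h {a} B)]
    exact k1 a B
  have he : e₀ = e := by
    have := k2 Set.univ Set.univ
    rwa [Set.univ_prod_univ, J.univ, O.univ, O'.univ, meet_of_le (ROMP.le_refl e)] at this
  subst he
  refine ⟨J, k2, fun x h1 h2 C => J.com_of_singleton fun q _ => ?_⟩
  rw [hJ]
  exact Com.meet_right (h _ _) (h1 _) (h2 _)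

/-- Joint observable of finitely many commuting observables. -/
theorem exists_pi {ι : Type} [Finite ι] [Finite α] (O : ι → Obs P α e)
    (h : ∀ i j A B, Com ((O i).f A) ((O j).f B)) :
    ∃ J : Obs P (ι → α) e, (∀ i A, J.f {π | π i ∈ A} = (O i).f A) ∧
      ∀ x, Com x e → (∀ i A, Com x ((O i).f A)) → ∀ C, Com x (J.f C) := by
  induction ι using Finite.induction_empty_option with
  | @of_equiv ι κ φ ih =>
    obtain ⟨J, h1, h2⟩ := ih (fun i => O (φ i)) fun i j => h (φ i) (φ j)
    refine ⟨J.map fun π k => π (φ.symm k), fun k A => ?_, fun x hx hO C => ?_⟩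
    · have := h1 (φ.symm k) A
      rw [φ.apply_symm_apply] at this
      exact this
    · exact h2 x hx (fun i => hO (φ i)) _
  | h_empty =>
    obtain ⟨J, hJ⟩ := exists_of_family' (e := e) (fun _ : PEmpty.{1} → α => e)
      (fun a b hab => (hab (Subsingleton.elim _ _)).elim) (fun _ => ROMP.le_refl e)
      (fun p hp ho => eq_zero_of_le_orth hp (ho PEmpty.elim))
    refine ⟨J, fun i => i.elim, fun x hx _ C => J.com_of_singleton fun π _ => ?_⟩
    rw [hJ]
    exact hx
  | @h_option ι _ ih =>
    obtain ⟨J, h1, h2⟩ := ih (fun i => O (some i)) fun i j => h (some i) (some j)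
    obtain ⟨K, k1, k2⟩ := exists_prod (O none) J fun A C =>
      h2 _ (com_of_ge ((O none).le_top A)) (fun i B => h none (some i) A B) C
    refine ⟨K.map fun q o => Option.elim o q.1 q.2, fun o A => ?_, fun x hx hO C => ?_⟩
    · cases o with
      | none =>
        have := k1 A Set.univ
        rw [J.univ, meet_of_ge ((O none).le_top A)] at this
        rw [← this, map_f]
        congr 1
        ext q
        simp
      | some i =>
        have := k1 Set.univ {π | π i ∈ A}
        rw [(O none).univ, meet_of_le (J.le_top _), h1] at this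
        rw [← this, map_f]
        congr 1
        ext q
        simp
    · exact k2 x (hO none) (h2 x hx fun i => hO (some i)) _

/-- An observable on a finite product is determined by its marginals. -/
theorem pi_ext {ι : Type} [Finite ι] [Finite α] (J J' : Obs P (ι → α) e)
    (h : ∀ i a, J.f {π | π i = a} = J'.f {π | π i = a}) : J = J' := by
  refine eq_of_le J J' fun π => ?_
  have h1 : ({π} : Set (ι → α)) = ⋂ i, {σ | σ i = π i} := by
    ext σ
    simp [funext_iff]
  conv_rhs => rw [h1]
  refine J'.le_iInter (J.le_top _) fun i => ?_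
  rw [← h i (π i)]
  exact J.mono (by rintro σ rfl; rfl)

end Obs

theorem anchor_Omp : True := by
  have := @Obs.map.eq_1; have := @Obs.map.eq_def; have := @Obs.map.congr_simp
  have := @Obs.map.eq_unfold
  trivial

end Crest.Agent.R189
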