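import Crest.Agent.R189.ModelB

/-! Row 189: the projections of a centreless model form a regular orthomodular poset. -/

set_option autoImplicit false

namespace Crest.Agent.R189

open Equiv

namespace ProjAux

variable {S : Type} {X : Sub S} {Ω : Finset V} {h0 : 0 ∈ Ω} {n : ℕ} {Γ : Type} [Group Γ]
  {M : Model X Ω h0 n Γ}

/-! ### Basic facts -/

theorem exists_I {s t : Finset (Fin n)} (hst : s ⊆ t) (hs : s.card ≤ 16) (ht : 5 ≤ t.card) :
    ∃ I, s ⊆ I ∧ I ⊆ t ∧ 5 ≤ I.card ∧ I.card ≤ 16 := by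
  obtain ⟨u, h1, h2, h3⟩ := Finset.exists_subsuperset_card_eq hst (le_max_left s.card 5)
    (max_le (Finset.card_le_card hst) ht)
  exact ⟨u, h1, h2, by omega, by omega⟩

theorem exists_I2 (hn : 5 ≤ n) {a b : Perm (Fin n)} (ha : a ∈ alternatingGroup (Fin n))
    (hb : b ∈ alternatingGroup (Fin n)) (h : (a.support ∪ b.support).card ≤ 16) :
    ∃ I : Finset (Fin n), 5 ≤ I.card ∧ I.card ≤ 16 ∧ a ∈ AltOn I ∧ b ∈ AltOn I := by
  obtain ⟨I, h1, -, h2, h3⟩ := exists_I (Finset.subset_univ _) h (by simpa using hn)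
  exact ⟨I, h2, h3, mem_AltOn_iff.2 ⟨ha, Finset.subset_union_left.trans h1⟩,
    mem_AltOn_iff.2 ⟨hb, Finset.subset_union_right.trans h1⟩⟩

theorem exists_I1 (hn : 5 ≤ n) {a : Perm (Fin n)} (ha : Sm a) :
    ∃ I : Finset (Fin n), 5 ≤ I.card ∧ I.card ≤ 16 ∧ a ∈ AltOn I := by
  obtain ⟨I, h1, h2, h3, -⟩ := exists_I2 hn ha.1 ha.1 (by simpa using ha.2)
  exact ⟨I, h1, h2, h3⟩

theorem alt_of {I : Finset (Fin n)} {a : Perm (Fin n)} (ha : a ∈ AltOn I) :
    a ∈ alternatingGroup (Fin n) := (mem_AltOn_iff.1 ha).1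

theorem supp_of {I : Finset (Fin n)} {a : Perm (Fin n)} (ha : a ∈ AltOn I) : a.support ⊆ I :=
  (mem_AltOn_iff.1 ha).2

theorem mem_left {a b : Perm (Fin n)} (ha : a ∈ alternatingGroup (Fin n)) :
    a ∈ AltOn (a.support ∪ b.support) := mem_AltOn_iff.2 ⟨ha, Finset.subset_union_left⟩

theorem mem_right {a b : Perm (Fin n)} (hb : b ∈ alternatingGroup (Fin n)) :
    b ∈ AltOn (a.support ∪ b.support) := mem_AltOn_iff.2 ⟨hb, Finset.subset_union_right⟩

theorem three_c3 {x y z : Fin n} (hxy : x ≠ y) (hxz : x ≠ z) (hyz : y ≠ z) :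
    (c3 x y z).IsThreeCycle := isThreeCycle_iff_c3.2 ⟨x, y, z, hxy, hxz, hyz, rfl⟩

theorem f_mul (p : Pr M) {I : Finset (Fin n)} (hI : I.card ≤ 16) {a b : Perm (Fin n)}
    (ha : a ∈ AltOn I) (hb : b ∈ AltOn I) : p.f (a * b) = p.f a * p.f b :=
  p.mul a b (alt_of ha) (alt_of hb)
    ((Finset.card_le_card (Finset.union_subset (supp_of ha) (supp_of hb))).trans hI)

theorem f_one (p : Pr M) : p.f 1 = 1 := by
  have := p.mul 1 1 (one_mem _) (one_mem _) (by simp)
  simpa using this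

theorem f_inv (p : Pr M) {I : Finset (Fin n)} (hI : I.card ≤ 16) {a : Perm (Fin n)}
    (ha : a ∈ AltOn I) : p.f a⁻¹ = (p.f a)⁻¹ := by
  rw [eq_inv_iff_mul_eq_one, ← f_mul p hI (inv_mem ha) ha, inv_mul_cancel, f_one]

theorem f_conj (p : Pr M) {I : Finset (Fin n)} (hI : I.card ≤ 16) {a b : Perm (Fin n)}
    (ha : a ∈ AltOn I) (hb : b ∈ AltOn I) : p.f (a * b * a⁻¹) = p.f a * p.f b * (p.f a)⁻¹ := by
  rw [f_mul p hI (mul_mem ha hb) (inv_mem ha), f_mul p hI ha hb, f_inv p hI ha]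

theorem f_comm (p : Pr M) {I : Finset (Fin n)} (hI : I.card ≤ 16) {a b : Perm (Fin n)}
    (ha : a ∈ AltOn I) (hb : b ∈ AltOn I) :
    p.f (a * b * a⁻¹ * b⁻¹) = p.f a * p.f b * (p.f a)⁻¹ * (p.f b)⁻¹ := by
  rw [f_mul p hI (mul_mem (mul_mem ha hb) (inv_mem ha)) (inv_mem hb), f_conj p hI ha hb,
    f_inv p hI hb]

theorem f_mem_of_c3 (p : Pr M) (H : Subgroup Γ)
    (h : ∀ c : Perm (Fin n), c.IsThreeCycle → p.f c ∈ H) (a : Perm (Fin n)) : p.f a ∈ H := by
  by_cases ha : Sm a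
  · refine AltOn.c3_induction (F := a.support) (fun a => p.f a ∈ H) ?_ ?_ ?_ a
      (mem_AltOn_iff.2 ⟨ha.1, le_rfl⟩)
    · rw [f_one]; exact one_mem _
    · intro x _ y _ z _ hxy hxz hyz
      exact h _ (three_c3 hxy hxz hyz)
    · intro b hb c hc h1 h2
      rw [f_mul p ha.2 hb hc]
      exact mul_mem h1 h2
  · rw [p.junk a ha]; exact one_mem _

theorem commute_of_c3 (p : Pr M) (γ : Γ)
    (h : ∀ c : Perm (Fin n), c.IsThreeCycle → Commute γ (p.f c)) (a : Perm (Fin n)) :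
    Commute γ (p.f a) :=
  Subgroup.mem_centralizer_singleton_iff.1 (f_mem_of_c3 p (Subgroup.centralizer {γ})
    (fun c hc => Subgroup.mem_centralizer_singleton_iff.2 (h c hc).symm) a) |>.symm

theorem κ_commute (p : Pr M) {a : Perm (Fin n)} (ha : a ∈ alternatingGroup (Fin n)) :
    Commute (M.κ a) (p.f a) := by
  have := p.conj a a ha
  rw [mul_inv_cancel_right] at this
  exact mul_inv_eq_iff_eq_mul.1 this

theorem star_commute (p : Pr M) {I : Finset (Fin n)} (hI : I.card ≤ 16) {a b : Perm (Fin n)}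
    (ha : a ∈ AltOn I) (hb : b ∈ AltOn I) : Commute (p.f a) (M.κ b * (p.f b)⁻¹) := by
  have h1 := p.conj b a (alt_of hb)
  rw [f_conj p hI hb ha] at h1
  rw [(κ_commute p (alt_of hb)).inv_right.eq]
  have h2 : M.κ b * p.f a = p.f b * p.f a * (p.f b)⁻¹ * M.κ b := by rw [← h1]; group
  rw [Commute, SemiconjBy, mul_assoc, h2]
  group

/-! ### The operations -/

/-- orthogonality -/
def Orth (p q : Pr M) : Prop := ∀ a b, Commute (p.f a) (q.f b)

theorem Orth.symm {p q : Pr M} (h : Orth p q) : Orth q p := fun a b => (h b a).symm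

variable (M) in
/-- the zero projection -/
def zero : Pr M where
  f _ := 1
  junk _ _ := rfl
  mul _ _ _ _ _ := (mul_one 1).symm
  conj _ _ _ := by rw [mul_one, mul_inv_cancel]
  mem _ _ _ _ := one_mem _

open Classical in
/-- the complement -/
noncomputable def compl (p : Pr M) : Pr M where
  f a := if Sm a then M.κ a * (p.f a)⁻¹ else 1
  junk a ha := if_neg ha
  mul a b ha hb h := by
    have ha' : a ∈ AltOn (a.support ∪ b.support) := mem_left ha
    have hb' : b ∈ AltOn (a.support ∪ b.support) := mem_right hb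
    rw [if_pos (Sm.of_AltOn (mul_mem ha' hb') h), if_pos (Sm.of_AltOn ha' h),
      if_pos (Sm.of_AltOn hb' h), M.κ_mul ha hb, p.mul a b ha hb h, mul_assoc (M.κ a) (p.f a)⁻¹,
      (star_commute p h ha' hb').inv_left.eq]
    group
  conj c a hc := by
    by_cases ha : Sm a
    · rw [if_pos ha, if_pos ((Sm.conj c).2 ha), ← p.conj c a hc,
        M.κ_mul (mul_mem hc ha.1) (inv_mem hc), M.κ_mul hc ha.1, M.κ_inv]
      group
    · rw [if_neg ha, if_neg (mt (Sm.conj c).1 ha), mul_one, mul_inv_cancel]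
  mem a I hI ha := by
    split_ifs
    · exact mul_mem (M.κ_mem_GI ha) (inv_mem (p.mem a I hI ha))
    · exact one_mem _

theorem compl_f (p : Pr M) {a : Perm (Fin n)} (ha : Sm a) :
    (compl p).f a = M.κ a * (p.f a)⁻¹ := if_pos ha

/-- the pointwise product of orthogonal projections -/
def addO (p q : Pr M) (h : Orth p q) : Pr M where
  f a := p.f a * q.f a
  junk a ha := by rw [p.junk a ha, q.junk a ha, mul_one]
  mul a b ha hb hab := by
    rw [p.mul a b ha hb hab, q.mul a b ha hb hab]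
    exact (h b a).mul_mul_mul_comm _ _
  conj c a hc := by
    rw [← p.conj c a hc, ← q.conj c a hc]
    group
  mem a I hI ha := mul_mem (p.mem a I hI ha) (q.mem a I hI ha)

open Classical in
/-- the sum -/
noncomputable def add (p q : Pr M) : Pr M := if h : Orth p q then addO p q h else zero M

theorem add_f {p q : Pr M} (h : Orth p q) (a : Perm (Fin n)) : (add p q).f a = p.f a * q.f a := by
  rw [add, dif_pos h]
  rfl

theorem orth_compl (p : Pr M) : Orth p (compl p) := by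
  intro a b
  refine commute_of_c3 (compl p) _ (fun b hb => ?_) b
  refine (commute_of_c3 p _ (fun a ha => ?_) a).symm
  have ha' := Sm.of_isThreeCycle ha
  have hb' := Sm.of_isThreeCycle hb
  rw [compl_f p hb']
  refine (star_commute p ?_ (mem_left ha'.1) (mem_right hb'.1)).symm
  refine (Finset.card_union_le _ _).trans ?_
  rw [ha.card_support, hb.card_support]
  norm_num

theorem compl_compl (p : Pr M) : compl (compl p) = p := by
  ext a
  by_cases ha : Sm a
  · rw [compl_f _ ha, compl_f _ ha, mul_inv_rev, inv_inv, ← mul_assoc, (κ_commute p ha.1).eq,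
      mul_inv_cancel_right]
  · rw [(compl (compl p)).junk a ha, p.junk a ha]

theorem eq_zero (hn : 5 ≤ n) {p : Pr M} (h : Orth p p) : p = zero M := by
  ext a
  by_cases ha : Sm a
  · obtain ⟨I, h1, h2, h3⟩ := exists_I1 hn ha
    refine AltOn.comm_induction h1 (fun a => p.f a = 1) (f_one p) ?_ ?_ a h3
    · intro a ha b hb
      rw [f_comm p h2 ha hb, (h a b).eq]
      group
    · intro a ha b hb h4 h5
      rw [f_mul p h2 ha hb, h4, h5, mul_one]
  · exact p.junk a ha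

/-! ### The moving trick -/

theorem commute_closure {p : Pr M} {γ u : Γ} (h : ∀ c, Commute γ (p.f c))
    (hu : u ∈ Subgroup.closure (Set.range p.f)) : Commute γ u := by
  have : Subgroup.closure (Set.range p.f) ≤ Subgroup.centralizer {γ} := by
    rw [Subgroup.closure_le]
    rintro _ ⟨c, rfl⟩
    exact Subgroup.mem_centralizer_singleton_iff.2 (h c).symm
  exact (Subgroup.mem_centralizer_singleton_iff.1 (this hu)).symm

theorem κ_split (x : Pr M) {c : Perm (Fin n)} (hc : c ∈ alternatingGroup (Fin n)) :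
    ∃ u ∈ Subgroup.closure (Set.range (compl x).f), ∃ v ∈ Subgroup.closure (Set.range x.f),
      M.κ c = u * v := by
  refine AltOn.c3_induction (F := Finset.univ)
    (fun c => ∃ u ∈ Subgroup.closure (Set.range (compl x).f),
      ∃ v ∈ Subgroup.closure (Set.range x.f), M.κ c = u * v) ?_ ?_ ?_ c
    (mem_AltOn_iff.2 ⟨hc, Finset.subset_univ _⟩)
  · exact ⟨1, one_mem _, 1, one_mem _, by rw [M.κ_one, mul_one]⟩
  · intro a _ b _ d _ hab had hbd
    refine ⟨_, Subgroup.subset_closure ⟨c3 a b d, rfl⟩, _,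
      Subgroup.subset_closure ⟨c3 a b d, rfl⟩, ?_⟩
    rw [compl_f x (Sm.of_isThreeCycle (three_c3 hab had hbd)), inv_mul_cancel_right]
  · rintro a ha b hb ⟨u, hu, v, hv, h1⟩ ⟨u', hu', v', hv', h2⟩
    refine ⟨u * u', mul_mem hu hu', v * v', mul_mem hv hv', ?_⟩
    rw [M.κ_mul (alt_of ha) (alt_of hb), h1, h2]
    have : Commute v u' :=
      commute_closure (fun c => (commute_closure (fun d => (orth_compl x d c).symm) hv).symm) hu'
    exact this.mul_mul_mul_comm _ _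

theorem moving (x : Pr M) {I J : Finset (Fin n)} (h : I.card + J.card + 2 ≤ n) {γ₁ γ₀ : Γ}
    (h₁ : γ₁ ∈ M.GI I) (h₀ : γ₀ ∈ M.GI J) (c₁ : ∀ c, Commute γ₁ ((compl x).f c))
    (c₀ : ∀ c, Commute γ₀ (x.f c)) : Commute γ₁ γ₀ := by
  obtain ⟨c, hc, hd⟩ := exists_alt_disjoint J I (by omega)
  obtain ⟨u, hu, v, hv, huv⟩ := κ_split x hc
  have h1 := M.GI_commute hd (lt_of_le_of_lt (Nat.add_le_add_right Finset.card_image_le _)
    (by omega)) _ (M.κ_conj_mem_GI hc h₀) _ h₁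
  have h2 := commute_closure c₁ hu
  have h3 := commute_closure c₀ hv
  have h4 : γ₀ = u⁻¹ * (M.κ c * γ₀ * (M.κ c)⁻¹) * u := by
    rw [huv, mul_assoc u v γ₀, ← h3.eq]
    group
  rw [h4]
  exact (h2.inv_right.mul_right h1.symm).mul_right h2

theorem trans (hn : 50 ≤ n) {p q r : Pr M} (h1 : Orth p (compl q)) (h2 : Orth q r) :
    Orth p r := by
  intro a b
  by_cases ha : Sm a
  swap
  · rw [p.junk a ha]; exact Commute.one_left _
  by_cases hb : Sm b
  swap
  · rw [r.junk b hb]; exact Commute.one_right _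
  obtain ⟨I, i1, i2, i3⟩ := exists_I1 (by omega) ha
  obtain ⟨J, j1, j2, j3⟩ := exists_I1 (by omega) hb
  exact moving q (by omega) (p.mem a I i1 (supp_of i3)) (r.mem b J j1 (supp_of j3)) (h1 a)
    fun c => (h2 c b).symm

theorem add_comm' {p q : Pr M} (h : Orth p q) : add p q = add q p := by
  ext a
  rw [add_f h, add_f h.symm, (h a a).eq]

theorem le_add_right {p q : Pr M} (h : Orth p q) : Orth q (compl (add p q)) := by
  intro a b
  by_cases hb : Sm b
  · rw [compl_f _ hb, add_f h, mul_inv_rev, ← mul_assoc, ← compl_f q hb]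
    exact (orth_compl q a b).mul_right (h b a).symm.inv_right
  · rw [(compl _).junk b hb]; exact Commute.one_right _

theorem le_add_left {p q : Pr M} (h : Orth p q) : Orth p (compl (add p q)) := by
  rw [add_comm' h]
  exact le_add_right h.symm

theorem add_orth (hn : 50 ≤ n) {p q r : Pr M} (h : Orth p q) :
    Orth (add p q) r ↔ Orth p r ∧ Orth q r := by
  refine ⟨fun h' => ⟨trans hn (le_add_left h) h', trans hn (le_add_right h) h'⟩, ?_⟩
  rintro ⟨h1, h2⟩ a b
  rw [add_f h]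
  exact (h1 a b).mul_left (h2 a b)

theorem conj_eq {p q : Pr M} (h : Orth p (compl q)) {I : Finset (Fin n)} (hI : I.card ≤ 16)
    {a b : Perm (Fin n)} (ha : a ∈ AltOn I) (hb : b ∈ AltOn I) :
    q.f b * p.f a * (q.f b)⁻¹ = p.f b * p.f a * (p.f b)⁻¹ := by
  have h1 := h a b
  rw [compl_f q (Sm.of_AltOn hb hI), (κ_commute q (alt_of hb)).inv_right.eq] at h1
  rw [← f_conj p hI hb ha, ← p.conj b a (alt_of hb)]
  have h2 : M.κ b * p.f a = q.f b * (p.f a * ((q.f b)⁻¹ * M.κ b)) := by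
    rw [h1.eq]; group
  rw [h2]
  group

theorem antisymm (hn : 5 ≤ n) {p q : Pr M} (h1 : Orth p (compl q)) (h2 : Orth q (compl p)) :
    p = q := by
  ext a
  by_cases ha : Sm a
  · obtain ⟨I, i1, i2, i3⟩ := exists_I1 hn ha
    refine AltOn.comm_induction i1 (fun a => p.f a = q.f a) ?_ ?_ ?_ a i3
    · rw [f_one, f_one]
    · intro a ha b hb
      rw [f_comm p i2 ha hb, f_comm q i2 ha hb, ← conj_eq h1 i2 hb ha]
      have h3 := conj_eq h2 i2 ha hb
      calc q.f a * p.f b * (q.f a)⁻¹ * (p.f b)⁻¹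
          = q.f a * (p.f b * q.f a * (p.f b)⁻¹)⁻¹ := by group
        _ = _ := by rw [h3]; group
    · intro a ha b hb h4 h5
      rw [f_mul p i2 ha hb, f_mul q i2 ha hb, h4, h5]
  · rw [p.junk a ha, q.junk a ha]

theorem omod {p q : Pr M} (h : Orth p (compl q)) : q = add p (compl (add p (compl q))) := by
  ext a
  have h1 := le_add_left h
  rw [add_f h1, (h1 a a).eq]
  by_cases ha : Sm a
  · rw [compl_f _ ha, add_f h, compl_f _ ha]
    calc q.f a = M.κ a * q.f a * (M.κ a)⁻¹ := by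
          rw [(κ_commute q ha.1).eq, mul_inv_cancel_right]
      _ = _ := by group
  · rw [q.junk a ha, p.junk a ha, (compl _).junk a ha, mul_one]

/-! ### Regularity -/

theorem eq_one_of_commute [Finite S] (hn : 50 ≤ n) (hZ : Subgroup.center Γ = ⊥) (x : Pr M)
    {K : Finset (Fin n)} (hK : K.card ≤ 32) {γ : Γ} (hγ : γ ∈ M.GI K)
    (c₁ : ∀ c, Commute γ ((compl x).f c)) (c₀ : ∀ c, Commute γ (x.f c)) : γ = 1 := by
  rw [← Subgroup.mem_bot, ← hZ]
  exact M.mem_center (by omega) fun J hJ γ' hγ' => by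
    obtain ⟨c, hc, hd⟩ := exists_alt_disjoint K J (by omega)
    obtain ⟨u, hu, v, hv, huv⟩ := κ_split x hc
    have h1 := M.GI_commute hd (lt_of_le_of_lt (Nat.add_le_add_right Finset.card_image_le _)
      (by omega)) _ (M.κ_conj_mem_GI hc hγ) _ hγ'
    have h2 : Commute γ (M.κ c) := by
      rw [huv]; exact (commute_closure c₁ hu).mul_right (commute_closure c₀ hv)
    rwa [← h2.eq, mul_inv_cancel_right] at h1

/-- `γ = α β` with components on the sheets `I` below and orthogonal to `x` -/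
structure Dec (x : Pr M) (I : Finset (Fin n)) (γ α β : Γ) : Prop where
  m₁ : α ∈ M.GI I
  m₀ : β ∈ M.GI I
  c₁ : ∀ c, Commute α ((compl x).f c)
  c₀ : ∀ c, Commute β (x.f c)
  eq : γ = α * β

theorem Dec.one (x : Pr M) (I : Finset (Fin n)) : Dec x I 1 1 1 :=
  ⟨one_mem _, one_mem _, fun _ => Commute.one_left _, fun _ => Commute.one_left _,
    (mul_one 1).symm⟩

theorem Dec.unique [Finite S] (hn : 50 ≤ n) (hZ : Subgroup.center Γ = ⊥) {x : Pr M}
    {I I' : Finset (Fin n)} (hI : I.card ≤ 16) (hI' : I'.card ≤ 16) {γ α β α' β' : Γ}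
    (h : Dec x I γ α β) (h' : Dec x I' γ α' β') : α = α' ∧ β = β' := by
  have e : α'⁻¹ * α = β' * β⁻¹ := by
    have := h.eq.symm.trans h'.eq
    calc α'⁻¹ * α = α'⁻¹ * (α * β) * β⁻¹ := by group
      _ = _ := by rw [this]; group
  have h1 : α'⁻¹ * α = 1 := by
    refine eq_one_of_commute hn hZ x (K := I ∪ I')
      ((Finset.card_union_le _ _).trans (by omega))
      (mul_mem (inv_mem (M.GI_mono Finset.subset_union_right h'.m₁))
        (M.GI_mono Finset.subset_union_left h.m₁))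
      (fun c => (h'.c₁ c).inv_left.mul_left (h.c₁ c)) fun c => ?_
    rw [e]
    exact (h'.c₀ c).mul_left (h.c₀ c).inv_left
  exact ⟨(inv_mul_eq_one.1 h1).symm, (mul_inv_eq_one.1 (e ▸ h1)).symm⟩

theorem Dec.mul (hn : 50 ≤ n) {x : Pr M} {I : Finset (Fin n)} (hI : I.card ≤ 16)
    {γ α β γ' α' β' : Γ} (h : Dec x I γ α β) (h' : Dec x I γ' α' β') :
    Dec x I (γ * γ') (α * α') (β * β') := by
  refine ⟨mul_mem h.m₁ h'.m₁, mul_mem h.m₀ h'.m₀, fun c => (h.c₁ c).mul_left (h'.c₁ c),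
    fun c => (h.c₀ c).mul_left (h'.c₀ c), ?_⟩
  rw [h.eq, h'.eq]
  exact (moving x (by omega) h'.m₁ h.m₀ h'.c₁ h.c₀).symm.mul_mul_mul_comm _ _

theorem Dec.inv (hn : 50 ≤ n) {x : Pr M} {I : Finset (Fin n)} (hI : I.card ≤ 16)
    {γ α β : Γ} (h : Dec x I γ α β) : Dec x I γ⁻¹ α⁻¹ β⁻¹ := by
  refine ⟨inv_mem h.m₁, inv_mem h.m₀, fun c => (h.c₁ c).inv_left, fun c => (h.c₀ c).inv_left, ?_⟩
  rw [h.eq, (moving x (by omega) h.m₁ h.m₀ h.c₁ h.c₀).eq, mul_inv_rev]

theorem commute_conj (x : Pr M) {c : Perm (Fin n)} (hc : c ∈ alternatingGroup (Fin n)) {γ : Γ}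
    (h : ∀ d, Commute γ (x.f d)) (d : Perm (Fin n)) :
    Commute (M.κ c * γ * (M.κ c)⁻¹) (x.f d) := by
  have h1 := x.conj c (c⁻¹ * d * c) hc
  rw [show c * (c⁻¹ * d * c) * c⁻¹ = d by group] at h1
  rw [← h1]
  exact (h _).conj _

theorem Dec.conj {x : Pr M} {I : Finset (Fin n)} {γ α β : Γ} (h : Dec x I γ α β)
    {c : Perm (Fin n)} (hc : c ∈ alternatingGroup (Fin n)) :
    Dec x (I.image c) (M.κ c * γ * (M.κ c)⁻¹) (M.κ c * α * (M.κ c)⁻¹)
      (M.κ c * β * (M.κ c)⁻¹) := by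
  refine ⟨M.κ_conj_mem_GI hc h.m₁, M.κ_conj_mem_GI hc h.m₀, commute_conj _ hc h.c₁,
    commute_conj _ hc h.c₀, ?_⟩
  rw [h.eq]
  group

theorem dec_of_com (hn : 50 ≤ n) {x s : Pr M}
    (h : ∃ a b, Orth a (compl x) ∧ Orth b x ∧ s = add a b) {I : Finset (Fin n)} (hI : 5 ≤ I.card)
    {g : Perm (Fin n)} (hg : g ∈ AltOn I) : ∃ α β, Dec x I (s.f g) α β := by
  obtain ⟨a, b, ha, hb, rfl⟩ := h
  exact ⟨a.f g, b.f g, a.mem g I hI (supp_of hg), b.mem g I hI (supp_of hg), ha g, hb g,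
    add_f (trans hn ha hb.symm) g⟩

theorem com_of_dec [Finite S] (hn : 50 ≤ n) (hZ : Subgroup.center Γ = ⊥) {x r : Pr M}
    (h : ∀ I : Finset (Fin n), 5 ≤ I.card → I.card ≤ 16 → ∀ g ∈ AltOn I,
      ∃ α β, Dec x I (r.f g) α β) :
    ∃ a b, Orth a (compl x) ∧ Orth b x ∧ r = add a b := by
  have hex : ∀ g : Perm (Fin n), ∃ α β : Γ, (¬ Sm g → α = 1 ∧ β = 1) ∧
      (∃ I : Finset (Fin n), I.card ≤ 16 ∧ Dec x I (r.f g) α β) ∧
      ∀ I : Finset (Fin n), 5 ≤ I.card → I.card ≤ 16 → g ∈ AltOn I → Dec x I (r.f g) α β := by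
    intro g
    by_cases hg : Sm g
    · obtain ⟨I, i1, i2, i3⟩ := exists_I1 (by omega) hg
      obtain ⟨α, β, hd⟩ := h I i1 i2 g i3
      refine ⟨α, β, fun h' => absurd hg h', ⟨I, i2, hd⟩, fun J j1 j2 j3 => ?_⟩
      obtain ⟨α', β', hd'⟩ := h J j1 j2 g j3
      obtain ⟨rfl, rfl⟩ := Dec.unique hn hZ i2 j2 hd hd'
      exact hd'
    · refine ⟨1, 1, fun _ => ⟨rfl, rfl⟩, ⟨∅, by simp, ?_⟩,
        fun J _ j2 j3 => absurd (Sm.of_AltOn j3 j2) hg⟩
      rw [r.junk g hg]
      exact Dec.one x ∅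
  choose α β hjunk hsome hall using hex
  have hmul : ∀ g g' : Perm (Fin n), g ∈ alternatingGroup (Fin n) →
      g' ∈ alternatingGroup (Fin n) → (g.support ∪ g'.support).card ≤ 16 →
      α (g * g') = α g * α g' ∧ β (g * g') = β g * β g' := by
    intro g g' hg hg' hc
    obtain ⟨I, i1, i2, i3, i4⟩ := exists_I2 (by omega) hg hg' hc
    have h1 := (hall g I i1 i2 i3).mul hn i2 (hall g' I i1 i2 i4)
    rw [← f_mul r i2 i3 i4] at h1
    exact Dec.unique hn hZ i2 i2 (hall _ I i1 i2 (mul_mem i3 i4)) h1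
  have hconj : ∀ c g : Perm (Fin n), c ∈ alternatingGroup (Fin n) →
      M.κ c * α g * (M.κ c)⁻¹ = α (c * g * c⁻¹) ∧ M.κ c * β g * (M.κ c)⁻¹ = β (c * g * c⁻¹) := by
    intro c g hc
    obtain ⟨I, i2, hd⟩ := hsome g
    obtain ⟨J, j2, hd'⟩ := hsome (c * g * c⁻¹)
    have h1 := hd.conj hc
    rw [r.conj c g hc] at h1
    exact Dec.unique hn hZ (Finset.card_image_le.trans i2) j2 h1 hd'
  have hmem : ∀ (g : Perm (Fin n)) (I : Finset (Fin n)), 5 ≤ I.card → g.support ⊆ I →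
      α g ∈ M.GI I ∧ β g ∈ M.GI I := by
    intro g I hI hgI
    by_cases hg : Sm g
    · obtain ⟨J, j0, j1, j2, j3⟩ := exists_I hgI hg.2 hI
      have hd := hall g J j2 j3 (mem_AltOn_iff.2 ⟨hg.1, j0⟩)
      exact ⟨M.GI_mono j1 hd.m₁, M.GI_mono j1 hd.m₀⟩
    · rw [(hjunk g hg).1, (hjunk g hg).2]
      exact ⟨one_mem _, one_mem _⟩
  let a : Pr M := ⟨α, fun g hg => (hjunk g hg).1, fun g g' h1 h2 h3 => (hmul g g' h1 h2 h3).1,
    fun c g hc => (hconj c g hc).1, fun g I h1 h2 => (hmem g I h1 h2).1⟩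
  let b : Pr M := ⟨β, fun g hg => (hjunk g hg).2, fun g g' h1 h2 h3 => (hmul g g' h1 h2 h3).2,
    fun c g hc => (hconj c g hc).2, fun g I h1 h2 => (hmem g I h1 h2).2⟩
  have ha : Orth a (compl x) := fun g => (hsome g).choose_spec.2.c₁
  have hb : Orth b x := fun g => (hsome g).choose_spec.2.c₀
  refine ⟨a, b, ha, hb, ?_⟩
  ext g
  rw [add_f (trans hn ha hb.symm)]
  exact (hsome g).choose_spec.2.eq

theorem reg [Finite S] (hn : 50 ≤ n) (hZ : Subgroup.center Γ = ⊥) {x r p q : Pr M}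
    (hrp : Orth r p) (hrq : Orth r q) (hpq : Orth p q)
    (h1 : ∃ a b, Orth a (compl x) ∧ Orth b x ∧ add r p = add a b)
    (h2 : ∃ a b, Orth a (compl x) ∧ Orth b x ∧ add r q = add a b) :
    ∃ a b, Orth a (compl x) ∧ Orth b x ∧ r = add a b := by
  refine com_of_dec hn hZ fun I i1 i2 => ?_
  refine AltOn.comm_induction i1 (fun g => ∃ α β, Dec x I (r.f g) α β) ?_ ?_ ?_
  · rw [f_one]; exact ⟨1, 1, Dec.one x I⟩
  · intro g hg h hh
    obtain ⟨α, β, d1⟩ := dec_of_com hn h1 i1 hg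
    obtain ⟨α', β', d2⟩ := dec_of_com hn h2 i1 hh
    have d3 := ((d1.mul hn i2 d2).mul hn i2 (d1.inv hn i2)).mul hn i2 (d2.inv hn i2)
    suffices e : (add r p).f g * (add r q).f h * ((add r p).f g)⁻¹ * ((add r q).f h)⁻¹ =
        r.f (g * h * g⁻¹ * h⁻¹) from ⟨_, _, e ▸ d3⟩
    rw [f_comm r i2 hg hh, add_f hrp, add_f hrq]
    have e1 : p.f g * (r.f h * q.f h) = (r.f h * q.f h) * p.f g :=
      ((hrp h g).symm.mul_right (hpq g h)).eq
    have e2 : q.f h * (r.f g)⁻¹ = (r.f g)⁻¹ * q.f h := (hrq g h).symm.inv_right.eq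
    calc r.f g * p.f g * (r.f h * q.f h) * (r.f g * p.f g)⁻¹ * (r.f h * q.f h)⁻¹
        = r.f g * (p.f g * (r.f h * q.f h)) * (r.f g * p.f g)⁻¹ * (r.f h * q.f h)⁻¹ := by group
      _ = r.f g * r.f h * (q.f h * (r.f g)⁻¹) * (r.f h * q.f h)⁻¹ := by rw [e1]; group
      _ = _ := by rw [e2]; group
  · rintro g hg h hh ⟨α, β, d1⟩ ⟨α', β', d2⟩
    rw [f_mul r i2 hg hh]
    exact ⟨_, _, d1.mul hn i2 d2⟩

/-- Equation lemmas are realised here once and for all. -/
theorem anchor_Proj : True := by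
  have := @Orth.eq_1; have := @Orth.eq_def; have := @Orth.eq_unfold
  have := @zero.eq_1; have := @zero.eq_def; have := @zero.eq_unfold
  have := @compl.eq_1; have := @compl.eq_def; have := @compl.eq_unfold
  have := @addO.eq_1; have := @addO.eq_def; have := @addO.eq_unfold
  have := @add.eq_1; have := @add.eq_def; have := @add.eq_unfold
  trivial

end ProjAux

theorem exists_romp {S : Type} [Finite S] {X : Sub S} {Ω : Finset V} {h0 : 0 ∈ Ω} {n : ℕ}
    {Γ : Type} [Group Γ] (M : Model X Ω h0 n Γ) (hn : 50 ≤ n) (hZ : Subgroup.center Γ = ⊥) :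
    ∃ _ : ROMP (Pr M), PrSpec M := by
  let R : ROMP (Pr M) :=
    { orth := ProjAux.Orth
      compl := ProjAux.compl
      add := ProjAux.add
      zero := ProjAux.zero M
      orth_symm := ProjAux.Orth.symm
      orth_compl := ProjAux.orth_compl
      compl_compl := ProjAux.compl_compl
      zero_orth := fun _ _ _ => Commute.one_left _
      eq_zero := ProjAux.eq_zero (by omega)
      trans := ProjAux.trans hn
      add_orth := ProjAux.add_orth hn
      antisymm := ProjAux.antisymm (by omega)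
      omod := ProjAux.omod
      reg := ProjAux.reg hn hZ }
  exact ⟨R, fun _ _ => Iff.rfl, fun _ _ h => ProjAux.add_f h, fun _ => rfl,
    fun p _ ha => ProjAux.compl_f p ha⟩

end Crest.Agent.R189
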