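import Crest.Agent.R189.Tile1
import Crest.Agent.R189.Omp

/-! Row 189: in each corner a quantum model is the expansion of a model of the next level. -/

set_option autoImplicit false

namespace Crest.Agent.R189

open ROMP

namespace QCornerAux

variable {P : Type} [ROMP P] {g : P} {h : ℕ}

theorem null_mono {α : Type} (O : Obs P α g) {A N : Set α} (hN : O.f N = zero) (h : A ⊆ N) :
    O.f A = zero := eq_zero_of_le (hN ▸ O.mono h)

theorem null_union {α : Type} (O : Obs P α g) {A B : Set α} (hA : O.f A = zero)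
    (hB : O.f B = zero) : O.f (A ∪ B) = zero :=
  eq_zero_of_le (hA ▸ O.mono_null hB subset_rfl)

theorem congr_null {α : Type} (O : Obs P α g) {S A B : Set α} (hS : O.f Sᶜ = zero)
    (h : ∀ a ∈ S, a ∈ A ↔ a ∈ B) : O.f A = O.f B :=
  O.eq_of_null hS (fun a ha => (em (a ∈ S)).imp (fun h' => (h a h').1 ha) id)
    fun a ha => (em (a ∈ S)).imp (fun h' => (h a h').2 ha) id

theorem rc_colSt {ρ : St → St} {j : ℤ}
    (hρ : ∀ s, ρ s = if j = 0 then s else { s with u := .out, a := false }) (r : ℤ) {s : St}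
    (hs : j ≠ 0 → LowSt (2 * h) j s) : ρ (colSt h j r s) = s := by
  rw [hρ, colSt]
  split_ifs with hj
  · rfl
  · obtain ⟨-, h1, h2⟩ := hs hj
    cases s
    simp_all

theorem main (hh2 : 2 ≤ h) {Q : V → Obs P Cell g} (hQ : QModel h Q) (k : ℤ)
    (hS : ∀ c : V, c.2 % M h ≠ 0 →
      (Q c).f (Shape h ((c.1 + k) % M (2 * h)) (c.2 % M h))ᶜ = zero) :
    ∃ O' : V → Obs P Cell g, QModel (2 * h) O' ∧ ∀ (c : V) (A : Set Cell),
      (Q c).f A = (O' (c.2 / M h, c.1 + k)).f
        {σ | Ecell h ((c.1 + k) % M (2 * h)) (c.2 % M h) σ ∈ A} := by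
  obtain ⟨ρ, hρ⟩ : ∃ ρ : ℤ → St → St, ∀ j s, ρ j s =
    if j = 0 then s else { s with u := .out, a := false } := ⟨_, fun _ _ => rfl⟩
  have hM : (M h : ℤ) = 3 * h + 1 := by simp [M]
  have hmod : ∀ Y r : ℤ, 0 ≤ r → r < M h → (Y * M h + r) % M h = r := fun Y r h0 h1 => by
    rw [_root_.add_comm, Int.add_mul_emod_self_right, Int.emod_eq_of_lt h0 h1]
  -- the chain along a block
  have chain : ∀ (x Y : ℤ) (B : Set St) (r : ℕ), r < M h →
      (Q (x, Y * M h + r + 1)).f {σ | ρ ((x + k) % M (2 * h)) σ.b ∈ B} =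
        (Q (x, Y * M h)).f {σ | ρ ((x + k) % M (2 * h)) σ.t ∈ B} := by
    intro x Y B r
    induction r with
    | zero =>
      intro _
      have := hQ.vert (x, Y * M h) {s | ρ ((x + k) % M (2 * h)) s ∈ B}
      simpa using this.symm
    | succ r ih =>
      intro hr
      rw [← ih (by omega)]
      have h1 := hQ.vert (x, Y * M h + r + 1) {s | ρ ((x + k) % M (2 * h)) s ∈ B}
      have h2 : (Y * M h + r + 1) % M h = r + 1 := by
        rw [_root_.add_assoc]
        exact hmod Y _ (by positivity) (by exact_mod_cast hr)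
      have h3 := hS (x, Y * M h + r + 1) (by rw [h2]; omega)
      simp only [Prod.mk_add_mk, _root_.add_zero, Set.mem_ofPred_eq] at h1 h3
      rw [Nat.cast_succ, ← _root_.add_assoc, ← h1]
      refine congr_null _ h3 ?_
      rintro _ ⟨σ, hσ, rfl⟩
      rw [h2, Ecell, if_neg (by omega)]
      simp only [Set.mem_ofPred_eq, rc_colSt (hρ _) _ hσ]
  -- the high cells
  have high : ∀ (x Y j : ℤ), j = (x + k) % M (2 * h) →
      (Q (x, Y * M h)).f {σ | Ecell h j 0 ⟨ρ j σ.b, ρ j σ.t, σ.l, σ.r⟩ = σ ∧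
        (j ≠ 0 → LowSt (2 * h) j (ρ j σ.b) ∧ LowSt (2 * h) j (ρ j σ.t))}ᶜ = zero := by
    intro x Y j hj
    by_cases hj0 : j = 0
    · refine null_mono _ (Obs.empty _) fun σ hσ => hσ ⟨?_, fun h => absurd hj0 h⟩
      simp [Ecell, hρ, hj0]
    have h1 : (Q (x, Y * M h)).f
        {σ | σ.t ∈ {s : St | ¬ (s.tag = tagAt (2 * h) j ∧ s.a = false ∧ s.u = .out)}} = zero := by
      have h2 : (Y * M h + 1) % M h = 1 := hmod Y _ zero_le_one (by omega)
      have h3 := hS (x, Y * M h + 1) (by rw [h2]; omega)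
      rw [hQ.vert]
      simp only [Prod.mk_add_mk, _root_.add_zero, h2, ← hj] at h3 ⊢
      refine null_mono _ h3 ?_
      rintro _ hσ ⟨σ, hσ', rfl⟩
      refine hσ ?_
      have h4 : ¬ (1 : ℤ) = 3 * h + 1 := by omega
      simp [Ecell, colSt, hj0, uAt, (hσ' hj0).1, h4]
    have h5 : (Q (x, Y * M h)).f
        {σ | σ.b ∈ {s : St | ¬ (s.tag = tagAt (2 * h) j ∧ s.a = true ∧ s.u = .out)}} = zero := by
      have h2 : ((Y - 1) * M h + 3 * h) % M h = 3 * h := hmod _ _ (by positivity) (by omega)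
      have h3 := hS (x, (Y - 1) * M h + 3 * h) (by rw [h2]; omega)
      have h6 : ((x, Y * M h) : V) = (x, (Y - 1) * M h + 3 * h) + (0, 1) := by
        rw [Prod.mk_add_mk, _root_.add_zero, hM]
        congr 1
        ring
      rw [h6, ← hQ.vert]
      simp only [h2, ← hj] at h3
      refine null_mono _ h3 ?_
      rintro _ hσ ⟨σ, hσ', rfl⟩
      refine hσ ?_
      have h4 : ¬ (3 * h : ℤ) = 0 := by omega
      rw [Ecell, if_neg h4]
      simp [colSt, hj0, uAt, (hσ' hj0).1]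
    refine null_mono _ (null_union _ h1 h5) fun σ hσ => ?_
    by_contra h7
    simp only [Set.mem_union, Set.mem_ofPred_eq, not_or, not_not] at h7
    obtain ⟨⟨a1, a2, a3⟩, b1, b2, b3⟩ := h7
    refine hσ ⟨?_, fun _ => ?_⟩
    · obtain ⟨l, r, ⟨b, b', b'', b''', b''''⟩, ⟨t, t', t'', t''', t''''⟩⟩ := σ
      simp_all [Ecell]
    · simp [LowSt, hρ, hj0, a1, b1]
  refine ⟨fun v => (Q (v.2 - k, v.1 * M h)).map fun σ =>
    ⟨ρ (v.2 % M (2 * h)) σ.b, ρ (v.2 % M (2 * h)) σ.t, σ.l, σ.r⟩, ⟨?_, ?_, ?_⟩, ?_⟩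
  · rintro ⟨Y, X⟩ B
    have h1 := chain (X - k) Y B (3 * h) (by simp [M])
    have h2 : Y * M h + (3 * h : ℕ) + 1 = (Y + 1) * M h := by
      rw [hM]
      push_cast
      ring
    rw [h2, sub_add_cancel] at h1
    simpa [Obs.map_f] using h1.symm
  · rintro ⟨Y, X⟩ B
    have h1 := hQ.hor (X - k, Y * M h) B
    simpa [Obs.map_f, sub_add_eq_add_sub] using h1
  · rintro ⟨Y, X⟩
    have h1 := high (X - k) Y (X % M (2 * h)) (by rw [sub_add_cancel])
    have h2 := hQ.rule (X - k, Y * M h)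
    simp only [Int.mul_emod_left] at h2
    rw [Obs.map_f]
    refine null_mono _ (null_union _ h1 h2) fun σ hσ => ?_
    by_contra h3
    simp only [Set.mem_union, Set.mem_compl_iff, Set.mem_ofPred_eq, not_or, not_not] at h3
    exact hσ ((rule_Ecell_high hh2 h3.1.2).1 (h3.1.1.symm ▸ h3.2))
  · rintro ⟨x, y⟩ A
    have hy : y = y / M h * M h + y % M h := (Int.ediv_mul_add_emod y _).symm
    have hr0 := Int.emod_nonneg y (M_pos h).ne'
    have hr1 := Int.emod_lt_of_pos y (M_pos h)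
    simp only [Obs.map_f, add_sub_cancel_right, Set.preimage_ofPred_eq]
    by_cases hr : y % M h = 0
    · rw [hr, _root_.add_zero] at hy
      have h1 := high x (y / M h) _ rfl
      rw [hr, ← hy] at *
      refine congr_null _ h1 fun σ hσ => ?_
      rw [Set.mem_ofPred_eq, hσ.1]
    · have h1 := chain x (y / M h)
        {s | Ecell h ((x + k) % M (2 * h)) (y % M h) ⟨s, s, s, s⟩ ∈ A} (y % M h - 1).toNat
        (by omega)
      have h2 : y / M h * M h + ((y % M h - 1).toNat : ℤ) + 1 = y := by omega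
      rw [h2] at h1
      refine Eq.trans (congr_null _ (hS (x, y) hr) ?_) (h1.trans ?_)
      · rintro _ ⟨σ, hσ, rfl⟩
        simp only [Ecell, if_neg hr, Set.mem_ofPred_eq, rc_colSt (hρ _) _ hσ]
      · simp only [Ecell, if_neg hr, Set.mem_ofPred_eq]

end QCornerAux

theorem qcorner {h : ℕ} (hh2 : 2 ≤ h) {P : Type} [ROMP P] {e : P} {O : V → Obs P Cell e}
    (hO : QModel h O) {G : Obs P (Fin (M (2 * h))) e} (hG : QPart h O G)
    (hc : ∀ (i : Fin (M (2 * h))) (c : V) (A : Set Cell), Com (G.f {i}) ((O c).f A))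
    (i : Fin (M (2 * h))) :
    ∃ O' : V → Obs P Cell (G.f {i}), QModel (2 * h) O' ∧ ∀ (c : V) (A : Set Cell),
      meet (G.f {i}) ((O c).f A) = (O' (c.2 / M h, c.1 + (i : ℕ))).f
        {σ | Ecell h ((c.1 + (i : ℕ)) % M (2 * h)) (c.2 % M h) σ ∈ A} := by
  choose Q hQ using fun c => (O c).exists_corner (G.le_top {i}) (hc i c)
  simp only [← hQ]
  refine QCornerAux.main hh2 ⟨fun c A => ?_, fun c A => ?_, fun c => ?_⟩ _ fun c hc' => ?_
  · rw [hQ, hQ, hO.hor]
  · rw [hQ, hQ, hO.vert]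
  · rw [hQ, hO.rule, meet_of_le (zero_le _)]
  · have h1 := (Q c).orth (disjoint_compl_left
      (a := Shape h ((c.1 + (i : ℕ)) % M (2 * h)) (c.2 % M h)))
    rw [hQ c (Shape _ _ _), meet_of_ge (hG.shape i c hc')] at h1
    exact eq_zero_of_le_orth ((Q c).le_top _) h1

end Crest.Agent.R189
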