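import Crest.Agent.R189.TDefs
import Crest.Agent.R189.Omp

/-! Row 189: the position of the columns is a partition of unity in every quantum model. -/

set_option autoImplicit false

namespace Crest.Agent.R189

open ROMP

namespace QPart1Aux

/-! ### Classical facts -/

theorem M_cast (h : ℕ) : ((M h : ℕ) : ℤ) = 3 * h + 1 := by simp [M]

theorem M2_cast (h : ℕ) : ((M (2 * h) : ℕ) : ℤ) = 6 * h + 1 := by
  rw [M_cast]; push_cast; ring

theorem row_mod {h : ℕ} (Y : ℤ) {r : ℤ} (h0 : 0 ≤ r) (h1 : r ≤ 3 * h) :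
    (Y * M h + r) % M h = r := by
  rw [add_comm, Int.add_mul_emod_self_right, Int.emod_eq_of_lt h0 (by rw [M_cast]; omega)]

theorem tagAt_F (h : ℕ) : tagAt h (h + 1) = .F := if_pos rfl

theorem tagAt_E {h : ℕ} (hh2 : 2 ≤ h) : tagAt h (3 * h) = .E := by
  unfold tagAt
  rw [if_neg (by omega), if_neg (by omega), if_pos rfl]

theorem tagAt_eq_E {h : ℕ} {r : ℤ} (hr : tagAt h r = .E) : r = 3 * h := by
  unfold tagAt at hr
  split_ifs at hr with h1 h2 h3
  exact h3

theorem tab_mid {h : ℕ} {r : ℤ} (h1 : r ≠ h + 1) (h2 : r ≠ 3 * h) {ui uo : Us}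
    {di d : Option (Fin 3)} (ht : Tab (tagAt h r) ui uo di d) : TabN ui uo di d := by
  unfold tagAt at ht
  rw [if_neg h1, if_neg h2] at ht
  split_ifs at ht <;> exact ht

theorem tOf_nonneg (h : ℕ) {s : ℤ} (h0 : 0 ≤ s) : 0 ≤ tOf h s := by
  unfold tOf; split_ifs <;> omega

theorem tOf_lt (h : ℕ) {s : ℤ} (h1 : s < 6 * h) (_ : 0 ≤ s) : tOf h s < 2 * h := by
  unfold tOf; split_ifs <;> omega

theorem tagfn_eq {h : ℕ} (hh2 : 2 ≤ h) {s : ℤ} (h0 : 0 ≤ s) (h1 : s < 6 * h) :
    tagfn (tagAt h (h + 1 + tOf h s)) (qOf h s) = tagAt (2 * h) (s + 1) := by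
  unfold tagAt tOf qOf
  push_cast
  split_ifs <;> first | rfl | omega

theorem tq_inj {h : ℕ} {s s' : ℤ} (h1 : tOf h s = tOf h s') (h2 : qOf h s = qOf h s') :
    s = s' := by
  unfold tOf at h1
  unfold qOf at h2
  split_ifs at h1 h2 <;> omega

theorem exists_tq (h : ℕ) {t : ℤ} (h0 : 0 ≤ t) (h1 : t < 2 * h) (q : Fin 3) :
    ∃ s : ℤ, 0 ≤ s ∧ s < 6 * h ∧ tOf h s = t ∧ qOf h s = q := by
  unfold tOf qOf
  fin_cases q
  · exact ⟨t, h0, by omega, by rw [if_pos h1], by rw [if_pos h1]; rfl⟩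
  · exact ⟨t + 2 * h, by omega, by omega, by rw [if_neg (by omega), if_pos (by omega)]; omega,
      by rw [if_neg (by omega), if_pos (by omega)]; rfl⟩
  · exact ⟨t + 4 * h, by omega, by omega, by rw [if_neg (by omega), if_neg (by omega)]; omega,
      by rw [if_neg (by omega), if_neg (by omega)]; rfl⟩

theorem succ_mid {h : ℕ} {s : ℤ} (ht : tOf h s ≠ 2 * h - 1) :
    tOf h (s + 1) = tOf h s + 1 ∧ qOf h (s + 1) = qOf h s := by
  unfold tOf at ht
  unfold tOf qOf
  split_ifs at ht ⊢ <;> first | exact ⟨rfl, rfl⟩ | exact ⟨by omega, rfl⟩ | omega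

theorem succ_top {h : ℕ} {s : ℤ} (h1 : s ≠ 6 * h - 1) (ht : tOf h s = 2 * h - 1) :
    tOf h (s + 1) = 0 ∧ qOf h (s + 1) = qOf h s + 1 := by
  unfold tOf at ht
  unfold tOf qOf
  split_ifs at ht ⊢ <;> first | exact ⟨by omega, rfl⟩ | omega

theorem tq_zero {h : ℕ} (hh2 : 2 ≤ h) : tOf h 0 = 0 ∧ qOf h 0 = 0 := by
  unfold tOf qOf
  rw [if_pos (by omega), if_pos (by omega)]
  exact ⟨rfl, rfl⟩

/-- What the rule says at an active crossing of a low row. -/
structure Act (h : ℕ) (r : ℤ) (σ : Cell) : Prop where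
  lp : σ.l.p ≠ 1
  rp : σ.r.p = pOf σ.b.tag
  ba : σ.b.a = false
  ta : σ.t.a = decide (tagAt h r = .E)
  tab : Tab (tagAt h r) σ.b.u σ.t.u σ.l.d σ.r.d
  tg : ∀ q, σ.l.d = some q → σ.b.tag = tagfn (tagAt h r) q

theorem rule_low {h : ℕ} {r : ℤ} (hr : r ≠ 0) {σ : Cell} (hσ : Rule h r σ) :
    LowSt h r σ.l ∧ LowSt h r σ.r ∧ Fire σ.l σ.r σ.b σ.t := by
  unfold Rule at hσ
  rwa [if_neg hr] at hσ

theorem act_of_rule {h : ℕ} {r : ℤ} (hr : r ≠ 0) {σ : Cell} (hσ : Rule h r σ) (hp : σ.l.p ≠ 1) :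
    Act h r σ := by
  obtain ⟨h1, -, -, -, -, -, h2 | ⟨-, h3, -, h4, h5, h6, h7⟩⟩ := rule_low hr hσ
  · exact absurd h2.1 hp
  · rw [h1.1] at h5 h6 h7
    exact ⟨hp, h3, h4, h5, h6, h7⟩

theorem rule_tag {h : ℕ} {r : ℤ} {σ : Cell} (hσ : Rule h r σ) : σ.t.tag = σ.b.tag := by
  unfold Rule at hσ
  split_ifs at hσ
  · rcases hσ with h1 | h1
    · exact h1.2.2.2.2.2.1
    · exact h1.2.2.2.2.1
  · exact hσ.2.2.2.1

theorem pOf_eq_one {τ : Tag} (h : pOf τ = 1) : τ = .E := by
  cases τ <;> first | rfl | exact absurd h (by decide)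

theorem pOf_eq_two {τ : Tag} (h : pOf τ = 2) : τ = .D := by
  cases τ <;> first | rfl | exact absurd h (by decide)

theorem tagfn_eq_E {τ : Tag} {q : Fin 3} (h : tagfn τ q = .E) : τ = .E ∧ q = 2 := by
  revert τ q
  decide

/-- Before the marker. -/
def Bef (u : Us) : Prop := u = .bef ∨ ∃ q, u = .down q

theorem TabN_down {ui uo : Us} {di d : Option (Fin 3)} (h : TabN ui uo di d) (hu : Bef uo) :
    ui = uo ∧ di = none := by
  rcases h with h | ⟨q, -, h, -⟩ | ⟨q, -, h, -⟩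
  · exact ⟨h.1, h.2.2.1⟩
  · rcases hu with hu | ⟨_, hu⟩ <;> simp [hu] at h
  · rcases hu with hu | ⟨_, hu⟩ <;> simp [hu] at h

theorem TabN_up {ui uo : Us} {d : Option (Fin 3)} (h : TabN ui uo none d) (hu : Bef ui) :
    uo = ui := by
  rcases h with h | ⟨q, -, -, h, -⟩ | ⟨q, h, -⟩
  · exact h.1.symm
  · simp at h
  · rcases hu with hu | ⟨_, hu⟩ <;> simp [hu] at h

/-- The last step: a cell with the right edges has the right shape. -/
theorem mem_shape {h : ℕ} (hh2 : 2 ≤ h) {j r : ℤ} (h0 : 1 ≤ r) (h1 : r ≤ 3 * h) {σ : Cell}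
    (hσ : Rule h r σ) (hl : σ.l = rowSt h j r) (hr : σ.r = rowSt h ((j + 1) % M (2 * h)) r)
    (hb : j ≠ 0 → σ.b.tag = tagAt (2 * h) j ∧ σ.b.u = uAt h j r ∧ σ.t.u = uAt h j (r + 1)) :
    σ ∈ Shape h j r := by
  have hr0 : r ≠ 0 := by omega
  by_cases hj : j = 0
  · have hp : σ.l.p = 1 := by
      rw [hl, rowSt]
      simp only
      rw [if_neg (by omega), if_pos hj]
    obtain ⟨-, -, -, -, -, -, h2 | h2⟩ := rule_low hr0 hσ
    · refine ⟨⟨σ.b, σ.b, σ.b, σ.b⟩, fun h => absurd hj h, ?_⟩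
      rw [Ecell, if_neg hr0, ← hl, ← hr, colSt, colSt, if_pos hj, if_pos hj]
      obtain ⟨l, r, b, t⟩ := σ
      simp only [Cell.mk.injEq, true_and]
      exact h2.2.2.2
    · exact absurd hp h2.1
  · have hp : σ.l.p ≠ 1 := by
      rw [hl, rowSt]
      simp only
      rw [if_neg hj]
      split_ifs <;> decide
    have ha := act_of_rule hr0 hσ hp
    obtain ⟨-, -, -, e1, e2, e3, -⟩ := rule_low hr0 hσ
    obtain ⟨b1, b2, b3⟩ := hb hj
    refine ⟨⟨σ.b, { σ.b with u := .out, a := false }, σ.b, σ.b⟩, fun _ => ⟨b1, rfl, rfl⟩, ?_⟩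
    rw [Ecell, if_neg hr0, ← hl, ← hr, colSt, colSt, if_neg hj, if_neg hj, ← b2, ← b3]
    have a1 := ha.ba
    have a2 : σ.t.a = decide (r + 1 = 3 * h + 1) := by
      rw [ha.ta]
      refine decide_eq_decide.2 ⟨fun h => by rw [tagAt_eq_E h], fun h' => ?_⟩
      rw [show r = 3 * h by omega, tagAt_E hh2]
    have a3 : decide (r = 3 * h + 1) = false := decide_eq_false (by omega)
    rw [a3, ← a2]
    obtain ⟨l, r, ⟨_, _, _, _, _⟩, ⟨_, _, _, _, _⟩⟩ := σ
    simp only at e1 e2 e3 a1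
    simp [e1, e2, e3, a1]

/-! ### The logic of a quantum model -/

variable {h : ℕ} {P : Type} [ROMP P] {e : P} {O : V → Obs P Cell e} {p : P} {x y : ℤ}
  {Q Q' : Cell → Prop}

/-- An event of one cell. -/
def ev (O : V → Obs P Cell e) (x y : ℤ) (Q : Cell → Prop) : P := (O (x, y)).f {σ | Q σ}

/-- `p` knows `Q` at the cell `(x, y)`. -/
def Hd (O : V → Obs P Cell e) (p : P) (x y : ℤ) (Q : Cell → Prop) : Prop := le p (ev O x y Q)

theorem Hd.self (O : V → Obs P Cell e) (x y : ℤ) (Q : Cell → Prop) : Hd O (ev O x y Q) x y Q :=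
  ROMP.le_refl _

theorem Hd.le_top (H : Hd O p x y Q) : le p e := ROMP.le_trans H ((O (x, y)).le_top _)

theorem Hd.triv (he : le p e) (x y : ℤ) : Hd O p x y fun _ => True := by
  have : ev O x y (fun _ => True) = e := (O (x, y)).univ
  rw [Hd, this]
  exact he

theorem Hd.and (H : Hd O p x y Q) (H' : Hd O p x y Q') : Hd O p x y fun σ => Q σ ∧ Q' σ :=
  (O (x, y)).le_inter H H'

theorem Hd.imp (hO : QModel h O) (H : Hd O p x y Q)
    (hQ : ∀ σ, Rule h (y % M h) σ → Q σ → Q' σ) : Hd O p x y Q' :=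
  ROMP.le_trans H ((O (x, y)).mono_null (hO.rule (x, y)) fun σ hσ => by
    by_cases hr : Rule h (y % M h) σ
    · exact Or.inl (hQ σ hr hσ)
    · exact Or.inr hr)

theorem Hd.mono (H : Hd O p x y Q) (hQ : ∀ σ, Q σ → Q' σ) : Hd O p x y Q' :=
  ROMP.le_trans H ((O (x, y)).mono fun σ hσ => hQ σ hσ)

theorem Hd.eq_zero (H : Hd O p x y fun _ => False) : p = zero := by
  have : ev O x y (fun _ => False) = zero := (O (x, y)).empty
  rw [Hd, this] at H
  exact eq_zero_of_le H

theorem Hd.orth {p' : P} (H : Hd O p x y Q) (H' : Hd O p' x y Q') (hQ : ∀ σ, Q σ → ¬ Q' σ) :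
    orth p p' :=
  orth_mono ((O (x, y)).orth (Set.disjoint_left.2 hQ)) H H'

theorem Hd.not (he : le p e) (H : ROMP.orth p (ev O x y Q)) : Hd O p x y fun σ => ¬ Q σ :=
  ((O (x, y)).le_compl_iff he).2 H

theorem hor (hO : QModel h O) (T : St → Prop) {x' : ℤ} (hx : x' = x + 1) :
    Hd O p x y (fun σ => T σ.r) ↔ Hd O p x' y fun σ => T σ.l := by
  have := hO.hor (x, y) {s | T s}
  rw [Prod.mk_add_mk, Int.add_zero] at this
  rw [hx]
  exact iff_of_eq (congrArg (le p) this)

theorem vert (hO : QModel h O) (T : St → Prop) {y' : ℤ} (hy : y' = y + 1) :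
    Hd O p x y (fun σ => T σ.t) ↔ Hd O p x y' fun σ => T σ.b := by
  have := hO.vert (x, y) {s | T s}
  rw [Prod.mk_add_mk, Int.add_zero] at this
  rw [hy]
  exact iff_of_eq (congrArg (le p) this)

/-- The tag of a column does not depend on the row. -/
theorem tag_move (hO : QModel h O) {τ : Tag} (H : Hd O p x y fun σ => σ.b.tag = τ) (y' : ℤ) :
    Hd O p x y' fun σ => σ.b.tag = τ := by
  induction y' using Int.inductionOn' (b := y) with
  | zero => exact H
  | succ k _ ih =>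
    exact (vert hO (fun s => s.tag = τ) rfl).1 (ih.imp hO fun σ hσ hb => (rule_tag hσ).trans hb)
  | pred k _ ih =>
    exact ((vert hO (fun s => s.tag = τ) (sub_add_cancel k 1).symm).2 ih).imp hO
      fun σ hσ ht => (rule_tag hσ).symm.trans ht

theorem passive_left (hO : QModel h O) (hy : y % M h ≠ 0) (H : Hd O p x y fun σ => σ.l.p = 1) :
    Hd O p (x - 1) y fun σ => σ.l.p = 2 ∧ σ.b.tag = .E := by
  refine ((hor hO (fun s => s.p = 1) (sub_add_cancel x 1).symm).2 H).imp hO fun σ hσ hp => ?_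
  obtain ⟨-, -, -, -, -, -, h2 | h2⟩ := rule_low hy hσ
  · exact absurd (hp.symm.trans h2.2.1) (by decide)
  · have := pOf_eq_one (h2.2.1.symm.trans hp)
    exact ⟨h2.2.2.1 this, this⟩

/-- Passivity of a column does not depend on the low row. -/
theorem passive_move (hO : QModel h O) (hy : y % M h ≠ 0) (H : Hd O p x y fun σ => σ.l.p = 1)
    {y' : ℤ} (hy' : y' % M h ≠ 0) : Hd O p x y' fun σ => σ.l.p = 1 := by
  have h1 := passive_left hO hy H
  have h2 : Hd O p (x - 1 - 1) y fun σ => σ.b.tag = .D := by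
    refine ((hor hO (fun s => s.p = 2) (sub_add_cancel (x - 1) 1).symm).2
      (h1.mono fun _ => And.left)).imp hO fun σ hσ hp => ?_
    obtain ⟨-, -, -, -, -, -, h2 | h2⟩ := rule_low hy hσ
    · exact absurd (hp.symm.trans h2.2.1) (by decide)
    · exact pOf_eq_two (h2.2.1.symm.trans hp)
  have h3 : Hd O p (x - 1) y' fun σ => σ.l.p ≠ 1 := by
    refine (hor hO (fun s => s.p ≠ 1) (sub_add_cancel (x - 1) 1).symm).1
      ((tag_move hO h2 y').imp hO fun σ hσ hb => ?_)
    obtain ⟨-, -, -, -, -, -, h2 | h2⟩ := rule_low hy' hσ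
    · rw [h2.2.1]; decide
    · rw [h2.2.1, hb]; decide
  refine (hor hO (fun s => s.p = 1) (sub_add_cancel x 1).symm).1
    ((h3.and (tag_move hO (h1.mono fun _ => And.right) y')).imp hO fun σ hσ hb => ?_)
  rw [(act_of_rule hy' hσ hb.1).rp, hb.2]
  rfl

/-- The column `x` is passive. -/
def Pas (h : ℕ) (O : V → Obs P Cell e) (p : P) (x : ℤ) : Prop :=
  ∀ y : ℤ, y % M h ≠ 0 → Hd O p x y fun σ => σ.l.p = 1

/-- The column `x` is active. -/
def Ac (h : ℕ) (O : V → Obs P Cell e) (p : P) (x : ℤ) : Prop :=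
  ∀ y : ℤ, y % M h ≠ 0 → Hd O p x y fun σ => σ.l.p ≠ 1

theorem pas_of (hO : QModel h O) (hy : y % M h ≠ 0) (H : Hd O p x y fun σ => σ.l.p = 1) :
    Pas h O p x := fun _ hy' => passive_move hO hy H hy'

theorem ac_of (hO : QModel h O) (hy : y % M h ≠ 0) (H : Hd O p x y fun σ => σ.l.p ≠ 1) :
    Ac h O p x := fun y' hy' =>
  Hd.not H.le_top (H.orth (passive_move hO hy' (Hd.self O x y' _) hy) fun _ => id)

variable {Y r : ℤ}

theorem Ac.imp (hO : QModel h O) (A : Ac h O p x) (h0 : 1 ≤ r) (h1 : r ≤ 3 * h)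
    (H : Hd O p x (Y * M h + r) Q) (hQ : ∀ σ, Act h r σ → Q σ → Q' σ) :
    Hd O p x (Y * M h + r) Q' := by
  have hm := row_mod (h := h) Y (by omega : 0 ≤ r) h1
  refine ((A _ (by rw [hm]; omega)).and H).imp hO fun σ hσ hb => ?_
  rw [hm] at hσ
  exact hQ σ (act_of_rule (by omega) hσ hb.1) hb.2

theorem Ac.act (hO : QModel h O) (A : Ac h O p x) (Y : ℤ) (h0 : 1 ≤ r) (h1 : r ≤ 3 * h)
    (hQ : ∀ σ, Act h r σ → Q' σ) : Hd O p x (Y * M h + r) Q' :=
  A.imp hO h0 h1 (A _ (by rw [row_mod Y (by omega : 0 ≤ r) h1]; omega)) fun σ hσ _ => hQ σ hσ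

/-- An active column enters the quiet rows and the range in the state `out`. -/
theorem Ac.out (hh2 : 2 ≤ h) (hO : QModel h O) (A : Ac h O p x) (Y : ℤ) (h0 : 1 ≤ r)
    (h1 : r ≤ h + 1) : Hd O p x (Y * M h + r) fun σ => σ.b.u = .out := by
  induction r, h0 using Int.leInduction with
  | base =>
    have a1 : Hd O p x (Y * M h) fun σ => σ.b.a = true := by
      refine (vert hO (fun s => s.a = true) (y := (Y - 1) * M h + 3 * h) ?_).1
        (A.act hO (Y - 1) (by omega) le_rfl fun σ hσ => ?_)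
      · rw [M_cast]; ring
      · rw [hσ.ta, tagAt_E hh2]; rfl
    have a2 : Hd O p x (Y * M h) fun σ => σ.t.a = false :=
      (vert hO (fun s => s.a = false) rfl).2 (A.act hO Y le_rfl (by omega) fun σ hσ => hσ.ba)
    refine (vert hO (fun s => s.u = .out) rfl).1 ((a1.and a2).imp hO fun σ hσ hb => ?_)
    rw [Int.mul_emod_left, Rule, if_pos rfl] at hσ
    rcases hσ with ⟨-, -, -, -, -, -, -, -, h2 | h2⟩ | h2
    · rw [h2.2.2.2, hb.1] at hb
      exact absurd hb.2 (by decide)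
    · rw [h2.2.2.2.1] at hb
      exact absurd hb.1 (by decide)
    · exact h2.2.2.2.1
  | succ k hk ih =>
    refine (vert hO (fun s => s.u = .out) (Int.add_assoc _ _ _).symm).1
      (A.imp hO hk (by omega) (ih (by omega)) fun σ hσ hb => ?_)
    have := tab_mid (by omega) (by omega) hσ.tab
    rw [hb] at this
    rcases this with h2 | ⟨q, h2, -⟩ | ⟨q, h2, -⟩
    · exact h2.1.symm
    · simp at h2
    · simp at h2

/-- The states before the marker propagate downwards. -/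
theorem Ac.down (hO : QModel h O) (A : Ac h O p x) {T : Us → Prop} (hT : ∀ u, T u → Bef u)
    {m : ℤ} (hm : m ≤ 3 * h) (H : Hd O p x (Y * M h + m) fun σ => T σ.b.u) (h0 : r ≤ m)
    (h1 : h + 2 ≤ r) : Hd O p x (Y * M h + r) fun σ => T σ.b.u := by
  induction r, h0 using Int.leInductionDown with
  | base => exact H
  | pred k hk ih =>
    refine A.imp hO (by omega) (by omega) ((vert hO (fun s => T s.u)
      (y := Y * M h + (k - 1)) (by ring)).2 (ih (by omega))) fun σ hσ ht => ?_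
    rw [(TabN_down (tab_mid (by omega) (by omega) hσ.tab) (hT _ ht)).1]
    exact ht

/-- The state after the marker propagates upwards. -/
theorem Ac.up (hO : QModel h O) (A : Ac h O p x) {m : ℤ} (hm : h + 2 ≤ m)
    (H : Hd O p x (Y * M h + m) fun σ => σ.b.u = .aft) (h0 : m ≤ r) (h1 : r ≤ 3 * h) :
    Hd O p x (Y * M h + r) fun σ => σ.b.u = .aft := by
  induction r, h0 using Int.leInduction with
  | base => exact H
  | succ k hk ih =>
    refine (vert hO (fun s => s.u = .aft) (Int.add_assoc _ _ _).symm).1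
      (A.imp hO (by omega) (by omega) (ih (by omega)) fun σ hσ hb => ?_)
    have := tab_mid (by omega) (by omega) hσ.tab
    rw [hb] at this
    rcases this with h2 | ⟨q, h2, -⟩ | ⟨q, h2, -⟩
    · exact h2.1.symm
    · simp at h2
    · simp at h2

/-- Without a marker in the rows below the last one, the column reaches the last row before the
marker. -/
theorem Ac.bef (hO : QModel h O) (A : Ac h O p x)
    (H : ∀ r : ℤ, h + 1 ≤ r → r < 3 * h → Hd O p x (Y * M h + r) fun σ => σ.l.d = none)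
    (h0 : h + 2 ≤ r) (h1 : r ≤ 3 * h) : Hd O p x (Y * M h + r) fun σ => Bef σ.b.u := by
  induction r, h0 using Int.leInduction with
  | base =>
    refine (vert hO (fun s => Bef s.u) (y := Y * M h + (h + 1)) (by ring)).1
      (A.imp hO (by omega) (by omega) (H _ le_rfl (by omega)) fun σ hσ hb => ?_)
    have := hσ.tab
    rw [tagAt_F, hb] at this
    rcases this.2 with h2 | ⟨q, -, h2, -⟩ | ⟨q, h2, -⟩
    · exact Or.inl h2.1
    · simp at h2
    · exact Or.inr ⟨q, h2⟩
  | succ k hk ih =>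
    refine (vert hO (fun s => Bef s.u) (Int.add_assoc _ _ _).symm).1
      (A.imp hO (by omega) (by omega) ((ih (by omega)).and (H k (by omega) (by omega)))
        fun σ hσ hb => ?_)
    have := tab_mid (by omega) (by omega) hσ.tab
    rw [hb.2] at this
    rw [TabN_up this hb.1]
    exact hb.1

/-- A state `down q` in the last row puts the marker on the right of the first row. -/
theorem Ac.wrap (hh2 : 2 ≤ h) (hO : QModel h O) (A : Ac h O p x) {q : Fin 3}
    (H : Hd O p x (Y * M h + 3 * h) fun σ => σ.b.u = .down q) :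
    Hd O p (x + 1) (Y * M h + (h + 1)) fun σ => σ.l.d = some q := by
  have h1 := A.down hO (T := fun u => u = .down q) (fun u hu => Or.inr ⟨q, hu⟩) le_rfl H
    (r := h + 2) (by omega) le_rfl
  refine (hor hO (fun s => s.d = some q) rfl).1 (A.imp hO (by omega) (by omega)
    ((vert hO (fun s => s.u = .down q) (y := Y * M h + (h + 1)) (by ring)).2 h1)
    fun σ hσ ht => ?_)
  have := hσ.tab
  rw [tagAt_F, ht] at this
  rcases this.2 with h2 | ⟨q', h2, -⟩ | ⟨q', h2, -, h3⟩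
  · simp at h2
  · simp at h2
  · rw [h3, Us.down.inj h2]

section marker
variable {t : ℤ} {q : Fin 3}

theorem Ac.mark_top (hh2 : 2 ≤ h) (hO : QModel h O) (A : Ac h O p x)
    (H : Hd O p x (Y * M h + 3 * h) fun σ => σ.l.d = some q) :
    Hd O p x (Y * M h + 3 * h) fun σ => σ.b.u = .down (q + 1) := by
  refine A.imp hO (by omega) le_rfl H fun σ hσ hd => ?_
  have := hσ.tab
  rw [tagAt_E hh2, hd] at this
  rcases this.2 with h2 | ⟨q', -, h2, -⟩ | ⟨q', h2, h3, -⟩
  · simp at h2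
  · simp at h2
  · rw [h2, Option.some.inj h3]

theorem Ac.mark_bef (hO : QModel h O) (A : Ac h O p x) {m : ℤ} (h0 : h + 2 ≤ m) (h1 : m < 3 * h)
    (H : Hd O p x (Y * M h + m) fun σ => σ.l.d = some q) :
    Hd O p x (Y * M h + m) fun σ => σ.b.u = .bef := by
  refine A.imp hO (by omega) (by omega) H fun σ hσ hd => ?_
  have := tab_mid (by omega) (by omega) hσ.tab
  rw [hd] at this
  rcases this with h2 | ⟨q', h2, -⟩ | ⟨q', -, -, h2, -⟩
  · simp at h2
  · exact h2
  · simp at h2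

theorem Ac.mark_up (hO : QModel h O) (A : Ac h O p x) {m : ℤ} (h0 : h + 1 ≤ m) (h1 : m < 3 * h)
    (H : Hd O p x (Y * M h + m) fun σ => σ.l.d = some q) :
    Hd O p x (Y * M h + (m + 1)) fun σ => σ.b.u = .up q := by
  refine (vert hO (fun s => s.u = .up q) (Int.add_assoc _ _ _).symm).1
    (A.imp hO (by omega) (by omega) H fun σ hσ hd => ?_)
  by_cases hm : m = h + 1
  · have := hσ.tab
    rw [hm, tagAt_F, hd] at this
    rcases this.2 with h2 | ⟨q', h2, h3, -⟩ | ⟨q', -, h2, -⟩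
    · simp at h2
    · rw [h2, Option.some.inj h3]
    · simp at h2
  · have := tab_mid hm (by omega) hσ.tab
    rw [hd] at this
    rcases this with h2 | ⟨q', -, h2, h3, -⟩ | ⟨q', -, -, h2, -⟩
    · simp at h2
    · rw [h2, Option.some.inj h3]
    · simp at h2

theorem Ac.up_out (hh2 : 2 ≤ h) (hO : QModel h O) (A : Ac h O p x) {m : ℤ} (h0 : h + 2 ≤ m)
    (h1 : m ≤ 3 * h) (H : Hd O p x (Y * M h + m) fun σ => σ.b.u = .up q) :
    Hd O p x (Y * M h + m) fun σ => σ.r.d = some q ∧ (m < 3 * h → σ.t.u = .aft) := by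
  refine A.imp hO (by omega) h1 H fun σ hσ hb => ?_
  by_cases hm : m = 3 * h
  · have := hσ.tab
    rw [hm, tagAt_E hh2, hb] at this
    refine ⟨?_, fun h' => absurd hm h'.ne⟩
    rcases this.2 with h2 | ⟨q', h2, -, h3⟩ | ⟨q', h2, -⟩
    · simp at h2
    · rw [h3, Us.up.inj h2]
    · simp at h2
  · have := tab_mid (by omega) hm hσ.tab
    rw [hb] at this
    rcases this with h2 | ⟨q', h2, -⟩ | ⟨q', h2, h3, -, h4⟩
    · exact absurd rfl (h2.2.1 q)
    · simp at h2
    · exact ⟨by rw [h4, Us.up.inj h2], fun _ => h3⟩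

/-- Below the marker there is no marker. -/
theorem Ac.none_below (hh2 : 2 ≤ h) (hO : QModel h O) (A : Ac h O p x) {m : ℤ} (h1 : m ≤ 3 * h)
    (H : Hd O p x (Y * M h + m) fun σ => σ.l.d = some q) (h2 : h + 1 ≤ r) (h3 : r < m) :
    Hd O p x (Y * M h + r) fun σ => σ.l.d = none := by
  have a1 : Hd O p x (Y * M h + m) fun σ => Bef σ.b.u := by
    rcases h1.eq_or_lt with rfl | h1
    · exact (A.mark_top hh2 hO H).mono fun σ hσ => Or.inr ⟨_, hσ⟩
    · exact (A.mark_bef hO (by omega) h1 H).mono fun σ hσ => Or.inl hσ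
  have a2 := A.down hO (T := Bef) (fun _ => id) h1 a1 (r := r + 1) (by omega) (by omega)
  refine A.imp hO (by omega) (by omega)
    ((vert hO (fun s => Bef s.u) (Int.add_assoc _ _ _).symm).2 a2) fun σ hσ ht => ?_
  by_cases hr : r = h + 1
  · have := hσ.tab
    rw [hr, tagAt_F] at this
    rcases this.2 with h4 | ⟨q', h4, -⟩ | ⟨q', -, h4, -⟩
    · exact h4.2.1
    · rcases ht with ht | ⟨_, ht⟩ <;> simp [ht] at h4
    · exact h4
  · exact (TabN_down (tab_mid hr (by omega) hσ.tab) ht).2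

end marker

/-- `p` knows that the column `x` has the residue `j`. -/
def Pos (h : ℕ) (O : V → Obs P Cell e) (p : P) (x Y j : ℤ) : Prop :=
  if j = 0 then Pas h O p x else Ac h O p x ∧
    Hd O p x (Y * M h + (h + 1 + tOf h (j - 1))) fun σ => σ.l.d = some (qOf h (j - 1))

/-- The event "the column `x` has the residue `j`". -/
def Rz (h : ℕ) (O : V → Obs P Cell e) (x Y j : ℤ) : P :=
  if j = 0 then ev O x (Y * M h + 1) fun σ => σ.l.p = 1
  else ev O x (Y * M h + (h + 1 + tOf h (j - 1))) fun σ =>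
    σ.l.p ≠ 1 ∧ σ.l.d = some (qOf h (j - 1))

theorem low_one (hh2 : 2 ≤ h) (Y : ℤ) : (Y * M h + 1) % M h ≠ 0 := by
  rw [row_mod Y zero_le_one (by omega)]; exact one_ne_zero

theorem le_Rz (hh2 : 2 ≤ h) (hO : QModel h O) {j : ℤ} (h0 : 0 ≤ j) (h1 : j ≤ 6 * h) :
    le p (Rz h O x Y j) ↔ Pos h O p x Y j := by
  unfold Rz Pos
  split_ifs with hj
  · exact ⟨fun H => pas_of hO (low_one hh2 Y) H, fun H => H _ (low_one hh2 Y)⟩
  · have a1 := tOf_nonneg h (s := j - 1) (by omega)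
    have a2 := tOf_lt h (s := j - 1) (by omega) (by omega)
    have hl : (Y * M h + (h + 1 + tOf h (j - 1))) % M h ≠ 0 := by
      rw [row_mod Y (by omega) (by omega)]; omega
    exact ⟨fun H => ⟨ac_of hO hl (Hd.mono H fun _ => And.left), Hd.mono H fun _ => And.right⟩,
      fun H => (H.1 _ hl).and H.2⟩

theorem Pos.tag (hh2 : 2 ≤ h) (hO : QModel h O) {j : ℤ} (h0 : 1 ≤ j) (h1 : j ≤ 6 * h)
    (H : Pos h O p x Y j) (y : ℤ) : Hd O p x y fun σ => σ.b.tag = tagAt (2 * h) j := by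
  rw [Pos, if_neg (by omega)] at H
  have a1 := tOf_nonneg h (s := j - 1) (by omega)
  have a2 := tOf_lt h (s := j - 1) (by omega) (by omega)
  refine tag_move hO (H.1.imp hO (by omega) (by omega) H.2 fun σ hσ hd => ?_) y
  rw [hσ.tg _ hd, tagfn_eq hh2 (by omega) (by omega), sub_add_cancel]

theorem Pas.right (hO : QModel h O) (H : Pas h O p x) : Ac h O p (x + 1) := by
  intro y hy
  refine (hor hO (fun s => s.p ≠ 1) rfl).1 ((H y hy).imp hO fun σ hσ hp => ?_)
  obtain ⟨-, -, -, -, -, -, h2 | h2⟩ := rule_low hy hσ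
  · rw [h2.2.1]; decide
  · exact absurd hp h2.1

theorem Pas.copy (hO : QModel h O) (H : Pas h O p x) (hy : y % M h ≠ 0) :
    Hd O p x y fun σ => σ.r.p = 0 ∧ σ.r.d = σ.l.d := by
  refine (H y hy).imp hO fun σ hσ hp => ?_
  obtain ⟨-, -, -, -, -, -, h2 | h2⟩ := rule_low hy hσ
  · exact ⟨h2.2.1, h2.2.2.1⟩
  · exact absurd hp h2.1

/-- The residue increases by one from a column to the next. -/
theorem Pos.succ (hh2 : 2 ≤ h) (hO : QModel h O) {j : ℤ} (h0 : 0 ≤ j) (h1 : j ≤ 6 * h)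
    (H : Pos h O p x Y j) : Pos h O p (x + 1) Y ((j + 1) % M (2 * h)) := by
  rw [M2_cast]
  by_cases hj : j = 0
  · rw [Pos, if_pos hj] at H
    rw [hj, Int.zero_add, Int.emod_eq_of_lt zero_le_one (by omega), Pos, if_neg one_ne_zero, sub_self,
      (tq_zero hh2).1, (tq_zero hh2).2, Int.add_zero]
    refine ⟨H.right hO, ?_⟩
    have A : Ac h O p (x - 1) := fun y hy =>
      (passive_left hO hy (H y hy)).mono fun σ hσ => by rw [hσ.1]; decide
    have hE : ∀ y, Hd O p (x - 1) y fun σ => σ.b.tag = .E := tag_move hO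
      ((passive_left hO (low_one hh2 Y) (H _ (low_one hh2 Y))).mono fun _ => And.right)
    have a1 := A.bef hO (Y := Y) (r := 3 * h) (fun r h2 h3 =>
      A.imp hO (by omega) (by omega) (hE _) fun σ hσ hb => by
        rcases hd : σ.l.d with _ | q
        · rfl
        · have := tagAt_eq_E (tagfn_eq_E ((hσ.tg q hd).symm.trans hb)).1
          omega) (by omega) le_rfl
    have a2 : Hd O p (x - 1) (Y * M h + 3 * h) fun σ => σ.b.u = .down 0 := by
      refine A.imp hO (by omega) le_rfl (a1.and (hE _)) fun σ hσ hb => ?_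
      have := hσ.tab
      rw [tagAt_E hh2] at this
      rcases this.2 with h2 | ⟨q, h2, -⟩ | ⟨q, h2, h3, -⟩
      · rcases hb.1 with h4 | ⟨_, h4⟩ <;> simp [h4] at h2
      · rcases hb.1 with h4 | ⟨_, h4⟩ <;> simp [h4] at h2
      · rw [h2, (tagfn_eq_E ((hσ.tg q h3).symm.trans hb.2)).2]
        rfl
    have a3 := A.wrap hh2 hO a2
    rw [sub_add_cancel] at a3
    have hl : (Y * M h + (h + 1)) % M h ≠ 0 := by
      rw [row_mod Y (by omega) (by omega)]; omega
    exact (hor hO (fun s => s.d = some 0) rfl).1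
      ((a3.and (H.copy hO hl)).mono fun σ hσ => hσ.2.2.trans hσ.1)
  have hT := H.tag hh2 hO (by omega) h1
  rw [Pos, if_neg hj] at H
  obtain ⟨A, H⟩ := H
  rcases h1.eq_or_lt with h1 | h1
  · rw [h1, Int.emod_self, Pos, if_pos rfl]
    intro y hy
    refine (hor hO (fun s => s.p = 1) rfl).1 (((A y hy).and (hT y)).imp hO fun σ hσ hb => ?_)
    have hE := tagAt_E (h := 2 * h) (by omega)
    rw [show (3 * ((2 * h : ℕ) : ℤ)) = j by push_cast; omega] at hE
    rw [(act_of_rule hy hσ hb.1).rp, hb.2, hE]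
    rfl
  rw [Int.emod_eq_of_lt (by omega) (by omega), Pos, if_neg (by omega), add_sub_cancel_right]
  have a1 := tOf_nonneg h (s := j - 1) (by omega)
  have a2 := tOf_lt h (s := j - 1) (by omega) (by omega)
  constructor
  · intro y hy
    refine (hor hO (fun s => s.p ≠ 1) rfl).1 (((A y hy).and (hT y)).imp hO fun σ hσ hb => ?_)
    rw [(act_of_rule hy hσ hb.1).rp, hb.2]
    intro h2
    have := tagAt_eq_E (pOf_eq_one h2)
    push_cast at this
    omega
  · by_cases ht : tOf h (j - 1) = 2 * h - 1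
    · have := succ_top (by omega) ht
      rw [sub_add_cancel] at this
      rw [this.1, this.2, Int.add_zero]
      rw [ht, show (h : ℤ) + 1 + (2 * h - 1) = 3 * h by ring] at H
      exact A.wrap hh2 hO (A.mark_top hh2 hO H)
    · have := succ_mid ht
      rw [sub_add_cancel] at this
      rw [this.1, this.2, ← Int.add_assoc (h + 1 : ℤ)]
      exact (hor hO (fun s => s.d = some (qOf h (j - 1))) rfl).1
        ((A.up_out hh2 hO (by omega) (by omega) (A.mark_up hO (by omega) (by omega) H)).mono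
          fun _ => And.left)

theorem Pos.orth (hh2 : 2 ≤ h) (hO : QModel h O) {p' : P} {j j' : ℤ} (h0 : 0 ≤ j) (h1 : j < j')
    (h2 : j' ≤ 6 * h) (H : Pos h O p x Y j) (H' : Pos h O p' x Y j') : orth p p' := by
  rw [Pos, if_neg (by omega)] at H'
  by_cases hj : j = 0
  · rw [Pos, if_pos hj] at H
    exact (H _ (low_one hh2 Y)).orth (H'.1 _ (low_one hh2 Y)) fun _ h h' => h' h
  rw [Pos, if_neg hj] at H
  have a1 := tOf_nonneg h (s := j - 1) (by omega)
  have a2 := tOf_lt h (s := j - 1) (by omega) (by omega)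
  have a3 := tOf_nonneg h (s := j' - 1) (by omega)
  have a4 := tOf_lt h (s := j' - 1) (by omega) (by omega)
  rcases lt_trichotomy (tOf h (j - 1)) (tOf h (j' - 1)) with ht | ht | ht
  · exact H.2.orth (H'.1.none_below hh2 hO (by omega) H'.2 (by omega) (by omega))
      fun σ h h' => by simp [h] at h'
  · rw [← ht] at H'
    refine H.2.orth H'.2 fun σ h h' => ?_
    have := tq_inj ht (Option.some.inj (h.symm.trans h'))
    omega
  · exact (H.1.none_below hh2 hO (by omega) H.2 (by omega) (by omega)).orth H'.2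
      fun σ h h' => by simp [h] at h'

theorem Rz_le (x Y j : ℤ) : le (Rz h O x Y j) e := by
  unfold Rz
  split_ifs <;> exact (O _).le_top _

theorem Rz_max (hh2 : 2 ≤ h) (hO : QModel h O) (he : le p e)
    (H : ∀ j : ℤ, 0 ≤ j → j ≤ 6 * h → orth p (Rz h O x Y j)) : p = zero := by
  have a0 := H 0 le_rfl (by omega)
  rw [Rz, if_pos rfl] at a0
  have A : Ac h O p x := ac_of hO (low_one hh2 Y) (Hd.not he a0)
  have a1 : ∀ r : ℤ, h + 1 ≤ r → r ≤ 3 * h → Hd O p x (Y * M h + r) fun σ => σ.l.d = none := by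
    intro r h2 h3
    have a2 : ∀ q : Fin 3, Hd O p x (Y * M h + r) fun σ => ¬ (σ.l.p ≠ 1 ∧ σ.l.d = some q) := by
      intro q
      obtain ⟨s, s0, s1, s2, s3⟩ := exists_tq h (t := r - (h + 1)) (by omega) (by omega) q
      have := H (s + 1) (by omega) (by omega)
      rw [Rz, if_neg (by omega), add_sub_cancel_right, s2, s3, add_sub_cancel] at this
      exact Hd.not he this
    refine A.imp hO (by omega) h3 ((a2 0).and ((a2 1).and (a2 2))) fun σ hσ hb => ?_
    rcases hd : σ.l.d with _ | q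
    · rfl
    · fin_cases q
      · exact absurd ⟨hσ.lp, hd⟩ hb.1
      · exact absurd ⟨hσ.lp, hd⟩ hb.2.1
      · exact absurd ⟨hσ.lp, hd⟩ hb.2.2
  have a3 := A.bef hO (Y := Y) (r := 3 * h) (fun r h2 h3 => a1 r h2 h3.le) (by omega) le_rfl
  refine Hd.eq_zero (A.imp hO (by omega) le_rfl (a3.and (a1 _ (by omega) le_rfl))
    fun σ hσ hb => ?_)
  have := hσ.tab
  rw [tagAt_E hh2, hb.2] at this
  rcases this.2 with h2 | ⟨q, h2, -⟩ | ⟨q, -, h2, -⟩
  · rcases hb.1 with h4 | ⟨_, h4⟩ <;> simp [h4] at h2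
  · rcases hb.1 with h4 | ⟨_, h4⟩ <;> simp [h4] at h2
  · simp at h2

theorem fin_le (a : Fin (M (2 * h))) : ((a : ℕ) : ℤ) ≤ 6 * h := by
  have h1 : ((a : ℕ) : ℤ) < (M (2 * h) : ℕ) := by exact_mod_cast a.2
  rw [M2_cast] at h1
  omega

theorem exists_obs (hh2 : 2 ≤ h) (hO : QModel h O) (x Y : ℤ) :
    ∃ R : Obs P (Fin (M (2 * h))) e, ∀ a, R.f {a} = Rz h O x Y (a : ℕ) := by
  have key : ∀ a b : Fin (M (2 * h)), a < b → orth (Rz h O x Y (a : ℕ)) (Rz h O x Y (b : ℕ)) :=
    fun a b hab => Pos.orth hh2 hO (Int.natCast_nonneg a) (by exact_mod_cast hab) (fin_le b)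
      ((le_Rz hh2 hO (Int.natCast_nonneg _) (fin_le a)).1 (ROMP.le_refl _))
      ((le_Rz hh2 hO (Int.natCast_nonneg _) (fin_le b)).1 (ROMP.le_refl _))
  refine Obs.exists_of_family' _ (fun a b hab => ?_) (fun a => Rz_le _ _ _) fun p he H =>
    Rz_max hh2 hO he (x := x) (Y := Y) fun j h0 h1 => ?_
  · rcases lt_or_gt_of_ne hab with h1 | h1
    · exact key a b h1
    · exact orth_symm (key b a h1)
  · have := H ⟨j.toNat, by unfold M; omega⟩
    rwa [Int.toNat_of_nonneg h0] at this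

theorem Rz_succ (hh2 : 2 ≤ h) (hO : QModel h O) (x Y : ℤ) {j : ℤ} (h0 : 0 ≤ j) (h1 : j ≤ 6 * h) :
    Rz h O (x + 1) Y ((j + 1) % M (2 * h)) = Rz h O x Y j := by
  obtain ⟨R, hR⟩ := exists_obs hh2 hO x Y
  obtain ⟨R', hR'⟩ := exists_obs hh2 hO (x + 1) Y
  have hM : 0 < M (2 * h) := by unfold M; omega
  set φ : Fin (M (2 * h)) → Fin (M (2 * h)) := fun a => ⟨(a + 1) % M (2 * h), Nat.mod_lt _ hM⟩
    with hφ
  have hc : ∀ a, ((φ a : ℕ) : ℤ) = (((a : ℕ) : ℤ) + 1) % M (2 * h) := fun a => by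
    simp [hφ]
  have hinj : Function.Injective φ := by
    intro a b hab
    have h2 := (hc a).symm.trans ((congrArg (fun c : Fin (M (2 * h)) => ((c : ℕ) : ℤ)) hab).trans
      (hc b))
    have h3 := fin_le a
    have h4 := fin_le b
    have h5 : ∀ c : ℤ, 0 ≤ c → c ≤ 6 * h →
        (c + 1) % (6 * h + 1) = if c = 6 * h then 0 else c + 1 := by
      intro c c0 c1
      split_ifs with hc
      · rw [hc, Int.emod_self]
      · exact Int.emod_eq_of_lt (by omega) (by omega)
    rw [M2_cast, h5 _ (Int.natCast_nonneg _) h3, h5 _ (Int.natCast_nonneg _) h4] at h2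
    ext
    split_ifs at h2 <;> omega
  have key := R.eq_of_refine R' φ (fun a => by
    rw [hR, hR', le_Rz hh2 hO (Int.natCast_nonneg _) (fin_le _), hc]
    exact ((le_Rz hh2 hO (Int.natCast_nonneg _) (fin_le a)).1 (ROMP.le_refl _)).succ hh2 hO
      (Int.natCast_nonneg _) (fin_le a))
  have := key {φ ⟨j.toNat, by unfold M; omega⟩}
  rw [← Set.image_singleton, Set.preimage_image_eq _ hinj, Set.image_singleton, hR, hR', hc,
    Int.toNat_of_nonneg h0] at this
  exact this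

theorem res_nonneg (h : ℕ) (k : ℤ) : 0 ≤ k % M (2 * h) :=
  Int.emod_nonneg _ (by rw [M2_cast]; omega)

theorem res_le (h : ℕ) (k : ℤ) : k % M (2 * h) ≤ 6 * h := by
  have := Int.emod_lt_of_pos k (b := M (2 * h)) (by rw [M2_cast]; omega)
  rw [M2_cast] at this ⊢
  omega

theorem res_succ (h : ℕ) (x i : ℤ) :
    (x + 1 + i) % M (2 * h) = ((x + i) % M (2 * h) + 1) % M (2 * h) := by
  rw [Int.emod_add_emod, add_right_comm]

theorem Rz_const (hh2 : 2 ≤ h) (hO : QModel h O) (i x Y : ℤ) :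
    Rz h O x Y ((x + i) % M (2 * h)) = ev O (-i) 1 fun σ => σ.l.p = 1 := by
  induction x using Int.inductionOn' (b := -i) with
  | zero =>
    rw [neg_add_cancel, Int.zero_emod, Rz, if_pos rfl]
    have h1 := low_one hh2 0
    rw [zero_mul, Int.zero_add] at h1
    exact ROMP.le_antisymm (passive_move hO (low_one hh2 Y) (Hd.self O _ _ _) h1)
      (passive_move hO h1 (Hd.self O _ _ _) (low_one hh2 Y))
  | succ k _ ih => rw [res_succ, Rz_succ hh2 hO k Y (res_nonneg h _) (res_le h _), ih]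
  | pred k _ ih =>
    rw [← Rz_succ hh2 hO (k - 1) Y (res_nonneg h _) (res_le h _), ← res_succ, sub_add_cancel, ih]

/-- The field `u` along an active column. -/
theorem Pos.u (hh2 : 2 ≤ h) (hO : QModel h O) {j : ℤ} (h0 : 1 ≤ j) (h1 : j ≤ 6 * h)
    (H : Pos h O p x Y j) (r0 : 1 ≤ r) (r1 : r ≤ 3 * h + 1) :
    Hd O p x (Y * M h + r) fun σ => σ.b.u = uAt h j r := by
  rw [Pos, if_neg (by omega)] at H
  obtain ⟨A, H⟩ := H
  have a1 := tOf_nonneg h (s := j - 1) (by omega)
  have a2 := tOf_lt h (s := j - 1) (by omega) (by omega)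
  unfold uAt
  split_ifs with c1 c2 c3 c4
  · rcases c1 with c1 | c1
    · exact A.out hh2 hO Y r0 c1
    · refine (vert hO (fun s => s.u = .out) (y := Y * M h + 3 * h) (by omega)).1
        (A.act hO Y (by omega) le_rfl fun σ hσ => ?_)
      have := hσ.tab
      rw [tagAt_E hh2] at this
      exact this.1
  · rw [c2, show (h : ℤ) + 1 + (2 * h - 1) = 3 * h by ring] at H
    exact A.down hO (T := fun u => u = .down _) (fun u hu => Or.inr ⟨_, hu⟩) le_rfl
      (A.mark_top hh2 hO H) (by omega) (by omega)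
  · exact A.down hO (T := fun u => u = .bef) (fun u hu => Or.inl hu) (by omega)
      (A.mark_bef hO (by omega) (by omega) H) c3 (by omega)
  · rw [show r = h + 1 + tOf h (j - 1) + 1 by omega]
    exact A.mark_up hO (by omega) (by omega) H
  · have a3 := A.up_out hh2 hO (by omega) (by omega) (A.mark_up hO (by omega) (by omega) H)
    exact A.up hO (m := h + 1 + tOf h (j - 1) + 1 + 1) (by omega)
      ((vert hO (fun s => s.u = .aft) (Int.add_assoc _ _ _).symm).1
        (a3.mono fun σ hσ => hσ.2 (by omega))) (by omega) (by omega)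

/-- The marker on the left of an active column. -/
theorem Pos.d (hh2 : 2 ≤ h) (hO : QModel h O) {j : ℤ} (h0 : 1 ≤ j) (h1 : j ≤ 6 * h)
    (H : Pos h O p x Y j) (r0 : 1 ≤ r) (r1 : r ≤ 3 * h) :
    Hd O p x (Y * M h + r) fun σ => σ.l.d = (rowSt h j r).d := by
  have u1 := H.u hh2 hO h0 h1 r0 (by omega)
  have u2 := (vert hO (fun s => s.u = uAt h j (r + 1)) (Int.add_assoc _ _ _).symm).2
    (H.u hh2 hO h0 h1 (r := r + 1) (by omega) (by omega))
  rw [Pos, if_neg (by omega)] at H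
  obtain ⟨A, H⟩ := H
  simp only [rowSt, mk, if_neg (show j ≠ 0 by omega)]
  split_ifs with hr
  · rw [hr]; exact H
  refine A.imp hO r0 r1 (u1.and u2) fun σ hσ hb => ?_
  rcases hd : σ.l.d with _ | q
  · rfl
  exfalso
  have ht := hσ.tab
  rw [hb.1, hb.2, hd] at ht
  by_cases hE : r = 3 * h
  · rw [hE, tagAt_E hh2] at ht
    rcases ht.2 with h2 | ⟨q', -, h2, -⟩ | ⟨q', h2, -⟩
    · simp at h2
    · simp at h2
    · unfold uAt at h2
      split_ifs at h2
      omega
  · have hu : uAt h j (r + 1) = .up q := by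
      by_cases hF : r = h + 1
      · rw [show tagAt h r = .F by rw [hF, tagAt_F]] at ht
        rcases ht.2 with h2 | ⟨q', h2, h3, -⟩ | ⟨q', -, h2, -⟩
        · simp at h2
        · rw [h2, Option.some.inj h3]
        · simp at h2
      · rcases tab_mid hF hE ht with h2 | ⟨q', -, h2, h3, -⟩ | ⟨q', -, -, h2, -⟩
        · simp at h2
        · rw [h2, Option.some.inj h3]
        · simp at h2
    unfold uAt at hu
    split_ifs at hu
    omega

/-- The left edge of a low cell. -/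
theorem left_edge (hh2 : 2 ≤ h) (hO : QModel h O) {i : ℤ}
    (H : ∀ x, Pos h O p x Y ((x + i) % M (2 * h))) (r0 : 1 ≤ r) (r1 : r ≤ 3 * h) (x : ℤ) :
    Hd O p x (Y * M h + r) fun σ => σ.l = rowSt h ((x + i) % M (2 * h)) r := by
  have hm := row_mod (h := h) Y (by omega : 0 ≤ r) r1
  have hl : (Y * M h + r) % M h ≠ 0 := by rw [hm]; omega
  have j0 := res_nonneg h (x + i)
  have j1 := res_le h (x + i)
  have H0 := H x
  have H1 := H (x + 1)
  have H2 := H (x - 1)
  have e1 := res_succ h x i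
  have e2 := res_succ h (x - 1) i
  have k0 := res_nonneg h (x - 1 + i)
  have k1 := res_le h (x - 1 + i)
  rw [sub_add_cancel] at e2
  rw [e1] at H1
  generalize (x + i) % M (2 * h) = j at *
  generalize (x - 1 + i) % M (2 * h) = k at *
  have hd : Hd O p x (Y * M h + r) fun σ => σ.l.d = (rowSt h j r).d := by
    by_cases hj : j = 0
    · rw [Pos, if_pos hj] at H0
      rw [hj, Int.zero_add, M2_cast, Int.emod_eq_of_lt zero_le_one (by omega)] at H1
      have a1 := (hor hO (fun s => s.d = (rowSt h 1 r).d) rfl).2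
        (H1.d hh2 hO le_rfl (by omega) r0 r1)
      rw [hj]
      exact (a1.and (H0.copy hO hl)).mono fun σ hσ => hσ.2.2.symm.trans hσ.1
    · exact H0.d hh2 hO (by omega) j1 r0 r1
  have hp : Hd O p x (Y * M h + r) fun σ => σ.l.p = (rowSt h j r).p := by
    simp only [rowSt]
    by_cases hj : j = 0
    · rw [Pos, if_pos hj] at H0
      rw [if_neg (by omega), if_pos hj]
      exact H0 _ hl
    rw [if_neg hj]
    have e3 : j = k + 1 := by
      rw [M2_cast] at e2
      rcases k1.eq_or_lt with h2 | h2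
      · rw [h2, Int.emod_self] at e2
        exact absurd e2 hj
      · rwa [Int.emod_eq_of_lt (by omega) (by omega)] at e2
    refine (hor hO (fun s => s.p = if j = 6 * h then 2 else 0) (sub_add_cancel x 1).symm).1 ?_
    by_cases hk : k = 0
    · rw [Pos, if_pos hk] at H2
      rw [if_neg (by omega)]
      exact (H2.copy hO hl).mono fun _ => And.left
    · have hT := H2.tag hh2 hO (by omega) k1 (Y * M h + r)
      rw [Pos, if_neg hk] at H2
      refine H2.1.imp hO r0 r1 hT fun σ hσ hb => ?_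
      rw [hσ.rp, hb, tagAt]
      push_cast
      split_ifs <;> first | rfl | omega
  refine (hd.and hp).imp hO fun σ hσ hb => ?_
  rw [hm] at hσ
  obtain ⟨⟨a1, a2, a3⟩, -⟩ := rule_low (by omega) hσ
  obtain ⟨b1, b2⟩ := hb
  obtain ⟨⟨_, _, _, _, _⟩, _, _, _⟩ := σ
  simp only [rowSt] at a1 a2 a3 b1 b2 ⊢
  rw [a1, a2, a3, b1, b2]

theorem shape (hh2 : 2 ≤ h) (hO : QModel h O) {i : ℤ}
    (H : ∀ x, Pos h O p x Y ((x + i) % M (2 * h))) (r0 : 1 ≤ r) (r1 : r ≤ 3 * h) (x : ℤ) :
    Hd O p x (Y * M h + r) fun σ => σ ∈ Shape h ((x + i) % M (2 * h)) r := by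
  have hm := row_mod (h := h) Y (by omega : 0 ≤ r) r1
  have a1 := left_edge hh2 hO H r0 r1 x
  have a2 := (hor hO (fun s => s = rowSt h ((x + 1 + i) % M (2 * h)) r) rfl).2
    (left_edge hh2 hO H r0 r1 (x + 1))
  rw [res_succ] at a2
  have j0 := res_nonneg h (x + i)
  have j1 := res_le h (x + i)
  have H0 := H x
  generalize (x + i) % M (2 * h) = j at *
  have a3 : Hd O p x (Y * M h + r) fun σ => j ≠ 0 →
      σ.b.tag = tagAt (2 * h) j ∧ σ.b.u = uAt h j r ∧ σ.t.u = uAt h j (r + 1) := by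
    by_cases hj : j = 0
    · exact a1.mono fun _ _ h' => absurd hj h'
    · exact ((H0.tag hh2 hO (by omega) j1 _).and ((H0.u hh2 hO (by omega) j1 r0 (by omega)).and
        ((vert hO (fun s => s.u = uAt h j (r + 1)) (Int.add_assoc _ _ _).symm).2
          (H0.u hh2 hO (by omega) j1 (r := r + 1) (by omega) (by omega))))).mono fun _ h' _ => h'
  refine (a1.and (a2.and a3)).imp hO fun σ hσ hb => ?_
  rw [hm] at hσ
  exact mem_shape hh2 r0 r1 hσ hb.1 hb.2.1 hb.2.2

end QPart1Aux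

open QPart1Aux

theorem qpart {h : ℕ} (hh2 : 2 ≤ h) {P : Type} [ROMP P] {e : P} {O : V → Obs P Cell e}
    (hO : QModel h O) : ∃ G : Obs P (Fin (M (2 * h))) e, QPart h O G := by
  obtain ⟨G, hG⟩ := exists_obs hh2 hO 0 0
  have key : ∀ (i : Fin (M (2 * h))) (x Y : ℤ),
      G.f {i} = Rz h O x Y ((x + (i : ℕ)) % M (2 * h)) := by
    intro i x Y
    rw [hG, Rz_const hh2 hO, ← Rz_const hh2 hO (i : ℕ) 0 0, Int.zero_add,
      Int.emod_eq_of_lt (Int.natCast_nonneg _) (by exact_mod_cast i.2)]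
  refine ⟨G, fun i c hc => ?_, fun i x Y => ?_⟩
  · have hM : (0 : ℤ) < M h := by rw [M_cast]; omega
    have r0 := Int.emod_nonneg c.2 hM.ne'
    have r1 := Int.emod_lt_of_pos c.2 hM
    have := shape hh2 hO (p := G.f {i}) (Y := c.2 / M h) (r := c.2 % M h) (i := (i : ℕ))
      (fun x => (le_Rz hh2 hO (res_nonneg h _) (res_le h _)).1 (key i x _ ▸ ROMP.le_refl _))
      (by omega) (by rw [M_cast] at r1 ⊢; omega) c.1
    rw [Int.ediv_mul_add_emod] at this
    exact this
  · rw [key i x Y, Rz]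
    have j0 := res_nonneg h (x + (i : ℕ))
    have j1 := res_le h (x + (i : ℕ))
    split_ifs with hj
    · exact ⟨1, one_pos, by rw [M_cast]; omega, _, rfl⟩
    · have a1 := tOf_nonneg h (s := (x + (i : ℕ)) % M (2 * h) - 1) (by omega)
      have a2 := tOf_lt h (s := (x + (i : ℕ)) % M (2 * h) - 1) (by omega) (by omega)
      exact ⟨_, by omega, by rw [M_cast h]; omega, _, rfl⟩

end Crest.Agent.R189
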