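import Crest.Agent.R189.TDefs
import Crest.Agent.R189.Omp

/-! Row 189: the partition by the position of the columns is central. -/

set_option autoImplicit false

namespace Crest.Agent.R189

open ROMP

namespace QPart2Aux

/-! ### Arithmetic -/

theorem mod_eq {m r : ℤ} (Y : ℤ) (h0 : 0 ≤ r) (h1 : r < m) : (Y * m + r) % m = r := by
  rw [_root_.add_comm, Int.add_mul_emod_self_right]
  exact Int.emod_eq_of_lt h0 h1

theorem succ_mod {m : ℤ} (hm : 0 < m) (a : ℤ) :
    (a + 1) % m = if a % m + 1 = m then 0 else a % m + 1 := by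
  have h0 := Int.emod_nonneg a hm.ne'
  have h1 := Int.emod_lt_of_pos a hm
  have h2 := Int.ediv_mul_add_emod a m
  split_ifs with h
  · have : a + 1 = (a / m + 1) * m + 0 := by linear_combination h - h2
    rw [this, mod_eq _ le_rfl hm]
  · have : a + 1 = a / m * m + (a % m + 1) := by linear_combination -h2
    rw [this, mod_eq _ (by omega) (by omega)]

theorem cast_M (h : ℕ) : ((M h : ℕ) : ℤ) = 3 * h + 1 := by simp [M]

theorem cast_M' (h : ℕ) : ((M (2 * h) : ℕ) : ℤ) = 6 * h + 1 := by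
  rw [cast_M]; push_cast; ring

theorem res_inj {n : ℕ} (x : ℤ) {i i' : Fin n} (h : (x + (i : ℕ)) % n = (x + (i' : ℕ)) % n) :
    i = i' := by
  have h1 : ((i : ℕ) : ℤ) % n = ((i' : ℕ) : ℤ) % n := Int.ModEq.add_left_cancel' x h
  rw [Int.emod_eq_of_lt (by omega) (by omega), Int.emod_eq_of_lt (by omega) (by omega)] at h1
  exact Fin.ext (by omega)

/-! ### Cells -/

theorem tab_det {τ : Tag} {ui uo ui' uo' : Us} {di dj : Option (Fin 3)} (h : Tab τ ui uo di dj)
    (h' : Tab τ ui' uo' di dj) : ui = ui' ↔ uo = uo' := by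
  cases τ <;> simp only [Tab, TabN] at h h' <;> grind

theorem fire_det {b t l r l' r' : St} (h : Fire b t l r) (h' : Fire b t l' r') :
    l = l' ↔ r = r' := by
  obtain ⟨-, h1, h2, h3, h4⟩ := h
  obtain ⟨-, h1', h2', h3', h4'⟩ := h'
  rcases h4 with ⟨a1, -, -, a2⟩ | ⟨a1, -, -, a2, a3, a4, -⟩ <;>
    rcases h4' with ⟨b1, -, -, b2⟩ | ⟨b1, -, -, b2, b3, b4, -⟩
  · rw [a2, b2]
  · exact absurd a1 b1
  · exact absurd b1 a1
  · have := tab_det a4 b4
    cases l; cases l'; cases r; cases r'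
    simp only [St.mk.injEq] at *
    grind

theorem rule_high {h : ℕ} {σ : Cell} (hr : Rule h 0 σ) (hb : σ.b.a = true) (ht : σ.t.a = false) :
    Fire σ.b σ.t σ.l σ.r := by
  simp only [Rule, if_true] at hr
  rcases hr with ⟨-, -, -, -, -, -, -, -, h1⟩ | ⟨-, -, -, -, h1⟩
  · rcases h1 with ⟨-, -, -, h2⟩ | ⟨-, -, -, h2, -⟩
    · rw [h2, hb] at ht
      exact absurd ht (by decide)
    · rw [h2] at hb
      exact absurd hb (by decide)
  · exact h1

theorem rule_low {h : ℕ} {r : ℤ} (hr0 : r ≠ 0) {σ : Cell} (hr : Rule h r σ) :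
    (σ.t.tag, σ.t.d, σ.t.p) = (σ.b.tag, σ.b.d, σ.b.p) := by
  simp only [Rule, if_neg hr0] at hr
  obtain ⟨-, -, -, h1, h2, h3, -⟩ := hr
  rw [h1, h2, h3]

variable {h : ℕ} {j r : ℤ} {σ σ' : Cell}

theorem shape_l_p (hh2 : 2 ≤ h) (hr : r ≠ 0) (hσ : σ ∈ Shape h j r) : σ.l.p = 1 ↔ j = 0 := by
  obtain ⟨τ, -, rfl⟩ := hσ
  simp only [Ecell, if_neg hr, rowSt]
  split_ifs with h1 h2
  · exact ⟨fun h => absurd h (by decide), fun h => by omega⟩
  · exact ⟨fun _ => h2, fun _ => rfl⟩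
  · exact ⟨fun h => absurd h (by decide), fun h => absurd h h2⟩

theorem shape_sub (hj : j ≠ 0) (hr : r ≠ 0) (hσ : σ ∈ Shape h j r) (hσ' : σ' ∈ Shape h j r)
    (he : (σ.b.tag, σ.b.d, σ.b.p) = (σ'.b.tag, σ'.b.d, σ'.b.p)) : σ = σ' := by
  obtain ⟨τ, -, rfl⟩ := hσ
  obtain ⟨τ', -, rfl⟩ := hσ'
  simp only [Ecell, if_neg hr, colSt, if_neg hj, Prod.mk.injEq] at he ⊢
  rw [he.1, he.2.1, he.2.2]

theorem shape_tag (hj : j ≠ 0) (hr : r ≠ 0) (hσ : σ ∈ Shape h j r) :
    σ.b.tag = tagAt (2 * h) j := by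
  obtain ⟨τ, hτ, rfl⟩ := hσ
  simp only [Ecell, if_neg hr, colSt, if_neg hj]
  exact (hτ hj).1

theorem shape_a (hj : j ≠ 0) (hr : r ≠ 0) (hσ : σ ∈ Shape h j r) :
    σ.b.a = decide (r = 3 * h + 1) ∧ σ.t.a = decide (r + 1 = 3 * h + 1) := by
  obtain ⟨τ, -, rfl⟩ := hσ
  simp only [Ecell, if_neg hr, colSt, if_neg hj, and_self]

theorem tagAt_D (hh2 : 2 ≤ h) : tagAt (2 * h) j = .D ↔ j = 6 * h - 1 := by
  simp only [tagAt]
  push_cast
  split_ifs <;> simp <;> omega

theorem tagAt_E (hh2 : 2 ≤ h) : tagAt (2 * h) j = .E ↔ j = 6 * h := by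
  simp only [tagAt]
  push_cast
  split_ifs <;> simp <;> omega

/-! ### General lemmas on observables -/

variable {P : Type} [ROMP P] {e : P}

theorem com_of_pieces {T : Type} [Finite T] (ρ : Obs P T e) {g p : P} (hg : le g e)
    (h1 : ∀ B, Com g (ρ.f B)) (h2 : ∀ τ, Com p (meet g (ρ.f {τ}))) : Com g p := by
  obtain ⟨O', hO'⟩ := ρ.exists_corner hg h1
  have := O'.com_of_singleton (x := p) (A := Set.univ) fun τ _ => by rw [hO']; exact h2 τ
  rw [O'.univ] at this
  exact this.symm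

theorem com_of_subsingleton {α : Type} (O : Obs P α e) {p : P} {S : Set α}
    (hS : S.Subsingleton) (hp : le p (O.f S)) (A : Set α) : Com (O.f A) p := by
  by_cases hA : S ⊆ A
  · exact com_of_le (le_trans hp (O.mono hA))
  · refine com_of_orth (orth_symm (orth_of_le hp (O.orth ?_)))
    refine Set.disjoint_left.2 fun a ha ha' => hA fun b hb => ?_
    rw [hS hb ha]
    exact ha'

theorem com_of_two {ι : Type} [Finite ι] (G : Obs P ι e) {p q x : P} (hp : le p e) (hq : le q e)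
    (h1 : ∀ a, Com (G.f {a}) p) (h2 : ∀ a, Com (G.f {a}) q) (i : ι) (h3 : le (G.f {i}) p)
    (h4 : le (G.f {i}) q) (h5 : ∀ a, a ≠ i → orth (G.f {a}) p ∨ orth (G.f {a}) q)
    (hxp : Com x p) (hxq : Com x q) : Com x (G.f {i}) := by
  have hpq : Com p q := by
    refine G.com_of_corners hp hq h1 h2 fun a => ?_
    by_cases ha : a = i
    · rw [ha, meet_of_ge h3, meet_of_ge h4]
      exact Com.refl _
    · rcases h5 a ha with h | h
      · rw [meet_of_orth h]
        exact com_of_ge (zero_le _)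
      · rw [meet_of_orth h]
        exact com_of_le (zero_le _)
  have he : G.f {i} = meet p q := by
    refine le_antisymm (le_meet hpq h3 h4) ?_
    rw [← compl_compl ({i} : Set ι)]
    refine (G.le_compl_iff (le_trans (meet_le_left hpq) hp)).2
      (orth_symm (G.orth_of_singleton fun a ha => ?_))
    rcases h5 a ha with h | h
    · exact orth_mono h (le_refl _) (meet_le_left hpq)
    · exact orth_mono h (le_refl _) (meet_le_right hpq)
  rw [he]
  exact hpq.meet_right hxp hxq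

theorem com_inter {α : Type} (O : Obs P α e) {x : P} {A B : Set α} (h1 : Com x (O.f A))
    (h2 : Com x (O.f B)) : Com x (O.f (A ∩ B)) := by
  rw [O.inter]
  exact (O.com A B).meet_right h1 h2

/-- Transfer through a cell on which the vertical line fires. -/
theorem com_of_fire (O : Obs P Cell e) (hO : O.f {σ | ¬ Rule h 0 σ} = zero) {g : P}
    (hb : le g (O.f {σ | σ.b.a = true})) (ht : le g (O.f {σ | σ.t.a = false}))
    (h1 : ∀ s, Com g (O.f {σ | σ.b = s})) (h2 : ∀ s, Com g (O.f {σ | σ.t = s}))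
    (h3 : (∀ s, Com g (O.f {σ | σ.l = s})) ∨ ∀ s, Com g (O.f {σ | σ.r = s})) (A : Set Cell) :
    Com g (O.f A) := by
  refine com_transfer (O.le_inter hb ht) (O.com _ A) ?_
  rw [← O.inter]
  refine O.com_of_singleton ?_
  rintro σ ⟨⟨a1, a2⟩, -⟩
  by_cases hσ : Rule h 0 σ
  · have f1 := rule_high hσ a1 a2
    have key : ∀ σ' : Cell, σ'.b = σ.b → σ'.t = σ.t → (σ'.l = σ.l ∨ σ'.r = σ.r) →
        σ' ∈ ({σ} : Set Cell) ∪ {σ | ¬ Rule h 0 σ} := by
      intro σ' b1 b2 b3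
      by_cases hσ' : Rule h 0 σ'
      · have f2 := rule_high hσ' (by rw [b1]; exact a1) (by rw [b2]; exact a2)
        rw [b1, b2] at f2
        have := fire_det f2 f1
        left
        cases σ; cases σ'
        simp only [Set.mem_singleton_iff, Cell.mk.injEq] at *
        tauto
      · exact Or.inr hσ'
    rcases h3 with h3 | h3
    · rw [O.eq_of_null (A := {σ}) (B := {σ' | σ'.b = σ.b} ∩ {σ' | σ'.t = σ.t} ∩ {σ' | σ'.l = σ.l})
        hO (by rintro _ rfl; exact Or.inl ⟨⟨rfl, rfl⟩, rfl⟩)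
        fun σ' h' => key σ' h'.1.1 h'.1.2 (Or.inl h'.2)]
      exact com_inter O (com_inter O (h1 _) (h2 _)) (h3 _)
    · rw [O.eq_of_null (A := {σ}) (B := {σ' | σ'.b = σ.b} ∩ {σ' | σ'.t = σ.t} ∩ {σ' | σ'.r = σ.r})
        hO (by rintro _ rfl; exact Or.inl ⟨⟨rfl, rfl⟩, rfl⟩)
        fun σ' h' => key σ' h'.1.1 h'.1.2 (Or.inr h'.2)]
      exact com_inter O (com_inter O (h1 _) (h2 _)) (h3 _)
  · refine com_of_le (le_trans ?_ (zero_le g))
    rw [← hO]
    exact O.mono (Set.singleton_subset_iff.2 hσ)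

/-! ### Low cells -/

variable {O : V → Obs P Cell e} {G : Obs P (Fin (M (2 * h))) e}

theorem vert' (hO : QModel h O) (x y : ℤ) (A : Set St) :
    (O (x, y)).f {σ | σ.t ∈ A} = (O (x, y + 1)).f {σ | σ.b ∈ A} := by
  have := hO.vert (x, y) A
  rwa [Prod.mk_add_mk, _root_.add_zero] at this

theorem hor' (hO : QModel h O) (x y : ℤ) (A : Set St) :
    (O (x, y)).f {σ | σ.r ∈ A} = (O (x + 1, y)).f {σ | σ.l ∈ A} := by
  have := hO.hor (x, y) A
  rwa [Prod.mk_add_mk, _root_.add_zero] at this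

theorem key_eq (hO : QModel h O) (x Y : ℤ) (B : Set (Tag × Option (Fin 3) × Fin 3)) (n : ℕ)
    (hn : (n : ℤ) + 1 < M h) :
    (O (x, Y * M h + (n + 1))).f {σ | (σ.b.tag, σ.b.d, σ.b.p) ∈ B} =
      (O (x, Y * M h + 1)).f {σ | (σ.b.tag, σ.b.d, σ.b.p) ∈ B} := by
  induction n with
  | zero => simp
  | succ n ih =>
    push_cast at hn
    rw [← ih (by omega)]
    have h1 := vert' hO x (Y * M h + (n + 1)) {s | (s.tag, s.d, s.p) ∈ B}
    have h2 := hO.rule (x, Y * M h + (n + 1))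
    simp only at h2
    rw [mod_eq Y (by omega) (by omega)] at h2
    push_cast
    rw [← _root_.add_assoc (Y * M h)]
    refine h1.symm.trans ((O _).eq_of_null h2 (fun σ hσ => ?_) fun σ hσ => ?_)
    · by_cases hr : Rule h (n + 1) σ
      · exact Or.inl (by rw [Set.mem_ofPred_eq, ← rule_low (by omega) hr]; exact hσ)
      · exact Or.inr hr
    · by_cases hr : Rule h (n + 1) σ
      · exact Or.inl (by
          change (σ.t.tag, σ.t.d, σ.t.p) ∈ B
          rw [rule_low (by omega) hr]; exact hσ)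
      · exact Or.inr hr

theorem key_eq' (hO : QModel h O) (x Y : ℤ) (B : Set (Tag × Option (Fin 3) × Fin 3)) {r : ℤ}
    (h0 : 0 < r) (h1 : r < M h) :
    (O (x, Y * M h + r)).f {σ | (σ.b.tag, σ.b.d, σ.b.p) ∈ B} =
      (O (x, Y * M h + 1)).f {σ | (σ.b.tag, σ.b.d, σ.b.p) ∈ B} := by
  obtain ⟨n, rfl⟩ : ∃ n : ℕ, r = n + 1 := ⟨(r - 1).toNat, by omega⟩
  exact key_eq hO x Y B n h1

theorem shape' (hG : QPart h O G) (i : Fin (M (2 * h))) (x Y : ℤ) {r : ℤ} (h0 : 0 < r)
    (h1 : r < M h) :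
    le (G.f {i}) ((O (x, Y * M h + r)).f (Shape h ((x + (i : ℕ)) % M (2 * h)) r)) := by
  have := hG.shape i (x, Y * M h + r)
  simp only at this
  rw [mod_eq Y h0.le h1] at this
  exact this h0.ne'

theorem com_low (hh2 : 2 ≤ h) (hO : QModel h O) (hG : QPart h O G) (i : Fin (M (2 * h)))
    (x Y : ℤ) {r : ℤ} (h0 : 0 < r) (h1 : r < M h) (A : Set Cell) :
    Com (G.f {i}) ((O (x, Y * M h + r)).f A) := by
  by_cases hj : (x + (i : ℕ)) % M (2 * h) = 0
  · have h2 := G.eq_of_refine ((O (x, Y * M h + r)).map fun σ => σ.l.p = 1)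
      (fun a => (x + (a : ℕ)) % M (2 * h) = 0) (fun a => le_trans (shape' hG a x Y h0 h1)
        ((O _).mono fun σ hσ => propext (shape_l_p hh2 h0.ne' hσ))) {True}
    have h3 : (fun a : Fin (M (2 * h)) => (x + (a : ℕ)) % M (2 * h) = 0) ⁻¹' {True} = {i} := by
      ext a
      simp only [Set.mem_preimage, Set.mem_singleton_iff, eq_iff_iff, iff_true]
      exact ⟨fun ha => res_inj x (ha.trans hj.symm), fun ha => ha ▸ hj⟩
    rw [h3, Obs.map_f] at h2
    rw [← h2]
    exact (O _).com _ _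
  · have hc : ∀ B, Com (G.f {i}) (((O (x, Y * M h + r)).map
        fun σ => (σ.b.tag, σ.b.d, σ.b.p)).f B) := fun B => by
      obtain ⟨r', a0, a1, A', hA'⟩ := hG.event i x Y
      rw [Obs.map_f, hA']
      exact ((key_eq' hO x Y B a0 a1).trans (key_eq' hO x Y B h0 h1).symm) ▸ (O _).com _ _
    refine com_of_pieces _ (G.le_top _) hc fun τ => ?_
    refine com_of_subsingleton _ ?_ ((O _).le_inter
      (le_trans (meet_le_left (hc _)) (shape' hG i x Y h0 h1)) (meet_le_right (hc _))) A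
    rintro σ ⟨a1, a2⟩ σ' ⟨b1, b2⟩
    exact shape_sub hj h0.ne' a1 b1 (Eq.trans a2 (Eq.symm b2))

/-! ### High cells -/

theorem high_t (hO : QModel h O) (x Y : ℤ) (A : Set St) :
    (O (x, Y * M h)).f {σ | σ.t ∈ A} = (O (x, Y * M h + 1)).f {σ | σ.b ∈ A} := vert' hO x _ A

theorem high_b (hO : QModel h O) (x Y : ℤ) (A : Set St) :
    (O (x, Y * M h)).f {σ | σ.b ∈ A} = (O (x, (Y - 1) * M h + 3 * h)).f {σ | σ.t ∈ A} := by
  rw [vert' hO]
  congr 3
  rw [cast_M]
  ring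

theorem com_t (hh2 : 2 ≤ h) (hO : QModel h O) (hG : QPart h O G) (i : Fin (M (2 * h)))
    (x Y : ℤ) (A : Set St) : Com (G.f {i}) ((O (x, Y * M h)).f {σ | σ.t ∈ A}) := by
  rw [high_t hO]
  exact com_low hh2 hO hG i x Y one_pos (by rw [cast_M]; omega) _

theorem com_b (hh2 : 2 ≤ h) (hO : QModel h O) (hG : QPart h O G) (i : Fin (M (2 * h)))
    (x Y : ℤ) (A : Set St) : Com (G.f {i}) ((O (x, Y * M h)).f {σ | σ.b ∈ A}) := by
  rw [high_b hO]
  exact com_low hh2 hO hG i x _ (by omega) (by rw [cast_M]; omega) _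

theorem le_tag (hh2 : 2 ≤ h) (hO : QModel h O) (hG : QPart h O G) (i : Fin (M (2 * h)))
    (x Y : ℤ) (hj : (x + (i : ℕ)) % M (2 * h) ≠ 0) :
    le (G.f {i}) ((O (x, Y * M h)).f
      {σ | σ.t ∈ {s : St | s.tag = tagAt (2 * h) ((x + (i : ℕ)) % M (2 * h))}}) := by
  rw [high_t hO]
  exact le_trans (shape' hG i x Y one_pos (by rw [cast_M]; omega))
    ((O _).mono fun σ hσ => shape_tag hj one_ne_zero hσ)

theorem orth_tag (hh2 : 2 ≤ h) (hO : QModel h O) (hG : QPart h O G) (i : Fin (M (2 * h)))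
    (x Y : ℤ) (hj : (x + (i : ℕ)) % M (2 * h) ≠ 0) {τ : Tag}
    (hτ : tagAt (2 * h) ((x + (i : ℕ)) % M (2 * h)) ≠ τ) :
    orth (G.f {i}) ((O (x, Y * M h)).f {σ | σ.t ∈ {s : St | s.tag = τ}}) :=
  orth_of_le (le_tag hh2 hO hG i x Y hj) ((O _).orth (Set.disjoint_left.2
    fun _ h1 h2 => hτ (Eq.trans (Eq.symm h1) h2)))

theorem com_base (hh2 : 2 ≤ h) (hO : QModel h O) (hG : QPart h O G) (i : Fin (M (2 * h)))
    (x Y : ℤ) (hj : (x + 1 + (i : ℕ)) % M (2 * h) = 6 * h) (A : Set St) :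
    Com (G.f {i}) ((O (x + 1, Y * M h)).f {σ | σ.l ∈ A}) := by
  have hs : ∀ a : Fin (M (2 * h)), (x + 1 + (a : ℕ)) % M (2 * h) =
      if (x + (a : ℕ)) % M (2 * h) + 1 = M (2 * h) then 0 else (x + (a : ℕ)) % M (2 * h) + 1 :=
    fun a => by
      rw [add_right_comm]
      exact succ_mod (by rw [cast_M']; omega) _
  have hM := cast_M' h
  refine (com_of_two G ((O (x, Y * M h)).le_top {σ | σ.t ∈ {s : St | s.tag = .D}})
    ((O (x + 1, Y * M h)).le_top {σ | σ.t ∈ {s : St | s.tag = .E}})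
    (fun a => com_t hh2 hO hG a _ _ _) (fun a => com_t hh2 hO hG a _ _ _) i ?_ ?_ (fun a ha => ?_)
    ?_ ((O _).com _ _)).symm
  · have h1 : (x + (i : ℕ)) % M (2 * h) = 6 * h - 1 := by
      have := hs i
      split_ifs at this <;> omega
    have := le_tag hh2 hO hG i x Y (by omega)
    rwa [(tagAt_D hh2).2 h1] at this
  · have := le_tag hh2 hO hG i (x + 1) Y (by omega)
    rwa [(tagAt_E hh2).2 hj] at this
  · have h1 : (x + 1 + (a : ℕ)) % M (2 * h) ≠ 6 * h := fun h' =>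
      ha (res_inj (x + 1) (h'.trans hj.symm))
    by_cases h2 : (x + 1 + (a : ℕ)) % M (2 * h) = 0
    · have h3 : (x + (a : ℕ)) % M (2 * h) = 6 * h := by
        have := hs a
        have := Int.emod_nonneg (x + (a : ℕ)) (b := M (2 * h)) (by omega)
        split_ifs at * <;> omega
      refine Or.inl (orth_tag hh2 hO hG a x Y (by omega) fun h' => ?_)
      have := (tagAt_D hh2).1 h'
      omega
    · exact Or.inr (orth_tag hh2 hO hG a (x + 1) Y h2 fun h' => h1 ((tagAt_E hh2).1 h'))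
  · rw [← hor' hO]
    exact (O _).com _ _

theorem com_active (hh2 : 2 ≤ h) (hO : QModel h O) (hG : QPart h O G) (i : Fin (M (2 * h)))
    (x Y : ℤ) (hj : (x + (i : ℕ)) % M (2 * h) ≠ 0)
    (h3 : (∀ A : Set St, Com (G.f {i}) ((O (x, Y * M h)).f {σ | σ.l ∈ A})) ∨
      ∀ A : Set St, Com (G.f {i}) ((O (x + 1, Y * M h)).f {σ | σ.l ∈ A})) (A : Set Cell) :
    Com (G.f {i}) ((O (x, Y * M h)).f A) := by
  have h1 := hO.rule (x, Y * M h)
  simp only [Int.mul_emod_left] at h1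
  refine com_of_fire _ h1 ?_ ?_ (fun s => com_b hh2 hO hG i x Y {s})
    (fun s => com_t hh2 hO hG i x Y {s}) (h3.imp (fun h s => h {s}) fun h s => ?_) A
  · have := high_b hO x Y {s | s.a = true}
    refine le_trans (shape' hG i x (Y - 1) (r := 3 * h) (by omega) (by rw [cast_M]; omega))
      (this ▸ (O _).mono fun σ hσ => ?_)
    exact (shape_a hj (by omega) hσ).2.trans (by simp)
  · have := high_t hO x Y {s | s.a = false}
    refine le_trans (shape' hG i x Y one_pos (by rw [cast_M]; omega))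
      (this ▸ (O _).mono fun σ hσ => ?_)
    exact (shape_a hj one_ne_zero hσ).1.trans (decide_eq_false (by omega))
  · have := h {s}
    rwa [← hor' hO] at this

theorem com_l (hh2 : 2 ≤ h) (hO : QModel h O) (hG : QPart h O G) (i : Fin (M (2 * h)))
    (x Y : ℤ) (A : Set St) : Com (G.f {i}) ((O (x, Y * M h)).f {σ | σ.l ∈ A}) := by
  have hM := cast_M' h
  have hs : ∀ x : ℤ, (x + 1 + (i : ℕ)) % M (2 * h) =
      if (x + (i : ℕ)) % M (2 * h) + 1 = M (2 * h) then 0 else (x + (i : ℕ)) % M (2 * h) + 1 :=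
    fun x => by
      rw [add_right_comm]
      exact succ_mod (by omega) _
  have key : ∀ (n : ℕ) (x : ℤ), (n : ℤ) < 6 * h → (x + (i : ℕ)) % M (2 * h) = 6 * h - n →
      ∀ A : Set St, Com (G.f {i}) ((O (x, Y * M h)).f {σ | σ.l ∈ A}) := by
    intro n
    induction n with
    | zero =>
      intro x _ hx A
      obtain ⟨x', rfl⟩ : ∃ x', x = x' + 1 := ⟨x - 1, by ring⟩
      exact com_base hh2 hO hG i x' Y (by omega) A
    | succ n ih =>
      intro x hn hx A
      refine com_active hh2 hO hG i x Y (by omega) (Or.inr (ih (x + 1) (by omega) ?_)) _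
      have := hs x
      split_ifs at this <;> omega
  have h0 := Int.emod_nonneg (x + (i : ℕ)) (b := M (2 * h)) (by omega)
  have h1 := Int.emod_lt_of_pos (x + (i : ℕ)) (b := M (2 * h)) (by omega)
  by_cases hj : (x + (i : ℕ)) % M (2 * h) = 0
  · obtain ⟨x', rfl⟩ : ∃ x', x = x' + 1 := ⟨x - 1, by ring⟩
    have h2 : (x' + (i : ℕ)) % M (2 * h) = 6 * h := by
      have := hs x'
      have := Int.emod_nonneg (x' + (i : ℕ)) (b := M (2 * h)) (by omega)
      split_ifs at * <;> omega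
    rw [← hor' hO]
    exact com_active hh2 hO hG i x' Y (by omega) (Or.inl (key 0 x' (by omega) (by omega))) _
  · exact key (6 * h - (x + (i : ℕ)) % M (2 * h)).toNat x (by omega) (by omega) A

end QPart2Aux

open QPart2Aux in
theorem qcentral {h : ℕ} (hh2 : 2 ≤ h) {P : Type} [ROMP P] {e : P} {O : V → Obs P Cell e}
    (hO : QModel h O) {G : Obs P (Fin (M (2 * h))) e} (hG : QPart h O G)
    (i : Fin (M (2 * h))) (c : V) (A : Set Cell) : Com (G.f {i}) ((O c).f A) := by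
  obtain ⟨x, y⟩ := c
  have hM := cast_M h
  have h0 := Int.emod_nonneg y (b := M h) (by omega)
  have h1 := Int.emod_lt_of_pos y (b := M h) (by omega)
  rw [← Int.ediv_mul_add_emod y (M h)]
  rcases h0.eq_or_lt with h2 | h2
  · rw [← h2, _root_.add_zero]
    refine (O _).com_of_singleton fun σ _ => ?_
    have h3 : ({σ} : Set Cell) = {σ' | σ'.l ∈ ({σ.l} : Set St)} ∩ {σ' | σ'.r ∈ ({σ.r} : Set St)} ∩
        {σ' | σ'.b ∈ ({σ.b} : Set St)} ∩ {σ' | σ'.t ∈ ({σ.t} : Set St)} := by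
      ext σ'
      cases σ; cases σ'
      simp [and_assoc]
    rw [h3]
    refine com_inter _ (com_inter _ (com_inter _ (com_l hh2 hO hG i _ _ _) ?_)
      (com_b hh2 hO hG i _ _ _)) (com_t hh2 hO hG i _ _ _)
    rw [hor' hO]
    exact com_l hh2 hO hG i _ _ _
  · exact com_low hh2 hO hG i x _ h2 h1 A

end Crest.Agent.R189
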