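import Crest.Agent.R189.QPart1
import Crest.Agent.R189.QPart2
import Crest.Agent.R189.QCorner

/-! Row 189: quantum rigidity and the classical collapse. -/

set_option autoImplicit false

namespace Crest.Agent.R189

open ROMP

namespace QRigAux

/-- Cells at distance at most `(A, B)` commute in every model of level `k`. -/
private def Rig (k A B : ℕ) : Prop :=
  ∀ (P : Type) [ROMP P] (e : P) (O : V → Obs P Cell e), QModel (hh k) O →
    ∀ c c' : V, |c.1 - c'.1| ≤ A → |c.2 - c'.2| ≤ B →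
      ∀ E E' : Set Cell, Com ((O c).f E) ((O c').f E')

private theorem rig_zero (k : ℕ) : Rig k 0 0 := by
  intro P _ e O _ c c' h1 h2 E E'
  have : c = c' := Prod.ext (by simpa [sub_eq_zero] using h1) (by simpa [sub_eq_zero] using h2)
  subst this
  exact (O c).com E E'

theorem ediv_sub_le {m : ℤ} (hm : 0 < m) {a b : ℤ} (h : b ≤ a) :
    0 ≤ a / m - b / m ∧ a / m - b / m ≤ a - b := by
  refine ⟨sub_nonneg.2 (Int.ediv_le_ediv hm h), ?_⟩
  have h1 : a ≤ b + (a - b) * m := by nlinarith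
  have h2 := Int.ediv_le_ediv hm h1
  rw [Int.add_mul_ediv_right _ _ hm.ne'] at h2
  linarith

theorem abs_ediv_sub_le {m : ℤ} (hm : 0 < m) (a b : ℤ) : |a / m - b / m| ≤ |a - b| := by
  rcases le_total b a with h | h
  · obtain ⟨h1, h2⟩ := ediv_sub_le hm h
    rwa [abs_of_nonneg h1, abs_of_nonneg (sub_nonneg.2 h)]
  · obtain ⟨h1, h2⟩ := ediv_sub_le hm h
    rw [abs_sub_comm, abs_sub_comm a b]
    rwa [abs_of_nonneg h1, abs_of_nonneg (sub_nonneg.2 h)]

theorem ediv_succ {m : ℤ} (hm : 0 < m) {a b : ℤ} (h : a / m < b / m) (hab : |a - b| < m) :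
    b / m = a / m + 1 ∧ a % m ≠ 0 := by
  have h1 := Int.mul_ediv_add_emod a m
  have h2 := Int.mul_ediv_add_emod b m
  have h3 := Int.emod_nonneg a hm.ne'
  have h4 := Int.emod_nonneg b hm.ne'
  have h5 := Int.emod_lt_of_pos a hm
  have h6 := (abs_lt.1 hab).1
  have h7 : b / m < a / m + 2 := by
    by_contra hc
    have : m * (a / m + 2) ≤ m * (b / m) := mul_le_mul_of_nonneg_left (not_lt.1 hc) hm.le
    nlinarith
  have h8 : b / m = a / m + 1 := by omega
  refine ⟨h8, fun h0 => ?_⟩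
  rw [h8] at h2
  nlinarith

/-- Reduction to the corners. -/
theorem com_of_qcorner (k : ℕ) {P : Type} [ROMP P] {e : P} {O : V → Obs P Cell e}
    (hO : QModel (hh k) O) (c c' : V) (E E' : Set Cell)
    (h : ∀ (g : P) (O' : V → Obs P Cell g), QModel (hh (k + 1)) O' → ∀ i : ℤ,
      Com ((O' (c.2 / M (hh k), c.1 + i)).f
          {σ | Ecell (hh k) ((c.1 + i) % M (2 * hh k)) (c.2 % M (hh k)) σ ∈ E})
        ((O' (c'.2 / M (hh k), c'.1 + i)).f
          {σ | Ecell (hh k) ((c'.1 + i) % M (2 * hh k)) (c'.2 % M (hh k)) σ ∈ E'})) :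
    Com ((O c).f E) ((O c').f E') := by
  obtain ⟨G, hG⟩ := qpart (two_le_hh k) hO
  have hc := qcentral (two_le_hh k) hO hG
  refine G.com_of_corners ((O c).le_top E) ((O c').le_top E') (fun i => hc i c E)
    (fun i => hc i c' E') fun i => ?_
  obtain ⟨O', hO', hf⟩ := qcorner (two_le_hh k) hO hG hc i
  rw [hf, hf]
  exact h _ O' (by rwa [hh_succ]) _

private theorem rig_swap {k A B : ℕ} (h : Rig (k + 1) B A) : Rig k A B := by
  intro P _ e O hO c c' h1 h2 E E'
  refine com_of_qcorner k hO c c' E E' fun g O' hO' i => h P g O' hO' _ _ ?_ ?_ _ _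
  · exact (abs_ediv_sub_le (M_pos _) _ _).trans h2
  · simpa using h1

/-- A low cell can be read at the next vertex. -/
theorem low_move {h h' : ℕ} {P : Type} [ROMP P] {g : P} {O' : V → Obs P Cell g}
    (hO' : QModel h' O') (i : ℤ) {r : ℤ} (hr : r ≠ 0) (v : V) (E : Set Cell) :
    ∃ E₁, (O' v).f {σ | Ecell h i r σ ∈ E} = (O' (v.1 + 1, v.2)).f E₁ := by
  have e : {σ | Ecell h i r σ ∈ E} = {σ : Cell | σ.r ∈ {s : St |
      (⟨rowSt h i r, rowSt h ((i + 1) % M (2 * h)) r, colSt h i r s, colSt h i (r + 1) s⟩ : Cell) ∈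
        E}} := by
    ext σ
    simp only [Ecell, if_neg hr, Set.mem_ofPred_eq]
  rw [e, hO'.hor]
  exact ⟨_, by rw [show v + (1, 0) = (v.1 + 1, v.2) from Prod.ext rfl (add_zero _)]⟩

private theorem rig_small {k A B : ℕ} (hB : B < M (hh k)) (h : Rig (k + 1) 0 A) : Rig k A B := by
  intro P _ e O hO c c' h1 h2 E E'
  refine com_of_qcorner k hO c c' E E' fun g O' hO' i => ?_
  have h3 : |c.2 - c'.2| < M (hh k) := h2.trans_lt (by exact_mod_cast hB)
  have h4 : |c.1 + i - (c'.1 + i)| ≤ A := by simpa using h1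
  rcases lt_trichotomy (c.2 / M (hh k)) (c'.2 / M (hh k)) with hlt | heq | hlt
  · obtain ⟨h5, h6⟩ := ediv_succ (M_pos _) hlt h3
    obtain ⟨E₁, hE₁⟩ := low_move (h := hh k) hO' ((c.1 + i) % M (2 * hh k)) h6
      (c.2 / M (hh k), c.1 + i) E
    rw [hE₁]
    refine h P g O' hO' _ _ ?_ ?_ _ _
    · simp [h5]
    · exact h4
  · refine h P g O' hO' _ _ ?_ ?_ _ _
    · simp [heq]
    · exact h4
  · obtain ⟨h5, h6⟩ := ediv_succ (M_pos _) hlt (by rwa [abs_sub_comm])
    obtain ⟨E₁, hE₁⟩ := low_move (h := hh k) hO' ((c'.1 + i) % M (2 * hh k)) h6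
      (c'.2 / M (hh k), c'.1 + i) E'
    rw [hE₁]
    refine h P g O' hO' _ _ ?_ ?_ _ _
    · simp [h5]
    · exact h4

theorem lt_M_hh {A k : ℕ} (h : A ≤ k) : A < M (hh k) := by
  have := Nat.lt_two_pow_self (n := k + 1)
  simp only [M, hh]
  omega

private theorem rig_all (d : ℕ) : ∀ k A B : ℕ, A ≤ k + d → B ≤ k + d → Rig k A B := by
  induction d with
  | zero =>
    intro k A B hA hB
    exact rig_small (lt_M_hh hB) (rig_small (lt_M_hh (by omega)) (rig_zero _))
  | succ d ih =>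
    intro k A B hA hB
    exact rig_swap (ih (k + 1) B A (by omega) (by omega))

/-- The Boolean algebra of truth values. -/
@[reducible] private def propROMP : ROMP Prop where
  orth p q := ¬(p ∧ q)
  compl := Not
  add := Or
  zero := False
  orth_symm h := fun h' => h h'.symm
  orth_compl _ := fun h => h.2 h.1
  compl_compl _ := propext not_not
  zero_orth _ := fun h => h.1
  eq_zero h := propext ⟨fun hp => h ⟨hp, hp⟩, False.elim⟩
  trans h h' := fun hpr => h ⟨hpr.1, fun hq => h' ⟨hq, hpr.2⟩⟩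
  add_orth _ := ⟨fun h => ⟨fun h' => h ⟨Or.inl h'.1, h'.2⟩, fun h' => h ⟨Or.inr h'.1, h'.2⟩⟩,
    fun h h' => h'.1.elim (fun hp => h.1 ⟨hp, h'.2⟩) (fun hq => h.2 ⟨hq, h'.2⟩)⟩
  antisymm h h' := propext ⟨fun hp => by_contra fun hq => h ⟨hp, hq⟩,
    fun hq => by_contra fun hp => h' ⟨hq, hp⟩⟩
  omod := fun {p _} h => propext
    ⟨fun hq => (em p).elim Or.inl fun hp => Or.inr fun h' => h'.elim hp fun hq' => hq' hq,
      fun h' => by_contra fun hq => h'.elim (fun hp => h ⟨hp, hq⟩) fun h'' => h'' (Or.inr hq)⟩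
  reg := fun {x r _ _} _ _ _ _ _ => ⟨r ∧ x, r ∧ ¬ x, fun h => h.2 h.1.2, fun h => h.1.2 h.2,
    propext ⟨fun hr => (em x).elim (fun hx => Or.inl ⟨hr, hx⟩) fun hx => Or.inr ⟨hr, hx⟩,
      fun h => h.elim And.left And.left⟩⟩

attribute [local instance] propROMP

private theorem exists_value {α : Type} [Finite α] {e : Prop} (he : e) (O : Obs Prop α e) :
    ∃ a, ∀ A, O.f A ↔ a ∈ A := by
  obtain ⟨a, ha⟩ : ∃ a, O.f {a} := by
    by_contra hc
    have := O.eq_zero_of_singleton (A := Set.univ) fun a _ =>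
      propext ⟨fun h => hc ⟨a, h⟩, False.elim⟩
    rw [O.univ] at this
    exact cast this he
  refine ⟨a, fun A => ⟨fun hA => ?_, fun hA => ?_⟩⟩
  · by_contra hc
    exact O.orth (Set.disjoint_singleton_left.2 hc) ⟨ha, hA⟩
  · by_contra hc
    exact O.mono (Set.singleton_subset_iff.2 hA) ⟨ha, hc⟩

theorem collapse {h : ℕ} (hh2 : 2 ≤ h) {x : Conf} (hx : x ∈ Z h) :
    ∃ s : ℤ, ∃ y ∈ Z (2 * h), x = sh (s, 0) (E h y) := by
  let O : V → Obs Prop Cell True := fun c =>
    { f := fun A => x c ∈ A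
      univ := propext ⟨fun _ => trivial, fun _ => trivial⟩
      orth := fun hAB h' => Set.disjoint_left.1 hAB h'.1 h'.2
      add := fun _ => rfl }
  have hO : QModel h O :=
    ⟨fun c A => congrArg (· ∈ A) (hx.1 c).1, fun c A => congrArg (· ∈ A) (hx.1 c).2,
      fun c => propext ⟨fun h' => h' (hx.2 c), False.elim⟩⟩
  obtain ⟨G, hG⟩ := qpart hh2 hO
  obtain ⟨i, hi⟩ := exists_value trivial G
  have hgi : G.f {i} := (hi _).2 rfl
  obtain ⟨O', hO', hf⟩ := qcorner hh2 hO hG (qcentral hh2 hO hG) i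
  choose y hy using fun v => exists_value hgi (O' v)
  refine ⟨(i : ℕ), y, ⟨fun v => ⟨?_, ?_⟩, fun v => ?_⟩, funext fun c => ?_⟩
  · have := hO'.hor v {(y v).r}
    exact Eq.symm ((hy _ _).1 (cast this ((hy v _).2 rfl)))
  · have := hO'.vert v {(y v).t}
    exact Eq.symm ((hy _ _).1 (cast this ((hy v _).2 rfl)))
  · by_contra hc
    exact cast (hO'.rule v) ((hy v _).2 hc)
  · have h1 := hf c {x c}
    rw [meet_of_ge (fun h' => h'.2 rfl)] at h1
    have h2 := (hy _ _).1 (h1 ▸ hgi)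
    simp only [sh_apply, E, Prod.fst_add, Prod.snd_add, _root_.add_zero]
    exact Eq.symm h2

end QRigAux

/-- All cell events of a quantum model commute. -/
theorem qrig (k : ℕ) {P : Type} [ROMP P] {e : P} {O : V → Obs P Cell e} (hO : QModel (hh k) O)
    (c c' : V) (A A' : Set Cell) : Com ((O c).f A) ((O c').f A') :=
  QRigAux.rig_all ((c.1 - c'.1).natAbs + (c.2 - c'.2).natAbs) k (c.1 - c'.1).natAbs
    (c.2 - c'.2).natAbs (by omega) (by omega) P e O hO c c' (Int.natCast_natAbs _).ge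
    (Int.natCast_natAbs _).ge A A'

theorem rigid_of_subset (X : Sub Sy) (hX : X.car ⊆ X0) (Ω : Finset V) (h0 : 0 ∈ Ω)
    (h1 : (1, 0) ∈ Ω) (h2 : (0, 1) ∈ Ω) : Rigid X Ω := by
  intro P _ O W hW hN z z' E E'
  have transfer : ∀ (c ω : V) (_ : ω ∈ Ω) (A A' : Set Sy), (∀ x ∈ X0, x 0 ∈ A ↔ x ω ∈ A') →
      (O c).f A = (O (c + ω)).f A' := fun c ω hω A A' h => by
    have e1 := hW c ⟨0, h0⟩ A
    have e2 := hW c ⟨ω, hω⟩ A'
    rw [_root_.add_zero] at e1
    rw [← e1, ← e2]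
    refine (W c).eq_of_null (hN c) (fun π hπ => ?_) (fun π hπ => ?_)
    · by_cases hx : ∃ x ∈ X.car, ∀ ω : Ω, π ω = x ω
      · obtain ⟨x, hx, hπx⟩ := hx
        refine Or.inl ?_
        have h3 : π ⟨0, h0⟩ ∈ A := hπ
        show π ⟨ω, hω⟩ ∈ A'
        rw [hπx] at h3 ⊢
        exact (h x (hX hx)).1 h3
      · exact Or.inr hx
    · by_cases hx : ∃ x ∈ X.car, ∀ ω : Ω, π ω = x ω
      · obtain ⟨x, hx, hπx⟩ := hx
        refine Or.inl ?_
        have h3 : π ⟨ω, hω⟩ ∈ A' := hπ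
        show π ⟨0, h0⟩ ∈ A
        rw [hπx] at h3 ⊢
        exact (h x (hX hx)).2 h3
      · exact Or.inr hx
  have H1 : ∀ (c : V) (k : ZMod 7),
      (O c).f {σ | σ.1 = k} = (O (c + (1, 0))).f {σ | σ.1 = k} := fun c k =>
    transfer c _ h1 _ _ (by rintro _ ⟨w, y, -, rfl⟩; simp [emb])
  have H2 : ∀ (c : V) (k : ZMod 7),
      (O c).f {σ | σ.1 = k} = (O (c + (0, 1))).f {σ | σ.1 = k + 1} := fun c k =>
    transfer c _ h2 _ _ (by rintro _ ⟨w, y, -, rfl⟩; simp [emb, _root_.add_comm (1 : ZMod 7)])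
  have H3 : ∀ (c : V) (A : Set St),
      (O c).f {σ | σ.2.r ∈ A} = (O (c + (1, 0))).f {σ | σ.2.l ∈ A} := fun c A =>
    transfer c _ h1 _ _ (by
      rintro _ ⟨w, y, hy, rfl⟩
      simp only [emb, sh_apply, Set.mem_ofPred_eq, _root_.zero_add, (hy.1 w).1, _root_.add_comm w])
  have H4 : ∀ (c : V) (A : Set St),
      (O c).f {σ | σ.2.t ∈ A} = (O (c + (0, 1))).f {σ | σ.2.b ∈ A} := fun c A =>
    transfer c _ h2 _ _ (by
      rintro _ ⟨w, y, hy, rfl⟩
      simp only [emb, sh_apply, Set.mem_ofPred_eq, _root_.zero_add, (hy.1 w).2, _root_.add_comm w])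
  have hval : ∀ a : ℤ, (((a : ZMod 7).val : ℕ) : ℤ) = a % M 2 := fun a => ZMod.val_intCast a
  have H5 : ∀ c : V, (O c).f {σ | ¬ Rule 2 (σ.1.val : ℕ) σ.2} = zero := fun c => by
    rw [transfer c 0 h0 _ ∅ ?_, Obs.empty]
    rintro _ ⟨w, y, hy, rfl⟩
    simp only [emb, sh_apply, Set.mem_ofPred_eq, _root_.zero_add, hval, hy.2 w, not_true,
      Set.mem_empty_iff_false]
  let G : Obs P (ZMod 7) one := (O 0).map Prod.fst
  have HG : ∀ (c : V) (k : ZMod 7), G.f {k} = (O c).f {σ | σ.1 = k + (c.2 : ZMod 7)} := by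
    rintro ⟨a, b⟩ k
    have hb : G.f {k} = (O (0, b)).f {σ | σ.1 = k + (b : ZMod 7)} := by
      induction b using Int.induction_on with
      | zero => simp only [Int.cast_zero, _root_.add_zero]; rfl
      | succ b ih =>
        rw [ih, H2, Prod.mk_add_mk, _root_.add_zero, _root_.add_assoc]
        push_cast; rfl
      | pred b ih =>
        rw [ih, H2 (0, -(b : ℤ) - 1), Prod.mk_add_mk, _root_.add_zero, sub_add_cancel]
        push_cast
        rw [_root_.add_assoc, sub_add_cancel]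
    rw [hb]
    induction a using Int.induction_on with
    | zero => rfl
    | succ a ih => rw [ih, H1, Prod.mk_add_mk, _root_.add_zero]
    | pred a ih => rw [ih, H1 (-(a : ℤ) - 1, b), Prod.mk_add_mk, _root_.add_zero, sub_add_cancel]
  have hcom : ∀ (k : ZMod 7) (c : V) (A : Set Sy), Com (G.f {k}) ((O c).f A) := fun k c A => by
    rw [HG c]; exact (O c).com _ _
  refine G.com_of_corners (le_one _) (le_one _) (fun k => hcom k z E) (fun k => hcom k z' E')
    fun k => ?_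
  choose Oc hOc using fun c => (O c).exists_corner (G.le_top {k}) (hcom k c)
  let s : V := (0, (k.val : ℕ))
  let O'' : V → Obs P Cell (G.f {k}) := fun c => (Oc (c - s)).map Prod.snd
  have hO'' : ∀ c A, (O'' c).f A = meet (G.f {k}) ((O (c - s)).f (Prod.snd ⁻¹' A)) :=
    fun c A => hOc _ _
  have hmodel : QModel (hh 0) O'' := by
    refine ⟨fun c A => ?_, fun c A => ?_, fun c => ?_⟩
    · rw [hO'', hO'', add_sub_right_comm]
      exact congrArg _ (H3 _ A)
    · rw [hO'', hO'', add_sub_right_comm]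
      exact congrArg _ (H4 _ A)
    · rw [hO'', HG (c - s), ← Obs.inter]
      refine eq_zero_of_le (H5 (c - s) ▸ (O (c - s)).mono ?_)
      rintro σ ⟨h3, h4⟩
      have h5 : σ.1 = (c.2 : ZMod 7) := by
        rw [show σ.1 = _ from h3]
        simp [s]
      show ¬ Rule 2 (σ.1.val : ℕ) σ.2
      rw [h5, hval]
      exact h4
  have key : ∀ (c : V) (A : Set Sy), meet (G.f {k}) ((O c).f A) =
      (O'' (c + s)).f {σ | (k + (c.2 : ZMod 7), σ) ∈ A} := fun c A => by
    rw [hO'', add_sub_cancel_right, HG c, ← Obs.inter, ← Obs.inter]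
    congr 1
    ext ⟨a, σ⟩
    constructor
    · rintro ⟨rfl, h3⟩; exact ⟨rfl, h3⟩
    · rintro ⟨rfl, h3⟩; exact ⟨rfl, h3⟩
  rw [key, key]
  exact qrig 0 hmodel _ _ _ _

/-- The classical collapse (the quantum statements applied to the poset `Prop`). -/
theorem collapse {h : ℕ} (hh2 : 2 ≤ h) {x : Conf} (hx : x ∈ Z h) :
    ∃ s : ℤ, ∃ y ∈ Z (2 * h), x = sh (s, 0) (E h y) :=
  QRigAux.collapse hh2 hx

end Crest.Agent.R189
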