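import Crest.Agent.R189.LGrp

/-! Row 189: a permutation of vertical strips without flux is a product of two permutations of
boxes. -/

set_option autoImplicit false

namespace Crest.Agent.R189

open Equiv Pointwise

namespace StripDecAux

variable {S : Type} {X : Sub S} {n : ℕ}

theorem exists_restrict {α : Type} [DecidableEq α] (G : Perm α) (F : Finset α)
    (h : ∀ z ∈ F, G z ∈ F) : ∃ β : Perm α, (∀ z ∉ F, β z = z) ∧ ∀ z ∈ F, β z = G z := by
  have himg : F.image G = F := by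
    apply Finset.eq_of_subset_of_card_le
    · intro w hw
      obtain ⟨z, hz, rfl⟩ := Finset.mem_image.1 hw
      exact h z hz
    · rw [Finset.card_image_of_injective _ G.injective]
  have hiff : ∀ z, G z ∈ F ↔ z ∈ F := by
    intro z
    refine ⟨fun hz => ?_, h z⟩
    rw [← himg] at hz
    obtain ⟨w, hw, he⟩ := Finset.mem_image.1 hz
    rwa [← G.injective he]
  refine ⟨Perm.ofSubtype (G.subtypePerm hiff), fun z hz => ?_, fun z hz => ?_⟩
  · exact Perm.ofSubtype_apply_of_not_mem _ hz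
  · rw [Perm.ofSubtype_apply_of_mem _ hz]
    rfl

theorem exists_alt {α : Type} [DecidableEq α] (Q Lo : Finset α) (hL : Lo ⊆ Q)
    (hc : Lo.card + 2 ≤ Q.card) (A : Finset α) :
    ∃ c ∈ AltOn Q, A ⊆ Q → A.card = Lo.card → ∀ z, z ∈ Lo ↔ c z ∈ A := by
  by_cases h : A ⊆ Q ∧ A.card = Lo.card
  · obtain ⟨hA, hcard⟩ := h
    classical
    let e : Lo ≃ A := Finset.equivOfCardEq hcard.symm
    let f : α → α := fun z => if hz : z ∈ Lo then (e ⟨z, hz⟩ : α) else z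
    have hfA : ∀ z ∈ Lo, f z ∈ A := by
      intro z hz
      simp only [f, dif_pos hz]
      exact (e ⟨z, hz⟩).2
    have hinj : Set.InjOn f Lo := by
      intro z hz w hw he
      have hz' : z ∈ Lo := hz
      have hw' : w ∈ Lo := hw
      simp only [f, dif_pos hz', dif_pos hw'] at he
      have := e.injective (Subtype.ext he)
      exact congrArg Subtype.val this
    obtain ⟨c, hc1, hc2⟩ := AltOn.exists_extend hL hc f hinj fun z hz => hA (hfA z hz)
    refine ⟨c, hc1, fun _ _ z => ⟨fun hz => by rw [hc2 z hz]; exact hfA z hz, fun hz => ?_⟩⟩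
    have himg : Lo.image c = A := by
      apply Finset.eq_of_subset_of_card_le
      · intro w hw
        obtain ⟨u, hu, rfl⟩ := Finset.mem_image.1 hw
        rw [hc2 u hu]; exact hfA u hu
      · rw [Finset.card_image_of_injective _ c.injective, hcard]
    rw [← himg] at hz
    obtain ⟨w, hw, he⟩ := Finset.mem_image.1 hz
    rwa [← c.injective he]
  · exact ⟨1, one_mem _, fun h1 h2 => (h ⟨h1, h2⟩).elim⟩

theorem low_card (hn : 5 ≤ n) {p q : ℤ} (hpq : p ≤ q) (r : ℕ) :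
    ((rsites n p q (-r) r).filter fun z => z.1.2 < 0).card + 2 ≤ (rsites n p q (-r) r).card := by
  have h1 := Finset.card_filter_add_card_filter_not (s := rsites n p q (-r) r)
    (fun z : Site n => z.1.2 < 0)
  have h2 : n ≤ (rsites n p q 0 0).card := le_card_rsites hpq le_rfl
  have h3 : rsites n p q 0 0 ⊆ (rsites n p q (-r) r).filter fun z => ¬ z.1.2 < 0 := by
    intro z hz
    rw [mem_rsites] at hz
    rw [Finset.mem_filter, mem_rsites]
    omega
  have h4 := Finset.card_le_card h3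
  omega

theorem card_eq {p q : ℤ} {r : ℕ} {G : Perm (Site n)}
    (hS : ∀ z : Site n, (p ≤ (G z).1.1 ∧ (G z).1.1 ≤ q) ↔ (p ≤ z.1.1 ∧ z.1.1 ≤ q))
    (hr : ∀ z : Site n, p ≤ z.1.1 → z.1.1 ≤ q → |(G z).1.2 - z.1.2| ≤ r)
    (hfl : fl G {z | p ≤ z.1.1 ∧ z.1.1 ≤ q} 0 = 0) :
    ((rsites n p q (-r) r).filter fun w => (G⁻¹ w).1.2 < 0).card =
      ((rsites n p q (-r) r).filter fun z => z.1.2 < 0).card := by
  set A := (rsites n p q (-r) r).filter fun w => (G⁻¹ w).1.2 < 0 with hA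
  set Lo := (rsites n p q (-r) r).filter fun z : Site n => z.1.2 < 0 with hLo
  have e1 : ((A \ Lo : Finset (Site n)) : Set (Site n)) =
      G '' {z ∈ {z : Site n | p ≤ z.1.1 ∧ z.1.1 ≤ q} | z.1.2 < 0 ∧ 0 ≤ (G z).1.2} := by
    ext w
    obtain ⟨z, rfl⟩ := G.surjective w
    rw [G.injective.mem_set_image]
    simp only [hA, hLo, Finset.coe_sdiff, Set.mem_sdiff, Finset.mem_coe, Finset.mem_filter,
      mem_rsites, MsAux.inv_app, Set.mem_ofPred_eq]
    constructor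
    · rintro ⟨⟨⟨h1, h2, h3, h4⟩, h5⟩, h6⟩
      refine ⟨(hS z).1 ⟨h1, h2⟩, h5, ?_⟩
      by_contra h7
      exact h6 ⟨⟨h1, h2, h3, h4⟩, by omega⟩
    · rintro ⟨⟨h1, h2⟩, h3, h4⟩
      have h5 := (hS z).2 ⟨h1, h2⟩
      have h6 := abs_le.1 (hr z h1 h2)
      refine ⟨⟨⟨h5.1, h5.2, by omega, by omega⟩, h3⟩, fun h => by omega⟩
  have e2 : ((Lo \ A : Finset (Site n)) : Set (Site n)) =
      G '' {z ∈ {z : Site n | p ≤ z.1.1 ∧ z.1.1 ≤ q} | 0 ≤ z.1.2 ∧ (G z).1.2 < 0} := by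
    ext w
    obtain ⟨z, rfl⟩ := G.surjective w
    rw [G.injective.mem_set_image]
    simp only [hA, hLo, Finset.coe_sdiff, Set.mem_sdiff, Finset.mem_coe, Finset.mem_filter,
      mem_rsites, MsAux.inv_app, Set.mem_ofPred_eq]
    constructor
    · rintro ⟨⟨⟨h1, h2, h3, h4⟩, h5⟩, h6⟩
      refine ⟨(hS z).1 ⟨h1, h2⟩, ?_, h5⟩
      by_contra h7
      exact h6 ⟨⟨h1, h2, h3, h4⟩, by omega⟩
    · rintro ⟨⟨h1, h2⟩, h3, h4⟩
      have h5 := (hS z).2 ⟨h1, h2⟩
      have h6 := abs_le.1 (hr z h1 h2)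
      refine ⟨⟨⟨h5.1, h5.2, by omega, by omega⟩, h4⟩, fun h => by omega⟩
  have e3 : (A \ Lo).card = (Lo \ A).card := by
    rw [← Set.ncard_coe_finset, ← Set.ncard_coe_finset, e1, e2,
      Set.ncard_image_of_injective _ G.injective, Set.ncard_image_of_injective _ G.injective]
    unfold fl at hfl
    omega
  have e4 := Finset.card_sdiff_add_card_inter A Lo
  have e5 := Finset.card_sdiff_add_card_inter Lo A
  rw [Finset.inter_comm] at e5
  omega

theorem pres (hF : Free X) {a b : ℕ} {B : Set X.Pt} (hB : Tower a b B) {p q : ℤ}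
    (hqa : q < p + a) {γ : Perm (Hat X n)} (hγ : Full γ)
    (hstrip : ∀ x ∈ B, ∀ z : Site n, p ≤ z.1.1 → z.1.1 ≤ q →
      p ≤ (loc γ x z).1.1 ∧ (loc γ x z).1.1 ≤ q)
    (hfix : ∀ y : Hat X n, (∀ x ∈ B, ∀ z : Site n, p ≤ z.1.1 → z.1.1 ≤ q → y ≠ pt x z) → γ y = y)
    {x : X.Pt} (hx : x ∈ B) (z : Site n) :
    (p ≤ (loc γ x z).1.1 ∧ (loc γ x z).1.1 ≤ q) ↔ (p ≤ z.1.1 ∧ z.1.1 ≤ q) := by
  refine ⟨fun h => ?_, fun h => hstrip x hx z h.1 h.2⟩
  by_cases he : ∃ x' ∈ B, ∃ z' : Site n, p ≤ z'.1.1 ∧ z'.1.1 ≤ q ∧ pt x z = pt x' z'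
  · obtain ⟨x', hx', z', h1, h2, he⟩ := he
    have he' := (pt_eq_iff.1 he).1
    have hd := ((hB.2.2 x hx (z.1 - z'.1)).1 (he' ▸ hx')).1
    have h3 : loc γ x z = sht (z.1 - z'.1) (loc γ x' z') := by
      apply loc_eq hF hγ
      rw [he, loc_spec hF hγ, ← pt_vadd, ← he']
    have h4 := hstrip x' hx' z' h1 h2
    rw [h3, sht_apply] at h
    simp only [Prod.fst_add, Prod.fst_sub] at h hd
    have h5 : z.1.1 - z'.1.1 = 0 := by
      apply Int.eq_zero_of_abs_lt_dvd hd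
      rw [abs_lt]
      omega
    omega
  · have h1 : γ (pt x z) = pt x z := by
      apply hfix
      intro x' hx' z' h1 h2 h3
      exact he ⟨x', hx', z', h1, h2, h3⟩
    rwa [loc_eq hF hγ h1] at h

theorem up_mem {a b : ℕ} {B : Set X.Pt} (hB : Tower a b B) {x : X.Pt} (hx : x ∈ B) (l : ℤ) :
    (((0 : ℤ), l * b) : V) +ᵥ x ∈ B :=
  (hB.2.2 x hx _).2 ⟨dvd_zero _, Dvd.intro_left l rfl⟩

theorem loc_msf_mem (hF : Free X) {a b : ℕ} {B : Set X.Pt} (hB : Tower a b B)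
    {F : Finset (Site n)} (hM : MS B F) {c : X.Pt → Perm (Site n)}
    (hc : ∀ x ∈ B, ∀ z ∉ F, c x z = z) {x : X.Pt} (hx : x ∈ B) (l : ℤ) {w : Site n}
    (hw : w ∈ F) : loc (msf B c) x (sht (0, l * b) w) =
      sht (0, l * b) (c ((((0 : ℤ), l * b) : V) +ᵥ x) w) := by
  apply loc_eq hF (full_msf _ _)
  rw [← pt_vadd, ← pt_vadd, msf_apply hM hc (up_mem hB hx l) hw]

theorem loc_msf_fix (hF : Free X) {a b : ℕ} {B : Set X.Pt} (hB : Tower a b B) {p q : ℤ}
    (hqa : q < p + a) {r : ℕ} (hb : 2 * r + 2 ≤ b) {c : X.Pt → Perm (Site n)}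
    (hc : ∀ x ∈ B, ∀ z ∉ rsites n p q (-r) r, c x z = z) {x : X.Pt} (hx : x ∈ B) {z : Site n}
    (hz : ∀ l : ℤ, ¬ (-r ≤ z.1.2 - l * b ∧ z.1.2 - l * b ≤ r)) : loc (msf B c) x z = z := by
  apply loc_eq hF (full_msf _ _)
  apply msf_fix (hB.ms hqa (by omega)) hc
  intro x' hx' z' hz' he
  have he' := (pt_eq_iff.1 he).1
  obtain ⟨l, hl⟩ := ((hB.2.2 x hx (z.1 - z'.1)).1 (he' ▸ hx')).2
  rw [mem_rsites] at hz'
  simp only [Prod.snd_sub] at hl
  apply hz l
  have : z.1.2 - l * b = z'.1.2 := by linarith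
  rw [this]
  exact ⟨hz'.2.2.1, hz'.2.2.2⟩

/-- Away from the central box, a product of box permutations keeps the strip and the sign of the
height. -/
theorem loc_msf_out (hF : Free X) {a b : ℕ} {B : Set X.Pt} (hB : Tower a b B) {p q : ℤ}
    (hqa : q < p + a) {r : ℕ} (hb : 2 * r + 2 ≤ b) {c : X.Pt → Perm (Site n)}
    (hc : ∀ x ∈ B, ∀ z ∉ rsites n p q (-r) r, c x z = z) {x : X.Pt} (hx : x ∈ B) {z : Site n}
    (h1 : p ≤ z.1.1) (h2 : z.1.1 ≤ q) (hz : z ∉ rsites n p q (-r) r) :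
    (p ≤ (loc (msf B c) x z).1.1 ∧ (loc (msf B c) x z).1.1 ≤ q) ∧
      ((loc (msf B c) x z).1.2 < 0 ↔ z.1.2 < 0) := by
  by_cases h : ∃ l : ℤ, -r ≤ z.1.2 - l * b ∧ z.1.2 - l * b ≤ r
  · obtain ⟨l, hl1, hl2⟩ := h
    have hw : ((z.1 - (0, l * b), z.2) : Site n) ∈ rsites n p q (-r) r := by
      rw [mem_rsites]
      simp only [Prod.fst_sub, Prod.snd_sub, sub_zero]
      exact ⟨h1, h2, hl1, hl2⟩
    have hz' : z = sht (0, l * b) (z.1 - (0, l * b), z.2) := by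
      rw [sht_apply]
      simp
    have h3 := loc_msf_mem hF hB (hB.ms hqa (by omega)) hc hx l hw
    rw [← hz'] at h3
    have h4 := MsAux.apply_mem (hc _ (up_mem hB hx l)) hw
    rw [h3, sht_apply]
    rw [mem_rsites] at h4 hz
    simp only [Prod.fst_add, Prod.snd_add, add_zero]
    refine ⟨⟨h4.1, h4.2.1⟩, ?_⟩
    have hb' : (2 * r + 2 : ℤ) ≤ b := by exact_mod_cast hb
    rcases lt_trichotomy l 0 with hl | hl | hl
    · have : l * b ≤ -b := by nlinarith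
      constructor <;> intro <;> omega
    · subst hl
      exfalso
      apply hz
      refine ⟨h1, h2, ?_, ?_⟩ <;> omega
    · have : (b : ℤ) ≤ l * b := by nlinarith
      constructor <;> intro <;> omega
  · rw [loc_msf_fix hF hB hqa hb hc hx fun l hl => h ⟨l, hl⟩]
    exact ⟨⟨h1, h2⟩, Iff.rfl⟩

theorem loc_up (hF : Free X) {γ : Perm (Hat X n)} (hγ : Full γ) (v : V) (x : X.Pt) (z : Site n) :
    loc γ x (sht v z) = sht v (loc γ (v +ᵥ x) z) := by
  rw [loc_vadd hF hγ v x, Perm.mul_apply, Perm.mul_apply, MsAux.inv_app]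

end StripDecAux

open StripDecAux in
theorem strip_dec {S : Type} {X : Sub S} {n : ℕ} (hF : Free X) (hn : 5 ≤ n) {a b : ℕ}
    {B : Set X.Pt} (hB : Tower a b B) {p q : ℤ} (hpq : p ≤ q) (hqa : q < p + a) {r : ℕ}
    (hb : 2 * r + 2 ≤ b) {γ : Perm (Hat X n)} (hγ : Full γ)
    (hstrip : ∀ x ∈ B, ∀ z : Site n, p ≤ z.1.1 → z.1.1 ≤ q →
      p ≤ (loc γ x z).1.1 ∧ (loc γ x z).1.1 ≤ q ∧ |(loc γ x z).1.2 - z.1.2| ≤ r)
    (hfix : ∀ y : Hat X n, (∀ x ∈ B, ∀ z : Site n, p ≤ z.1.1 → z.1.1 ≤ q → y ≠ pt x z) → γ y = y)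
    (hfl : ∀ x ∈ B, fl (loc γ x) {z | p ≤ z.1.1 ∧ z.1.1 ≤ q} 0 = 0) :
    ∃ c β : X.Pt → Perm (Site n), (∀ x, c x ∈ AltOn (rsites n p q (-r) r)) ∧
      (∀ x, ∀ z ∉ rsites n p q 0 (b - 1), β x z = z) ∧ γ = msf B c * msf B β ∧
      ∀ x ∈ B, ∀ y ∈ B, (∀ z ∈ rsites n p q (-(2 * r)) (b + 2 * r), loc γ x z = loc γ y z) →
        c x = c y ∧ β x = β y := by
  have hb' : (2 * r + 2 : ℤ) ≤ b := by exact_mod_cast hb
  have hpres := fun x hx z => pres hF hB hqa hγ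
    (fun x hx z h1 h2 => ⟨(hstrip x hx z h1 h2).1, (hstrip x hx z h1 h2).2.1⟩) hfix (x := x) hx z
  have hr : ∀ x ∈ B, ∀ z : Site n, p ≤ z.1.1 → z.1.1 ≤ q → |(loc γ x z).1.2 - z.1.2| ≤ r :=
    fun x hx z h1 h2 => (hstrip x hx z h1 h2).2.2
  choose cc hcc1 hcc2 using exists_alt (rsites n p q (-r) r)
    ((rsites n p q (-r) r).filter fun z => z.1.2 < 0) (Finset.filter_subset _ _)
    (low_card hn hpq r)
  obtain ⟨c, hc⟩ : ∃ c : X.Pt → Perm (Site n), ∀ x, c x =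
      cc ((rsites n p q (-r) r).filter fun w => ((loc γ x)⁻¹ w).1.2 < 0) := ⟨_, fun _ => rfl⟩
  have hcA : ∀ x, c x ∈ AltOn (rsites n p q (-r) r) := fun x => by rw [hc]; exact hcc1 _
  have hcfix : ∀ x ∈ B, ∀ z ∉ rsites n p q (-r) r, c x z = z :=
    fun x _ z hz => AltOn.apply_of_not_mem (hcA x) hz
  have hcfix' : ∀ x ∈ B, ∀ z ∉ rsites n p q (-r) r, (c x)⁻¹ z = z :=
    fun x _ z hz => AltOn.apply_of_not_mem (inv_mem (hcA x)) hz
  have hMQ : MS B (rsites n p q (-r) r) := hB.ms hqa (by omega)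
  have hMb : MS B (rsites n p q 0 (b - 1)) := hB.ms hqa (by omega)
  have hclow : ∀ x ∈ B, ∀ z ∈ rsites n p q (-r) r,
      (z.1.2 < 0 ↔ ((loc γ x)⁻¹ (c x z)).1.2 < 0) := by
    intro x hx z hz
    have h1 := hcc2 _ (Finset.filter_subset _ _) (card_eq (hpres x hx) (hr x hx) (hfl x hx)) z
    rw [← hc, Finset.mem_filter, Finset.mem_filter] at h1
    have h2 := AltOn.apply_mem (hcA x) hz
    constructor
    · intro h
      exact (h1.1 ⟨hz, h⟩).2
    · intro h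
      exact (h1.2 ⟨h2, h⟩).2
  obtain ⟨γ', hγ'⟩ : ∃ γ' : Perm (Hat X n), γ' = msf B (fun x => (c x)⁻¹) * γ := ⟨_, rfl⟩
  have hfull : Full γ' := hγ' ▸ (full_msf _ _).mul hγ
  have hloc : ∀ x z, loc γ' x z = loc (msf B fun x => (c x)⁻¹) x (loc γ x z) := by
    intro x z
    rw [hγ', loc_mul hF (full_msf _ _) hγ, Perm.mul_apply]
  have hQ0 : ∀ x ∈ B, ∀ u ∈ rsites n p q (-r) r,
      loc (msf B fun x => (c x)⁻¹) x u = (c x)⁻¹ u := by
    intro x hx u hu
    apply loc_eq hF (full_msf _ _)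
    exact msf_apply hMQ hcfix' hx hu
  have h0 : ∀ x ∈ B, ∀ z : Site n, p ≤ z.1.1 → z.1.1 ≤ q →
      (p ≤ (loc γ' x z).1.1 ∧ (loc γ' x z).1.1 ≤ q) ∧ ((loc γ' x z).1.2 < 0 ↔ z.1.2 < 0) := by
    intro x hx z h1 h2
    rw [hloc]
    have h3 := hstrip x hx z h1 h2
    by_cases hu : loc γ x z ∈ rsites n p q (-r) r
    · rw [hQ0 x hx _ hu]
      have h4 := AltOn.apply_mem (inv_mem (hcA x)) hu
      have h5 := hclow x hx _ h4
      rw [MsAux.app_inv, MsAux.inv_app] at h5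
      rw [mem_rsites] at h4
      exact ⟨⟨h4.1, h4.2.1⟩, h5⟩
    · have h4 := loc_msf_out hF hB hqa hb hcfix' hx h3.1 h3.2.1 hu
      refine ⟨h4.1, h4.2.trans ?_⟩
      rw [mem_rsites] at hu
      have h5 := abs_le.1 h3.2.2
      constructor <;> intro <;> omega
  have hbox : ∀ x ∈ B, ∀ z ∈ rsites n p q 0 (b - 1), loc γ' x z ∈ rsites n p q 0 (b - 1) := by
    intro x hx z hz
    rw [mem_rsites] at hz ⊢
    have h1 := h0 x hx z hz.1 hz.2.1
    have hz' : z = sht (0, 1 * (b : ℤ)) (z.1 - (0, 1 * (b : ℤ)), z.2) := by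
      rw [sht_apply]
      simp
    have h2 := h0 _ (up_mem hB hx 1) (z.1 - (0, 1 * (b : ℤ)), z.2) (by simpa using hz.1)
      (by simpa using hz.2.1)
    have h3 := loc_up hF hfull (0, 1 * (b : ℤ)) x (z.1 - (0, 1 * (b : ℤ)), z.2)
    rw [← hz'] at h3
    have h4 : (loc γ' x z).1.2 = (loc γ' ((((0 : ℤ), 1 * (b : ℤ)) : V) +ᵥ x)
        (z.1 - (0, 1 * (b : ℤ)), z.2)).1.2 + 1 * b := by
      rw [h3, sht_apply]
      rfl
    have h5 := h2.2
    simp only [Prod.snd_sub] at h5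
    refine ⟨h1.1.1, h1.1.2, ?_, ?_⟩
    · have := h1.2
      omega
    · have := h5.2 (by omega)
      omega
  have hex : ∀ x, ∃ β : Perm (Site n), (∀ z ∉ rsites n p q 0 (b - 1), β z = z) ∧
      (x ∈ B → ∀ z ∈ rsites n p q 0 (b - 1), β z = loc γ' x z) := by
    intro x
    by_cases hx : x ∈ B
    · obtain ⟨β, h1, h2⟩ := exists_restrict (loc γ' x) _ (hbox x hx)
      exact ⟨β, h1, fun _ => h2⟩
    · exact ⟨1, fun _ _ => rfl, fun h => (hx h).elim⟩
  choose β hβ1 hβ2 using hex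
  have hA : ∀ x ∈ B, ∀ y ∈ B, (∀ z ∈ rsites n p q (-(2 * r)) (2 * r), loc γ x z = loc γ y z) →
      c x = c y := by
    intro x hx y hy h
    rw [hc, hc]
    congr 1
    apply Finset.filter_congr
    intro w hw
    have h1 : (loc γ y)⁻¹ w = (loc γ x)⁻¹ w := by
      obtain ⟨z, rfl⟩ := (loc γ x).surjective w
      rw [MsAux.inv_app]
      rw [mem_rsites] at hw
      have h2 := (hpres x hx z).1 ⟨hw.1, hw.2.1⟩
      have h3 := abs_le.1 (hr x hx z h2.1 h2.2)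
      rw [h z (mem_rsites.2 ⟨h2.1, h2.2, by omega, by omega⟩), MsAux.inv_app]
    rw [h1]
  refine ⟨c, β, hcA, hβ1, ?_, ?_⟩
  · have h1 : γ' = msf B β := by
      apply eq_msf hMb (fun x _ => hβ1 x)
      · intro x hx z hz
        rw [hβ2 x hx z hz, loc_spec hF hfull]
      · intro P hP
        have hP' : ∀ x ∈ B, ∀ z : Site n, p ≤ z.1.1 → z.1.1 ≤ q → P ≠ pt x z := by
          intro x hx z h1 h2
          have hz' : z = sht (0, z.1.2 / b * b) (z.1 - (0, z.1.2 / b * b), z.2) := by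
            rw [sht_apply]
            simp
          rw [hz', ← pt_vadd]
          apply hP _ (up_mem hB hx _)
          rw [mem_rsites]
          simp only [Prod.fst_sub, Prod.snd_sub, sub_zero]
          have h3 := Int.emod_nonneg z.1.2 (b := b) (by omega)
          have h4 := Int.emod_lt_of_pos z.1.2 (b := b) (by omega)
          have h5 := Int.emod_add_mul_ediv z.1.2 b
          have h6 : z.1.2 - z.1.2 / b * b = z.1.2 % b := by linarith
          rw [h6]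
          exact ⟨h1, h2, h3, by omega⟩
        rw [hγ', Perm.mul_apply, hfix P hP']
        apply msf_fix hMQ hcfix'
        intro x hx z hz
        rw [mem_rsites] at hz
        exact hP' x hx z hz.1 hz.2.1
    rw [← h1, hγ', msf_inv hMQ hcfix, mul_inv_cancel_left]
  · intro x hx y hy h
    have hc0 : c x = c y := hA x hx y hy fun z hz => h z (by
      rw [mem_rsites] at hz ⊢
      omega)
    have hc1 : c ((((0 : ℤ), 1 * (b : ℤ)) : V) +ᵥ x) = c ((((0 : ℤ), 1 * (b : ℤ)) : V) +ᵥ y) := by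
      apply hA _ (up_mem hB hx 1) _ (up_mem hB hy 1)
      intro z hz
      apply (sht (0, 1 * (b : ℤ))).injective
      rw [← loc_up hF hγ, ← loc_up hF hγ]
      apply h
      rw [mem_rsites] at hz ⊢
      rw [sht_apply]
      simp only [Prod.fst_add, Prod.snd_add, add_zero]
      omega
    refine ⟨hc0, ?_⟩
    ext1 z
    by_cases hz : z ∈ rsites n p q 0 (b - 1)
    · rw [hβ2 x hx z hz, hβ2 y hy z hz, hloc, hloc]
      rw [mem_rsites] at hz
      rw [← h z (mem_rsites.2 ⟨hz.1, hz.2.1, by omega, by omega⟩)]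
      have h1 := hstrip x hx z hz.1 hz.2.1
      have h2 := abs_le.1 h1.2.2
      generalize loc γ x z = u at h1 h2
      by_cases h3 : u.1.2 ≤ r
      · have hu : u ∈ rsites n p q (-r) r := mem_rsites.2 ⟨h1.1, h1.2.1, by omega, h3⟩
        rw [hQ0 x hx u hu, hQ0 y hy u hu, hc0]
      · by_cases h4 : (b : ℤ) - r ≤ u.1.2
        · have hw : ((u.1 - (0, 1 * (b : ℤ)), u.2) : Site n) ∈ rsites n p q (-r) r := by
            rw [mem_rsites]
            simp only [Prod.fst_sub, Prod.snd_sub, sub_zero]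
            omega
          have hu' : u = sht (0, 1 * (b : ℤ)) (u.1 - (0, 1 * (b : ℤ)), u.2) := by
            rw [sht_apply]
            simp
          rw [hu', loc_msf_mem hF hB hMQ hcfix' hx 1 hw, loc_msf_mem hF hB hMQ hcfix' hy 1 hw,
            hc1]
        · have h5 : ∀ l : ℤ, ¬ (-r ≤ u.1.2 - l * b ∧ u.1.2 - l * b ≤ r) := by
            rintro l ⟨h5, h6⟩
            rcases le_or_gt l 0 with hl | hl
            · have : l * b ≤ 0 := by nlinarith
              omega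
            · have : (b : ℤ) ≤ l * b := by nlinarith
              omega
          rw [loc_msf_fix hF hB hqa hb hcfix' hx h5, loc_msf_fix hF hB hqa hb hcfix' hy h5]
    · rw [hβ1 x z hz, hβ1 y z hz]

end Crest.Agent.R189
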