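import Crest.Agent.R189.Flux
import Crest.Agent.R189.StripDec

/-! Row 189: auxiliary lemmas for the vertical cuts. -/

set_option autoImplicit false

namespace Crest.Agent.R189.StepBAux

open Equiv Pointwise

/-! ### Abstract lemmas -/

theorem exists_part {α : Type} (γ : Perm α) (T T' : Set α) (hd : Disjoint T T')
    (h1 : ∀ y ∈ T, γ y ∈ T) (h2 : ∀ y ∈ T', γ y ∈ T') (h3 : ∀ y, y ∉ T → y ∉ T' → γ y = y) :
    ∃ γ₁ : Perm α, (∀ y ∈ T, γ₁ y = γ y) ∧ ∀ y ∉ T, γ₁ y = y := by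
  classical
  have h : ∀ y, γ y ∈ T ↔ y ∈ T := fun y => ⟨fun hy => by
    by_contra hn
    by_cases h' : y ∈ T'
    · exact Set.disjoint_left.1 hd hy (h2 y h')
    · exact hn (h3 y hn h' ▸ hy), h1 y⟩
  exact ⟨Perm.ofSubtype (γ.subtypePerm (p := (· ∈ T)) h),
    fun y hy => Perm.ofSubtype_subtypePerm_of_mem h hy,
    fun y hy => Perm.ofSubtype_subtypePerm_of_not_mem h hy⟩

theorem eq_mul_parts {α : Type} {γ γ₁ γ₂ : Perm α} {T T' : Set α} (hd : Disjoint T T')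
    (h2 : ∀ y ∈ T', γ y ∈ T') (h3 : ∀ y, y ∉ T → y ∉ T' → γ y = y)
    (a1 : ∀ y ∈ T, γ₁ y = γ y) (a2 : ∀ y ∉ T, γ₁ y = y)
    (b1 : ∀ y ∈ T', γ₂ y = γ y) (b2 : ∀ y ∉ T', γ₂ y = y) : γ = γ₁ * γ₂ := by
  refine Equiv.ext fun y => ?_
  rw [Perm.mul_apply]
  by_cases h' : y ∈ T'
  · rw [b1 y h', a2 _ (Set.disjoint_right.1 hd (h2 y h'))]
  · rw [b2 y h']
    by_cases h : y ∈ T
    · rw [a1 y h]
    · rw [a2 y h, h3 y h h']

theorem commute_parts {α : Type} {γ₁ γ₂ : Perm α} {T T' : Set α} (hd : Disjoint T T')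
    (a2 : ∀ y ∉ T, γ₁ y = y) (b2 : ∀ y ∉ T', γ₂ y = y) : Commute γ₁ γ₂ :=
  Perm.Disjoint.commute fun y => by
    by_cases h : y ∈ T
    · exact Or.inr (b2 y (Set.disjoint_left.1 hd h))
    · exact Or.inl (a2 y h)

theorem exists_finset {W Sg Γ : Type} [Group Γ] [Fintype Sg] (G : W → Prop) (Rel : W → Sg → Prop)
    (val : W → Γ) (K₁ K₂ : Finset Γ) (h1 : ∀ w, G w → ∃ σ, Rel w σ)
    (h2 : ∀ w w' σ, Rel w σ → Rel w' σ → ∃ k₁ ∈ K₁, ∃ k₂ ∈ K₂, val w = k₁ * k₂ * val w') :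
    ∃ K : Finset Γ, K.card ≤ K₁.card * K₂.card * Fintype.card Sg ∧ ∀ w, G w → val w ∈ K := by
  classical
  let rep : Sg → Γ := fun σ => if h : ∃ w, Rel w σ then val h.choose else 1
  refine ⟨((K₁ ×ˢ K₂) ×ˢ (Finset.univ : Finset Sg)).image fun t => t.1.1 * t.1.2 * rep t.2,
    Finset.card_image_le.trans (by simp), fun w hw => ?_⟩
  obtain ⟨σ, hσ⟩ := h1 w hw
  have hex : ∃ w, Rel w σ := ⟨w, hσ⟩
  obtain ⟨k₁, hk₁, k₂, hk₂, he⟩ := h2 w _ σ hσ hex.choose_spec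
  refine Finset.mem_image.2 ⟨((k₁, k₂), σ), by simp [hk₁, hk₂], ?_⟩
  simp only [rep, dif_pos hex, he]

theorem rect_finite (p q r s : ℤ) : (rect p q r s).Finite :=
  ((Set.finite_Icc p q).prod (Set.finite_Icc r s)).subset
    fun _ hw => ⟨⟨hw.1, hw.2.1⟩, hw.2.2⟩

theorem fl_congr {n : ℕ} {a a' : Perm (Site n)} {Q : Set (Site n)} (h : ∀ z ∈ Q, a z = a' z)
    (t : ℤ) : fl a Q t = fl a' Q t := by
  unfold fl
  congr 3
  · exact Set.ext fun z => and_congr_right fun hz => by rw [h z hz]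
  · exact Set.ext fun z => and_congr_right fun hz => by rw [h z hz]

variable {S : Type} {X : Sub S} {n : ℕ}

theorem mem_orb (hF : Free X) {x : X.Pt} {P : Set V} {v : V} : v +ᵥ x ∈ orb x P ↔ v ∈ P :=
  ⟨fun ⟨_, hu, he⟩ => hF.vadd_inj he ▸ hu, fun h => ⟨v, h, rfl⟩⟩

/-- `d` is the horizontal distance to the columns of `B`. -/
def IsDist (a : ℕ) (B : Set X.Pt) (d : X.Pt → ℕ) : Prop :=
  ∀ x ∈ B, ∀ (v : V) (k : ℕ), d (v +ᵥ x) ≤ k ↔ ∃ j : ℤ, |v.1 - j * a| ≤ k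

theorem IsDist.eq {a : ℕ} {B : Set X.Pt} {d : X.Pt → ℕ} (h : IsDist a B d) {x y : X.Pt}
    (hx : x ∈ B) (hy : y ∈ B) (v : V) : d (v +ᵥ x) = d (v +ᵥ y) :=
  le_antisymm ((h x hx v _).2 ((h y hy v _).1 le_rfl)) ((h y hy v _).2 ((h x hx v _).1 le_rfl))

/-! ### Letters in strips -/

theorem inStrip_res {a : ℕ} {B B' : Set X.Pt} (hBB : B' ⊆ B) {d : X.Pt → ℕ} (hd : IsDist a B d)
    {l : Lt X n} (hl : l.OK) {r₀ : ℕ} (hr : l.Rad r₀) (Q : ℕ → Prop) {p q : ℤ} {ρ ρ' : ℤ}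
    {r H : ℕ} (h1 : r₀ ≤ r) (h2 : -ρ ≤ p - 2 * r₀) (h3 : q + 2 * r₀ ≤ a + ρ)
    (h4 : (r₀ : ℤ) + H ≤ ρ')
    (hQ : ∀ x ∈ B, ∀ v : V, Q (d (v +ᵥ x)) → ∃ k : ℤ, p + k * a + r₀ ≤ v.1 ∧ v.1 + r₀ ≤ q + k * a) :
    (l.res {x | Q (d x)}).InStrip a B' p q (rect (-ρ) (a + ρ) (-ρ') ρ') r H := by
  refine ⟨fun z hz => (hr.1 z hz).2.trans (by exact_mod_cast h1), fun x hx v hv => ?_,
    fun x hx y hy hxy v hv hpos hU => ?_⟩
  · obtain ⟨k, k1, k2⟩ := hQ x (hBB hx) v hv.2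
    refine ⟨k, fun z hz => ?_⟩
    have := abs_le.1 (hr.1 z hz).1
    constructor <;> linarith [this.1, this.2]
  · obtain ⟨z, hz⟩ : l.F.Nonempty := Finset.card_pos.1 (by have := hl.2.2.2.1; omega)
    have hz1 := abs_le.1 (hr.1 z hz).1
    have hp := hpos z hz
    have hv' := abs_le.1 hv
    have hag : Agree (box r₀) (v +ᵥ x) (v +ᵥ y) := hxy.vadd' fun w hw => by
      have w1 := abs_le.1 hw.1
      have w2 := abs_le.1 hw.2
      refine ⟨?_, ?_, ?_, ?_⟩ <;> simp only [Prod.fst_add, Prod.snd_add] <;>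
        linarith [w1.1, w1.2, w2.1, w2.2, hz1.1, hz1.2, hp.1, hp.2, hv'.1, hv'.2]
    obtain ⟨e1, e2⟩ := hr.2 _ _ hag hU.1
    refine ⟨⟨e1, ?_⟩, e2⟩
    have := hU.2
    rw [Set.mem_ofPred_eq, hd.eq (hBB hx) (hBB hy)] at this
    exact this

open Classical in
/-- A letter based on `B`. -/
noncomputable def mkL (B : Set X.Pt) (F : Finset (Site n)) (g : X.Pt → Perm (Site n)) : Lt X n :=
  ⟨B, F, fun x => if x ∈ B then g x else 1⟩

theorem anchor_StepBAux : True := by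
  have := @mkL.eq_1; have := @mkL.eq_def; have := @IsDist.eq_1; have := @IsDist.eq_def
  trivial

theorem mkL_perm (B : Set X.Pt) (F : Finset (Site n)) (g : X.Pt → Perm (Site n)) :
    (mkL B F g).perm = msf B g :=
  msf_congr fun _ hx => if_pos hx

theorem mkL_ok {B : Set X.Pt} (hB : Loc B) {F : Finset (Site n)} (hF : MS B F) (hc : 5 ≤ F.card)
    {g : X.Pt → Perm (Site n)} (hg : ∀ x ∈ B, g x ∈ AltOn F) {R : Set V} (hR : R.Finite)
    (hdep : ∀ x ∈ B, ∀ y ∈ B, Agree R x y → g x = g y) : (mkL B F g).OK := by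
  refine ⟨hB, ?_, hF, hc, fun x => ?_⟩
  · obtain ⟨r, hr⟩ := hB
    obtain ⟨s, hs⟩ := exists_box_of_finite hR
    refine ⟨max r s, fun x y hxy => ?_⟩
    have h1 := hxy.mono (box_mono (le_max_left r s))
    have h2 := (hxy.mono (box_mono (le_max_right r s))).mono hs
    by_cases hx : x ∈ B
    · have hy := hr x y h1 hx
      simp only [mkL, if_pos hx, if_pos hy, hdep x hx y hy h2]
    · have hy : y ∉ B := fun hy => hx (hr y x h1.symm hy)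
      simp only [mkL, if_neg hx, if_neg hy]
  · by_cases hx : x ∈ B
    · simp only [mkL, if_pos hx]; exact hg x hx
    · simp only [mkL, if_neg hx]; exact one_mem _

theorem mkL_inStrip {a b : ℕ} {B B' : Set X.Pt} (hB : Tower a b B) (hBB : B' ⊆ B)
    {p' q' s t : ℤ} (hpq' : p' ≤ q') (hst : s ≤ t) (hn : 0 < n) {g : X.Pt → Perm (Site n)}
    {ρ ρ' : ℤ}
    (hdep : ∀ x ∈ B, ∀ y ∈ B, Agree (rect (-ρ) ρ (-ρ) (b + ρ)) x y → g x = g y)
    {p q : ℤ} {r H : ℕ} (hs : -(r : ℤ) ≤ s) (ht : t ≤ r)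
    (hk : ∃ k : ℤ, p + k * a ≤ p' ∧ q' ≤ q + k * a) (h1 : -(a : ℤ) < p - p')
    (h2 : q - p' < 2 * a) (h3 : b + ρ + H ≤ ρ') :
    (mkL B (rsites n p' q' s t) g).InStrip a B' p q (rect (-ρ) (a + ρ) (-ρ') ρ') r H := by
  refine ⟨fun z hz => ?_, fun x hx v hv => ?_, fun x hx y hy hxy v hv hpos hU => ?_⟩
  · have := mem_rsites.1 hz
    exact abs_le.2 ⟨hs.trans this.2.2.1, this.2.2.2.trans ht⟩
  · obtain ⟨⟨j, hj⟩, -⟩ := (hB.2.2 x (hBB hx) v).1 hv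
    obtain ⟨k, k1, k2⟩ := hk
    refine ⟨k + j, fun z hz => ?_⟩
    have := mem_rsites.1 hz
    rw [hj]
    constructor <;> nlinarith [this.1, this.2.1]
  · have hdv := (hB.2.2 x (hBB hx) v).1 hU
    have hU' : v +ᵥ y ∈ B := (hB.2.2 y (hBB hy) v).2 hdv
    refine ⟨hU', ?_⟩
    have hUx : v +ᵥ x ∈ B := hU
    simp only [mkL, if_pos hUx, if_pos hU']
    refine hdep _ hUx _ hU' (hxy.vadd' fun w hw => ?_)
    have hp := hpos ((p', s), ⟨0, hn⟩) (mem_rsites.2 ⟨le_rfl, hpq', le_rfl, hst⟩)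
    simp only at hp
    obtain ⟨⟨j, hj⟩, -⟩ := hdv
    have ha : (0 : ℤ) ≤ a := Int.natCast_nonneg a
    have hb : (0 : ℤ) ≤ b := Int.natCast_nonneg b
    have j1 : 0 ≤ j := by
      by_contra hc
      have : j ≤ -1 := by omega
      nlinarith [hp.1]
    have j2 : j ≤ 1 := by
      by_contra hc
      have : 2 ≤ j := by omega
      nlinarith [hp.2]
    have v1 : 0 ≤ v.1 := by rw [hj]; positivity
    have v2 : v.1 ≤ a := by rw [hj]; nlinarith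
    have hv' := abs_le.1 hv
    obtain ⟨w1, w2, w3, w4⟩ := hw
    refine ⟨?_, ?_, ?_, ?_⟩ <;> simp only [Prod.fst_add, Prod.snd_add] <;>
      linarith [hv'.1, hv'.2]

/-! ### The two halves of the truncated word -/

/-- The points near the column `e` over `B`. -/
def near (n : ℕ) (B : Set X.Pt) (e : ℤ) (K : ℕ) : Set (Hat X n) :=
  {y | ∃ x ∈ B, ∃ z : Site n, |z.1.1 - e| ≤ K ∧ y = pt x z}

theorem anchor_near : True := by
  have := @near.eq_1; have := @near.eq_def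
  trivial

theorem near_disjoint {a b : ℕ} {B : Set X.Pt} (hB : Tower a b B) {D K : ℕ} (h1 : K < D)
    (h2 : 2 * (D + K) < a) : Disjoint (near n B D K) (near n B (-D) K) := by
  refine Set.disjoint_left.2 ?_
  rintro _ ⟨x, hx, z, hz, rfl⟩ ⟨y, hy, z', hz', he⟩
  obtain ⟨e1, -⟩ := pt_eq_iff.1 he
  have hdv := ((hB.2.2 x hx _).1 (e1 ▸ hy)).1
  have h3 := abs_le.1 hz
  have h4 := abs_le.1 hz'
  have h1' : (K : ℤ) < D := by exact_mod_cast h1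
  have h2' : 2 * ((D : ℤ) + K) < a := by exact_mod_cast h2
  have := Int.le_of_dvd (by simp only [Prod.fst_sub]; linarith [h3.1, h4.2]) hdv
  simp only [Prod.fst_sub] at this
  linarith [h3.2, h4.1]

/-- The data attached to one half. -/
structure Half (n : ℕ) (b : ℕ) (B : Set X.Pt) (e : ℤ) (K : ℕ) (ρ : ℤ) (γ : Perm (Hat X n))
    (c β : X.Pt → Perm (Site n)) : Prop where
  off : ∀ y ∉ near n B e K, γ y = y
  alt : ∀ x, c x ∈ AltOn (rsites n (e - K) (e + K) (-K) K)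
  supp : ∀ x, ∀ z ∉ rsites n (e - K) (e + K) 0 (b - 1), β x z = z
  eq : γ = msf B c * msf B β
  dep : ∀ x ∈ B, ∀ y ∈ B, Agree (rect (-ρ) ρ (-ρ) (b + ρ)) x y → c x = c y ∧ β x = β y

theorem exists_half (hF : Free X) (hn : 5 ≤ n) {a b : ℕ} {B : Set X.Pt} (hB : Tower a b B)
    {e : ℤ} {K : ℕ} (ha : 2 * K < a) (hb : 2 * K + 2 ≤ b) {ρ : ℤ} {γ γ₁ : Perm (Hat X n)}
    (hγ : Full γ) (on : ∀ y ∈ near n B e K, γ₁ y = γ y) (off : ∀ y ∉ near n B e K, γ₁ y = y)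
    (hs : ∀ x ∈ B, ∀ z : Site n, |z.1.1 - e| ≤ K →
      |(loc γ x z).1.1 - e| ≤ K ∧ |(loc γ x z).1.2 - z.1.2| ≤ K)
    (hfl : ∀ x ∈ B, fl (loc γ x) {z | |z.1.1 - e| ≤ K} 0 = 0)
    (hdep : ∀ x ∈ B, ∀ y ∈ B, Agree (rect (-ρ) ρ (-ρ) (b + ρ)) x y → ∀ z : Site n,
      |z.1.1 - e| ≤ K → -(2 * (K : ℤ)) ≤ z.1.2 → z.1.2 ≤ b + 2 * K → loc γ x z = loc γ y z) :
    ∃ c β, Half n b B e K ρ γ₁ c β := by
  have hfull : Full γ₁ := fun x i => by
    by_cases h : (x, i) ∈ near n B e K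
    · rw [on _ h]; exact hγ x i
    · rw [off _ h]; exact ⟨(0, i), (pt_zero x i).symm⟩
  have habs : ∀ t : ℤ, |t - e| ≤ K ↔ e - K ≤ t ∧ t ≤ e + K := fun t => by
    rw [abs_le]; constructor <;> rintro ⟨h1, h2⟩ <;> constructor <;> linarith
  have hloc : ∀ x ∈ B, ∀ z : Site n, |z.1.1 - e| ≤ K → loc γ₁ x z = loc γ x z :=
    fun x hx z hz => loc_eq hF hfull ((on _ ⟨x, hx, z, hz, rfl⟩).trans (loc_spec hF hγ x z))
  have ha' : 2 * (K : ℤ) < a := by exact_mod_cast ha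
  obtain ⟨c, β, h1, h2, h3, h4⟩ := strip_dec hF hn hB (p := e - K) (q := e + K)
    (by linarith [Int.natCast_nonneg K]) (by linarith) (r := K) hb hfull
    (fun x hx z z1 z2 => by
      have hz := (habs _).2 ⟨z1, z2⟩
      rw [hloc x hx z hz]
      obtain ⟨s1, s2⟩ := hs x hx z hz
      exact ⟨((habs _).1 s1).1, ((habs _).1 s1).2, s2⟩)
    (fun y hy => off y fun ⟨x, hx, z, hz, he⟩ =>
      hy x hx z ((habs _).1 hz).1 ((habs _).1 hz).2 he)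
    (fun x hx => by
      have he : {z : Site n | e - K ≤ z.1.1 ∧ z.1.1 ≤ e + K} = {z | |z.1.1 - e| ≤ K} :=
        Set.ext fun z => (habs _).symm
      rw [he]
      exact (fl_congr (fun z hz => hloc x hx z hz) 0).trans (hfl x hx))
  refine ⟨c, β, off, h1, h2, h3, fun x hx y hy hxy => h4 x hx y hy fun z hz => ?_⟩
  obtain ⟨z1, z2, z3, z4⟩ := mem_rsites.1 hz
  have hz' := (habs _).2 ⟨z1, z2⟩
  rw [hloc x hx z hz', hloc y hy z hz', hdep x hx y hy hxy z hz' z3 z4]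

theorem exists_halves (hF : Free X) (hn : 5 ≤ n) {a b : ℕ} {B : Set X.Pt} (hB : Tower a b B)
    {d : X.Pt → ℕ} (hd : IsDist a B d) {r₀ m K D ρ : ℕ} (hK : 2 * r₀ * (m + 1) ≤ K)
    (hD : 2 * K < D) (hρ : 2 * (D + 2 * K) + 2 ≤ ρ) (ha : ρ ≤ a) (hb : ρ ≤ b)
    {w : List (Lt X n)} (hw : ∀ l ∈ w, l.OK ∧ l.Rad r₀) (hm : w.length ≤ m) (h1 : wperm w = 1)
    (h0 : ∀ x, flux w x = 0) :
    ∃ γ₁ γ₂ c₁ β₁ c₂ β₂, wperm (wres {x | d x ≤ D} w) = γ₁ * γ₂ ∧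
      Half n b B D K ρ γ₁ c₁ β₁ ∧ Half n b B (-D) K ρ γ₂ c₂ β₂ := by
  set γ := wperm (wres {x | d x ≤ D} w) with hγ
  have hfull : Full γ := full_wperm _
  have hw' : ∀ l ∈ w, l.Pre ∧ l.Rad r₀ := fun l hl => ⟨(hw l hl).1.pre, (hw l hl).2⟩
  have hK1 : 2 * r₀ * m + r₀ ≤ K := by nlinarith
  have hK1' : ((2 * r₀ * m + r₀ : ℕ) : ℤ) ≤ K := by exact_mod_cast hK1
  have hK' : ((2 * r₀ * (m + 1) : ℕ) : ℤ) ≤ K := by exact_mod_cast hK
  have hK2' : ((2 * r₀ * m : ℕ) : ℤ) ≤ K := by exact_mod_cast (Nat.le_add_right _ _).trans hK1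
  have hD' : 2 * (K : ℤ) < D := by exact_mod_cast hD
  have hρ' : 2 * ((D : ℤ) + 2 * K) + 2 ≤ ρ := by exact_mod_cast hρ
  have ha' : (ρ : ℤ) ≤ a := by exact_mod_cast ha
  have K0 : (0 : ℤ) ≤ K := Int.natCast_nonneg K
  -- comparison with the truncation to one strip
  have cmp : ∀ x ∈ B, ∀ z : Site n, 2 * |z.1.1| ≤ a + 1 → loc γ x z =
      loc (wperm (wres (orb x {v | -(D : ℤ) ≤ v.1 ∧ v.1 ≤ D}) w)) x z := by
    intro x hx z hz
    refine cone_rad hF hw' hm (Agree.refl _ _) fun v hv => ?_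
    rw [mem_orb hF, Set.mem_ofPred_eq, hd x hx, Set.mem_ofPred_eq, ← abs_le]
    refine ⟨fun ⟨j, hj⟩ => ?_, fun h => ⟨0, by simpa using h⟩⟩
    have v1 := abs_le.1 (hv.1.trans hK1')
    simp only [Prod.fst_sub] at v1
    have z1 := le_abs_self z.1.1
    have z2 := neg_abs_le z.1.1
    have hj' := abs_le.1 hj
    have j0 : j = 0 := by
      by_contra hc
      rcases lt_or_gt_of_ne hc with hc | hc
      · have : j ≤ -1 := by omega
        nlinarith [hj'.2, v1.1]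
      · have : 1 ≤ j := by omega
        nlinarith [hj'.1, v1.2]
    simpa [j0] using hj
  have hst := fun x => flux_strip hF hw hm h1 h0 x (p := -(D : ℤ)) (q := D) hK (by linarith) rfl
  have small : ∀ (e : ℤ), |e| ≤ D → ∀ z : Site n, |z.1.1 - e| ≤ K → 2 * |z.1.1| ≤ a + 1 := by
    intro e he z hz
    have := abs_add_le (z.1.1 - e) e
    rw [sub_add_cancel] at this
    linarith
  have eD : |(D : ℤ)| ≤ D := by rw [abs_of_nonneg (Int.natCast_nonneg D)]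
  have eD' : |-(D : ℤ)| ≤ D := by rwa [abs_neg]
  have disp : ∀ x (z : Site n), |(loc γ x z).1.2 - z.1.2| ≤ K := fun x z =>
    (cone_disp hF (fun l hl => ⟨(hw' l hl).1, (hw' l hl).2.1⟩) hm x z).2.trans hK2'
  have s1 : ∀ x ∈ B, ∀ z : Site n, |z.1.1 - D| ≤ K → |(loc γ x z).1.1 - D| ≤ K := fun x hx z hz => by
    rw [cmp x hx z (small _ eD z hz)]; exact (hst x).2.2.1 z hz
  have s2 : ∀ x ∈ B, ∀ z : Site n, |z.1.1 - -D| ≤ K → |(loc γ x z).1.1 - -D| ≤ K :=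
    fun x hx z hz => by
      rw [cmp x hx z (small _ eD' z hz)]; exact (hst x).2.1 z hz
  have inv : ∀ e : ℤ, (∀ x ∈ B, ∀ z : Site n, |z.1.1 - e| ≤ K → |(loc γ x z).1.1 - e| ≤ K) →
      ∀ y ∈ near n B e K, γ y ∈ near n B e K := by
    rintro e he _ ⟨x, hx, z, hz, rfl⟩
    exact ⟨x, hx, _, he x hx z hz, loc_spec hF hfull x z⟩
  have hdis : Disjoint (near n B D K) (near n B (-D) K) :=
    near_disjoint hB (by omega) (by omega)
  have fix : ∀ y, y ∉ near n B D K → y ∉ near n B (-D) K → γ y = y := by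
    rintro ⟨y, i⟩ y1 y2
    obtain ⟨x, hx, v, v1, v2, -, -, rfl⟩ :=
      hB.exists_rep (by omega) (by omega) y (-((a : ℤ) / 2)) 0
    have hz : 2 * |((v, i) : Site n).1.1| ≤ a + 1 := by
      rcases abs_cases v.1 with h | h <;> simp only [h.1] <;> omega
    change γ (pt x (v, i)) = pt x (v, i)
    rw [loc_spec hF hfull, cmp x hx _ hz, (hst x).1]
    · exact not_le.1 fun h => y2 ⟨x, hx, (v, i), h, rfl⟩
    · exact not_le.1 fun h => y1 ⟨x, hx, (v, i), h, rfl⟩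
  have dep : ∀ e : ℤ, |e| ≤ D → ∀ x ∈ B, ∀ y ∈ B, Agree (rect (-ρ) ρ (-ρ) (b + ρ)) x y →
      ∀ z : Site n, |z.1.1 - e| ≤ K → -(2 * (K : ℤ)) ≤ z.1.2 → z.1.2 ≤ b + 2 * K →
        loc γ x z = loc γ y z := by
    intro e he x hx y hy hxy z z1 z2 z3
    refine cone_rad hF hw' hm (hxy.vadd' fun u hu => ?_) fun v _ => ?_
    · have u1 := abs_le.1 (hu.1.trans hK')
      have u2 := abs_le.1 (hu.2.trans hK')
      have z1' := abs_le.1 z1
      have he' := abs_le.1 he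
      refine ⟨?_, ?_, ?_, ?_⟩ <;> simp only [Prod.fst_add, Prod.snd_add] <;>
        linarith [u1.1, u1.2, u2.1, u2.2, z1'.1, z1'.2, he'.1, he'.2]
    · rw [Set.mem_ofPred_eq, Set.mem_ofPred_eq, hd.eq hx hy]
  obtain ⟨γ₁, a1, a2⟩ := exists_part γ _ _ hdis (inv _ s1) (inv _ s2) fix
  obtain ⟨γ₂, b1, b2⟩ := exists_part γ _ _ hdis.symm (inv _ s2) (inv _ s1) fun y h h' => fix y h' h
  obtain ⟨c₁, β₁, H₁⟩ := exists_half hF hn hB (ρ := ρ) (by omega) (by omega) hfull a1 a2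
    (fun x hx z hz => ⟨s1 x hx z hz, disp x z⟩)
    (fun x hx => (fl_congr (fun z hz => cmp x hx z (small _ eD z hz)) 0).trans
      ((hst x).2.2.2 0).2) (dep _ eD)
  obtain ⟨c₂, β₂, H₂⟩ := exists_half hF hn hB (ρ := ρ) (by omega) (by omega) hfull b1 b2
    (fun x hx z hz => ⟨s2 x hx z hz, disp x z⟩)
    (fun x hx => (fl_congr (fun z hz => cmp x hx z (small _ eD' z hz)) 0).trans
      ((hst x).2.2.2 0).1) (dep _ eD')
  exact ⟨γ₁, γ₂, c₁, β₁, c₂, β₂, eq_mul_parts hdis (inv _ s2) fix a1 a2 b1 b2, H₁, H₂⟩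

/-- Two halves with the same parities differ by a word of three letters. -/
theorem Half.word (hn : 5 ≤ n) {a b : ℕ} {B : Set X.Pt} (hB : Tower a b B) {e : ℤ} {K : ℕ}
    (ha : 2 * K < a) (hb : 2 * K + 2 ≤ b) {ρ : ℤ} {γ γ' : Perm (Hat X n)}
    {c β c' β' : X.Pt → Perm (Site n)} (h : Half n b B e K ρ γ c β)
    (h' : Half n b B e K ρ γ' c' β')
    (hpar : ∀ x ∈ B, β x ∈ AltOn (rsites n (e - K) (e + K) 0 (b - 1)) ↔
      β' x ∈ AltOn (rsites n (e - K) (e + K) 0 (b - 1))) :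
    ∃ o : List (Lt X n), o.length = 3 ∧ wperm o = γ * γ'⁻¹ ∧ (∀ l ∈ o, l.OK) ∧
      ∀ (B' : Set X.Pt) (p q ρ' : ℤ) (H : ℕ), B' ⊆ B →
        (∃ k : ℤ, p + k * a ≤ e - K ∧ e + K ≤ q + k * a) → -(a : ℤ) < p - (e - K) →
        q - (e - K) < 2 * a → b + ρ + H ≤ ρ' →
        ∀ l ∈ o, l.InStrip a B' p q (rect (-ρ) (a + ρ) (-ρ') ρ') b H := by
  have ha' : 2 * (K : ℤ) < a := by exact_mod_cast ha
  have hb' : 2 * (K : ℤ) + 2 ≤ b := by exact_mod_cast hb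
  have K0 : (0 : ℤ) ≤ K := Int.natCast_nonneg K
  have hpq : e - K ≤ e + K := by linarith
  have m1 : MS B (rsites n (e - K) (e + K) (-K) K) := hB.ms (by linarith) (by linarith)
  have m2 : MS B (rsites n (e - K) (e + K) 0 (b - 1)) := hB.ms (by linarith) (by linarith)
  have c1 : 5 ≤ (rsites n (e - K) (e + K) (-K) K).card :=
    hn.trans (le_card_rsites hpq (by linarith))
  have c2 : 5 ≤ (rsites n (e - K) (e + K) 0 (b - 1)).card :=
    hn.trans (le_card_rsites hpq (by linarith))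
  have sinv : ∀ x, ∀ z ∉ rsites n (e - K) (e + K) 0 (b - 1), (β' x)⁻¹ z = z := fun x z hz =>
    Perm.inv_eq_iff_eq.2 (h'.supp x z hz).symm
  have d1 : ∀ x ∈ B, ∀ y ∈ B, Agree (rect (-ρ) ρ (-ρ) (b + ρ)) x y → c x = c y :=
    fun x hx y hy hxy => (h.dep x hx y hy hxy).1
  have d2 : ∀ x ∈ B, ∀ y ∈ B, Agree (rect (-ρ) ρ (-ρ) (b + ρ)) x y →
      β x * (β' x)⁻¹ = β y * (β' y)⁻¹ := fun x hx y hy hxy => by
    rw [(h.dep x hx y hy hxy).2, (h'.dep x hx y hy hxy).2]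
  have d3 : ∀ x ∈ B, ∀ y ∈ B, Agree (rect (-ρ) ρ (-ρ) (b + ρ)) x y → (c' x)⁻¹ = (c' y)⁻¹ :=
    fun x hx y hy hxy => by rw [(h'.dep x hx y hy hxy).1]
  refine ⟨[mkL B (rsites n (e - K) (e + K) (-K) K) c,
    mkL B (rsites n (e - K) (e + K) 0 (b - 1)) fun x => β x * (β' x)⁻¹,
    mkL B (rsites n (e - K) (e + K) (-K) K) fun x => (c' x)⁻¹], rfl, ?_, ?_, ?_⟩
  · rw [wperm_cons, wperm_cons, wperm_cons, wperm_nil, mkL_perm, mkL_perm, mkL_perm,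
      msf_mul m2 (fun x _ => h.supp x) (fun x _ => sinv x), msf_inv m2 (fun x _ => h'.supp x),
      msf_inv m1 (fun x _ z hz => AltOn.apply_of_not_mem (h'.alt x) hz), h.eq, h'.eq]
    group
  · intro l hl
    simp only [List.mem_cons, List.not_mem_nil, or_false] at hl
    rcases hl with rfl | rfl | rfl
    · exact mkL_ok hB.1 m1 c1 (fun x _ => h.alt x) (rect_finite _ _ _ _) d1
    · refine mkL_ok hB.1 m2 c2 (fun x hx => ?_) (rect_finite _ _ _ _) d2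
      rw [AltOn.mul_mem_iff (h.supp x) (sinv x), inv_mem_iff]
      exact hpar x hx
    · exact mkL_ok hB.1 m1 c1 (fun x _ => inv_mem (h'.alt x)) (rect_finite _ _ _ _) d3
  · intro B' p q ρ' H hBB hk h1 h2 h3 l hl
    simp only [List.mem_cons, List.not_mem_nil, or_false] at hl
    rcases hl with rfl | rfl | rfl
    · exact mkL_inStrip hB hBB hpq (by linarith) (by omega) d1 (by linarith) (by linarith)
        hk h1 h2 h3
    · exact mkL_inStrip hB hBB hpq (by linarith) (by omega) d2 (by linarith) (by linarith)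
        hk h1 h2 h3
    · exact mkL_inStrip hB hBB hpq (by linarith) (by omega) d3 (by linarith) (by linarith)
        hk h1 h2 h3

end Crest.Agent.R189.StepBAux
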