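import Crest.Agent.R189.H1Base
import Crest.Agent.R189.StepBAux

/-! Row 189: trivial words inside a vertical strip take boundedly many values. -/

set_option autoImplicit false

namespace Crest.Agent.R189

open Equiv

namespace StepAAux

variable {S : Type} {X : Sub S} {n : ℕ} {a b : ℕ} {B : Set X.Pt} {R : Set V} {p q : ℤ}
  {r H : ℕ}

theorem exists_partFun {α : Type} (T : Set α) : ∃ P : Perm α → Perm α, (∀ γ, ∀ y ∉ T, P γ y = y) ∧
    ∀ γ : Perm α, (∃ γ₁ : Perm α, (∀ y ∈ T, γ₁ y = γ y) ∧ ∀ y ∉ T, γ₁ y = y) →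
      ∀ y ∈ T, P γ y = γ y := by
  classical
  refine ⟨fun γ => if h : ∃ γ₁ : Perm α, (∀ y ∈ T, γ₁ y = γ y) ∧ ∀ y ∉ T, γ₁ y = y
    then h.choose else 1, fun γ y hy => ?_, fun γ h y hy => ?_⟩
  · beta_reduce
    split_ifs with h
    · exact h.choose_spec.2 y hy
    · rfl
  · beta_reduce
    rw [dif_pos h]
    exact h.choose_spec.1 y hy

theorem rebase [Finite S] (hB : Tower a b B) {l : Lt X n} (hl : l.OK)
    (hs : l.InStrip a B p q R r H) {W : Set X.Pt} {s t : ℤ}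
    (hW : ∀ x ∈ B, ∀ v : V, v +ᵥ x ∈ W → ∃ j : ℤ, s + r ≤ v.2 - j * b ∧ v.2 - j * b + r ≤ t) :
    L (l.res W).U (l.res W).F ≤ L B (rsites n p q s t) := by
  refine L_rebase hB.1 (hl.pre.res W).1
    (Finset.card_pos.1 (lt_of_lt_of_le (by norm_num) hl.2.2.2.1)) fun x hx => ?_
  obtain ⟨w, hw⟩ := hB.2.1 x
  have e : x = (-w) +ᵥ (w +ᵥ x) := (neg_vadd_vadd w x).symm
  obtain ⟨k, hk⟩ := hs.2.1 _ hw (-w) (e ▸ hx.1)
  obtain ⟨j, hj⟩ := hW _ hw (-w) (e ▸ hx.2)
  refine ⟨((k * a, j * b) : V) +ᵥ (w +ᵥ x), (hB.2.2 _ hw _).2 ⟨⟨k, mul_comm _ _⟩, ⟨j, mul_comm _ _⟩⟩,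
    -w - (k * a, j * b), by rw [← add_vadd, sub_add_cancel]; exact e, fun z hz => ?_⟩
  have h1 := hk z hz
  have h2 := abs_le.1 (hs.1 z hz)
  rw [mem_rsites]
  simp only [sht_apply, Prod.fst_add, Prod.snd_add, Prod.fst_sub, Prod.snd_sub] at h1 hj ⊢
  refine ⟨by linarith [h1.1], by linarith [h1.2], by linarith [hj.1], by linarith [hj.2]⟩

theorem height (hF : Free X) {w : List (Lt X n)}
    (hw : ∀ l ∈ w, l.OK ∧ l.InStrip a B p q R r H) {m : ℕ} (hm : w.length ≤ m) (x : X.Pt)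
    (W W' : Set X.Pt) (z : Site n)
    (hW : ∀ v : V, |v.2 - z.1.2| ≤ (2 * r * m + r : ℕ) → (v +ᵥ x ∈ W ↔ v +ᵥ x ∈ W')) :
    loc (wperm (wres W w)) x z = loc (wperm (wres W' w)) x z ∧
      |(loc (wperm (wres W w)) x z).1.2 - z.1.2| ≤ (2 * r * m : ℕ) := by
  have hmul : 2 * r * w.length ≤ 2 * r * m := Nat.mul_le_mul_left _ hm
  have h := cone hF (fun l hl => (hw l hl).1.pre) x x W W'
    (fun z' => (z'.1.2 - z.1.2).natAbs) (2 * r) 0 (fun l hl v _ z₁ hz₁ z₂ hz₂ => by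
      have h1 := abs_le.1 ((hw l hl).2.1 z₁ hz₁)
      have h2 := abs_le.1 ((hw l hl).2.1 z₂ hz₂)
      simp only [sht_apply, Prod.snd_add]
      omega)
    (fun l hl v z₁ hz₁ hδ => by
      have h1 := abs_le.1 ((hw l hl).2.1 z₁ hz₁)
      have h2 := hW v (by
        simp only [sht_apply, Prod.snd_add] at hδ
        rw [abs_le]
        generalize 2 * r * m = M at hmul ⊢
        generalize 2 * r * w.length = M' at hmul hδ
        push_cast
        omega)
      exact ⟨and_congr_right fun _ => h2, fun _ => rfl⟩) (z := z) (by simp)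
  refine ⟨h.1, ?_⟩
  have h2 := h.2
  rw [abs_le]
  generalize 2 * r * m = M at hmul ⊢
  generalize 2 * r * w.length = M' at hmul h2
  omega

theorem strip_zero (hqa : q < p + a) {k s : ℤ} (h1 : p + k * a ≤ s) (h2 : s ≤ q + k * a)
    (h3 : p ≤ s) (h4 : s ≤ q) : k = 0 := by
  have ha : (0 : ℤ) ≤ a := Int.natCast_nonneg a
  rcases lt_trichotomy k 0 with h | h | h
  · nlinarith
  · exact h
  · nlinarith

theorem depend (hF : Free X) (hqa : q < p + a) {w : List (Lt X n)}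
    (hw : ∀ l ∈ w, l.OK ∧ l.InStrip a B p q R r H) {m : ℕ} (hm : w.length ≤ m) {x y : X.Pt}
    (hx : x ∈ B) (hy : y ∈ B) (hxy : Agree R x y) {W : Set X.Pt}
    (hW : ∀ v : V, v +ᵥ x ∈ W ↔ v +ᵥ y ∈ W) {k : ℕ} (hk : k + 2 * r * m + r ≤ H) {z : Site n}
    (h1 : p ≤ z.1.1) (h2 : z.1.1 ≤ q) (h3 : |z.1.2| ≤ k) :
    loc (wperm (wres W w)) x z = loc (wperm (wres W w)) y z := by
  have hmul : 2 * r * w.length ≤ 2 * r * m := Nat.mul_le_mul_left _ hm
  refine (cone hF (fun l hl => (hw l hl).1.pre) x y W W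
    (fun z' => if p ≤ z'.1.1 ∧ z'.1.1 ≤ q then z'.1.2.natAbs else H + 1) (2 * r) k
    (fun l hl v hv z₁ hz₁ z₂ hz₂ => ?_) (fun l hl v z₁ hz₁ hδ => ?_) ?_).1
  · obtain ⟨j, hj⟩ := (hw l hl).2.2.1 x hx v hv.1
    have a1 := abs_le.1 ((hw l hl).2.1 z₁ hz₁)
    have a2 := abs_le.1 ((hw l hl).2.1 z₂ hz₂)
    have b1 := hj z₁ hz₁
    have b2 := hj z₂ hz₂
    simp only [sht_apply, Prod.fst_add, Prod.snd_add]
    by_cases hj0 : j = 0
    · subst hj0
      rw [if_pos (by simpa using b1), if_pos (by simpa using b2)]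
      omega
    · rw [if_neg fun h => hj0 (strip_zero hqa b1.1 b1.2 h.1 h.2),
        if_neg fun h => hj0 (strip_zero hqa b2.1 b2.2 h.1 h.2)]
      omega
  · simp only [sht_apply, Prod.fst_add, Prod.snd_add] at hδ
    have a1 := abs_le.1 ((hw l hl).2.1 z₁ hz₁)
    have hin : p ≤ z₁.1.1 + v.1 ∧ z₁.1.1 + v.1 ≤ q := by
      by_contra hc
      rw [if_neg hc] at hδ
      omega
    rw [if_pos hin] at hδ
    have hv : |v.2| ≤ H := by
      rw [abs_le]
      generalize 2 * r * m = M at hmul hk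
      generalize 2 * r * w.length = M' at hmul hδ
      omega
    have key : ∀ x ∈ B, ∀ y ∈ B, Agree R x y → v +ᵥ x ∈ l.U →
        v +ᵥ y ∈ l.U ∧ l.g (v +ᵥ x) = l.g (v +ᵥ y) := fun x hx y hy hxy hU => by
      obtain ⟨j, hj⟩ := (hw l hl).2.2.1 x hx v hU
      have hj0 := strip_zero hqa (hj z₁ hz₁).1 (hj z₁ hz₁).2 hin.1 hin.2
      subst hj0
      exact (hw l hl).2.2.2 x hx y hy hxy v hv (fun z hz => by simpa using hj z hz) hU
    exact ⟨⟨fun h => ⟨(key x hx y hy hxy h.1).1, (hW v).1 h.2⟩,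
      fun h => ⟨(key y hy x hx hxy.symm h.1).1, (hW v).2 h.2⟩⟩,
      fun h => (key x hx y hy hxy h.1).2⟩
  · rw [if_pos ⟨h1, h2⟩]
    rw [abs_le] at h3
    omega

end StepAAux

open StepAAux StepBAux

theorem CExt.stepA {S : Type} [Finite S] {X : Sub S} {n : ℕ} {Γ : Type} [Group Γ]
    (E : CExt X n Γ) (hn : 5 ≤ n) (hF : Free X) (hs : E.Split) {a b : ℕ} {B : Set X.Pt}
    (hB : Tower a b B) {C : ℕ} {R : Set V} (hP : Pat C B R) {p q : ℤ} (hpq : p ≤ q)
    (hqa : q < p + a) {r m H : ℕ} (hH : 10 * (r + 1) * (m + 1) ≤ H) (hb : 2 * H < b) :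
    ∃ K : Finset Γ, K.card ≤ 4 ^ C ∧ ∀ w : List (Lt X n),
      (∀ l ∈ w, l.OK ∧ l.InStrip a B p q R r H) → w.length ≤ m → wperm w = 1 → E.wv w ∈ K := by
  classical
  obtain ⟨f, hf⟩ := hP
  obtain ⟨d, hdl, hdlip, hd⟩ := hB.exists_dist₂ (by omega) (by omega)
  obtain ⟨c, hc⟩ : ∃ c, c = 2 * r * m := ⟨_, rfl⟩
  obtain ⟨e, he⟩ : ∃ e, e = c + m + 1 := ⟨_, rfl⟩
  obtain ⟨D, hD⟩ : ∃ D, D = e + c + r := ⟨_, rfl⟩
  have hH' : D + r + c + r ≤ H := by nlinarith
  set FA := rsites n p q 1 (b - 1) with hFA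
  set FB := rsites n p q (-D - r) (D + r) with hFB
  set Op := rsites n p q e (D + r) with hOp
  set Om := rsites n p q (-D - r) (-e) with hOm
  have mA : MS B FA := hB.ms hqa (by omega)
  have mB : MS B FB := hB.ms hqa (by omega)
  have cA : 5 ≤ FA.card := hn.trans (le_card_rsites hpq (by omega))
  have cB : 5 ≤ FB.card := hn.trans (le_card_rsites hpq (by omega))
  have cp : 5 ≤ Op.card := hn.trans (le_card_rsites hpq (by omega))
  have cm : 5 ≤ Om.card := hn.trans (le_card_rsites hpq (by omega))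
  have pB : Op ⊆ FB := fun z hz => by rw [mem_rsites] at hz ⊢; omega
  have nB : Om ⊆ FB := fun z hz => by rw [mem_rsites] at hz ⊢; omega
  have pA : Op ⊆ FA := fun z hz => by rw [mem_rsites] at hz ⊢; omega
  have mp : MS B Op := mB.mono subset_rfl pB
  have mm : MS B Om := mB.mono subset_rfl nB
  have nA : L B Om ≤ L B FA := by
    refine L_rebase hB.1 mm (Finset.card_pos.1 (by omega)) fun x hx =>
      ⟨((0, -b) : V) +ᵥ x, (hB.2.2 x hx _).2 ⟨dvd_zero _, (dvd_refl _).neg_right⟩, (0, b), ?_,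
        fun z hz => ?_⟩
    · rw [← add_vadd, Prod.mk_add_mk, add_zero, add_neg_cancel]
      exact (zero_vadd V x).symm
    · rw [mem_rsites] at hz ⊢
      simp only [sht_apply, Prod.fst_add, Prod.snd_add]
      omega
  have hdis : Disjoint (Op : Set (Site n)) Om := Set.disjoint_left.2 fun z h1 h2 => by
    rw [Finset.mem_coe, mem_rsites] at h1 h2
    omega
  obtain ⟨Pp, hPp1, hPp2⟩ := exists_partFun (Op : Set (Site n))
  obtain ⟨Pm, hPm1, hPm2⟩ := exists_partFun (Om : Set (Site n))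
  -- the two pieces of a word
  let u : List (Lt X n) → Γ := fun w =>
    E.wv (wres {x | r < d x} w) * (E.wv (wres {x | r < d x ∧ d x ≤ D} w))⁻¹
  let t : List (Lt X n) → Γ := fun w => E.wv (wres {x | d x ≤ D} w)
  let G : List (Lt X n) → Prop := fun w =>
    (∀ l ∈ w, l.OK ∧ l.InStrip a B p q R r H) ∧ w.length ≤ m ∧ wperm w = 1
  have ok : ∀ {w}, G w → ∀ Q : ℕ → Prop, ∀ l ∈ wres {x | Q (d x)} w, l.OK := fun hw Q l hl => by
    replace hl := mem_wres.1 hl
    obtain ⟨l, hl, rfl⟩ := hl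
    exact (hw.1 l hl).1.res (hdl.setOf Q)
  have far : ∀ x ∈ B, ∀ v : V, r < d (v +ᵥ x) →
      ∃ j : ℤ, 1 + r ≤ v.2 - j * b ∧ v.2 - j * b + r ≤ b - 1 := by
    intro x hx v hv
    have h1 : ∀ j : ℤ, (r : ℤ) < |v.2 - j * b| := fun j =>
      not_le.1 fun h => absurd ((hd x hx v r).2 ⟨j, h⟩) (not_le.2 hv)
    have b0 : (0 : ℤ) < b := by omega
    have e1 := Int.emod_nonneg v.2 b0.ne'
    have e2 := Int.emod_lt_of_pos v.2 b0
    have e3 := Int.emod_add_ediv_mul v.2 b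
    have h2 := h1 (v.2 / b)
    have h3 := h1 (v.2 / b + 1)
    rw [abs_of_nonneg (by linarith)] at h2
    rw [abs_of_nonpos (by linarith)] at h3
    exact ⟨v.2 / b, by linarith, by linarith⟩
  have hu : ∀ {w}, G w → u w ∈ til E.θ (L B FA) := fun {w} hw => by
    refine mul_mem (E.wv_mem_til hn (ok hw fun k => r < k) fun l hl => ?_)
      (inv_mem (E.wv_mem_til hn (ok hw fun k => r < k ∧ k ≤ D) fun l hl => ?_))
    · replace hl := mem_wres.1 hl
      obtain ⟨l, hl, rfl⟩ := hl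
      exact rebase hB (hw.1 l hl).1 (hw.1 l hl).2 far
    · replace hl := mem_wres.1 hl
      obtain ⟨l, hl, rfl⟩ := hl
      exact rebase hB (hw.1 l hl).1 (hw.1 l hl).2 fun x hx v hv => far x hx v hv.1
  have ht : ∀ {w}, G w → t w ∈ til E.θ (L B FB) := fun {w} hw => by
    refine E.wv_mem_til hn (ok hw fun k => k ≤ D) fun l hl => ?_
    replace hl := mem_wres.1 hl
    obtain ⟨l, hl, rfl⟩ := hl
    refine rebase hB (hw.1 l hl).1 (hw.1 l hl).2 fun x hx v hv => ?_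
    obtain ⟨j, hj⟩ := (hd x hx v D).1 hv
    have := abs_le.1 hj
    exact ⟨j, by linarith [this.1], by linarith [this.2]⟩
  have hsplit : ∀ {w}, G w → E.wv w = u w * t w := fun {w} hw => by
    refine E.split hn hs (fun l hl => (hw.1 l hl).1) hdl (r := 2 * r)
      (fun l hl l' hl' z hz z' hz' x => (hdlip _ x).trans ?_) ?_
    · have h1 := abs_le.1 ((hw.1 l hl).2.1 z hz)
      have h2 := abs_le.1 ((hw.1 l' hl').2.1 z' hz')
      simp only [Prod.snd_sub]
      omega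
    · have := Nat.mul_le_mul_left (2 * r + 1) hw.2.1
      nlinarith
  have hut : ∀ {w}, G w → E.θ (u w) = (E.θ (t w))⁻¹ := fun {w} hw => by
    have := congrArg E.θ (hsplit hw)
    rw [E.θ_wv hn fun l hl => (hw.1 l hl).1, hw.2.2, map_mul] at this
    exact eq_inv_of_mul_eq_one_left this.symm
  -- the local description of `t w`
  have hg : ∀ {w}, G w → ∃ g : X.Pt → Perm (Site n), LocF g ∧ (∀ x, g x ∈ AltOn FB) ∧
      E.θ (t w) = msf B g ∧ (∀ x ∈ B, g x = Pp (g x) * Pm (g x)) ∧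
      ∀ x ∈ B, ∀ y ∈ B, Agree R x y → g x = g y := fun {w} hw => by
    obtain ⟨g, g1, g2, g3⟩ := (mem_L_iff hB.1 mB).1 (til_le_comap (ht hw))
    have g4 : wperm (wres {x | d x ≤ D} w) = msf B g := (E.θ_wv hn (ok hw fun k => k ≤ D)).symm.trans g3
    have g5 : ∀ x ∈ B, ∀ z ∈ FB, loc (wperm (wres {x | d x ≤ D} w)) x z = g x z :=
      fun x hx z hz => loc_eq hF (full_wperm _) (by
        rw [g4]
        exact msf_apply mB (fun x _ z hz => AltOn.apply_of_not_mem (g2 x) hz) hx hz)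
    refine ⟨g, g1, g2, g3, fun x hx => ?_, fun x hx y hy hxy => Equiv.ext fun z => ?_⟩
    · have fix : ∀ z : Site n, |z.1.2| ≤ e → g x z = z := fun z hz => by
        by_cases hzB : z ∈ FB
        · rw [← g5 x hx z hzB, (height hF hw.1 hw.2.1 x _ Set.univ z fun v hv => ?_).1, wres_univ,
            hw.2.2, loc_one hF]
          · rfl
          · refine iff_of_true ((hd x hx v D).2 ⟨0, ?_⟩) trivial
            rw [← hc] at hv
            rw [abs_le] at hv hz ⊢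
            omega
        · exact AltOn.apply_of_not_mem (g2 x) hzB
      have disp : ∀ z ∈ FB, |(g x z).1.2 - z.1.2| ≤ c := fun z hz => by
        rw [← g5 x hx z hz, hc]
        exact (height hF hw.1 hw.2.1 x _ _ z fun v _ => Iff.rfl).2
      have i1 : ∀ z ∈ (Op : Set (Site n)), g x z ∈ (Op : Set (Site n)) := fun z hz => by
        have h1 := AltOn.apply_mem (g2 x) (pB hz)
        have h2 := abs_le.1 (disp z (pB hz))
        by_cases h3 : |(g x z).1.2| ≤ e
        · rwa [(g x).injective (fix _ h3)]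
        · rw [Finset.mem_coe, mem_rsites] at hz ⊢
          rw [mem_rsites] at h1
          rw [abs_le] at h3
          omega
      have i2 : ∀ z ∈ (Om : Set (Site n)), g x z ∈ (Om : Set (Site n)) := fun z hz => by
        have h1 := AltOn.apply_mem (g2 x) (nB hz)
        have h2 := abs_le.1 (disp z (nB hz))
        by_cases h3 : |(g x z).1.2| ≤ e
        · rwa [(g x).injective (fix _ h3)]
        · rw [Finset.mem_coe, mem_rsites] at hz ⊢
          rw [mem_rsites] at h1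
          rw [abs_le] at h3
          omega
      have i3 : ∀ z, z ∉ (Op : Set (Site n)) → z ∉ (Om : Set (Site n)) → g x z = z :=
        fun z h1 h2 => by
          by_cases hzB : z ∈ FB
          · refine fix z ?_
            rw [Finset.mem_coe, mem_rsites] at h1 h2
            rw [mem_rsites] at hzB
            rw [abs_le]
            omega
          · exact AltOn.apply_of_not_mem (g2 x) hzB
      exact eq_mul_parts hdis i2 i3 (hPp2 _ (exists_part _ _ _ hdis i1 i2 i3)) (hPp1 _)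
        (hPm2 _ (exists_part _ _ _ hdis.symm i2 i1 fun z h1 h2 => i3 z h2 h1)) (hPm1 _)
    · by_cases hzB : z ∈ FB
      · rw [← g5 x hx z hzB, ← g5 y hy z hzB]
        rw [mem_rsites] at hzB
        refine depend hF hqa hw.1 hw.2.1 hx hy hxy (fun v => ?_) (k := D + r) (by omega)
          hzB.1 hzB.2.1 (by rw [abs_le]; omega)
        exact (hd x hx v D).trans (hd y hy v D).symm
      · rw [AltOn.apply_of_not_mem (g2 x) hzB, AltOn.apply_of_not_mem (g2 y) hzB]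
  have lift : ∀ {O : Finset (Site n)}, MS B O → 5 ≤ O.card → ∀ {g : X.Pt → Perm (Site n)}, LocF g →
      (∀ x ∈ B, g x ∈ AltOn O) → ∃ o ∈ til E.θ (L B O), E.θ o = msf B g := by
    intro O hO hc g g1 g2
    have hm := msf_mem_L hB.1 hO g1 g2
    rw [← map_til (θ := E.θ) (by rw [E.range]; exact L_le_Alt hn hO) (L_perfect hO hc)] at hm
    exact hm
  have sp : ∀ γ, ∀ z ∉ FB, Pp γ z = z := fun γ z hz => hPp1 γ z fun h => hz (pB h)
  have sm : ∀ γ, ∀ z ∉ FB, Pm γ z = z := fun γ z hz => hPm1 γ z fun h => hz (nB h)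
  have sinv : ∀ {F : Finset (Site n)} {γ : Perm (Site n)}, (∀ z ∉ F, γ z = z) →
      ∀ z ∉ F, γ⁻¹ z = z := fun h z hz => Perm.inv_eq_iff_eq.2 (h z hz).symm
  have par : ∀ γ ∈ AltOn FB, γ = Pp γ * Pm γ → (Pp γ ∈ AltOn Op ↔ Pm γ ∈ AltOn Om) := by
    intro γ h1 h2
    rw [h2, AltOn.mul_mem_iff (sp γ) (sm γ)] at h1
    exact ⟨fun h => AltOn.of_supp (h1.1 (AltOn.mono pB h)) (hPm1 γ),
      fun h => AltOn.of_supp (h1.2 (AltOn.mono nB h)) (hPp1 γ)⟩
  let Rel : List (Lt X n) → (Fin C → Prop) → Prop := fun w σ => G w ∧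
    ∃ g : X.Pt → Perm (Site n), (LocF g ∧ (∀ x, g x ∈ AltOn FB) ∧
      E.θ (t w) = msf B g ∧ (∀ x ∈ B, g x = Pp (g x) * Pm (g x)) ∧
      ∀ x ∈ B, ∀ y ∈ B, Agree R x y → g x = g y) ∧
      σ = fun i => ∃ x ∈ B, f x = i ∧ Pp (g x) ∈ AltOn Op
  obtain ⟨K, hK1, hK2⟩ := exists_finset G Rel E.wv {1} {1}
    (fun w hw => by
      obtain ⟨g, hg⟩ := hg hw
      exact ⟨_, hw, g, hg, rfl⟩)
    (by
      rintro w w' σ ⟨hw, g, ⟨g1, g2, g3, g4, g5⟩, hσ⟩ ⟨hw', g', ⟨g1', g2', g3', g4', g5'⟩, hσ'⟩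
      refine ⟨1, Finset.mem_singleton_self _, 1, Finset.mem_singleton_self _, ?_⟩
      have h1 : ∀ x ∈ B, (Pp (g x) ∈ AltOn Op ↔ Pp (g' x) ∈ AltOn Op) := fun x hx => by
        have := (congrFun (hσ.symm.trans hσ') (f x)).to_iff
        constructor
        · intro h
          obtain ⟨y, hy, e1, e2⟩ := this.1 ⟨x, hx, rfl, h⟩
          rwa [g5' y hy x hx (hf y hy x hx e1)] at e2
        · intro h
          obtain ⟨y, hy, e1, e2⟩ := this.2 ⟨x, hx, rfl, h⟩
          rwa [g5 y hy x hx (hf y hy x hx e1)] at e2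
      obtain ⟨o₁, ho₁, e₁⟩ := lift mp cp (g := fun x => Pp (g x) * (Pp (g' x))⁻¹)
        (g1.comp₂ g1' fun s s' => Pp s * (Pp s')⁻¹) fun x hx => by
          rw [AltOn.mul_mem_iff (hPp1 _) (sinv (hPp1 _)), inv_mem_iff]
          exact h1 x hx
      obtain ⟨o₂, ho₂, e₂⟩ := lift mm cm (g := fun x => Pm (g x) * (Pm (g' x))⁻¹)
        (g1.comp₂ g1' fun s s' => Pm s * (Pm s')⁻¹) fun x hx => by
          rw [AltOn.mul_mem_iff (hPm1 _) (sinv (hPm1 _)), inv_mem_iff,
            ← par _ (g2 x) (g4 x hx), ← par _ (g2' x) (g4' x hx)]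
          exact h1 x hx
      have s1 : ∀ x ∈ B, ∀ z ∉ FB, g x z = z := fun x _ z hz => AltOn.apply_of_not_mem (g2 x) hz
      have s2 : ∀ x ∈ B, ∀ z ∉ FB, g' x z = z := fun x _ z hz => AltOn.apply_of_not_mem (g2' x) hz
      have e₃ : E.θ (o₁ * o₂) = E.θ (t w) * (E.θ (t w'))⁻¹ := by
        rw [map_mul, e₁, e₂, g3, g3', ← msf_inv mB s2,
          ← msf_mul mB s1 (fun x hx => sinv (s2 x hx)), ← msf_mul mB]
        · refine msf_congr fun x hx => ?_
          have c1 : Commute (Pp (g' x)) (Pm (g x)) := commute_parts hdis (hPp1 _) (hPm1 _)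
          have c2 : Commute (Pp (g' x)) (Pm (g' x)) := commute_parts hdis (hPp1 _) (hPm1 _)
          conv_rhs => rw [g4 x hx, g4' x hx]
          rw [mul_assoc, (c1.mul_right c2.inv_right).inv_left.eq]
          group
        · intro x _ z hz
          rw [Perm.mul_apply, sinv (sp _) z hz, sp _ z hz]
        · intro x _ z hz
          rw [Perm.mul_apply, sinv (sm _) z hz, sm _ z hz]
      have e₄ : o₁ * o₂ = t w * (t w')⁻¹ :=
        hs.eq hB.1 mB cB (mul_mem (til_mono (L_mono subset_rfl pB) ho₁)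
          (til_mono (L_mono subset_rfl nB) ho₂)) (mul_mem (ht hw) (inv_mem (ht hw')))
          (by rw [e₃, map_mul, map_inv])
      have e₅ : o₁ * o₂ = (u w)⁻¹ * u w' :=
        hs.eq hB.1 mA cA (mul_mem (til_mono (L_mono subset_rfl pA) ho₁) (til_mono nA ho₂))
          (mul_mem (inv_mem (hu hw)) (hu hw'))
          (by rw [e₃, map_mul, map_inv, hut hw, hut hw', inv_inv])
      rw [one_mul, one_mul, hsplit hw, hsplit hw', ← mul_inv_eq_iff_eq_mul, mul_assoc, ← e₄, e₅,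
        mul_inv_cancel_left])
  refine ⟨K, hK1.trans ?_, fun w h1 h2 h3 => hK2 w ⟨h1, h2, h3⟩⟩
  simp only [Finset.card_singleton, one_mul, Fintype.card_pi, Fintype.card_prop,
    Finset.prod_const, Finset.card_univ, Fintype.card_fin]
  exact Nat.pow_le_pow_left (by norm_num) C

end Crest.Agent.R189
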