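import Crest.Agent.R189.StepA
import Crest.Agent.R189.Flux
import Crest.Agent.R189.StripDec
import Crest.Agent.R189.StepBAux

/-! Row 189: trivial words without flux take boundedly many values. -/

set_option autoImplicit false

namespace Crest.Agent.R189

open Equiv StepBAux

theorem StepBAux.parity {S : Type} {X : Sub S} {n b : ℕ} {B : Set X.Pt} {e : ℤ} {K : ℕ} {ρ : ℤ}
    {γ γ' : Perm (Hat X n)} {c β c' β' : X.Pt → Perm (Site n)} (h' : Half n b B e K ρ γ' c' β')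
    {C : ℕ} {f : X.Pt → Fin C}
    (hf : ∀ x ∈ B, ∀ y ∈ B, f x = f y → Agree (rect (-ρ) ρ (-ρ) (b + ρ)) x y)
    (_h : Half n b B e K ρ γ c β) {F : Finset (Site n)}
    (hσ : ∀ t, (∃ x ∈ B, f x = t ∧ β x ∈ AltOn F) → ∃ x ∈ B, f x = t ∧ β' x ∈ AltOn F)
    {x : X.Pt} (hx : x ∈ B) (hb : β x ∈ AltOn F) : β' x ∈ AltOn F := by
  obtain ⟨y, hy, e1, e2⟩ := hσ (f x) ⟨x, hx, rfl, hb⟩
  rwa [(h'.dep y hy x hx (hf y hy x hx e1)).2] at e2

theorem CExt.stepB {S : Type} [Finite S] {X : Sub S} {n : ℕ} {Γ : Type} [Group Γ]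
    (E : CExt X n Γ) (hn : 5 ≤ n) (hF : Free X) (hs : E.Split) (hb : HB X) :
    ∃ N : ℕ, ∀ ρ m : ℕ, ∃ K : Finset Γ, K.card ≤ N ∧ ∀ w : List (Lt X n),
      (∀ l ∈ w, l.OK ∧ l.Rad ρ) → w.length ≤ m → wperm w = 1 → (∀ x, flux w x = 0) →
        E.wv w ∈ K := by
  classical
  obtain ⟨C, hC⟩ := hb
  refine ⟨4 ^ C * 4 ^ C * 4 ^ C, fun r₀ m => ?_⟩
  obtain ⟨K, hK⟩ : ∃ K, K = 2 * r₀ * (m + 1) + 1 := ⟨_, rfl⟩
  obtain ⟨D, hD⟩ : ∃ D, D = 2 * K + (2 * r₀ + 1) * m + r₀ + 1 := ⟨_, rfl⟩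
  obtain ⟨M, hM⟩ : ∃ M, M = 4 * m + 6 := ⟨_, rfl⟩
  obtain ⟨ρ, hρ⟩ : ∃ ρ, ρ = 4 * (D + 4 * K) + 40 * (M + 1) + 10 := ⟨_, rfl⟩
  obtain ⟨a, b, b', B, B', ha, hb, hb', hB, hB', hBB, ⟨f, hf⟩, hP'⟩ := hC ρ
  obtain ⟨H, hH⟩ : ∃ H, H = 10 * (b + 1) * (M + 1) := ⟨_, rfl⟩
  have hr₀ : 2 * r₀ < K := by rw [hK]; nlinarith
  have hKD : 2 * K < D := by omega
  have hb1 : 1 ≤ b := by omega
  have hH1 : H ≤ 20 * (M + 1) * b := by rw [hH]; nlinarith
  have hρb : (40 * (M + 1) + 10) * b ≤ ρ * b := Nat.mul_le_mul_right _ (by omega)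
  have hH2 : 2 * H < b' := by nlinarith
  have hH3 : b + ρ + H ≤ ρ * b := by nlinarith
  have hH3' : (b : ℤ) + ρ + H ≤ ρ * b := by exact_mod_cast hH3
  have z1 : 2 * (r₀ : ℤ) < K := by exact_mod_cast hr₀
  have z2 : 2 * (K : ℤ) < D := by exact_mod_cast hKD
  have z3 : 4 * ((D : ℤ) + 4 * K) + 10 ≤ ρ := by exact_mod_cast (by omega : 4 * (D + 4 * K) + 10 ≤ ρ)
  have z4 : (ρ : ℤ) ≤ a := by exact_mod_cast ha
  have z5 : (ρ : ℤ) ≤ b := by exact_mod_cast hb
  have z6 : (0 : ℤ) ≤ r₀ := Int.natCast_nonneg _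
  obtain ⟨KA, hKA, hA⟩ := E.stepA hn hF hs hB' hP' (p := 1) (q := a - 1) (by linarith)
    (by linarith) (r := b) (m := M) (H := H) hH.ge hH2
  obtain ⟨KB, hKB, hB2⟩ := E.stepA hn hF hs hB' hP' (p := -D - K) (q := D + K) (by linarith)
    (by linarith) (r := b) (m := M) (H := H) hH.ge hH2
  obtain ⟨d, hdl, hdlip, hd⟩ := hB.exists_dist₁ (by omega) (by omega)
  have hd' : IsDist a B d := hd
  -- the pieces of a word
  let v : List (Lt X n) → List (Lt X n) := fun w =>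
    wres {x | r₀ < d x} w ++ winv (wres {x | r₀ < d x ∧ d x ≤ D} w)
  let u : List (Lt X n) → List (Lt X n) := fun w => wres {x | d x ≤ D} w
  have far : ∀ x ∈ B, ∀ t : V, r₀ < d (t +ᵥ x) →
      ∃ k : ℤ, 1 + k * a + r₀ ≤ t.1 ∧ t.1 + r₀ ≤ a - 1 + k * a := by
    intro x hx t ht
    have h1 : ∀ j : ℤ, (r₀ : ℤ) < |t.1 - j * a| := fun j =>
      not_le.1 fun h => absurd ((hd x hx t r₀).2 ⟨j, h⟩) (not_le.2 ht)
    have a0 : (0 : ℤ) < a := by linarith
    have e1 := Int.emod_nonneg t.1 a0.ne'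
    have e2 := Int.emod_lt_of_pos t.1 a0
    have e3 := Int.emod_add_ediv_mul t.1 a
    have h2 := h1 (t.1 / a)
    have h3 := h1 (t.1 / a + 1)
    rw [abs_of_nonneg (by linarith)] at h2
    rw [abs_of_nonpos (by linarith)] at h3
    exact ⟨t.1 / a, by linarith, by linarith⟩
  have hv : ∀ w : List (Lt X n), (∀ l ∈ w, l.OK ∧ l.Rad r₀) → ∀ l ∈ v w, l.OK ∧
      l.InStrip a B' 1 (a - 1) (rect (-ρ) (a + ρ) (-(ρ * b)) (ρ * b)) b H := by
    intro w hw l hl
    replace hl := List.mem_append.1 hl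
    rcases hl with hl | hl
    · replace hl := mem_wres.1 hl
      obtain ⟨l, hl, rfl⟩ := hl
      exact ⟨(hw l hl).1.res (hdl.setOf fun k => r₀ < k),
        inStrip_res hBB hd' (hw l hl).1 (hw l hl).2 (fun k => r₀ < k) (by omega) (by linarith)
          (by linarith) (by linarith) far⟩
    · replace hl := mem_winv.1 hl
      obtain ⟨l, hl, rfl⟩ := hl
      replace hl := mem_wres.1 hl
      obtain ⟨l, hl, rfl⟩ := hl
      exact ⟨((hw l hl).1.res (hdl.setOf fun k => r₀ < k ∧ k ≤ D)).inv,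
        (inStrip_res hBB hd' (hw l hl).1 (hw l hl).2 (fun k => r₀ < k ∧ k ≤ D) (by omega)
          (by linarith) (by linarith) (by linarith) fun x hx t ht => far x hx t ht.1).inv⟩
  have hu : ∀ w : List (Lt X n), (∀ l ∈ w, l.OK ∧ l.Rad r₀) → ∀ l ∈ u w, l.OK ∧
      l.InStrip a B' (-D - K) (D + K) (rect (-ρ) (a + ρ) (-(ρ * b)) (ρ * b)) b H := by
    intro w hw l hl
    replace hl := mem_wres.1 hl
    obtain ⟨l, hl, rfl⟩ := hl
    refine ⟨(hw l hl).1.res (hdl.setOf fun k => k ≤ D),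
      inStrip_res hBB hd' (hw l hl).1 (hw l hl).2 (fun k => k ≤ D) (by omega) (by linarith)
        (by linarith) (by linarith) fun x hx t ht => ?_⟩
    obtain ⟨j, hj⟩ := (hd x hx t D).1 ht
    have := abs_le.1 hj
    exact ⟨j, by linarith [this.1], by linarith [this.2]⟩
  have hsplit : ∀ w : List (Lt X n), (∀ l ∈ w, l.OK ∧ l.Rad r₀) → w.length ≤ m →
      E.wv w = E.wv (v w) * E.wv (u w) := by
    intro w hw hm
    rw [E.split hn hs (fun l hl => (hw l hl).1) hdl (r := 2 * r₀) (p := r₀) (q := D)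
      (fun l hl l' hl' z hz z' hz' x => (hdlip _ x).trans ?_) (by nlinarith), E.wv_append,
      E.wv_winv hn hs fun l hl => ?_]
    · replace hl := mem_wres.1 hl
      obtain ⟨l, hl, rfl⟩ := hl
      exact (hw l hl).1.res (hdl.setOf fun k => r₀ < k ∧ k ≤ D)
    · have h1 := abs_le.1 ((hw l hl).2.1 z hz).1
      have h2 := abs_le.1 ((hw l' hl').2.1 z' hz').1
      simp only [Prod.fst_sub]
      omega
  have hlen : ∀ w : List (Lt X n), w.length ≤ m → (v w).length ≤ 2 * m ∧ (u w).length ≤ m := by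
    intro w hm
    simp only [v, u, List.length_append, length_wres, length_winv]
    omega
  let G : List (Lt X n) → Prop := fun w =>
    (∀ l ∈ w, l.OK ∧ l.Rad r₀) ∧ w.length ≤ m ∧ wperm w = 1
  let Rel : List (Lt X n) → (Fin C → Prop × Prop) → Prop := fun w σ =>
    G w ∧ ∃ γ₁ γ₂ c₁ β₁ c₂ β₂, wperm (u w) = γ₁ * γ₂ ∧
      Half n b B D K ρ γ₁ c₁ β₁ ∧ Half n b B (-D) K ρ γ₂ c₂ β₂ ∧
      σ = fun t => (∃ x ∈ B, f x = t ∧ β₁ x ∈ AltOn (rsites n (D - K) (D + K) 0 (b - 1)),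
        ∃ x ∈ B, f x = t ∧ β₂ x ∈ AltOn (rsites n (-D - K) (-D + K) 0 (b - 1)))
  obtain ⟨KK, hc, hKK⟩ := exists_finset (fun w => G w ∧ ∀ x, flux w x = 0) Rel E.wv KA KB
    (fun w hw => by
      obtain ⟨γ₁, γ₂, c₁, β₁, c₂, β₂, e, H₁, H₂⟩ := exists_halves hF hn hB hd' (r₀ := r₀) (m := m)
        (K := K) (D := D) (ρ := ρ) (by omega) hKD (by omega) ha hb hw.1.1 hw.1.2.1 hw.1.2.2 hw.2
      exact ⟨_, hw.1, γ₁, γ₂, c₁, β₁, c₂, β₂, e, H₁, H₂, rfl⟩)
    (by
      rintro w w' σ ⟨⟨hw, hm, h1⟩, γ₁, γ₂, c₁, β₁, c₂, β₂, e, H₁, H₂, hσ⟩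
        ⟨⟨hw', hm', h1'⟩, γ₁', γ₂', c₁', β₁', c₂', β₂', e', H₁', H₂', hσ'⟩
      have hσ1 := fun t => (congrArg Prod.fst (congrFun (hσ.symm.trans hσ') t)).to_iff
      have hσ2 := fun t => (congrArg Prod.snd (congrFun (hσ.symm.trans hσ') t)).to_iff
      obtain ⟨o₁, l₁, p₁, k₁, s₁⟩ := H₁.word hn hB (by omega) (by omega) H₁' fun x hx =>
        ⟨parity H₁' hf H₁ (fun t => (hσ1 t).1) hx, parity H₁ hf H₁' (fun t => (hσ1 t).2) hx⟩
      obtain ⟨o₂, l₂, p₂, k₂, s₂⟩ := H₂.word hn hB (by omega) (by omega) H₂' fun x hx =>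
        ⟨parity H₂' hf H₂ (fun t => (hσ2 t).1) hx, parity H₂ hf H₂' (fun t => (hσ2 t).2) hx⟩
      have hdis : Disjoint (near n B D K) (near n B (-D) K) :=
        near_disjoint hB (by omega) (by omega)
      have cm1 : Commute γ₁' γ₂ := commute_parts hdis H₁'.off H₂.off
      have cm2 : Commute γ₁' γ₂' := commute_parts hdis H₁'.off H₂'.off
      have po : wperm (o₁ ++ o₂) = wperm (u w) * (wperm (u w'))⁻¹ := by
        rw [wperm_append, p₁, p₂, e, e', mul_assoc, (cm1.mul_right cm2.inv_right).inv_left.eq]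
        group
      have oA : ∀ l ∈ o₁ ++ o₂, l.OK ∧
          l.InStrip a B' 1 (a - 1) (rect (-ρ) (a + ρ) (-(ρ * b)) (ρ * b)) b H := by
        intro l hl
        rcases List.mem_append.1 hl with hl | hl
        · exact ⟨k₁ l hl, s₁ B' _ _ _ H hBB ⟨0, by linarith, by linarith⟩ (by linarith)
            (by linarith) hH3' l hl⟩
        · exact ⟨k₂ l hl, s₂ B' _ _ _ H hBB ⟨-1, by linarith, by linarith⟩ (by linarith)
            (by linarith) hH3' l hl⟩
      have oB : ∀ l ∈ o₁ ++ o₂, l.OK ∧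
          l.InStrip a B' (-D - K) (D + K) (rect (-ρ) (a + ρ) (-(ρ * b)) (ρ * b)) b H := by
        intro l hl
        rcases List.mem_append.1 hl with hl | hl
        · exact ⟨k₁ l hl, s₁ B' _ _ _ H hBB ⟨0, by linarith, by linarith⟩ (by linarith)
            (by linarith) hH3' l hl⟩
        · exact ⟨k₂ l hl, s₂ B' _ _ _ H hBB ⟨0, by linarith, by linarith⟩ (by linarith)
            (by linarith) hH3' l hl⟩
      have pv : ∀ w : List (Lt X n), (∀ l ∈ w, l.OK ∧ l.Rad r₀) → w.length ≤ m → wperm w = 1 →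
          wperm (v w) = (wperm (u w))⁻¹ := by
        intro w hw hm h1
        have := congrArg E.θ (hsplit w hw hm)
        rw [map_mul, E.θ_wv hn fun l hl => (hw l hl).1, E.θ_wv hn fun l hl => (hv w hw l hl).1,
          E.θ_wv hn fun l hl => (hu w hw l hl).1, h1] at this
        exact eq_inv_of_mul_eq_one_left this.symm
      have inv : ∀ {p q : ℤ} {t : List (Lt X n)}, (∀ l ∈ t, l.OK ∧
          l.InStrip a B' p q (rect (-ρ) (a + ρ) (-(ρ * b)) (ρ * b)) b H) → ∀ l ∈ winv t, l.OK ∧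
          l.InStrip a B' p q (rect (-ρ) (a + ρ) (-(ρ * b)) (ρ * b)) b H := by
        intro p q t ht l hl
        replace hl := mem_winv.1 hl
        obtain ⟨l, hl, rfl⟩ := hl
        exact ⟨(ht l hl).1.inv, (ht l hl).2.inv⟩
      have okA : ∀ l ∈ winv (v w') ++ v w ++ (o₁ ++ o₂), l.OK ∧
          l.InStrip a B' 1 (a - 1) (rect (-ρ) (a + ρ) (-(ρ * b)) (ρ * b)) b H := by
        intro l hl
        rcases List.mem_append.1 hl with hl | hl
        · rcases List.mem_append.1 hl with hl | hl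
          · exact inv (hv w' hw') l hl
          · exact hv w hw l hl
        · exact oA l hl
      have okB : ∀ l ∈ winv (o₁ ++ o₂) ++ u w ++ winv (u w'), l.OK ∧
          l.InStrip a B' (-D - K) (D + K) (rect (-ρ) (a + ρ) (-(ρ * b)) (ρ * b)) b H := by
        intro l hl
        rcases List.mem_append.1 hl with hl | hl
        · rcases List.mem_append.1 hl with hl | hl
          · exact inv oB l hl
          · exact hu w hw l hl
        · exact inv (hu w' hw') l hl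
      have tA : wperm (winv (v w') ++ v w ++ (o₁ ++ o₂)) = 1 := by
        rw [wperm_append, wperm_append, wperm_winv fun l hl => (hv w' hw' l hl).1.pre, po,
          pv w hw hm h1, pv w' hw' hm' h1']
        group
      have tB : wperm (winv (o₁ ++ o₂) ++ u w ++ winv (u w')) = 1 := by
        rw [wperm_append, wperm_append, wperm_winv fun l hl => (oA l hl).1.pre,
          wperm_winv fun l hl => (hu w' hw' l hl).1.pre, po]
        group
      have L1 := hlen w hm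
      have L2 := hlen w' hm'
      refine ⟨_, hA _ okA (by simp only [List.length_append, length_winv]; omega) tA,
        _, hB2 _ okB (by simp only [List.length_append, length_winv]; omega) tB, ?_⟩
      have hcen : E.wv (winv (v w') ++ v w ++ (o₁ ++ o₂)) *
          E.wv (winv (o₁ ++ o₂) ++ u w ++ winv (u w')) ∈ Subgroup.center Γ := by
        refine E.central ?_
        rw [MonoidHom.mem_ker, map_mul, E.θ_wv hn fun l hl => (okA l hl).1,
          E.θ_wv hn fun l hl => (okB l hl).1, tA, tB, one_mul]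
      rw [hsplit w' hw' hm', ← mul_assoc, ← Subgroup.mem_center_iff.1 hcen,
        E.wv_append (winv (v w') ++ v w), E.wv_append (winv (v w')),
        E.wv_append (winv (o₁ ++ o₂) ++ u w), E.wv_append (winv (o₁ ++ o₂)),
        E.wv_winv hn hs fun l hl => (hv w' hw' l hl).1,
        E.wv_winv hn hs fun l hl => (oA l hl).1,
        E.wv_winv hn hs fun l hl => (hu w' hw' l hl).1, hsplit w hw hm]
      group)
  refine ⟨KK, hc.trans ?_, fun w hw hm h1 h0 => hKK w ⟨⟨hw, hm, h1⟩, h0⟩⟩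
  have : Fintype.card (Fin C → Prop × Prop) = 4 ^ C := by simp
  rw [this]
  gcongr

end Crest.Agent.R189
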