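import Crest.Agent.R189.Defs

/-!
Row 189: the hierarchical tiling.  Every row and every column is a line carrying a state on each
of its edges.  In `Z h` the rows `y` with `M h ∤ y` are the low lines; the other rows and all the
columns are higher lines.
-/

set_option autoImplicit false

namespace Crest.Agent.R189

/-- Tags of lines. -/
inductive Tag | N | F | D | E
  deriving DecidableEq, Fintype

/-- The state of an upper line with respect to the marker of the lower lines it crosses. -/
inductive Us | out | bef | aft | up (q : Fin 3) | down (q : Fin 3)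
  deriving DecidableEq, Fintype

/-- The state of an edge. -/
structure St where
  /-- tag of the line -/
  tag : Tag
  /-- marker -/
  d : Option (Fin 3)
  /-- `1`: the next crossing is passive; `2`: a line tagged `D` has just been crossed -/
  p : Fin 3
  /-- state as an upper line -/
  u : Us
  /-- armed -/
  a : Bool
  deriving DecidableEq, Fintype

/-- The four edges at a crossing. -/
structure Cell where
  /-- left -/
  l : St
  /-- right -/
  r : St
  /-- bottom -/
  b : St
  /-- top -/
  t : St
  deriving DecidableEq, Fintype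

/-- The tag of an upper line, from the place where the marker enters it. -/
def tagfn : Tag → Fin 3 → Tag
  | .F, 1 => .F
  | .D, 2 => .D
  | .E, 2 => .E
  | _, _ => .N

/-- The value of `p` after an active crossing. -/
def pOf : Tag → Fin 3
  | .D => 2
  | .E => 1
  | _ => 0

/-- The moves of the marker at a crossing with a line tagged `N` or `D`. -/
def TabN (ui uo : Us) (di do' : Option (Fin 3)) : Prop :=
  (ui = uo ∧ (∀ q, ui ≠ .up q) ∧ di = none ∧ do' = none) ∨
  (∃ q, ui = .bef ∧ uo = .up q ∧ di = some q ∧ do' = none) ∨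
  ∃ q, ui = .up q ∧ uo = .aft ∧ di = none ∧ do' = some q

/-- The moves of the marker. -/
def Tab : Tag → Us → Us → Option (Fin 3) → Option (Fin 3) → Prop
  | .F, ui, uo, di, do' => ui = .out ∧ ((uo = .bef ∧ di = none ∧ do' = none) ∨
      (∃ q, uo = .up q ∧ di = some q ∧ do' = none) ∨ ∃ q, uo = .down q ∧ di = none ∧ do' = some q)
  | .E, ui, uo, di, do' => uo = .out ∧ ((ui = .aft ∧ di = none ∧ do' = none) ∨
      (∃ q, ui = .up q ∧ di = none ∧ do' = some q) ∨
      ∃ q, ui = .down (q + 1) ∧ di = some q ∧ do' = none)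
  | .N, ui, uo, di, do' => TabN ui uo di do'
  | .D, ui, uo, di, do' => TabN ui uo di do'

/-- The lower line (states `li`, `lo`) fires across the upper line (states `ui`, `uo`). -/
def Fire (li lo ui uo : St) : Prop :=
  lo.tag = li.tag ∧ uo.tag = ui.tag ∧ uo.d = ui.d ∧ uo.p = ui.p ∧
    ((li.p = 1 ∧ lo.p = 0 ∧ lo.d = li.d ∧ uo = ui) ∨
      (li.p ≠ 1 ∧ lo.p = pOf ui.tag ∧ (ui.tag = .E → li.p = 2) ∧ ui.a = false ∧
        uo.a = decide (li.tag = .E) ∧ Tab li.tag ui.u uo.u li.d lo.d ∧
        ∀ q, li.d = some q → ui.tag = tagfn li.tag q))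

/-- An armed line fires. -/
def FireA (li lo ui uo : St) : Prop :=
  li.a = true ∧ lo.a = false ∧ li.u = .out ∧ lo.u = .out ∧ Fire li lo ui uo

/-- The period of the low rows. -/
def M (h : ℕ) : ℕ := 3 * h + 1

/-- The tag of the row with residue `r`: quiet rows `1 .. h`, range `h + 1 .. 3 h`. -/
def tagAt (h : ℕ) (r : ℤ) : Tag :=
  if r = h + 1 then .F else if r = 3 * h - 1 then .D else if r = 3 * h then .E else .N

/-- The shape of the edges of a low row. -/
def LowSt (h : ℕ) (r : ℤ) (s : St) : Prop := s.tag = tagAt h r ∧ s.a = false ∧ s.u = .out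

/-- The rule at a cell of the row with residue `r`. -/
def Rule (h : ℕ) (r : ℤ) (c : Cell) : Prop :=
  if r = 0 then FireA c.l c.r c.b c.t ∨ FireA c.b c.t c.l c.r
  else LowSt h r c.l ∧ LowSt h r c.r ∧ Fire c.l c.r c.b c.t

/-- Configurations of cells. -/
abbrev Conf : Type := V → Cell

/-- Translation of configurations. -/
def sh {α : Type} (v : V) (x : V → α) : V → α := fun w => x (w + v)

/-- Neighbouring cells agree on the common edge. -/
def Match (x : Conf) : Prop :=
  ∀ c : V, (x c).r = (x (c + (1, 0))).l ∧ (x c).t = (x (c + (0, 1))).b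

/-- Matching configurations whose low rows have the right shape. -/
def Pre (h : ℕ) : Set Conf :=
  {x | Match x ∧ ∀ c : V, c.2 % M h ≠ 0 → LowSt h (c.2 % M h) (x c).l ∧ LowSt h (c.2 % M h) (x c).r}

/-- Valid configurations. -/
def Z (h : ℕ) : Set Conf := {x | Match x ∧ ∀ c : V, Rule h (c.2 % M h) (x c)}

/-- The index of the marker at the cut on the left of the column with residue `i`. -/
def mk (i : ℤ) : ℤ := if i = 0 then 0 else i - 1

/-- The pass of the marker with index `s` (`0 ≤ s < 6 h`). -/
def qOf (h : ℕ) (s : ℤ) : Fin 3 := if s < 2 * h then 0 else if s < 4 * h then 1 else 2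

/-- The position in the range of the marker with index `s`. -/
def tOf (h : ℕ) (s : ℤ) : ℤ := if s < 2 * h then s else if s < 4 * h then s - 2 * h else s - 4 * h

/-- The state of the edge of the low row `r` on the left of the column with residue `i`
(`0 ≤ i < 6 h + 1`). -/
def rowSt (h : ℕ) (i r : ℤ) : St where
  tag := tagAt h r
  d := if r = h + 1 + tOf h (mk i) then some (qOf h (mk i)) else none
  p := if i = 6 * h then 2 else if i = 0 then 1 else 0
  u := .out
  a := false

/-- The field `u` of the edge below the row `r` (`1 ≤ r ≤ 3 h + 1`) of the column with residue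
`i ≠ 0`. -/
def uAt (h : ℕ) (i r : ℤ) : Us :=
  if r ≤ h + 1 ∨ 3 * h + 1 ≤ r then .out
  else if tOf h (i - 1) = 2 * h - 1 then .down (qOf h (i - 1) + 1)
  else if r ≤ h + 1 + tOf h (i - 1) then .bef
  else if r = h + 2 + tOf h (i - 1) then .up (qOf h (i - 1)) else .aft

/-- The state of the edge below the row `r` of the column with residue `i`. -/
def colSt (h : ℕ) (i r : ℤ) (e : St) : St :=
  if i = 0 then e else { e with u := uAt h i r, a := decide (r = 3 * h + 1) }

/-- A cell of the expanded configuration. -/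
def Ecell (h : ℕ) (i r : ℤ) (σ : Cell) : Cell :=
  if r = 0 then ⟨σ.b, σ.t, if i = 0 then σ.l else { σ.l with a := true }, σ.r⟩
  else ⟨rowSt h i r, rowSt h ((i + 1) % M (2 * h)) r, colSt h i r σ.r, colSt h i (r + 1) σ.r⟩

/-- Expansion: insert the low rows and transpose. -/
def E (h : ℕ) (y : Conf) : Conf :=
  fun c => Ecell h (c.1 % M (2 * h)) (c.2 % M h) (y (c.2 / M h, c.1))

/-- The parameter at level `k`. -/
def hh (k : ℕ) : ℕ := 2 ^ (k + 1)

/-- Iterated expansion from level `k + m` to level `k`. -/
def Fm : ℕ → ℕ → Conf → Conf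
  | _, 0, y => y
  | k, m + 1, y => E (hh k) (Fm (k + 1) m y)

/-- The horizontal and vertical mesh of the grid of level `k + m` in the coordinates of level
`k`. -/
def gap : ℕ → ℕ → ℕ × ℕ
  | _, 0 => (1, 1)
  | k, m + 1 => ((gap (k + 1) m).2, M (hh k) * (gap (k + 1) m).1)

/-- The position of a vertex of level `k + m` in the coordinates of level `k`. -/
def ver (k m : ℕ) (v : V) : V :=
  if Even m then ((gap k m).1 * v.1, (gap k m).2 * v.2) else ((gap k m).1 * v.2, (gap k m).2 * v.1)

/-- Transposition of a cell. -/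
def Cell.tp (c : Cell) : Cell := ⟨c.b, c.t, c.l, c.r⟩

/-- The alphabet. -/
abbrev Sy : Type := ZMod 7 × Cell

/-- Adding the residue of the row. -/
def emb (z : Conf) : V → Sy := fun v => ((v.2 : ZMod 7), z v)

/-- All tilings. -/
def X0 : Set (V → Sy) := {x | ∃ w : V, ∃ z ∈ Z 2, x = sh w (emb z)}

/-- `c` is a vertex of the grid of level `m + 1` of `x`. -/
def At (m : ℕ) (x : V → Sy) (c : V) : Prop := ∃ y ∈ Z (hh m), sh c x = emb (Fm 0 m y)

/-- The row `r` belongs to the grid of level `m + 1`. -/
def RowGe (m : ℕ) (x : V → Sy) (r : ℤ) : Prop := ∃ s, At m x (s, r)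

/-- The column `s` belongs to the grid of level `m + 1`. -/
def ColGe (m : ℕ) (x : V → Sy) (s : ℤ) : Prop := ∃ r, At m x (s, r)

/-- The cells seen at crossings of lines of arbitrarily high finite level. -/
def Cinf : Set Cell :=
  {χ | ∀ m, ∃ x ∈ X0, At m x 0 ∧ (∃ m', ¬ RowGe m' x 0 ∧ ¬ ColGe m' x 0) ∧ (x 0).2 = χ}

/-- The tilings whose high crossings are in `Cinf`. -/
def X1 (N : ℕ) : Set (V → Sy) := {x | x ∈ X0 ∧ ∀ c, At N x c → (x c).2 ∈ Cinf}

/-- From the level `N` on, all crossings of lines of finite level are in `Cinf`. -/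
def Stab (N : ℕ) : Prop :=
  ∀ x ∈ X0, ∀ c : V, At N x c → (∃ m', ¬ RowGe m' x c.2 ∧ ¬ ColGe m' x c.1) → (x c).2 ∈ Cinf

/-- Observables for the cells of `Z h` in a regular orthomodular poset. -/
structure QModel (h : ℕ) {P : Type} [ROMP P] {e : P} (O : V → Obs P Cell e) : Prop where
  hor : ∀ (c : V) (A : Set St), (O c).f {σ | σ.r ∈ A} = (O (c + (1, 0))).f {σ | σ.l ∈ A}
  vert : ∀ (c : V) (A : Set St), (O c).f {σ | σ.t ∈ A} = (O (c + (0, 1))).f {σ | σ.b ∈ A}
  rule : ∀ c : V, (O c).f {σ | ¬ Rule h (c.2 % M h) σ} = ROMP.zero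

/-- The low cells that have the shape prescribed by the residue `i` of the column. -/
def Shape (h : ℕ) (i r : ℤ) : Set Cell :=
  {σ | ∃ σ' : Cell, (i ≠ 0 → LowSt (2 * h) i σ'.r) ∧ σ = Ecell h i r σ'}

/-- The partition according to the position of the columns. -/
structure QPart (h : ℕ) {P : Type} [ROMP P] {e : P} (O : V → Obs P Cell e)
    (G : Obs P (Fin (M (2 * h))) e) : Prop where
  shape : ∀ (i : Fin (M (2 * h))) (c : V), c.2 % M h ≠ 0 →
    ROMP.le (G.f {i}) ((O c).f (Shape h ((c.1 + (i : ℕ)) % M (2 * h)) (c.2 % M h)))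
  event : ∀ (i : Fin (M (2 * h))) (x Y : ℤ), ∃ r : ℤ, 0 < r ∧ r < M h ∧
    ∃ A, G.f {i} = (O (x, Y * M h + r)).f A

/-- Transposition `m` times. -/
def tpm (m : ℕ) (c : Cell) : Cell := if Even m then c else c.tp

/-- Equation lemmas are realised here once and for all. -/
theorem anchor_TDefs : True := by
  have := @tagfn.eq_1; have := @tagfn.eq_2; have := @tagfn.eq_3; have := @tagfn.eq_4; have := @tagfn.eq_def; have := @tagfn.congr_simp; have := @tagfn.eq_unfold; have := @tagfn.fun_cases; have := @tagfn.fun_cases_unfolding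
  have := @pOf.eq_1; have := @pOf.eq_2; have := @pOf.eq_3; have := @pOf.eq_def; have := @pOf.congr_simp; have := @pOf.eq_unfold; have := @pOf.fun_cases; have := @pOf.fun_cases_unfolding
  have := @TabN.eq_1; have := @TabN.eq_def; have := @TabN.congr_simp; have := @TabN.eq_unfold
  have := @Tab.eq_1; have := @Tab.eq_2; have := @Tab.eq_3; have := @Tab.eq_4; have := @Tab.eq_def; have := @Tab.congr_simp; have := @Tab.eq_unfold; have := @Tab.fun_cases; have := @Tab.fun_cases_unfolding
  have := @Fire.eq_1; have := @Fire.eq_def; have := @Fire.congr_simp; have := @Fire.eq_unfold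
  have := @FireA.eq_1; have := @FireA.eq_def; have := @FireA.congr_simp; have := @FireA.eq_unfold
  have := @M.eq_1; have := @M.eq_def; have := @M.congr_simp; have := @M.eq_unfold
  have := @tagAt.eq_1; have := @tagAt.eq_def; have := @tagAt.congr_simp; have := @tagAt.eq_unfold
  have := @LowSt.eq_1; have := @LowSt.eq_def; have := @LowSt.congr_simp; have := @LowSt.eq_unfold
  have := @Rule.eq_1; have := @Rule.eq_def; have := @Rule.congr_simp; have := @Rule.eq_unfold
  have := @sh.eq_1; have := @sh.eq_def; have := @sh.congr_simp; have := @sh.eq_unfold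
  have := @Match.eq_1; have := @Match.eq_def; have := @Match.congr_simp; have := @Match.eq_unfold
  have := @Pre.eq_1; have := @Pre.eq_def; have := @Pre.congr_simp; have := @Pre.eq_unfold
  have := @Z.eq_1; have := @Z.eq_def; have := @Z.congr_simp; have := @Z.eq_unfold
  have := @mk.eq_1; have := @mk.eq_def; have := @mk.congr_simp; have := @mk.eq_unfold
  have := @qOf.eq_1; have := @qOf.eq_def; have := @qOf.congr_simp; have := @qOf.eq_unfold
  have := @tOf.eq_1; have := @tOf.eq_def; have := @tOf.congr_simp; have := @tOf.eq_unfold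
  have := @rowSt.eq_1; have := @rowSt.eq_def; have := @rowSt.congr_simp; have := @rowSt.eq_unfold
  have := @uAt.eq_1; have := @uAt.eq_def; have := @uAt.congr_simp; have := @uAt.eq_unfold
  have := @colSt.eq_1; have := @colSt.eq_def; have := @colSt.congr_simp; have := @colSt.eq_unfold
  have := @Ecell.eq_1; have := @Ecell.eq_def; have := @Ecell.congr_simp; have := @Ecell.eq_unfold
  have := @E.eq_1; have := @E.eq_def; have := @E.congr_simp; have := @E.eq_unfold
  have := @hh.eq_1; have := @hh.eq_def; have := @hh.congr_simp; have := @hh.eq_unfold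
  have := @Fm.eq_1; have := @Fm.eq_2; have := @Fm.eq_def; have := @Fm.congr_simp; have := @Fm.eq_unfold; have := @Fm.induct; have := @Fm.fun_cases; have := @Fm.induct_unfolding; have := @Fm.fun_cases_unfolding
  have := @gap.eq_1; have := @gap.eq_2; have := @gap.eq_def; have := @gap.congr_simp; have := @gap.eq_unfold; have := @gap.induct; have := @gap.fun_cases; have := @gap.induct_unfolding; have := @gap.fun_cases_unfolding
  have := @ver.eq_1; have := @ver.eq_def; have := @ver.congr_simp; have := @ver.eq_unfold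
  have := @Cell.tp.eq_1; have := @Cell.tp.eq_def; have := @Cell.tp.congr_simp; have := @Cell.tp.eq_unfold
  have := @emb.eq_1; have := @emb.eq_def; have := @emb.congr_simp; have := @emb.eq_unfold
  have := @X0.eq_1; have := @X0.eq_def; have := @X0.congr_simp; have := @X0.eq_unfold
  have := @At.eq_1; have := @At.eq_def; have := @At.congr_simp; have := @At.eq_unfold
  have := @RowGe.eq_1; have := @RowGe.eq_def; have := @RowGe.congr_simp; have := @RowGe.eq_unfold
  have := @ColGe.eq_1; have := @ColGe.eq_def; have := @ColGe.congr_simp; have := @ColGe.eq_unfold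
  have := @Cinf.eq_1; have := @Cinf.eq_def; have := @Cinf.congr_simp; have := @Cinf.eq_unfold
  have := @X1.eq_1; have := @X1.eq_def; have := @X1.congr_simp; have := @X1.eq_unfold
  have := @Stab.eq_1; have := @Stab.eq_def; have := @Stab.congr_simp; have := @Stab.eq_unfold
  have := @Shape.eq_1; have := @Shape.eq_def; have := @Shape.congr_simp; have := @Shape.eq_unfold
  have := @tpm.eq_1; have := @tpm.eq_def; have := @tpm.congr_simp; have := @tpm.eq_unfold
  trivial

end Crest.Agent.R189
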