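import Crest.Agent.R189.TDefs

/-! Row 189: the expansion map of the tiling. -/

set_option autoImplicit false

namespace Crest.Agent.R189

variable {h : ℕ} {x y y' : Conf}

@[simp] theorem sh_apply {α : Type} (v : V) (x : V → α) (w : V) : sh v x w = x (w + v) := rfl

theorem sh_zero {α : Type} (x : V → α) : sh 0 x = x := by
  funext w
  simp

theorem sh_sh {α : Type} (u v : V) (x : V → α) : sh u (sh v x) = sh (u + v) x := by
  funext w
  simp [add_assoc]

theorem M_pos (h : ℕ) : (0 : ℤ) < M h := by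
  unfold M
  push_cast
  positivity

theorem two_le_hh (k : ℕ) : 2 ≤ hh k := by
  unfold hh
  calc 2 = 2 ^ 1 := by norm_num
    _ ≤ 2 ^ (k + 1) := Nat.pow_le_pow_right (by norm_num) (by omega)

theorem hh_succ (k : ℕ) : hh (k + 1) = 2 * hh k := by
  unfold hh
  ring

namespace Tile1Aux

theorem M_cast (h : ℕ) : (M h : ℤ) = 3 * h + 1 := by
  unfold M
  push_cast
  ring

theorem M2_cast (h : ℕ) : (M (2 * h) : ℤ) = 6 * h + 1 := by
  unfold M
  push_cast
  ring

theorem match_sh {y : Conf} (hy : Match y) (u : V) : Match (sh u y) := by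
  intro c
  simp only [sh_apply, add_right_comm c _ u]
  exact hy (c + u)

theorem emod_sh {m : ℤ} {u : V} (hu : m ∣ u.2) (c : V) : (c + u).2 % m = c.2 % m := by
  obtain ⟨k, hk⟩ := hu
  simp [hk]

theorem succ_emod {h : ℕ} {i : ℤ} (hi0 : 0 ≤ i) (hi : i < 6 * h) :
    (i + 1) % M (2 * h) = i + 1 := by
  rw [M2_cast]
  exact Int.emod_eq_of_lt (by omega) (by omega)

theorem succ_emod_last {h : ℕ} {i : ℤ} (hi : i = 6 * h) : (i + 1) % M (2 * h) = 0 := by
  rw [M2_cast, hi]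
  exact Int.emod_self

theorem tOf_nonneg (h : ℕ) {i : ℤ} (hi0 : 0 ≤ i) : 0 ≤ tOf h (mk i) := by
  unfold tOf mk
  split_ifs <;> omega

/-- The marker moves by one step from one column to the next. -/
theorem marker_step {h : ℕ} (hh2 : 2 ≤ h) {i : ℤ} (hi0 : 0 < i) (hi : i ≤ 6 * h) :
    0 ≤ tOf h (i - 1) ∧
    ((tOf h (i - 1) = 2 * h - 1 ∧ tOf h (mk ((i + 1) % M (2 * h))) = 0 ∧
        qOf h (mk ((i + 1) % M (2 * h))) = qOf h (i - 1) + 1) ∨
      (tOf h (i - 1) < 2 * h - 1 ∧ tOf h (mk ((i + 1) % M (2 * h))) = tOf h (i - 1) + 1 ∧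
        qOf h (mk ((i + 1) % M (2 * h))) = qOf h (i - 1))) := by
  rcases hi.lt_or_eq with h1 | h1
  · rw [succ_emod hi0.le h1]
    have hm : mk (i + 1) = i := by
      unfold mk
      split_ifs <;> omega
    rw [hm]
    unfold tOf qOf
    split_ifs <;> omega
  · rw [succ_emod_last h1]
    have hm : mk 0 = 0 := by simp [mk]
    rw [hm]
    unfold tOf qOf
    split_ifs <;> omega

theorem tag_marker {h : ℕ} (hh2 : 2 ≤ h) {i : ℤ} (hi0 : 0 < i) (hi : i ≤ 6 * h) :
    tagAt (2 * h) i = tagfn (tagAt h (h + 1 + tOf h (i - 1))) (qOf h (i - 1)) := by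
  unfold tagAt tOf qOf
  push_cast
  split_ifs <;> first | omega | rfl

theorem tab_marker {h : ℕ} (hh2 : 2 ≤ h) {i r : ℤ} (hr0 : 0 < r) (hr : r ≤ 3 * h) {t' : ℤ}
    {q' : Fin 3} (ht0 : 0 ≤ tOf h (i - 1))
    (ht : (tOf h (i - 1) = 2 * h - 1 ∧ t' = 0 ∧ q' = qOf h (i - 1) + 1) ∨
      (tOf h (i - 1) < 2 * h - 1 ∧ t' = tOf h (i - 1) + 1 ∧ q' = qOf h (i - 1))) :
    Tab (tagAt h r) (uAt h i r) (uAt h i (r + 1))
      (if r = h + 1 + tOf h (i - 1) then some (qOf h (i - 1)) else none)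
      (if r = h + 1 + t' then some q' else none) := by
  unfold uAt tagAt
  generalize tOf h (i - 1) = t at *
  generalize qOf h (i - 1) = q at *
  rcases ht with ⟨h1, rfl, rfl⟩ | ⟨h1, rfl, rfl⟩
  · split_ifs <;> first | omega | simp [Tab, TabN]
  · split_ifs <;> first | omega | simp [Tab, TabN]

theorem colSt_one {h : ℕ} (hh2 : 2 ≤ h) {i : ℤ} {e : St} (he : i ≠ 0 → LowSt (2 * h) i e) :
    colSt h i 1 e = e := by
  unfold colSt
  split_ifs with hi
  · rfl
  · obtain ⟨-, h2, h3⟩ := he hi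
    have h4 : uAt h i 1 = .out := by
      unfold uAt
      rw [if_pos (Or.inl (by omega))]
    have h5 : ¬ ((1 : ℤ) = 3 * h + 1) := by omega
    cases e
    simp_all

theorem colSt_last {h : ℕ} {i : ℤ} {e : St} (he : i ≠ 0 → LowSt (2 * h) i e) :
    colSt h i (3 * h + 1) e = if i = 0 then e else { e with a := true } := by
  unfold colSt
  split_ifs with hi
  · rfl
  · obtain ⟨-, h2, h3⟩ := he hi
    have h4 : uAt h i (3 * h + 1) = .out := by
      unfold uAt
      rw [if_pos (Or.inr le_rfl)]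
    cases e
    simp_all

theorem rowSt_quiet {h : ℕ} (hh2 : 2 ≤ h) {i r : ℤ} (hi0 : 0 ≤ i) (hr : r ≤ h) :
    rowSt h i r = ⟨.N, none, if i = 6 * h then 2 else if i = 0 then 1 else 0, .out, false⟩ := by
  have := tOf_nonneg h hi0
  have h1 : tagAt h r = .N := by
    unfold tagAt
    split_ifs <;> first | omega | rfl
  have h2 : ¬ (r = h + 1 + tOf h (mk i)) := by omega
  simp only [rowSt, h1, if_neg h2]

theorem colSt_quiet {h : ℕ} (hh2 : 2 ≤ h) {i r : ℤ} (hr : r ≤ h + 1) (e : St) :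
    colSt h i r e = if i = 0 then e else { e with u := .out, a := false } := by
  have h4 : uAt h i r = .out := by
    unfold uAt
    rw [if_pos (Or.inl hr)]
  have h5 : ¬ (r = 3 * h + 1) := by omega
  simp only [colSt, h4, h5, decide_false]

end Tile1Aux

open Tile1Aux

theorem Z_subset_Pre (h : ℕ) : Z h ⊆ Pre h := by
  intro y hy
  refine ⟨hy.1, fun c hc => ?_⟩
  have := hy.2 c
  unfold Rule at this
  rw [if_neg hc] at this
  exact ⟨this.1, this.2.1⟩

theorem sh_mem_Pre (hy : y ∈ Pre h) {u : V} (hu : (M h : ℤ) ∣ u.2) : sh u y ∈ Pre h := by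
  refine ⟨match_sh hy.1 u, fun c hc => ?_⟩
  have := hy.2 (c + u)
  rw [emod_sh hu] at this
  exact this hc

theorem sh_mem_Z (hy : y ∈ Z h) {u : V} (hu : (M h : ℤ) ∣ u.2) : sh u y ∈ Z h := by
  refine ⟨match_sh hy.1 u, fun c => ?_⟩
  have := hy.2 (c + u)
  rw [emod_sh hu] at this
  exact this

theorem Pre_nonempty (h : ℕ) : (Pre h).Nonempty := by
  refine ⟨fun c => ⟨⟨tagAt h (c.2 % M h), none, 0, .out, false⟩,
    ⟨tagAt h (c.2 % M h), none, 0, .out, false⟩, ⟨.N, none, 0, .out, false⟩,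
    ⟨.N, none, 0, .out, false⟩⟩, fun c => ⟨by simp, rfl⟩,
    fun c _ => ⟨⟨rfl, rfl, rfl⟩, ⟨rfl, rfl, rfl⟩⟩⟩

theorem E_sh (y : Conf) {u : V} (hu : (M (2 * h) : ℤ) ∣ u.2) :
    E h (sh u y) = sh (u.2, M h * u.1) (E h y) := by
  funext c
  obtain ⟨k, hk⟩ := hu
  have h1 : (c.1 + u.2) % M (2 * h) = c.1 % M (2 * h) := by simp [hk]
  have h2 : (c.2 + M h * u.1) % M h = c.2 % M h := by simp
  have h3 : (c.2 + M h * u.1) / M h = c.2 / M h + u.1 :=
    Int.add_mul_ediv_left _ _ (M_pos h).ne'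
  simp only [E, sh_apply, Prod.fst_add, Prod.snd_add, h1, h2, h3]
  rfl

/-- Low cells of the prescribed shape are valid. -/
theorem rule_Ecell_low (hh2 : 2 ≤ h) {i r : ℤ} (hi0 : 0 ≤ i) (hi : i < M (2 * h)) (hr0 : 0 < r)
    (hr : r < M h) {σ : Cell} (hσ : i ≠ 0 → LowSt (2 * h) i σ.r) : Rule h r (Ecell h i r σ) := by
  rw [M2_cast] at hi
  rw [M_cast] at hr
  unfold Rule Ecell
  rw [if_neg hr0.ne', if_neg hr0.ne']
  refine ⟨⟨rfl, rfl, rfl⟩, ⟨rfl, rfl, rfl⟩, ?_⟩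
  rcases hi0.lt_or_eq with h0 | h0
  · obtain ⟨htag, -, -⟩ := hσ h0.ne'
    have hmk : mk i = i - 1 := by
      unfold mk
      rw [if_neg h0.ne']
    obtain ⟨ht0, ht⟩ := marker_step hh2 h0 (by omega : i ≤ 6 * h)
    have htab := tab_marker hh2 hr0 (by omega : r ≤ 3 * h) ht0 ht
    have htm := tag_marker hh2 h0 (by omega : i ≤ 6 * h)
    simp only [Fire, colSt, if_neg h0.ne', rowSt, hmk, htag, true_and]
    refine Or.inr ⟨?_, ?_, ?_, ?_, ?_, htab, ?_⟩
    · split_ifs <;> decide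
    · rcases (by omega : i ≤ 6 * h).lt_or_eq with h1 | h1
      · rw [succ_emod hi0 h1]
        unfold tagAt
        push_cast
        split_ifs <;> first | omega | rfl
      · rw [succ_emod_last h1]
        unfold tagAt
        push_cast
        split_ifs <;> first | omega | rfl
    · unfold tagAt
      push_cast
      split_ifs <;> first | omega | simp
    · simp only [decide_eq_false_iff_not]
      omega
    · unfold tagAt
      split_ifs <;> simp <;> omega
    · intro q hq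
      split_ifs at hq with h1
      rw [htm, h1, Option.some.inj hq]
  · subst h0
    have h1 : ((0 : ℤ) + 1) % M (2 * h) = 1 := succ_emod le_rfl (by omega)
    have h2 : ¬ ((0 : ℤ) = 6 * h) := by omega
    have h3 : ¬ ((1 : ℤ) = 6 * h) := by omega
    rw [h1]
    simp [Fire, colSt, rowSt, mk, h2, h3]

/-- A high cell is valid if and only if the cell of the next level is valid. -/
theorem rule_Ecell_high (hh2 : 2 ≤ h) {i : ℤ} {σ : Cell}
    (hσ : i ≠ 0 → LowSt (2 * h) i σ.l ∧ LowSt (2 * h) i σ.r) :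
    Rule h 0 (Ecell h i 0 σ) ↔ Rule (2 * h) i σ := by
  unfold Rule Ecell
  by_cases hi : i = 0
  · simp only [hi, if_true]
    exact or_comm
  · obtain ⟨hl, hr⟩ := hσ hi
    simp only [hi, if_true, if_false, hl, hr, true_and]
    obtain ⟨-, hl2, hl3⟩ := hl
    obtain ⟨-, hr2, hr3⟩ := hr
    constructor
    · rintro (⟨-, -, -, -, -, -, -, -, h1 | h1⟩ | h1)
      · have := congrArg St.a h1.2.2.2
        simp [hr2] at this
      · simp at h1
      · exact h1.2.2.2.2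
    · intro h1
      exact Or.inr ⟨rfl, hr2, hl3, hr3, h1⟩

theorem Ecell_high_inj {i : ℤ} {σ σ' : Cell} (hσ : i ≠ 0 → σ.l.a = false)
    (hσ' : i ≠ 0 → σ'.l.a = false) (he : Ecell h i 0 σ = Ecell h i 0 σ') : σ = σ' := by
  obtain ⟨l, r, b, t⟩ := σ
  obtain ⟨l', r', b', t'⟩ := σ'
  simp only [Ecell, if_true, Cell.mk.injEq] at he ⊢
  obtain ⟨h1, h2, h3, h4⟩ := he
  refine ⟨?_, h4, h1, h2⟩
  split_ifs at h3 with hi
  · exact h3
  · have e1 := hσ hi
    have e2 := hσ' hi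
    cases l
    cases l'
    simp_all

theorem E_mem_Pre (hh2 : 2 ≤ h) (hy : y ∈ Pre (2 * h)) : E h y ∈ Pre h := by
  refine ⟨fun c => ⟨?_, ?_⟩, fun c hc => ?_⟩
  · simp only [E, Prod.fst_add, Prod.snd_add, add_zero, Ecell]
    split_ifs with hr
    · exact (hy.1 (c.2 / M h, c.1)).2.trans (by simp)
    · exact (hy.1 (c.2 / M h, c.1)).2.trans (by simp)
    · exact (hy.1 (c.2 / M h, c.1)).2.trans (by simp)
    · exact (hy.1 (c.2 / M h, c.1)).2.trans (by simp)
    · simp only [Int.emod_add_emod]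
  · have hlow : c.1 % M (2 * h) ≠ 0 → LowSt (2 * h) (c.1 % M (2 * h)) (y (c.2 / M h, c.1)).r :=
      fun h0 => (hy.2 (c.2 / M h, c.1) h0).2
    have hr0 : 0 ≤ c.2 % M h := Int.emod_nonneg _ (M_pos h).ne'
    have hr1 : c.2 % M h < M h := Int.emod_lt_of_pos _ (M_pos h)
    have hdiv : c.2 % M h + M h * (c.2 / M h) = c.2 := Int.emod_add_mul_ediv _ _
    simp only [E, Prod.fst_add, Prod.snd_add, add_zero]
    by_cases hlast : c.2 % M h + 1 < M h
    · obtain ⟨h1, h2⟩ : (c.2 + 1) / M h = c.2 / M h ∧ (c.2 + 1) % M h = c.2 % M h + 1 :=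
        (Int.ediv_emod_unique (M_pos h)).2 ⟨by linarith, by omega, hlast⟩
      rw [h1, h2]
      have h3 : c.2 % M h + 1 ≠ 0 := by omega
      unfold Ecell
      rw [if_neg h3]
      by_cases hr : c.2 % M h = 0
      · rw [if_pos hr, hr, zero_add]
        exact (colSt_one hh2 hlow).symm
      · rw [if_neg hr]
    · have h0 : c.2 % M h = 3 * h := by
        rw [M_cast h] at hr1 hlast ⊢
        omega
      obtain ⟨h1, h2⟩ : (c.2 + 1) / M h = c.2 / M h + 1 ∧ (c.2 + 1) % M h = 0 :=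
        (Int.ediv_emod_unique (M_pos h)).2
          ⟨by have := M_cast h; linarith, le_rfl, M_pos h⟩
      rw [h1, h2, h0]
      have h3 : (3 * h : ℤ) ≠ 0 := by omega
      unfold Ecell
      rw [if_neg h3, if_pos rfl]
      have h4 : (y (c.2 / M h, c.1)).r = (y (c.2 / M h + 1, c.1)).l :=
        (hy.1 (c.2 / M h, c.1)).1.trans (by simp)
      rw [← h4]
      exact colSt_last hlow
  · simp only [E, Ecell, if_neg hc]
    exact ⟨⟨rfl, rfl, rfl⟩, ⟨rfl, rfl, rfl⟩⟩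

theorem rule_E_low (hh2 : 2 ≤ h) (hy : y ∈ Pre (2 * h)) {c : V} (hc : c.2 % M h ≠ 0) :
    Rule h (c.2 % M h) (E h y c) := by
  have hr0 : 0 ≤ c.2 % M h := Int.emod_nonneg _ (M_pos h).ne'
  exact rule_Ecell_low hh2 (Int.emod_nonneg _ (M_pos _).ne') (Int.emod_lt_of_pos _ (M_pos _))
    (by omega) (Int.emod_lt_of_pos _ (M_pos _)) fun h0 => (hy.2 (c.2 / M h, c.1) h0).2

theorem rule_E_high (hh2 : 2 ≤ h) (hy : y ∈ Pre (2 * h)) (v : V) :
    Rule h 0 (E h y (v.2, M h * v.1)) ↔ Rule (2 * h) (v.2 % M (2 * h)) (y v) := by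
  have h1 : (M h * v.1) % M h = 0 := Int.mul_emod_right _ _
  have h2 : (M h * v.1) / M h = v.1 := Int.mul_ediv_cancel_left _ (M_pos h).ne'
  simp only [E, h1, h2]
  exact rule_Ecell_high hh2 fun h0 => hy.2 v h0

theorem E_mem_Z (hh2 : 2 ≤ h) (hy : y ∈ Z (2 * h)) : E h y ∈ Z h := by
  have hp := Z_subset_Pre _ hy
  refine ⟨(E_mem_Pre hh2 hp).1, fun c => ?_⟩
  by_cases hc : c.2 % M h = 0
  · have h1 := (rule_E_high hh2 hp (c.2 / M h, c.1)).2 (hy.2 _)
    have h2 : M h * (c.2 / M h) = c.2 := by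
      have := Int.emod_add_mul_ediv c.2 (M h)
      rwa [hc, zero_add] at this
    simp only [h2] at h1
    rw [hc]
    exact h1
  · exact rule_E_low hh2 hp hc

/-- The passive columns are recognisable. -/
theorem E_l_p (hh2 : 2 ≤ h) (y : Conf) {c : V} (hc : c.2 % M h ≠ 0) :
    (E h y c).l.p = 1 ↔ (M (2 * h) : ℤ) ∣ c.1 := by
  rw [Int.dvd_iff_emod_eq_zero]
  simp only [E, Ecell, if_neg hc, rowSt]
  generalize c.1 % M (2 * h) = i
  split_ifs with h1 h2
  · simp only [h1]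
    constructor
    · intro h3
      exact absurd h3 (by decide)
    · omega
  · simp [h2]
  · simp [h2]

/-- In the quiet rows the cells do not depend on the row. -/
theorem Ecell_quiet (hh2 : 2 ≤ h) {i r : ℤ} (hi0 : 0 ≤ i) (hi : i < M (2 * h)) (hr0 : 1 ≤ r)
    (hr : r ≤ h) (σ : Cell) : Ecell h i r σ = Ecell h i 1 σ := by
  have h1 : 0 ≤ (i + 1) % M (2 * h) := Int.emod_nonneg _ (M_pos _).ne'
  unfold Ecell
  rw [if_neg (by omega : r ≠ 0), if_neg (by omega : (1 : ℤ) ≠ 0), rowSt_quiet hh2 hi0 hr,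
    rowSt_quiet hh2 h1 hr, rowSt_quiet hh2 hi0 (by omega : (1 : ℤ) ≤ h),
    rowSt_quiet hh2 h1 (by omega : (1 : ℤ) ≤ h), colSt_quiet hh2 (by omega : r ≤ h + 1),
    colSt_quiet hh2 (by omega : r + 1 ≤ h + 1), colSt_quiet hh2 (by omega : (1 : ℤ) ≤ h + 1),
    colSt_quiet hh2 (by omega : (1 : ℤ) + 1 ≤ h + 1)]

/-- Above a line of the third level, the first quiet cell is standard away from four columns. -/
theorem Ecell_standard (hh2 : 2 ≤ h) {i i' : ℤ} (hi0 : 0 < i) (hi : i < 6 * h - 1)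
    (hiF : i ≠ 2 * h + 1) (hi0' : 0 < i') (hi' : i' < 6 * h - 1) (hiF' : i' ≠ 2 * h + 1)
    {σ σ' : Cell} (hσ : σ.r = rowSt (2 * h) 1 i) (hσ' : σ'.r = rowSt (2 * h) 1 i') :
    Ecell h i 1 σ = Ecell h i' 1 σ' := by
  have key : ∀ {j : ℤ} {τ : Cell}, 0 < j → j < 6 * h - 1 → j ≠ 2 * h + 1 →
      τ.r = rowSt (2 * h) 1 j → Ecell h j 1 τ = ⟨⟨.N, none, 0, .out, false⟩,
        ⟨.N, none, 0, .out, false⟩, ⟨.N, none, 0, .out, false⟩, ⟨.N, none, 0, .out, false⟩⟩ := by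
    intro j τ hj0 hj hjF hτ
    have h1 : tagAt (2 * h) j = .N := by
      unfold tagAt
      push_cast
      split_ifs <;> first | omega | rfl
    have h2 : tOf (2 * h) (mk 1) = 0 := by
      unfold tOf mk
      push_cast
      split_ifs <;> omega
    have h3 : rowSt (2 * h) 1 j = ⟨.N, none, 0, .out, false⟩ := by
      have h4 : ¬ (j = ((2 * h : ℕ) : ℤ) + 1 + 0) := by
        push_cast
        omega
      have h5 : ¬ ((1 : ℤ) = 6 * ((2 * h : ℕ) : ℤ)) := by
        push_cast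
        omega
      simp only [rowSt, h1, h2, if_neg h4, if_neg h5, if_neg (one_ne_zero : (1 : ℤ) ≠ 0)]
    unfold Ecell
    rw [if_neg (by omega : (1 : ℤ) ≠ 0), succ_emod hj0.le (by omega),
      rowSt_quiet hh2 hj0.le (by omega : (1 : ℤ) ≤ h),
      rowSt_quiet hh2 (by omega : 0 ≤ j + 1) (by omega : (1 : ℤ) ≤ h),
      colSt_quiet hh2 (by omega : (1 : ℤ) ≤ h + 1),
      colSt_quiet hh2 (by omega : (1 : ℤ) + 1 ≤ h + 1), hτ, h3, if_neg (by omega : j ≠ 6 * h),
      if_neg hj0.ne', if_neg hj0.ne', if_neg (by omega : j + 1 ≠ 6 * h),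
      if_neg (by omega : j + 1 ≠ 0)]
  rw [key hi0 hi hiF hσ, key hi0' hi' hiF' hσ']

end Crest.Agent.R189
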