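import Crest.Agent.R189.Tile1

/-! Row 189: iterated expansion. -/

set_option autoImplicit false

namespace Crest.Agent.R189

variable {k m : ℕ} {y y' : Conf}

theorem gap_pos (k m : ℕ) : 0 < (gap k m).1 ∧ 0 < (gap k m).2 := by
  induction m generalizing k with
  | zero => simp [gap]
  | succ m ih =>
    obtain ⟨h1, h2⟩ := ih (k + 1)
    have h3 : 0 < M (hh k) := by unfold M; omega
    exact ⟨h2, Nat.mul_pos h3 h1⟩

theorem gap_succ (k m : ℕ) : gap k (m + 1) =
    if Even m then ((gap k m).1, M (hh (k + m)) * (gap k m).2)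
    else (M (hh (k + m)) * (gap k m).1, (gap k m).2) := by
  induction m generalizing k with
  | zero => simp [gap]
  | succ m ih =>
    have e : k + (m + 1) = k + 1 + m := by omega
    rw [gap.eq_2 k (m + 1), ih (k + 1), e, gap.eq_2 k m]
    by_cases hm : Even m
    · have hm' : ¬ Even (m + 1) := by simpa [Nat.even_add_one] using hm
      simp only [if_pos hm, if_neg hm']
    · have hm' : Even (m + 1) := by simpa [Nat.even_add_one] using hm
      simp only [if_neg hm, if_pos hm', mul_left_comm (M (hh k))]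

theorem gap_dvd (k : ℕ) {m m' : ℕ} (h : m ≤ m') :
    (gap k m).1 ∣ (gap k m').1 ∧ (gap k m).2 ∣ (gap k m').2 := by
  induction m', h using Nat.le_induction with
  | base => exact ⟨dvd_rfl, dvd_rfl⟩
  | succ n _ ih =>
    rw [gap_succ]
    split_ifs
    · exact ⟨ih.1, ih.2.mul_left _⟩
    · exact ⟨ih.1.mul_left _, ih.2⟩

theorem gap_large (k r : ℕ) : ∃ m₀, ∀ m, m₀ ≤ m → r ≤ (gap k m).1 ∧ r ≤ (gap k m).2 := by
  have key : ∀ m k : ℕ, m / 2 + 1 ≤ (gap k m).1 ∧ (m + 1) / 2 + 1 ≤ (gap k m).2 := by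
    intro m
    induction m with
    | zero => intro k; simp [gap]
    | succ m ih =>
      intro k
      obtain ⟨h1, h2⟩ := ih (k + 1)
      have h3 : 2 ≤ M (hh k) := by
        have := two_le_hh k
        unfold M
        omega
      refine ⟨h2, ?_⟩
      have h4 : 2 * (gap (k + 1) m).1 ≤ M (hh k) * (gap (k + 1) m).1 :=
        Nat.mul_le_mul_right _ h3
      change (m + 1 + 1) / 2 + 1 ≤ M (hh k) * (gap (k + 1) m).1
      omega
  refine ⟨2 * r, fun m hm => ?_⟩
  obtain ⟨h1, h2⟩ := key m k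
  omega

theorem hh_large (r : ℕ) : ∃ m₀, ∀ m, m₀ ≤ m → r ≤ hh m := by
  refine ⟨r, fun m hm => ?_⟩
  have : m + 1 < 2 ^ (m + 1) := Nat.lt_two_pow_self
  unfold hh
  omega

/-- The quiet zones are much higher than the mesh along them. -/
theorem gap_ratio (t : ℕ) : ∃ m₀, ∀ m, m₀ ≤ m →
    (Even m → t * (gap 0 m).1 ≤ hh m * (gap 0 m).2) ∧
    (¬ Even m → t * (gap 0 m).2 ≤ hh m * (gap 0 m).1) := by
  have hM : ∀ j, M (hh (j + 1)) ≤ 2 * M (hh j) := by
    intro j
    rw [hh_succ]
    unfold M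
    omega
  have hodd : ∀ n, gap 0 (2 * n + 1) = ((gap 0 (2 * n)).1, M (hh (2 * n)) * (gap 0 (2 * n)).2) := by
    intro n
    rw [gap_succ, if_pos (even_two_mul n), zero_add]
  have heven : ∀ n, gap 0 (2 * (n + 1)) =
      (M (hh (2 * n + 1)) * (gap 0 (2 * n)).1, M (hh (2 * n)) * (gap 0 (2 * n)).2) := by
    intro n
    have e : 2 * (n + 1) = 2 * n + 1 + 1 := by ring
    have hn : ¬ Even (2 * n + 1) := by simp
    rw [e, gap_succ, if_neg hn, zero_add, hodd]
  have key : ∀ n, (gap 0 (2 * n)).1 ≤ 2 ^ n * (gap 0 (2 * n)).2 ∧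
      M (hh (2 * n)) * (gap 0 (2 * n)).2 ≤ 7 * 2 ^ n * (gap 0 (2 * n)).1 := by
    intro n
    induction n with
    | zero => simp [gap, M, hh]
    | succ n ih =>
      obtain ⟨h1, h2⟩ := ih
      rw [heven]
      have e : 2 * (n + 1) = 2 * n + 1 + 1 := by ring
      constructor
      · calc M (hh (2 * n + 1)) * (gap 0 (2 * n)).1
            ≤ (2 * M (hh (2 * n))) * (2 ^ n * (gap 0 (2 * n)).2) := Nat.mul_le_mul (hM _) h1
          _ = 2 ^ (n + 1) * (M (hh (2 * n)) * (gap 0 (2 * n)).2) := by ring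
      · rw [e]
        calc M (hh (2 * n + 1 + 1)) * (M (hh (2 * n)) * (gap 0 (2 * n)).2)
            ≤ (2 * M (hh (2 * n + 1))) * (7 * 2 ^ n * (gap 0 (2 * n)).1) :=
              Nat.mul_le_mul (hM _) h2
          _ = 7 * 2 ^ (n + 1) * (M (hh (2 * n + 1)) * (gap 0 (2 * n)).1) := by ring
  refine ⟨2 * (7 * t), fun m hm => ⟨fun he => ?_, fun ho => ?_⟩⟩
  · obtain ⟨n, rfl⟩ : ∃ n, m = 2 * n := ⟨m / 2, by rcases he with ⟨r, hr⟩; omega⟩
    have h1 : n < 2 ^ n := Nat.lt_two_pow_self
    have h2 : t ≤ 2 * 2 ^ n := by omega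
    calc t * (gap 0 (2 * n)).1 ≤ (2 * 2 ^ n) * (2 ^ n * (gap 0 (2 * n)).2) :=
          Nat.mul_le_mul h2 (key n).1
      _ = hh (2 * n) * (gap 0 (2 * n)).2 := by unfold hh; ring
  · obtain ⟨n, rfl⟩ : ∃ n, m = 2 * n + 1 := Nat.not_even_iff_odd.1 ho
    have h1 : n < 2 ^ n := Nat.lt_two_pow_self
    have h2 : t * 7 ≤ 4 * 2 ^ n := by omega
    rw [hodd]
    calc t * (M (hh (2 * n)) * (gap 0 (2 * n)).2) ≤ t * (7 * 2 ^ n * (gap 0 (2 * n)).1) :=
          Nat.mul_le_mul_left _ (key n).2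
      _ = (t * 7) * (2 ^ n * (gap 0 (2 * n)).1) := by ring
      _ ≤ (4 * 2 ^ n) * (2 ^ n * (gap 0 (2 * n)).1) := Nat.mul_le_mul_right _ h2
      _ = hh (2 * n + 1) * (gap 0 (2 * n)).1 := by unfold hh; ring

theorem ver_zero (k m : ℕ) : ver k m 0 = 0 := by
  unfold ver
  split_ifs <;> simp

theorem ver_add (k m : ℕ) (u v : V) : ver k m (u + v) = ver k m u + ver k m v := by
  unfold ver
  split_ifs <;> simp [mul_add]

theorem ver_succ (k m : ℕ) (v : V) :
    ver k (m + 1) v = ((ver (k + 1) m v).2, M (hh k) * (ver (k + 1) m v).1) := by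
  unfold ver
  rw [gap.eq_2 k m]
  by_cases hm : Even m
  · have hm' : ¬ Even (m + 1) := by simpa [Nat.even_add_one] using hm
    simp only [if_pos hm, if_neg hm', Nat.cast_mul, mul_assoc]
  · have hm' : Even (m + 1) := by simpa [Nat.even_add_one] using hm
    simp only [if_neg hm, if_pos hm', Nat.cast_mul, mul_assoc]

theorem ver_succ' (k m : ℕ) (v : V) :
    ver k (m + 1) v = ver k m (v.2, M (hh (k + m)) * v.1) := by
  unfold ver
  rw [gap_succ k m]
  by_cases hm : Even m
  · have hm' : ¬ Even (m + 1) := by simpa [Nat.even_add_one] using hm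
    simp only [if_pos hm, if_neg hm', Nat.cast_mul, Prod.mk.injEq, true_and]
    ring
  · have hm' : Even (m + 1) := by simpa [Nat.even_add_one] using hm
    simp only [if_neg hm, if_pos hm', Nat.cast_mul, Prod.mk.injEq, and_true]
    ring

theorem exists_ver_iff (k m : ℕ) (c : V) : (∃ u : V, c = ver k m u) ↔
    ((gap k m).1 : ℤ) ∣ c.1 ∧ ((gap k m).2 : ℤ) ∣ c.2 := by
  unfold ver
  constructor
  · rintro ⟨u, rfl⟩
    split_ifs <;> exact ⟨dvd_mul_right _ _, dvd_mul_right _ _⟩
  · rintro ⟨⟨a, ha⟩, ⟨b, hb⟩⟩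
    by_cases hm : Even m
    · exact ⟨(a, b), by rw [if_pos hm]; exact Prod.ext ha hb⟩
    · exact ⟨(b, a), by rw [if_neg hm]; exact Prod.ext ha hb⟩

theorem exists_ver_high_iff (k m : ℕ) (c : V) :
    (∃ u : V, (M (hh (k + m)) : ℤ) ∣ u.2 ∧ c = ver k m u) ↔
      ((gap k (m + 1)).1 : ℤ) ∣ c.1 ∧ ((gap k (m + 1)).2 : ℤ) ∣ c.2 := by
  rw [← exists_ver_iff]
  constructor
  · rintro ⟨u, ⟨a, ha⟩, rfl⟩
    refine ⟨(a, u.1), ?_⟩
    rw [ver_succ', ← ha]
  · rintro ⟨v, rfl⟩
    exact ⟨(v.2, M (hh (k + m)) * v.1), dvd_mul_right _ _, ver_succ' k m v⟩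

namespace Tile2Aux

theorem ver_zero_level (k : ℕ) (v : V) : ver k 0 v = v := by
  simp [ver, gap]

theorem ver_dvd {u : V} (hu : (M (hh (k + m)) : ℤ) ∣ u.2) : (M (hh k) : ℤ) ∣ (ver k m u).2 := by
  cases m with
  | zero => rwa [ver_zero_level]
  | succ m =>
    rw [ver_succ]
    exact dvd_mul_right _ _

theorem Fm_succ_ver (k m : ℕ) (y : Conf) (v : V) : Fm k (m + 1) y (ver k (m + 1) v) =
    Ecell (hh k) ((ver (k + 1) m v).2 % M (2 * hh k)) 0 (Fm (k + 1) m y (ver (k + 1) m v)) := by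
  have h1 : (M (hh k) * (ver (k + 1) m v).1) % M (hh k) = 0 := Int.mul_emod_right _ _
  have h2 : (M (hh k) * (ver (k + 1) m v).1) / M (hh k) = (ver (k + 1) m v).1 :=
    Int.mul_ediv_cancel_left _ (M_pos _).ne'
  rw [ver_succ]
  simp only [Fm, E, h1, h2]

end Tile2Aux

theorem Fm_succ' (k m : ℕ) (y : Conf) : Fm k (m + 1) y = Fm k m (E (hh (k + m)) y) := by
  induction m generalizing k with
  | zero => rfl
  | succ m ih =>
    have e : k + (m + 1) = k + 1 + m := by omega
    change E (hh k) (Fm (k + 1) (m + 1) y) = E (hh k) (Fm (k + 1) m (E (hh (k + (m + 1))) y))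
    rw [ih (k + 1), e]

theorem Fm_mem_Pre (hy : y ∈ Pre (hh (k + m))) : Fm k m y ∈ Pre (hh k) := by
  induction m generalizing k with
  | zero => exact hy
  | succ m ih =>
    have e : k + (m + 1) = k + 1 + m := by omega
    rw [e] at hy
    have := ih hy
    rw [hh_succ] at this
    exact E_mem_Pre (two_le_hh k) this

theorem Fm_mem_Z (hy : y ∈ Z (hh (k + m))) : Fm k m y ∈ Z (hh k) := by
  induction m generalizing k with
  | zero => exact hy
  | succ m ih =>
    have e : k + (m + 1) = k + 1 + m := by omega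
    rw [e] at hy
    have := ih hy
    rw [hh_succ] at this
    exact E_mem_Z (two_le_hh k) this

theorem Fm_sh (y : Conf) {u : V} (hu : (M (hh (k + m)) : ℤ) ∣ u.2) :
    Fm k m (sh u y) = sh (ver k m u) (Fm k m y) := by
  induction m generalizing k with
  | zero => rw [Tile2Aux.ver_zero_level]; rfl
  | succ m ih =>
    have e : k + (m + 1) = k + 1 + m := by omega
    rw [e] at hu
    have h1 := Tile2Aux.ver_dvd hu
    rw [hh_succ] at h1
    rw [Fm.eq_2, ih hu, E_sh _ h1, ver_succ, Fm.eq_2]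

/-- One cell of the high level determines everything within the mesh around its vertex. -/
theorem det_cell (hy : y ∈ Pre (hh (k + m))) (hy' : y' ∈ Pre (hh (k + m))) {v : V}
    (h : y v = y' v) {c : V} (h1 : |c.1 - (ver k m v).1| < (gap k m).1)
    (h2 : |c.2 - (ver k m v).2| < (gap k m).2) : Fm k m y c = Fm k m y' c := by
  induction m generalizing k c with
  | zero =>
    rw [Tile2Aux.ver_zero_level] at h1 h2
    simp only [gap, Nat.cast_one, Int.abs_lt_one_iff, sub_eq_zero] at h1 h2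
    have : c = v := Prod.ext h1 h2
    rw [this]
    exact h
  | succ m ih =>
    have e : k + (m + 1) = k + 1 + m := by omega
    rw [e] at hy hy'
    rw [ver_succ, gap.eq_2] at h1 h2
    simp only [Nat.cast_mul] at h1 h2
    have hM := M_pos (hh k)
    have hA : (0 : ℤ) < (gap (k + 1) m).1 := by exact_mod_cast (gap_pos (k + 1) m).1
    have hr0 : 0 ≤ c.2 % M (hh k) := Int.emod_nonneg _ hM.ne'
    have hr1 : c.2 % M (hh k) < M (hh k) := Int.emod_lt_of_pos _ hM
    have hdiv : c.2 % M (hh k) + M (hh k) * (c.2 / M (hh k)) = c.2 := Int.emod_add_mul_ediv _ _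
    simp only [Fm, E]
    have hz := (Fm_mem_Pre hy).1
    have hz' := (Fm_mem_Pre hy').1
    replace ih := fun (c' : V) => ih (k := k + 1) hy hy' (c := c')
    generalize c.2 % M (hh k) = r at *
    generalize c.2 / M (hh k) = Y at *
    generalize ver (k + 1) m v = w at *
    generalize ((gap (k + 1) m).1 : ℤ) = A at *
    obtain ⟨h3, h4⟩ := abs_lt.1 h2
    have h5 : Y - w.1 < A := by
      by_contra hc
      have : (M (hh k) : ℤ) * A ≤ M (hh k) * (Y - w.1) :=
        mul_le_mul_of_nonneg_left (not_lt.1 hc) hM.le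
      linarith
    have h6 : -A ≤ Y - w.1 := by
      by_contra hc
      have : (M (hh k) : ℤ) * (Y - w.1) ≤ M (hh k) * (-A - 1) :=
        mul_le_mul_of_nonneg_left (by omega) hM.le
      linarith
    rcases h6.lt_or_eq with h7 | h7
    · rw [ih (Y, c.1) (abs_lt.2 ⟨h7, h5⟩) h1]
    · have hr : r ≠ 0 := by
        rintro rfl
        have : (M (hh k) : ℤ) * (Y - w.1) = M (hh k) * (-A) := by rw [h7]
        linarith
      have h8 := ih (Y + 1, c.1) (abs_lt.2 ⟨by simp only; omega, by simp only; omega⟩) h1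
      have h9 : (Fm (k + 1) m y (Y, c.1)).r = (Fm (k + 1) m y' (Y, c.1)).r := by
        rw [(hz (Y, c.1)).1, (hz' (Y, c.1)).1]
        simp only [Prod.mk_add_mk, add_zero]
        rw [h8]
      simp only [Ecell, if_neg hr, h9]

/-- Off the grid the edges do not depend on the high level. -/
theorem det_off (k m : ℕ) (y y' : Conf) (c : V) :
    (¬ ((gap k m).2 : ℤ) ∣ c.2 → (Fm k m y c).l = (Fm k m y' c).l ∧
      (Fm k m y c).r = (Fm k m y' c).r) ∧
    (¬ ((gap k m).1 : ℤ) ∣ c.1 → (Fm k m y c).b = (Fm k m y' c).b ∧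
      (Fm k m y c).t = (Fm k m y' c).t) := by
  induction m generalizing k c with
  | zero => simp [gap]
  | succ m ih =>
    obtain ⟨ih1, ih2⟩ := ih (k + 1) (c.2 / M (hh k), c.1)
    rw [gap.eq_2]
    simp only [Fm, E, Nat.cast_mul]
    constructor
    · intro hc
      by_cases hr : c.2 % M (hh k) = 0
      · have hdiv : M (hh k) * (c.2 / M (hh k)) = c.2 := by
          have := Int.emod_add_mul_ediv c.2 (M (hh k))
          rwa [hr, zero_add] at this
        have h1 : ¬ ((gap (k + 1) m).1 : ℤ) ∣ c.2 / M (hh k) := by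
          intro hd
          apply hc
          rw [← hdiv]
          exact mul_dvd_mul_left _ hd
        simp only [Ecell, if_pos hr]
        exact ih2 h1
      · simp only [Ecell, if_neg hr, and_self]
    · intro hc
      obtain ⟨h1, h2⟩ := ih1 hc
      by_cases hr : c.2 % M (hh k) = 0
      · simp only [Ecell, if_pos hr, h1, h2, and_self]
      · simp only [Ecell, if_neg hr, h2, and_self]

theorem Fm_ver_inj (hy : y ∈ Pre (hh (k + m))) (hy' : y' ∈ Pre (hh (k + m))) {v : V}
    (h : Fm k m y (ver k m v) = Fm k m y' (ver k m v)) : y v = y' v := by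
  induction m generalizing k with
  | zero => rwa [Tile2Aux.ver_zero_level] at h
  | succ m ih =>
    have e : k + (m + 1) = k + 1 + m := by omega
    rw [e] at hy hy'
    rw [Tile2Aux.Fm_succ_ver, Tile2Aux.Fm_succ_ver] at h
    have hz := (Fm_mem_Pre hy).2 (ver (k + 1) m v)
    have hz' := (Fm_mem_Pre hy').2 (ver (k + 1) m v)
    rw [hh_succ] at hz hz'
    exact ih hy hy' (Ecell_high_inj (fun h0 => (hz h0).1.2.1) (fun h0 => (hz' h0).1.2.1) h)

theorem Fm_ver (y : Conf) {v : V} (hv : (M (hh (k + m)) : ℤ) ∣ v.2) :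
    Fm k m y (ver k m v) = tpm m (y v) := by
  induction m generalizing k with
  | zero => rw [Tile2Aux.ver_zero_level]; simp [Fm, tpm]
  | succ m ih =>
    have e : k + (m + 1) = k + 1 + m := by omega
    rw [e] at hv
    have h1 := Tile2Aux.ver_dvd hv
    rw [hh_succ] at h1
    rw [Tile2Aux.Fm_succ_ver, Int.emod_eq_zero_of_dvd h1, ih hv]
    by_cases hm : Even m
    · have hm' : ¬ Even (m + 1) := by simpa [Nat.even_add_one] using hm
      simp only [tpm, if_pos hm, if_neg hm', Ecell, if_true, Cell.tp]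
    · have hm' : Even (m + 1) := by simpa [Nat.even_add_one] using hm
      simp only [tpm, if_neg hm, if_pos hm', Ecell, if_true, Cell.tp]

theorem tpm_inj (m : ℕ) {σ σ' : Cell} (h : tpm m σ = tpm m σ') : σ = σ' := by
  unfold tpm at h
  split_ifs at h
  · exact h
  · obtain ⟨l, r, b, t⟩ := σ
    obtain ⟨l', r', b', t'⟩ := σ'
    simp only [Cell.tp, Cell.mk.injEq] at h ⊢
    tauto

theorem rule_Fm (hy : y ∈ Pre (hh (k + m))) {c : V}
    (hc : ¬ (((gap k m).1 : ℤ) ∣ c.1 ∧ ((gap k m).2 : ℤ) ∣ c.2)) :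
    Rule (hh k) (c.2 % M (hh k)) (Fm k m y c) := by
  induction m generalizing k c with
  | zero => simp [gap] at hc
  | succ m ih =>
    have e : k + (m + 1) = k + 1 + m := by omega
    rw [e] at hy
    have hz := Fm_mem_Pre hy
    rw [hh_succ] at hz
    rw [Fm.eq_2]
    by_cases hr : c.2 % M (hh k) = 0
    · have hdiv : M (hh k) * (c.2 / M (hh k)) = c.2 := by
        have := Int.emod_add_mul_ediv c.2 (M (hh k))
        rwa [hr, zero_add] at this
      rw [gap.eq_2] at hc
      simp only [Nat.cast_mul] at hc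
      have h1 := ih (k := k + 1) hy (c := (c.2 / M (hh k), c.1)) (by
        rintro ⟨h1, h2⟩
        refine hc ⟨h2, ?_⟩
        rw [← hdiv]
        exact mul_dvd_mul_left _ h1)
      rw [hh_succ] at h1
      have h2 := (rule_E_high (two_le_hh k) hz (c.2 / M (hh k), c.1)).2 h1
      simp only [hdiv] at h2
      rw [hr]
      exact h2
    · exact rule_E_low (two_le_hh k) hz hr

end Crest.Agent.R189
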