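import Crest.Agent.R189.Tile2
import Crest.Agent.R189.QRig
import Crest.Agent.R189.Sub

/-! Row 189: the grids of a tiling. -/

set_option autoImplicit false

namespace Crest.Agent.R189

variable {m : ℕ} {x x' : V → Sy} {c c' : V}

namespace Tile3Aux

theorem M_two : (M 2 : ℤ) = 7 := by norm_num [M]

theorem M_hh_zero : (M (hh 0) : ℤ) = 7 := by norm_num [M, hh]

theorem emb_inj {z z' : Conf} (h : emb z = emb z') : z = z' :=
  funext fun v => congrArg Prod.snd (congrFun h v)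

theorem sh_emb (z : Conf) {w : V} (hw : (7 : ℤ) ∣ w.2) : sh w (emb z) = emb (sh w z) := by
  funext v
  have : ((w.2 : ℤ) : ZMod 7) = 0 := (ZMod.intCast_zmod_eq_zero_iff_dvd _ 7).2 hw
  simp [emb, this]

theorem dvd_of_sh_emb {z : Conf} {w : V} (h : (sh w (emb z) 0).1 = 0) : (7 : ℤ) ∣ w.2 := by
  have : ((w.2 : ℤ) : ZMod 7) = 0 := by simpa [emb] using h
  exact (ZMod.intCast_zmod_eq_zero_iff_dvd _ 7).1 this

theorem seven_dvd_ver {u : V} (hu : (M (hh m) : ℤ) ∣ u.2) : (7 : ℤ) ∣ (ver 0 m u).2 := by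
  have h := ((exists_ver_high_iff 0 m (ver 0 m u)).1 ⟨u, by rwa [Nat.zero_add], rfl⟩).2
  refine Dvd.dvd.trans ?_ h
  show (7 : ℤ) ∣ ((M (hh 0) * (gap 1 m).1 : ℕ) : ℤ)
  rw [Nat.cast_mul, M_hh_zero]
  exact dvd_mul_right _ _

theorem shift {y : Conf} (e : sh c x = emb (Fm 0 m y)) {u : V} (hu : (M (hh m) : ℤ) ∣ u.2) :
    sh (c + ver 0 m u) x = emb (Fm 0 m (sh u y)) := by
  rw [add_comm, ← sh_sh, e, sh_emb _ (seven_dvd_ver hu), Fm_sh y (by rwa [Nat.zero_add])]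

theorem pre_of_Z {y : Conf} (hy : y ∈ Z (hh m)) : y ∈ Pre (hh (0 + m)) := by
  rw [Nat.zero_add]
  exact Z_subset_Pre _ hy

theorem Fm_inj {y y' : Conf} (hy : y ∈ Z (hh m)) (hy' : y' ∈ Z (hh m))
    (h : Fm 0 m y = Fm 0 m y') : y = y' :=
  funext fun _ => Fm_ver_inj (pre_of_Z hy) (pre_of_Z hy') (congrFun h _)

theorem Fm_succ_zero (m : ℕ) (y : Conf) : Fm 0 (m + 1) y = Fm 0 m (E (hh m) y) := by
  rw [Fm_succ', Nat.zero_add]

theorem E_mem {y : Conf} (hy : y ∈ Z (hh (m + 1))) : E (hh m) y ∈ Z (hh m) :=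
  E_mem_Z (two_le_hh m) (by rwa [← hh_succ])

theorem one_add_emod {t : ℤ} (ht : (M (hh m) : ℤ) ∣ t) : (1 + t) % M (hh m) ≠ 0 := by
  obtain ⟨k, rfl⟩ := ht
  have h2 : (2 : ℤ) ≤ hh m := by exact_mod_cast two_le_hh m
  rw [Int.add_mul_emod_self_left, Int.emod_eq_of_lt (by norm_num)
    (by rw [Tile1Aux.M_cast]; omega)]
  exact one_ne_zero

theorem succ_iff {y : Conf} (hy : y ∈ Z (hh m)) (e : sh c x = emb (Fm 0 m y)) :
    At (m + 1) x c ↔ (y (0, 1)).l.p = 1 := by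
  constructor
  · rintro ⟨y', hy', e'⟩
    rw [Fm_succ_zero, e] at e'
    rw [Fm_inj hy (E_mem hy') (emb_inj e'), E_l_p (two_le_hh m) _
      (by simpa using one_add_emod (m := m) (dvd_zero _))]
    exact dvd_zero _
  · intro hp
    obtain ⟨s, y', hy', rfl⟩ := collapse (two_le_hh m) hy
    rw [sh_apply, E_l_p (two_le_hh m) _
      (by simpa using one_add_emod (m := m) (dvd_zero _))] at hp
    have hs : (M (2 * hh m) : ℤ) ∣ ((0, s) : V).2 := by simpa using hp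
    refine ⟨sh (0, s) y', by rw [hh_succ]; exact sh_mem_Z hy' hs, ?_⟩
    rw [Fm_succ_zero, E_sh _ hs, e]
    simp

theorem At_succ (h : At (m + 1) x c) : At m x c := by
  obtain ⟨y, hy, e⟩ := h
  exact ⟨_, E_mem hy, by rw [e, Fm_succ_zero]⟩

theorem layer (h1 : ∀ c : V, (x (c + (1, 0))).1 = (x c).1)
    (h2 : ∀ c : V, (x (c + (0, 1))).1 = (x c).1 + 1) (c : V) :
    (x c).1 = (c.2 : ZMod 7) + (x 0).1 := by
  obtain ⟨a, b⟩ := c
  have ha : ∀ a : ℤ, (x (a, b)).1 = (x (0, b)).1 := by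
    intro a
    induction a using Int.induction_on with
    | zero => rfl
    | succ n ih => rw [← ih, ← h1 (n, b)]; simp
    | pred n ih => rw [← ih, ← h1 (-(n : ℤ) - 1, b)]; simp
  rw [ha]
  clear ha
  induction b using Int.induction_on with
  | zero => simp [Prod.mk_zero_zero]
  | succ n ih =>
    have := h2 (0, n)
    simp only [Prod.mk_add_mk, add_zero] at this
    rw [this, ih]
    push_cast
    ring
  | pred n ih =>
    have := h2 (0, -(n : ℤ) - 1)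
    simp only [Prod.mk_add_mk, add_zero, sub_add_cancel] at this
    rw [ih] at this
    push_cast at this ⊢
    linear_combination -this

end Tile3Aux

open Tile3Aux

theorem sh_mem_X0 (hx : x ∈ X0) (v : V) : sh v x ∈ X0 := by
  obtain ⟨w, z, hz, rfl⟩ := hx
  exact ⟨v + w, z, hz, sh_sh _ _ _⟩

theorem mem_X0_iff : x ∈ X0 ↔ ∀ c : V, (x (c + (1, 0))).1 = (x c).1 ∧
    (x (c + (0, 1))).1 = (x c).1 + 1 ∧ (x c).2.r = (x (c + (1, 0))).2.l ∧
    (x c).2.t = (x (c + (0, 1))).2.b ∧ Rule 2 ((x c).1.val : ℤ) (x c).2 := by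
  constructor
  · rintro ⟨w, z, hz, rfl⟩ c
    have e1 : c + (1, 0) + w = c + w + (1, 0) := add_right_comm _ _ _
    have e2 : c + (0, 1) + w = c + w + (0, 1) := add_right_comm _ _ _
    simp only [sh_apply, e1, e2, emb]
    refine ⟨by simp, by simp, (hz.1 _).1, (hz.1 _).2, ?_⟩
    have := hz.2 (c + w)
    rwa [ZMod.val_intCast, Nat.cast_ofNat, ← M_two]
  · intro h
    have hl := layer (fun c => (h c).1) (fun c => (h c).2.1)
    have hk : ∀ c : V, (x (c - (0, ((x 0).1.val : ℤ)))).1 = (c.2 : ZMod 7) := by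
      intro c
      rw [hl]
      simp
    refine ⟨(0, ((x 0).1.val : ℤ)), fun v => (x (v - (0, ((x 0).1.val : ℤ)))).2,
      ⟨fun c => ?_, fun c => ?_⟩, ?_⟩
    · simp only [add_sub_right_comm c]
      exact ⟨(h _).2.2.1, (h _).2.2.2.1⟩
    · have := (h (c - (0, ((x 0).1.val : ℤ)))).2.2.2.2
      rwa [hk, ZMod.val_intCast, Nat.cast_ofNat, ← M_two] at this
    · funext c
      refine Prod.ext ?_ ?_
      · rw [sh_apply, emb, ← hk, add_sub_cancel_right]
      · simp only [sh_apply, emb, add_sub_cancel_right]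

theorem X0_closed (h : ∀ r : ℕ, ∃ y ∈ X0, ∀ w ∈ box r, x w = y w) : x ∈ X0 := by
  refine mem_X0_iff.2 fun c => ?_
  obtain ⟨r, hr⟩ := exists_mem_box c
  obtain ⟨y, hy, e⟩ := h (r + 1)
  have e0 := e c (box_mono (Nat.le_succ r) hr)
  have e1 := e (c + (1, 0)) (add_mem_box hr (by simp [mem_box]))
  have e2 := e (c + (0, 1)) (add_mem_box hr (by simp [mem_box]))
  rw [e0, e1, e2]
  exact mem_X0_iff.1 hy c

theorem At.mem_X0 (h : At m x c) : x ∈ X0 := by
  obtain ⟨y, hy, e⟩ := h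
  refine ⟨-c, Fm 0 m y, Fm_mem_Z (k := 0) (by rwa [Nat.zero_add]), ?_⟩
  rw [← e, sh_sh, neg_add_cancel, sh_zero]

theorem At_sh (v : V) : At m (sh v x) c ↔ At m x (c + v) := by
  unfold At
  rw [sh_sh]

theorem At.mono {m' : ℕ} (hm : m ≤ m') (h : At m' x c) : At m x c := by
  induction hm with
  | refl => exact h
  | step _ ih => exact ih (At_succ h)

theorem exists_At (hx : x ∈ X0) (m : ℕ) : ∃ c, At m x c := by
  induction m with
  | zero =>
    obtain ⟨w, z, hz, rfl⟩ := hx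
    exact ⟨-w, z, hz, by rw [sh_sh, neg_add_cancel, sh_zero]; rfl⟩
  | succ m ih =>
    obtain ⟨c, y, hy, e⟩ := ih
    obtain ⟨s, y', hy', rfl⟩ := collapse (two_le_hh m) hy
    refine ⟨c + ver 0 m (-(s, 0)), y', by rwa [hh_succ], ?_⟩
    rw [shift e (by simp), sh_sh, neg_add_cancel, sh_zero, Fm_succ_zero]

theorem At.iff (h : At m x c) : At m x c' ↔
    ((gap 0 (m + 1)).1 : ℤ) ∣ c'.1 - c.1 ∧ ((gap 0 (m + 1)).2 : ℤ) ∣ c'.2 - c.2 := by
  constructor
  · intro h'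
    induction m with
    | zero =>
      obtain ⟨y, -, e⟩ := h
      obtain ⟨y', -, e'⟩ := h'
      refine ⟨by simp [gap], ?_⟩
      have : (sh (c' - c) (emb (Fm 0 0 y)) 0).1 = 0 := by
        rw [← e, sh_sh, sub_add_cancel, e']
        simp [emb]
      have h7 := dvd_of_sh_emb this
      simpa [gap, M_hh_zero] using h7
    | succ m ih =>
      obtain ⟨u, hu, eu⟩ := (exists_ver_high_iff 0 m (c' - c)).2 (ih (At_succ h) (At_succ h'))
      rw [Nat.zero_add] at hu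
      obtain ⟨y, hy, e⟩ := h
      rw [Fm_succ_zero] at e
      have e' := shift e hu
      rw [← eu, add_sub_cancel] at e'
      have hp := (succ_iff (sh_mem_Z (E_mem hy) hu) e').1 h'
      rw [sh_apply, E_l_p (two_le_hh m) _ (by simpa using one_add_emod hu)] at hp
      obtain ⟨t, ht⟩ := hu
      refine (exists_ver_high_iff 0 (m + 1) (c' - c)).1 ⟨(t, u.1), ?_, ?_⟩
      · rw [Nat.zero_add, hh_succ]
        simpa using hp
      · rw [ver_succ', Nat.zero_add, ← ht, eu]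
  · intro hd
    obtain ⟨u, hu, eu⟩ := (exists_ver_high_iff 0 m (c' - c)).2 hd
    rw [Nat.zero_add] at hu
    obtain ⟨y, hy, e⟩ := h
    have e' := shift e hu
    rw [← eu, add_sub_cancel] at e'
    exact ⟨_, sh_mem_Z hy hu, e'⟩

theorem At.local (m : ℕ) : ∃ r : ℕ, ∀ x ∈ X0, ∀ x' ∈ X0, (∀ w ∈ box r, x w = x' w) →
    At m x 0 → At m x' 0 := by
  induction m with
  | zero =>
    refine ⟨0, fun x _ x' hx' hxx' h => ?_⟩
    obtain ⟨y, -, e⟩ := h
    obtain ⟨w, z, hz, rfl⟩ := hx'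
    rw [sh_zero] at e
    have h7 : (7 : ℤ) ∣ w.2 := by
      refine dvd_of_sh_emb (z := z) ?_
      rw [← hxx' 0 (zero_mem_box 0), e]
      simp [emb]
    refine ⟨sh w z, sh_mem_Z hz (by rwa [M_two]), ?_⟩
    rw [sh_zero, sh_emb _ h7]
    rfl
  | succ m ih =>
    obtain ⟨r, hr⟩ := ih
    obtain ⟨s, hs⟩ := exists_mem_box (ver 0 m (0, 1))
    refine ⟨max r s, fun x hx x' hx' hxx' h => ?_⟩
    obtain ⟨y', hy', e'⟩ :=
      hr x hx x' hx' (fun w hw => hxx' w (box_mono (le_max_left _ _) hw)) (At_succ h)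
    obtain ⟨y, hy, e⟩ := At_succ h
    have hp := (succ_iff hy e).1 h
    refine (succ_iff hy' e').2 ?_
    rw [sh_zero] at e e'
    have := hxx' _ (box_mono (le_max_right _ _) hs)
    rw [e, e'] at this
    rwa [← Fm_ver_inj (pre_of_Z hy) (pre_of_Z hy') (congrArg Prod.snd this)]

theorem At.rowGe_iff (h : At m x c) {r : ℤ} :
    RowGe m x r ↔ ((gap 0 (m + 1)).2 : ℤ) ∣ r - c.2 := by
  constructor
  · rintro ⟨s, hs⟩
    exact (h.iff.1 hs).2
  · intro hr
    exact ⟨c.1, h.iff.2 ⟨by simp, hr⟩⟩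

theorem At.colGe_iff (h : At m x c) {s : ℤ} :
    ColGe m x s ↔ ((gap 0 (m + 1)).1 : ℤ) ∣ s - c.1 := by
  constructor
  · rintro ⟨r, hr⟩
    exact (h.iff.1 hr).1
  · intro hs
    exact ⟨c.2, h.iff.2 ⟨hs, by simp⟩⟩

theorem RowGe_sh (v : V) {r : ℤ} : RowGe m (sh v x) r ↔ RowGe m x (r + v.2) := by
  constructor
  · rintro ⟨s, hs⟩
    exact ⟨s + v.1, (At_sh v).1 hs⟩
  · rintro ⟨s, hs⟩
    refine ⟨s - v.1, (At_sh v).2 ?_⟩
    have : ((s - v.1, r) : V) + v = (s, r + v.2) := Prod.ext (by simp) rfl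
    rwa [this]

theorem ColGe_sh (v : V) {s : ℤ} : ColGe m (sh v x) s ↔ ColGe m x (s + v.1) := by
  constructor
  · rintro ⟨r, hr⟩
    exact ⟨r + v.2, (At_sh v).1 hr⟩
  · rintro ⟨r, hr⟩
    refine ⟨r - v.2, (At_sh v).2 ?_⟩
    have : ((s, r - v.2) : V) + v = (s + v.1, r) := Prod.ext rfl (by simp)
    rwa [this]

theorem RowGe.mono {m' : ℕ} (hm : m ≤ m') {r : ℤ} (h : RowGe m' x r) : RowGe m x r := by
  obtain ⟨s, hs⟩ := h
  exact ⟨s, hs.mono hm⟩

theorem ColGe.mono {m' : ℕ} (hm : m ≤ m') {s : ℤ} (h : ColGe m' x s) : ColGe m x s := by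
  obtain ⟨r, hr⟩ := h
  exact ⟨r, hr.mono hm⟩

theorem At_iff_row_col : At m x c ↔ RowGe m x c.2 ∧ ColGe m x c.1 := by
  constructor
  · intro h
    exact ⟨⟨c.1, h⟩, ⟨c.2, h⟩⟩
  · rintro ⟨⟨s, hs⟩, ⟨r, hr⟩⟩
    exact hs.iff.2 ⟨(hs.iff.1 hr).1, by simp⟩

/-- The cell at a vertex determines the pattern within the mesh of the previous grid. -/
theorem At.det_vertex (h : At m x c) (h' : At m x' c') (he : (x c).2 = (x' c').2) {w : V}
    (h1 : |w.1| < (gap 0 m).1) (h2 : |w.2| < (gap 0 m).2) : x (c + w) = x' (c' + w) := by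
  obtain ⟨y, hy, e⟩ := h
  obtain ⟨y', hy', e'⟩ := h'
  have h0 : y 0 = y' 0 := by
    refine Fm_ver_inj (pre_of_Z hy) (pre_of_Z hy') ?_
    have a := congrArg Prod.snd (congrFun e 0)
    have a' := congrArg Prod.snd (congrFun e' 0)
    simp only [sh_apply, zero_add, emb] at a a'
    rw [ver_zero, ← a, ← a', he]
  have := det_cell (pre_of_Z hy) (pre_of_Z hy') h0 (c := w) (by simpa [ver_zero] using h1)
    (by simpa [ver_zero] using h2)
  rw [add_comm c, add_comm c', ← sh_apply c x, ← sh_apply c' x', e, e']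
  simp only [emb, this]

/-- Off the lines of the previous grid the pattern is determined by the position. -/
theorem At.det_off (h : At m x c) (h' : At m x' c') {w : V}
    (h1 : ¬ ((gap 0 m).1 : ℤ) ∣ w.1) (h2 : ¬ ((gap 0 m).2 : ℤ) ∣ w.2) :
    x (c + w) = x' (c' + w) := by
  obtain ⟨y, -, e⟩ := h
  obtain ⟨y', -, e'⟩ := h'
  obtain ⟨a, b⟩ := R189.det_off 0 m y y' w
  have : Fm 0 m y w = Fm 0 m y' w := by
    have a := a h2
    have b := b h1
    generalize Fm 0 m y w = σ at a b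
    generalize Fm 0 m y' w = σ' at a b
    cases σ
    cases σ'
    simp_all
  rw [add_comm c, add_comm c', ← sh_apply c x, ← sh_apply c' x', e, e']
  simp only [emb, this]

theorem tower_At {X : Sub Sy} (hX : X.car ⊆ X0) (m : ℕ) :
    Tower (gap 0 (m + 1)).1 (gap 0 (m + 1)).2 {x : X.Pt | At m x.1 0} := by
  refine ⟨?_, fun x => ?_, fun x hx w => ?_⟩
  · obtain ⟨r, hr⟩ := At.local m
    exact ⟨r, fun x y hxy hx => hr x.1 (hX x.2) y.1 (hX y.2) hxy hx⟩
  · obtain ⟨c, hc⟩ := exists_At (hX x.2) m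
    exact ⟨c, (At_sh c).2 (by rwa [zero_add])⟩
  · have hx : At m x.1 0 := hx
    refine (At_sh w).trans (hx.iff.trans ?_)
    simp

theorem loc_At {X : Sub Sy} (hX : X.car ⊆ X0) (m : ℕ) (c : V) : Loc {x : X.Pt | At m x.1 c} := by
  have := (tower_At hX m).1.preimage_vadd c
  convert this using 1
  ext x
  exact (((At_sh c).trans (by rw [zero_add])).symm : At m x.1 c ↔ At m (sh c x.1) 0)

theorem loc_RowGe {X : Sub Sy} (hX : X.car ⊆ X0) (m : ℕ) (r : ℤ) :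
    Loc {x : X.Pt | RowGe m x.1 r} := by
  have hg : (0 : ℤ) < (gap 0 (m + 1)).1 := by exact_mod_cast (gap_pos 0 (m + 1)).1
  have := Loc.biUnion (Set.finite_Ico (0 : ℤ) (gap 0 (m + 1)).1)
    fun s _ => loc_At hX m (s, r)
  convert this using 1
  ext x
  simp only [Set.mem_ofPred_eq, Set.mem_iUnion₂]
  constructor
  · rintro ⟨s, hs⟩
    refine ⟨s % (gap 0 (m + 1)).1, ⟨Int.emod_nonneg _ hg.ne', Int.emod_lt_of_pos _ hg⟩,
      hs.iff.2 ⟨?_, by simp⟩⟩
    exact (Int.mod_modEq s _).symm.dvd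
  · rintro ⟨s, -, hs⟩
    exact ⟨s, hs⟩

theorem loc_ColGe {X : Sub Sy} (hX : X.car ⊆ X0) (m : ℕ) (s : ℤ) :
    Loc {x : X.Pt | ColGe m x.1 s} := by
  have hg : (0 : ℤ) < (gap 0 (m + 1)).2 := by exact_mod_cast (gap_pos 0 (m + 1)).2
  have := Loc.biUnion (Set.finite_Ico (0 : ℤ) (gap 0 (m + 1)).2)
    fun r _ => loc_At hX m (s, r)
  convert this using 1
  ext x
  simp only [Set.mem_ofPred_eq, Set.mem_iUnion₂]
  constructor
  · rintro ⟨r, hr⟩
    refine ⟨r % (gap 0 (m + 1)).2, ⟨Int.emod_nonneg _ hg.ne', Int.emod_lt_of_pos _ hg⟩,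
      hr.iff.2 ⟨by simp, ?_⟩⟩
    exact (Int.mod_modEq r _).symm.dvd
  · rintro ⟨r, -, hr⟩
    exact ⟨r, hr⟩

theorem free_of_subset {X : Sub Sy} (hX : X.car ⊆ X0) : Free X := by
  intro x v hv
  obtain ⟨r, hr⟩ := exists_mem_box v
  obtain ⟨m, hm⟩ := gap_large 0 (r + 1)
  obtain ⟨c, hc⟩ := exists_At (hX x.2) m
  have hc' : At m (sh v x.1) c := by
    have e : sh v x.1 = x.1 := congrArg Subtype.val hv
    rwa [e]
  have hd := hc.iff.1 ((At_sh v).1 hc')
  simp only [Prod.fst_add, Prod.snd_add, add_sub_cancel_left] at hd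
  obtain ⟨h1, h2⟩ := hm (m + 1) (Nat.le_succ m)
  have h1 : (r : ℤ) + 1 ≤ (gap 0 (m + 1)).1 := by exact_mod_cast h1
  have h2 : (r : ℤ) + 1 ≤ (gap 0 (m + 1)).2 := by exact_mod_cast h2
  exact Prod.ext (Int.eq_zero_of_abs_lt_dvd hd.1 (by linarith [hr.1]))
    (Int.eq_zero_of_abs_lt_dvd hd.2 (by linarith [hr.2]))

end Crest.Agent.R189
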